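import Claimed.Agent.R316.S4.Defs
import Claimed.Agent.R316.CM.Std

/-!
# Row 316, Section 4, BP-S4-Y (sub-captain helper199): the cotangent bundle as a complex manifold (`StCotangentExists`) and `gimm_prelim`

PAPER FREE.  Tools: `CM/Param.lean` (`IsParam.*`), `CM/Trans.lean` (`CMfd.trans_*`), `CM/Std.lean` (`StdHol.*`: injective holomorphic immersions `τ : U' → W` of open sets of `ℂ^κ`: open image, holomorphic inverse; use them as BLACK BOXES),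
`S6/GTrans.lean` (`s6g_*`: `pinv`, `pairL`, `covComp`, `IsCovecAt`, `s6g_cotParam_trans`; sorry-free), `CW/HolSmooth.lean` (`hol_contDiffOn_real`, `differentiableOn_jac`).
RULES FOR PROVERS: replace the `sorry` of YOUR theorems IN PLACE, statements verbatim, auxiliary lemmas directly above with prefix `atl_` / `cot_`; several owners per file: touch only your theorems.  Defects of statements: msg helper199 at once.

## 1. Generic maximal atlas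
`IsAtlas M 𝒜`: the pairs `(Φ, U)` with `𝒜 Φ U` are parametrisations of `M` (`IsParam`), cover `M`, and have holomorphic transitions.  `AtlHol M 𝒜 Ψ W`: `Ψ` is a parametrisation of `M` whose transitions with all members of `𝒜` are holomorphic IN BOTH DIRECTIONS.  `atlasMfd hA : CMfd` (assembled below, no `sorry` of its own).
* **S4-Y-G1** `atl_invFunOn_congr`, `atl_isParam_congr`, `atl_invFunOn_comp`, `atl_isParam_comp`.  `invFunOn` on the image is THE preimage (`IsParam.leftInv`, `Set.InjOn.leftInvOn_invFunOn`).  `congr`: `ContDiffOn.congr`, `fderiv` agrees because `Φ =ᶠ Ψ` near points of the open `U` (`Filter.EventuallyEq.fderiv_eq`), `Set.EqOn.image_eq`.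
  `comp`: smooth (`hol_contDiffOn_real`, `ContDiffOn.comp`), immersion (chain rule, `fderiv ℝ τ z = (fderiv ℂ τ z).restrictScalars ℝ`: `DifferentiableAt.fderiv_restrictScalars`), image `Φ '' (τ '' U')` with `τ '' U'` open (`StdHol.isOpen_image`, `IsParam.exists_isOpen_image`), inverse `= invFunOn τ U' ∘ invFunOn Φ U`, continuous (`StdHol.differentiableOn_invFunOn`, `IsParam.cont_inv`).
* **S4-Y-G2** `AtlHol.of_mem`, `AtlHol.compat`, `AtlHol.congr`.  `compat`: at `z` choose `(Φ, U) ∈ 𝒜` around `Ψ₁ z`; `D = W₁ ∩ Ψ₁ ⁻¹' (Φ '' U) ∩ Ψ₁ ⁻¹' (Ψ₂ '' W₂)` is open (images are `M ∩ open`, `IsParam.isOpen_inter_preimage`, `Ψ₁` maps `W₁` into `M`); on `D`: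
  `invFunOn Ψ₂ W₂ ∘ Ψ₁ = (invFunOn Ψ₂ W₂ ∘ Φ) ∘ (invFunOn Φ U ∘ Ψ₁)` (`IsParam.rightInv`), a composition of holomorphic maps.
* **S4-Y-G3** `AtlHol.reparam`.  `atl_isParam_comp`; `invFunOn Φ U ∘ (Ψ ∘ τ) = (invFunOn Φ U ∘ Ψ) ∘ τ`; `invFunOn (Ψ ∘ τ) U' ∘ Φ = invFunOn τ U' ∘ (invFunOn Ψ W ∘ Φ)` on the overlap (`atl_invFunOn_comp`), `StdHol.differentiableOn_invFunOn`.

## 2. Cotangent charts
* **S4-Y-C1** `cot_mem_carrier`, `cot_eq_cotParam`, `cot_image`, `cot_injOn`, `cot_invFunOn`.  `cot_mem_carrier`: `p = cJoin z ζ` (`cJoin_eta`), `x = Φ z`, `s6g_cotParam_trans hΦ (isHol_pΦ) …` rewrites `cotParam Φ p` as `cotParam (pΦ x) (cJoin (co x) _)`, then `s6g_isCovecAt_cotParam`.  `cot_eq_cotParam`: `s6g_eq_cotParam` in the chosen chart, `s6g_cotParam_trans` back to `Φ`, and `s6g_covComp_cotParam` identifies the fibre coordinate.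
  `cot_injOn`: first components + `IsParam.injOn`, then `s6g_covComp_cotParam`.
* **S4-Y-C2** `cot_contDiffOn`.  `cBase`, `cFib` are continuous linear; `z ↦ fderiv ℝ Φ z` is smooth on `U` (`ContDiffOn.fderiv_of_isOpen`); `A ↦ adjoint A` is real linear and bounded (`IsBoundedLinearMap`, or `LinearIsometryEquiv`); composition of operators is bilinear (`ContDiff.clm_comp`); `ContinuousLinearMap.inverse` is smooth at equivalences (`contDiffAt_map_inverse`, `s6g_gram_equiv`); `ζ ↦ pairL ζ` is linear.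
* **S4-Y-C3** `cot_immersion`.  Let `D = fderiv ℝ (cotParam Φ) p`, `D δ = 0`.  First component: `dΦ_z (cBase δ) = 0` ⟹ `cBase δ = 0`.  Differentiate the identity `(cotParam Φ p').2 (dΦ_{cBase p'} e_k) = cFib p' k` (`s6g_covComp_cotParam`, valid on the open `cotDom U`) at `p` in the direction `δ`:
  `(D δ).2 (dΦ_z e_k) + (cotParam Φ p).2 (D²Φ (cBase δ, e_k)) = cFib δ k`, so `cFib δ = 0`.  (Evaluation `(ξ, a) ↦ ξ a` is bilinear: `HasFDerivAt.clm_apply`.)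
* **S4-Y-C4** `cot_cont_inv`.  By `cot_invFunOn` the inverse is `y ↦ cJoin (invFunOn Φ U y.1) (covComp Φ (invFunOn Φ U y.1) y.2)`; `invFunOn Φ U` is continuous on `Φ '' U`, `z ↦ dΦ_z e_k` is continuous on `U`, evaluation is jointly continuous.
* **S4-Y-C5** `cot_trans_hol`.  On the overlap the transition is `p ↦ cJoin (τ z) ((J(z)⁻¹)ᵀ ζ)`, `z = cBase p`, `ζ = cFib p`, `τ = invFunOn Ψ W ∘ Φ`, `J = jac τ` (`s6g_cotParam_trans`, `IsParam.leftInv` of `isParam_cotParam`); `τ`, the entries of `J` (`differentiableOn_jac` on the open overlap `CMfd.isOpen_overlap`) and of `J⁻¹ = det⁻¹ adjugate` (`CMfd.det_jac_trans_ne_zero`) are holomorphic.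
* glue (helper199): `isParam_cotParam`, `isAtlas_cot`, `stCotangentExists`.

## 3. `gimm_prelim`
* **S4-Y-P1** `cot_G_chart`.  `a i` from `Pd.X_hol i Φ U hΦ`; `ξ (X_i (Φ z)) = ξ (dΦ_z (a_i z)) = pairL ζ (a_i z)` (`s6g_cotParam_snd_fderiv`, `s6g_pairL_apply`); span: `Pd.X_span`, `IsParam.coVec_fderiv`.
* **S4-Y-P2** `cot_G_hol`, `cot_G_imm` (from `cot_G_chart`; pure calculus in `ℂ^{n ⊕ n}`).  `imm`: `d(G∘cotParam Φ)_p δ = 0`; the `F`-block gives `d(F∘Φ)_z (cBase δ) = 0` ⟹ `cBase δ = 0` (`Pd.F_imm`); the second block then gives `∑_k (cFib δ)_k a_i(z)_k = 0` for all `i`, and the `a_i(z)` span `ℂⁿ`.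
* **S4-Y-P3** `cot_G_inj`.  `F` injective ⟹ same base point `x = Φ z`; `cot_eq_cotParam` for both; equality of `∑ ζ_k a_i(z)_k` for all `i` ⟹ `ζ = ζ'`.
* **S4-Y-P4** `cot_gimm_of_charts`.  For `𝒴.IsHol Ψ W`, `p ∈ W`: `Ψ p ∈ cotCarrier 𝓜`, chart `Φ` of `𝓜` around its base point, `Ψ p ∈ cotParam Φ '' cotDom U` (`cot_image`); `σ = invFunOn (cotParam Φ) (cotDom U) ∘ Ψ` is holomorphic near `p` with injective derivative (`CMfd.trans_differentiableAt`, `CMfd.fderiv_trans_injective` for `𝒴`, `hY.isHol hΦ`), `G ∘ Ψ = (G ∘ cotParam Φ) ∘ σ` near `p` (`CMfd.eventually_eq_comp_trans`).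
-/

set_option autoImplicit false
set_option linter.unusedSectionVars false
set_option maxSynthPendingDepth 3
open scoped ContDiff ComplexOrder Topology Matrix
open MeasureTheory Filter

namespace Claimed.Agent.R316.S4

open Claimed.Agent.R316 Claimed.Agent.R316.S6

/-! ### 1. generic maximal atlas -/

section atlas

variable {V' : Type} [NormedAddCommGroup V'] [NormedSpace ℝ V']
variable {κ : Type} [Fintype κ]
variable {M : Set V'} {𝒜 : (CE κ → V') → Set (CE κ) → Prop}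
variable {Φ Ψ Ψ' Ψ₁ Ψ₂ : CE κ → V'} {U W W₁ W₂ U' : Set (CE κ)} {τ : CE κ → CE κ}

theorem atl_invFunOn_congr (h : IsParam M Φ U) (he : Set.EqOn Φ Ψ U) {x : V'} (hx : x ∈ Φ '' U) :
    Function.invFunOn Ψ U x = Function.invFunOn Φ U x := by
  obtain ⟨z, hz, rfl⟩ := hx
  rw [h.leftInv hz, he hz]
  exact (h.injOn.congr he).leftInvOn_invFunOn hz

theorem atl_isParam_congr (h : IsParam M Φ U) (he : Set.EqOn Φ Ψ U) : IsParam M Ψ U := by
  refine ⟨h.isOpen, h.smooth.congr fun z hz => (he hz).symm, fun z hz => ?_, h.injOn.congr he,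
    ?_, ?_⟩
  · have e : Ψ =ᶠ[𝓝 z] Φ := by
      filter_upwards [h.isOpen.mem_nhds hz] with w hw using (he hw).symm
    rw [e.fderiv_eq]
    exact h.immersion z hz
  · rw [← he.image_eq]
    exact h.image
  · rw [← he.image_eq]
    exact h.cont_inv.congr fun x hx => atl_invFunOn_congr h he hx

theorem atl_invFunOn_comp (h : IsParam M Φ U) (hτ : StdHol U τ U') {x : V'}
    (hx : x ∈ (Φ ∘ τ) '' U') :
    Function.invFunOn (Φ ∘ τ) U' x = Function.invFunOn τ U' (Function.invFunOn Φ U x) := by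
  obtain ⟨w, hw, rfl⟩ := hx
  have h1 : Function.invFunOn (Φ ∘ τ) U' ((Φ ∘ τ) w) = w :=
    (h.injOn.comp hτ.injOn hτ.mapsTo).leftInvOn_invFunOn hw
  rw [h1]
  show w = Function.invFunOn τ U' (Function.invFunOn Φ U (Φ (τ w)))
  rw [h.leftInv (hτ.mapsTo hw)]
  exact (hτ.injOn.leftInvOn_invFunOn hw).symm

theorem atl_isParam_comp (h : IsParam M Φ U) (hτ : StdHol U τ U') : IsParam M (Φ ∘ τ) U' := by
  classical
  refine ⟨hτ.isOpen, h.smooth.comp (hol_contDiffOn_real hτ.isOpen hτ.hol) hτ.mapsTo,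
    fun z hz => ?_, h.injOn.comp hτ.injOn hτ.mapsTo, ?_, ?_⟩
  · have hd1 : DifferentiableAt ℝ Φ (τ z) := h.differentiableAt (hτ.mapsTo hz)
    have hd2 : DifferentiableAt ℂ τ z := hτ.differentiableAt hz
    rw [fderiv_comp z hd1 (hd2.restrictScalars ℝ), hd2.fderiv_restrictScalars ℝ]
    exact (h.immersion _ (hτ.mapsTo hz)).comp (hτ.immersion z hz)
  · rw [Set.image_comp]
    exact h.exists_isOpen_image hτ.isOpen_image (Set.image_subset_iff.2 hτ.mapsTo)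
  · have hc : ContinuousOn (fun x => Function.invFunOn τ U' (Function.invFunOn Φ U x))
        ((Φ ∘ τ) '' U') := by
      refine hτ.differentiableOn_invFunOn.continuousOn.comp (h.cont_inv.mono ?_) ?_
      · rintro _ ⟨w, hw, rfl⟩
        exact ⟨τ w, hτ.mapsTo hw, rfl⟩
      · rintro _ ⟨w, hw, rfl⟩
        show Function.invFunOn Φ U (Φ (τ w)) ∈ τ '' U'
        rw [h.leftInv (hτ.mapsTo hw)]
        exact ⟨w, hw, rfl⟩
    exact hc.congr fun x hx => atl_invFunOn_comp h hτ hx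

/-- a holomorphic atlas of parametrisations of `M`. -/
structure IsAtlas (M : Set V') (𝒜 : (CE κ → V') → Set (CE κ) → Prop) : Prop where
  par : ∀ {Φ : CE κ → V'} {U : Set (CE κ)}, 𝒜 Φ U → IsParam M Φ U
  cov : ∀ x ∈ M, ∃ (Φ : CE κ → V') (U : Set (CE κ)), 𝒜 Φ U ∧ x ∈ Φ '' U
  comp : ∀ {Φ Ψ : CE κ → V'} {U W : Set (CE κ)}, 𝒜 Φ U → 𝒜 Ψ W →
    DifferentiableOn ℂ (Function.invFunOn Ψ W ∘ Φ) (U ∩ Φ ⁻¹' (Ψ '' W))

/-- the parametrisations compatible with the atlas. -/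
def AtlHol (M : Set V') (𝒜 : (CE κ → V') → Set (CE κ) → Prop) (Ψ : CE κ → V') (W : Set (CE κ)) :
    Prop :=
  IsParam M Ψ W ∧ ∀ (Φ : CE κ → V') (U : Set (CE κ)), 𝒜 Φ U →
    DifferentiableOn ℂ (Function.invFunOn Φ U ∘ Ψ) (W ∩ Ψ ⁻¹' (Φ '' U)) ∧
    DifferentiableOn ℂ (Function.invFunOn Ψ W ∘ Φ) (U ∩ Φ ⁻¹' (Ψ '' W))

theorem AtlHol.of_mem (hA : IsAtlas M 𝒜) (h : 𝒜 Φ U) : AtlHol M 𝒜 Φ U :=
  ⟨hA.par h, fun _ _ h' => ⟨hA.comp h h', hA.comp h' h⟩⟩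

/-- overlaps of parametrisations of the same set are open. -/
theorem atl_isOpen_overlap (h₁ : IsParam M Ψ₁ W₁) (h₂ : IsParam M Ψ₂ W₂) :
    IsOpen (W₁ ∩ Ψ₁ ⁻¹' (Ψ₂ '' W₂)) := by
  obtain ⟨O, hO, hOeq⟩ := h₂.image
  have e : W₁ ∩ Ψ₁ ⁻¹' (Ψ₂ '' W₂) = W₁ ∩ Ψ₁ ⁻¹' O := by
    ext z
    constructor
    · rintro ⟨hz, hz'⟩
      have : Ψ₁ z ∈ M ∩ O := hOeq ▸ hz'
      exact ⟨hz, this.2⟩
    · rintro ⟨hz, hz'⟩
      refine ⟨hz, ?_⟩
      show Ψ₁ z ∈ Ψ₂ '' W₂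
      rw [hOeq]
      exact ⟨h₁.mem hz, hz'⟩
  rw [e]
  exact h₁.isOpen_inter_preimage hO

theorem AtlHol.compat (hA : IsAtlas M 𝒜) (h₁ : AtlHol M 𝒜 Ψ₁ W₁) (h₂ : AtlHol M 𝒜 Ψ₂ W₂) :
    DifferentiableOn ℂ (Function.invFunOn Ψ₂ W₂ ∘ Ψ₁) (W₁ ∩ Ψ₁ ⁻¹' (Ψ₂ '' W₂)) := by
  intro z hz
  obtain ⟨Φ, U, hΦ, hzΦ⟩ := hA.cov (Ψ₁ z) (h₁.1.mem hz.1)
  have hP := hA.par hΦ
  have ho1 := atl_isOpen_overlap h₁.1 hP
  have ho2 := atl_isOpen_overlap h₁.1 h₂.1
  have ho3 := atl_isOpen_overlap hP h₂.1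
  have hz1 : z ∈ W₁ ∩ Ψ₁ ⁻¹' (Φ '' U) := ⟨hz.1, hzΦ⟩
  have hd1 : DifferentiableAt ℂ (Function.invFunOn Φ U ∘ Ψ₁) z :=
    ((h₁.2 Φ U hΦ).1 z hz1).differentiableAt (ho1.mem_nhds hz1)
  have hr : Φ ((Function.invFunOn Φ U ∘ Ψ₁) z) = Ψ₁ z := hP.rightInv hzΦ
  have hz3 : (Function.invFunOn Φ U ∘ Ψ₁) z ∈ U ∩ Φ ⁻¹' (Ψ₂ '' W₂) := by
    refine ⟨hP.invFunOn_mem hzΦ, ?_⟩
    show Φ ((Function.invFunOn Φ U ∘ Ψ₁) z) ∈ Ψ₂ '' W₂
    rw [hr]
    exact hz.2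
  have hd2 : DifferentiableAt ℂ (Function.invFunOn Ψ₂ W₂ ∘ Φ) ((Function.invFunOn Φ U ∘ Ψ₁) z) :=
    ((h₂.2 Φ U hΦ).2 _ hz3).differentiableAt (ho3.mem_nhds hz3)
  have hd3 := hd2.comp z hd1
  refine (hd3.congr_of_eventuallyEq ?_).differentiableWithinAt
  filter_upwards [ho1.mem_nhds hz1] with w hw
  show Function.invFunOn Ψ₂ W₂ (Ψ₁ w) = Function.invFunOn Ψ₂ W₂ (Φ (Function.invFunOn Φ U (Ψ₁ w)))
  rw [hP.rightInv hw.2]

theorem AtlHol.congr (h : AtlHol M 𝒜 Ψ W) (he : Set.EqOn Ψ Ψ' W) : AtlHol M 𝒜 Ψ' W := by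
  refine ⟨atl_isParam_congr h.1 he, fun Φ U hΦ => ⟨?_, ?_⟩⟩
  · have e : W ∩ Ψ' ⁻¹' (Φ '' U) = W ∩ Ψ ⁻¹' (Φ '' U) := by
      ext z
      constructor
      · rintro ⟨hz, hz'⟩
        refine ⟨hz, ?_⟩
        show Ψ z ∈ Φ '' U
        rw [he hz]
        exact hz'
      · rintro ⟨hz, hz'⟩
        refine ⟨hz, ?_⟩
        show Ψ' z ∈ Φ '' U
        rw [← he hz]
        exact hz'
    rw [e]
    refine (h.2 Φ U hΦ).1.congr fun z hz => ?_
    show Function.invFunOn Φ U (Ψ' z) = Function.invFunOn Φ U (Ψ z)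
    rw [he hz.1]
  · rw [← he.image_eq]
    refine (h.2 Φ U hΦ).2.congr fun z hz => ?_
    exact atl_invFunOn_congr h.1 he hz.2

theorem AtlHol.reparam (h : AtlHol M 𝒜 Ψ W) (hτ : StdHol W τ U') : AtlHol M 𝒜 (Ψ ∘ τ) U' := by
  classical
  refine ⟨atl_isParam_comp h.1 hτ, fun Φ U hΦ => ⟨?_, ?_⟩⟩
  · have h1 := (h.2 Φ U hΦ).1
    exact h1.comp (hτ.hol.mono Set.inter_subset_left) fun z hz => ⟨hτ.mapsTo hz.1, hz.2⟩
  · have h2 := (h.2 Φ U hΦ).2
    have hsub : U ∩ Φ ⁻¹' ((Ψ ∘ τ) '' U') ⊆ U ∩ Φ ⁻¹' (Ψ '' W) := by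
      rintro z ⟨hz, w, hw, hwz⟩
      exact ⟨hz, τ w, hτ.mapsTo hw, hwz⟩
    have hc : DifferentiableOn ℂ (fun z => Function.invFunOn τ U' ((Function.invFunOn Ψ W ∘ Φ) z))
        (U ∩ Φ ⁻¹' ((Ψ ∘ τ) '' U')) := by
      refine hτ.differentiableOn_invFunOn.comp (h2.mono hsub) ?_
      rintro z ⟨hz, w, hw, hwz⟩
      show Function.invFunOn Ψ W (Φ z) ∈ τ '' U'
      rw [← hwz]
      show Function.invFunOn Ψ W (Ψ (τ w)) ∈ τ '' U'
      rw [h.1.leftInv (hτ.mapsTo hw)]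
      exact ⟨w, hw, rfl⟩
    exact hc.congr fun z hz => atl_invFunOn_comp h.1 hτ hz.2

/-- the complex manifold defined by a holomorphic atlas (with its maximal atlas). -/
def atlasMfd (hA : IsAtlas M 𝒜) : CMfd V' κ where
  carrier := M
  IsHol := AtlHol M 𝒜
  isParam := fun h => h.1
  cover := fun x hx => by
    obtain ⟨Φ, U, h, hx'⟩ := hA.cov x hx
    exact ⟨Φ, U, AtlHol.of_mem hA h, hx'⟩
  compat := fun h₁ h₂ => AtlHol.compat hA h₁ h₂
  reparam := fun h τ U' hU' hτ hinj him hm => h.reparam ⟨hU', hτ, hinj, him, hm⟩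
  congr := fun h he => h.congr he

end atlas

/-! ### 2. cotangent charts -/

section cot

variable {V : Type} [NormedAddCommGroup V] [InnerProductSpace ℝ V] [FiniteDimensional ℝ V]
variable {ι : Type} [Fintype ι] [DecidableEq ι]
variable {𝓜 : CMfd V ι} {Φ Ψ : CE ι → V} {U W : Set (CE ι)}

theorem cot_mem_carrier (hΦ : 𝓜.IsHol Φ U) {p : CE (ι ⊕ ι)} (hp : p ∈ cotDom U) :
    cotParam Φ p ∈ cotCarrier 𝓜 := by
  have hz : cBase p ∈ U := hp
  have hx : Φ (cBase p) ∈ 𝓜.carrier := s6g_mem_carrier hΦ hz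
  obtain ⟨hΨ, hw, hΨw⟩ := s6g_pspec hx
  have h1 := s6g_cotParam_trans hΦ hΨ hz hw hΨw.symm (cFibE p)
  rw [cJoin_eta] at h1
  refine ⟨hx, ?_⟩
  have h2 := s6g_isCovecAt_cotParam hΨ (s6g_cJoin_mem_cotDom hw
    (WithLp.toLp 2 (((jac (Function.invFunOn (𝓜.pΦ (Φ (cBase p))) (𝓜.pU (Φ (cBase p))) ∘ Φ)
      (cBase p))⁻¹)ᵀ *ᵥ (cFibE p))))
  rw [cBase_cJoin, ← h1] at h2
  exact h2

theorem cot_eq_cotParam (hΦ : 𝓜.IsHol Φ U) {y : CotAmb V} (hy : y ∈ cotCarrier 𝓜) {z : CE ι}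
    (hz : z ∈ U) (hyz : y.1 = Φ z) :
    y = cotParam Φ (cJoin z (WithLp.toLp 2 (covComp Φ z y.2))) := by
  obtain ⟨hx, hcov⟩ := hy
  obtain ⟨hΨ, hw, hΨw⟩ := s6g_pspec hx
  have h1 := s6g_eq_cotParam hΨ hw hcov
  rw [hΨw] at h1
  have h2 := s6g_cotParam_trans hΨ hΦ hw hz (hΨw.trans hyz)
    (WithLp.toLp 2 (covComp (𝓜.pΦ y.1) (𝓜.co y.1) y.2))
  have h3 : y = cotParam Φ (cJoin z (WithLp.toLp 2
      (((jac (Function.invFunOn Φ U ∘ 𝓜.pΦ y.1) (𝓜.co y.1))⁻¹)ᵀ *ᵥ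
        (WithLp.toLp 2 (covComp (𝓜.pΦ y.1) (𝓜.co y.1) y.2) : CE ι)))) := by
    rw [← h2, ← h1]
  have h4 := s6g_covComp_cotParam hΦ (s6g_cJoin_mem_cotDom hz (WithLp.toLp 2
      (((jac (Function.invFunOn Φ U ∘ 𝓜.pΦ y.1) (𝓜.co y.1))⁻¹)ᵀ *ᵥ
        (WithLp.toLp 2 (covComp (𝓜.pΦ y.1) (𝓜.co y.1) y.2) : CE ι))))
  rw [cBase_cJoin, ← h3, s6g_cFib_cJoin] at h4
  rw [h4]
  exact h3

theorem cot_image (hΦ : 𝓜.IsHol Φ U) {O : Set V} (hO : Φ '' U = 𝓜.carrier ∩ O) :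
    cotParam Φ '' cotDom U = cotCarrier 𝓜 ∩ Prod.fst ⁻¹' O := by
  ext y
  constructor
  · rintro ⟨p, hp, rfl⟩
    refine ⟨cot_mem_carrier hΦ hp, ?_⟩
    have : Φ (cBase p) ∈ 𝓜.carrier ∩ O := hO ▸ ⟨cBase p, hp, rfl⟩
    exact this.2
  · rintro ⟨hy, hyO⟩
    have : y.1 ∈ Φ '' U := by
      rw [hO]
      exact ⟨hy.1, hyO⟩
    obtain ⟨z, hz, hzy⟩ := this
    exact ⟨_, s6g_cJoin_mem_cotDom hz _, (cot_eq_cotParam hΦ hy hz hzy.symm).symm⟩

theorem cot_injOn (hΦ : 𝓜.IsHol Φ U) : Set.InjOn (cotParam Φ) (cotDom U) := by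
  intro p hp q hq h
  have h1 : cBase p = cBase q := (𝓜.isParam hΦ).injOn hp hq (congrArg Prod.fst h)
  have h2 : cFib p = cFib q := by
    rw [← s6g_covComp_cotParam hΦ hp, ← s6g_covComp_cotParam hΦ hq, h, h1]
  rw [← cJoin_eta p, ← cJoin_eta q, h1]
  unfold cFibE
  rw [h2]

theorem cot_invFunOn (hΦ : 𝓜.IsHol Φ U) {y : CotAmb V} (hy : y ∈ cotParam Φ '' cotDom U) :
    Function.invFunOn (cotParam Φ) (cotDom U) y =
      cJoin (Function.invFunOn Φ U y.1)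
        (WithLp.toLp 2 (covComp Φ (Function.invFunOn Φ U y.1) y.2)) := by
  obtain ⟨p, hp, rfl⟩ := hy
  rw [(cot_injOn hΦ).leftInvOn_invFunOn hp]
  have h1 : Function.invFunOn Φ U (cotParam Φ p).1 = cBase p := (𝓜.isParam hΦ).leftInv hp
  rw [h1, s6g_covComp_cotParam hΦ hp]
  exact (cJoin_eta p).symm

theorem cot_contDiff_cBase : ContDiff ℝ ∞ (cBase : CE (ι ⊕ ι) → CE ι) := by
  have h : ContDiff ℂ ∞ (cBase : CE (ι ⊕ ι) → CE ι) := by
    rw [contDiff_euclidean]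
    intro j
    exact (EuclideanSpace.proj (Sum.inl j) : CE (ι ⊕ ι) →L[ℂ] ℂ).contDiff
  exact h.restrict_scalars ℝ

theorem cot_contDiff_cFib (k : ι) : ContDiff ℝ ∞ (fun p : CE (ι ⊕ ι) => cFib p k) :=
  ((EuclideanSpace.proj (Sum.inr k) : CE (ι ⊕ ι) →L[ℂ] ℂ).contDiff (n := ∞)).restrict_scalars ℝ

theorem cot_contDiff_pairL : ContDiff ℝ ∞ (fun p : CE (ι ⊕ ι) => pairL (cFib p)) := by
  unfold pairL
  exact ContDiff.sum fun k _ => (cot_contDiff_cFib k).smul contDiff_const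

theorem cot_contDiff_adjoint :
    ContDiff ℝ ∞ (fun A : CE ι →L[ℝ] V => ContinuousLinearMap.adjoint A) := by
  have h : IsBoundedLinearMap ℝ (fun A : CE ι →L[ℝ] V => ContinuousLinearMap.adjoint A) := by
    refine ⟨⟨fun A B => map_add _ A B, fun c A => ?_⟩, 1, one_pos, fun A => ?_⟩
    · rw [map_smulₛₗ]
      simp
    · rw [LinearIsometryEquiv.norm_map, one_mul]
  exact h.contDiff

theorem cot_contDiffAt_pinv {A : CE ι →L[ℝ] V} (hA : Function.Injective A) :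
    ContDiffAt ℝ ∞ (pinv : (CE ι →L[ℝ] V) → (V →L[ℝ] CE ι)) A := by
  obtain ⟨e, he⟩ := s6g_gram_equiv hA
  have h1 : ContDiffAt ℝ ∞ (fun B : CE ι →L[ℝ] V => (ContinuousLinearMap.adjoint B).comp B) A :=
    ((cot_contDiff_adjoint (V := V) (ι := ι)).clm_comp
      (contDiff_id (E := CE ι →L[ℝ] V))).contDiffAt
  have h2 : ContDiffAt ℝ ∞ (ContinuousLinearMap.inverse : (CE ι →L[ℝ] CE ι) → (CE ι →L[ℝ] CE ι))
      ((ContinuousLinearMap.adjoint A).comp A) := by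
    rw [← he]
    exact contDiffAt_map_inverse e
  have h3 : ContDiffAt ℝ ∞
      (fun B : CE ι →L[ℝ] V => ((ContinuousLinearMap.adjoint B).comp B).inverse) A :=
    ContDiffAt.comp (g := ContinuousLinearMap.inverse)
      (f := fun B : CE ι →L[ℝ] V => (ContinuousLinearMap.adjoint B).comp B) A h2 h1
  exact h3.clm_comp (cot_contDiff_adjoint (V := V) (ι := ι)).contDiffAt

theorem cot_contDiffOn (hΦ : 𝓜.IsHol Φ U) : ContDiffOn ℝ ∞ (cotParam Φ) (cotDom U) := by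
  have hP := 𝓜.isParam hΦ
  intro p hp
  have hz : cBase p ∈ U := hp
  have h1 : ContDiffAt ℝ ∞ Φ (cBase p) := hP.contDiffAt hz
  have h2 : ContDiffAt ℝ ∞ (fderiv ℝ Φ) (cBase p) :=
    ((hP.smooth.fderiv_of_isOpen hP.isOpen (m := ∞) (by simp)) _ hz).contDiffAt
      (hP.isOpen.mem_nhds hz)
  have hb : ContDiffAt ℝ ∞ (cBase : CE (ι ⊕ ι) → CE ι) p := cot_contDiff_cBase.contDiffAt
  have h3 : ContDiffAt ℝ ∞ (fun q : CE (ι ⊕ ι) => fderiv ℝ Φ (cBase q)) p := h2.comp p hb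
  have h4 : ContDiffAt ℝ ∞ (fun q : CE (ι ⊕ ι) => pinv (fderiv ℝ Φ (cBase q))) p :=
    ContDiffAt.comp (g := pinv) p (cot_contDiffAt_pinv (hP.immersion _ hz)) h3
  have h5 : ContDiffAt ℝ ∞ (fun q : CE (ι ⊕ ι) => Φ (cBase q)) p := h1.comp p hb
  have h6 : ContDiffAt ℝ ∞ (fun q : CE (ι ⊕ ι) => pairL (cFib q)) p :=
    (cot_contDiff_pairL (ι := ι)).contDiffAt
  exact (h5.prodMk (h6.clm_comp h4)).contDiffWithinAt

theorem cot_cBase_line (p δ : CE (ι ⊕ ι)) (t : ℝ) : cBase (p + t • δ) = cBase p + t • cBase δ := rfl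

theorem cot_cFib_line (p δ : CE (ι ⊕ ι)) (t : ℝ) : cFib (p + t • δ) = cFib p + t • cFib δ := rfl

theorem cot_pairL_line (a b : ι → ℂ) (t : ℝ) : pairL (a + t • b) = pairL a + t • pairL b := by
  ext v
  simp only [_root_.add_apply, _root_.smul_apply, s6g_pairL_apply, Pi.add_apply, Pi.smul_apply,
    Complex.real_smul, Finset.mul_sum, ← Finset.sum_add_distrib]
  refine Finset.sum_congr rfl fun k _ => ?_
  ring

theorem cot_immersion (hΦ : 𝓜.IsHol Φ U) {p : CE (ι ⊕ ι)} (hp : p ∈ cotDom U) :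
    Function.Injective (fderiv ℝ (cotParam Φ) p) := by
  have hP := 𝓜.isParam hΦ
  have hz : cBase p ∈ U := hp
  have hopen : IsOpen (cotDom U) := s6g_isOpen_cotDom hP.isOpen
  have hΘ : HasFDerivAt (cotParam Φ) (fderiv ℝ (cotParam Φ) p) p :=
    (((cot_contDiffOn hΦ) p hp).contDiffAt (hopen.mem_nhds hp)).differentiableAt
      (by simp) |>.hasFDerivAt
  rw [injective_iff_map_eq_zero]
  intro δ hδ
  have hline : HasDerivAt (fun t : ℝ => p + t • δ) δ 0 := by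
    simpa using ((hasDerivAt_id (0 : ℝ)).smul_const δ).const_add p
  have hΘ' : HasFDerivAt (cotParam Φ) (fderiv ℝ (cotParam Φ) p) (p + (0 : ℝ) • δ) := by
    simpa using hΘ
  have h1 : HasDerivAt (fun t : ℝ => cotParam Φ (p + t • δ)) (fderiv ℝ (cotParam Φ) p δ) 0 :=
    HasFDerivAt.comp_hasDerivAt (l := cotParam Φ) (f := fun t : ℝ => p + t • δ) 0 hΘ' hline
  rw [hδ] at h1
  -- the base direction vanishes
  have hb : cBase δ = 0 := by
    have h2 : HasDerivAt (fun t : ℝ => (cotParam Φ (p + t • δ)).1) 0 0 := by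
      have := (ContinuousLinearMap.fst ℝ V (V →L[ℝ] ℂ)).hasFDerivAt.comp_hasDerivAt 0 h1
      rw [map_zero] at this
      exact this
    have hline2 : HasDerivAt (fun t : ℝ => cBase p + t • cBase δ) (cBase δ) 0 := by
      simpa using ((hasDerivAt_id (0 : ℝ)).smul_const (cBase δ)).const_add (cBase p)
    have hΦd : HasFDerivAt Φ (fderiv ℝ Φ (cBase p)) (cBase p + (0 : ℝ) • cBase δ) := by
      simpa using (hP.differentiableAt hz).hasFDerivAt
    have h3 : HasDerivAt (fun t : ℝ => Φ (cBase p + t • cBase δ))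
        (fderiv ℝ Φ (cBase p) (cBase δ)) 0 :=
      HasFDerivAt.comp_hasDerivAt (l := Φ) (f := fun t : ℝ => cBase p + t • cBase δ) 0 hΦd hline2
    have h4 : fderiv ℝ Φ (cBase p) (cBase δ) = 0 := h3.unique h2
    exact (injective_iff_map_eq_zero _).1 (hP.immersion _ hz) _ h4
  -- the fibre direction
  have hf : cFib δ = 0 := by
    set L : V →L[ℝ] ℂ := (pairL (cFib δ)).comp (pinv (fderiv ℝ Φ (cBase p))) with hL
    have e : ∀ t : ℝ, cotParam Φ (p + t • δ) = cotParam Φ p + t • ((0 : V), L) := by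
      intro t
      unfold cotParam
      rw [cot_cBase_line, cot_cFib_line, hb, smul_zero, add_zero, cot_pairL_line]
      refine Prod.ext ?_ ?_
      · simp
      · simp [hL, ContinuousLinearMap.add_comp, ContinuousLinearMap.smul_comp]
    have h2 : HasDerivAt (fun t : ℝ => cotParam Φ p + t • ((0 : V), L)) ((0 : V), L) 0 := by
      simpa using ((hasDerivAt_id (0 : ℝ)).smul_const ((0 : V), L)).const_add (cotParam Φ p)
    have h3 : HasDerivAt (fun t : ℝ => cotParam Φ (p + t • δ)) ((0 : V), L) 0 := by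
      simpa only [e] using h2
    have h4 : ((0 : V), L) = 0 := h3.unique h1
    have h5 : L = 0 := congrArg Prod.snd h4
    funext k
    have h6 : L (fderiv ℝ Φ (cBase p) (eb k)) = cFib δ k := by
      rw [hL, ContinuousLinearMap.comp_apply, s6g_pinv_comp (hP.immersion _ hz), s6g_pairL_eb]
    rw [← h6, h5]
    rfl
  rw [← cJoin_eta δ, hb]
  unfold cFibE
  rw [hf]
  ext i
  rcases i with j | k <;> simp [cJoin]

theorem cot_cont_inv (hΦ : 𝓜.IsHol Φ U) :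
    ContinuousOn (Function.invFunOn (cotParam Φ) (cotDom U)) (cotParam Φ '' cotDom U) := by
  have hP := 𝓜.isParam hΦ
  have hm : Set.MapsTo Prod.fst (cotParam Φ '' cotDom U) (Φ '' U) := by
    rintro _ ⟨p, hp, rfl⟩
    exact ⟨cBase p, hp, rfl⟩
  have h1 : ContinuousOn (fun y : CotAmb V => Function.invFunOn Φ U y.1)
      (cotParam Φ '' cotDom U) := hP.cont_inv.comp continuous_fst.continuousOn hm
  have hm2 : Set.MapsTo (fun y : CotAmb V => Function.invFunOn Φ U y.1)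
      (cotParam Φ '' cotDom U) U := fun y hy => hP.invFunOn_mem (hm hy)
  have hfd : ContinuousOn (fderiv ℝ Φ) U :=
    (hP.smooth.fderiv_of_isOpen hP.isOpen (m := ∞) (by simp)).continuousOn
  have h2 : ∀ k, ContinuousOn (fun y : CotAmb V =>
      covComp Φ (Function.invFunOn Φ U y.1) y.2 k) (cotParam Φ '' cotDom U) := by
    intro k
    unfold covComp
    exact continuous_snd.continuousOn.clm_apply
      ((hfd.comp h1 hm2).clm_apply continuousOn_const)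
  have h3 : ContinuousOn (fun y : CotAmb V => (WithLp.toLp 2
      (covComp Φ (Function.invFunOn Φ U y.1) y.2) : CE ι)) (cotParam Φ '' cotDom U) :=
    (PiLp.continuous_toLp 2 _).comp_continuousOn (continuousOn_pi.2 h2)
  have h4 := s6_continuous_cJoin.comp_continuousOn (h1.prodMk h3)
  exact h4.congr fun y hy => cot_invFunOn hΦ hy

theorem isParam_cotParam (hΦ : 𝓜.IsHol Φ U) :
    IsParam (cotCarrier 𝓜) (cotParam Φ) (cotDom U) := by
  obtain ⟨O, hO, hOeq⟩ := (𝓜.isParam hΦ).image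
  exact ⟨s6g_isOpen_cotDom (𝓜.isParam hΦ).isOpen, cot_contDiffOn hΦ,
    fun p hp => cot_immersion hΦ hp, cot_injOn hΦ,
    ⟨Prod.fst ⁻¹' O, hO.preimage continuous_fst, cot_image hΦ hOeq⟩, cot_cont_inv hΦ⟩

theorem cot_trans_hol (hΦ : 𝓜.IsHol Φ U) (hΨ : 𝓜.IsHol Ψ W) :
    DifferentiableOn ℂ (Function.invFunOn (cotParam Ψ) (cotDom W) ∘ cotParam Φ)
      (cotDom U ∩ cotParam Φ ⁻¹' (cotParam Ψ '' cotDom W)) := by
  set τ := Function.invFunOn Ψ W ∘ Φ with hτ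
  set σ := Function.invFunOn Φ U ∘ Ψ with hσ
  have hO := CMfd.isOpen_overlap hΦ hΨ
  have hO' := CMfd.isOpen_overlap hΨ hΦ
  have hbase : ∀ p ∈ cotDom U ∩ cotParam Φ ⁻¹' (cotParam Ψ '' cotDom W),
      cBase p ∈ U ∩ Φ ⁻¹' (Ψ '' W) := by
    rintro p ⟨hp, q, hq, hqp⟩
    exact ⟨hp, cBase q, hq, congrArg Prod.fst hqp⟩
  have hform : ∀ p ∈ cotDom U ∩ cotParam Φ ⁻¹' (cotParam Ψ '' cotDom W),
      (Function.invFunOn (cotParam Ψ) (cotDom W) ∘ cotParam Φ) p =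
        cJoin (τ (cBase p)) (WithLp.toLp 2 ((jac σ (τ (cBase p)))ᵀ *ᵥ cFib p)) := by
    intro p hp
    have hz := hbase p hp
    have hw : τ (cBase p) ∈ W := CMfd.trans_mem hΦ hΨ hz
    have h1 := s6g_cotParam_trans hΦ hΨ hz.1 hw (CMfd.trans_spec hΦ hΨ hz).symm (cFibE p)
    rw [cJoin_eta, CMfd.jac_trans_inv hΦ hΨ hz] at h1
    show Function.invFunOn (cotParam Ψ) (cotDom W) (cotParam Φ p) = _
    rw [h1]
    exact (cot_injOn hΨ).leftInvOn_invFunOn (s6g_cJoin_mem_cotDom hw _)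
  have hbd : ∀ p : CE (ι ⊕ ι), DifferentiableAt ℂ (cBase : CE (ι ⊕ ι) → CE ι) p := by
    intro p
    rw [differentiableAt_euclidean]
    intro j
    exact (EuclideanSpace.proj (Sum.inl j) : CE (ι ⊕ ι) →L[ℂ] ℂ).differentiableAt
  have hd : DifferentiableOn ℂ (fun p : CE (ι ⊕ ι) =>
      cJoin (τ (cBase p)) (WithLp.toLp 2 ((jac σ (τ (cBase p)))ᵀ *ᵥ cFib p)))
      (cotDom U ∩ cotParam Φ ⁻¹' (cotParam Ψ '' cotDom W)) := by
    intro p hp
    have hz := hbase p hp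
    have hτd : DifferentiableAt ℂ (fun q : CE (ι ⊕ ι) => τ (cBase q)) p :=
      DifferentiableAt.comp (g := τ) p (CMfd.trans_differentiableAt hΦ hΨ hz) (hbd p)
    refine DifferentiableAt.differentiableWithinAt ?_
    rw [differentiableAt_euclidean]
    rintro (j | k)
    · exact (differentiableAt_euclidean.1 hτd) j
    · show DifferentiableAt ℂ (fun q : CE (ι ⊕ ι) => ((jac σ (τ (cBase q)))ᵀ *ᵥ cFib q) k) p
      simp only [Matrix.mulVec, dotProduct, Matrix.transpose_apply]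
      refine DifferentiableAt.fun_sum fun l _ => DifferentiableAt.mul ?_ ?_
      · have hj : DifferentiableAt ℂ (fun w => jac σ w l k) (τ (cBase p)) :=
          (differentiableOn_jac hO' (𝓜.compat hΨ hΦ) l k).differentiableAt
            (hO'.mem_nhds (CMfd.trans_mapsTo hΦ hΨ hz))
        exact DifferentiableAt.comp (g := fun w => jac σ w l k) p hj hτd
      · exact (EuclideanSpace.proj (Sum.inr l) : CE (ι ⊕ ι) →L[ℂ] ℂ).differentiableAt
  exact hd.congr hform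

/-- the atlas of cotangent charts. -/
def cotAtlY (𝓜 : CMfd V ι) (Θ : CE (ι ⊕ ι) → CotAmb V) (D : Set (CE (ι ⊕ ι))) : Prop :=
  ∃ (Φ : CE ι → V) (U : Set (CE ι)), 𝓜.IsHol Φ U ∧ Θ = cotParam Φ ∧ D = cotDom U

theorem isAtlas_cot (𝓜 : CMfd V ι) : IsAtlas (cotCarrier 𝓜) (cotAtlY 𝓜) := by
  refine ⟨?_, ?_, ?_⟩
  · rintro _ _ ⟨Φ, U, hΦ, rfl, rfl⟩
    exact isParam_cotParam hΦ
  · intro y hy
    obtain ⟨Φ, U, hΦ, z, hz, hzy⟩ := 𝓜.cover y.1 hy.1
    exact ⟨cotParam Φ, cotDom U, ⟨Φ, U, hΦ, rfl, rfl⟩, _, s6g_cJoin_mem_cotDom hz _,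
      (cot_eq_cotParam hΦ hy hz hzy.symm).symm⟩
  · rintro _ _ _ _ ⟨Φ, U, hΦ, rfl, rfl⟩ ⟨Ψ, W, hΨ, rfl, rfl⟩
    exact cot_trans_hol hΦ hΨ

end cot

/-- **existence of the cotangent bundle.** -/
theorem stCotangentExists : StCotangentExists := by
  intro V _ _ _ ι _ _ 𝓜
  exact ⟨atlasMfd (isAtlas_cot 𝓜), rfl, fun {Φ U} hΦ =>
    AtlHol.of_mem (isAtlas_cot 𝓜) ⟨Φ, U, hΦ, rfl, rfl⟩⟩

/-! ### 3. the immersion `G` -/

section gimm

variable {V : Type} [NormedAddCommGroup V] [InnerProductSpace ℝ V] [FiniteDimensional ℝ V]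
variable [MeasurableSpace V] [BorelSpace V]
variable {n : ℕ} {𝓜 : CMfd V (Fin n)} {g : HFam V (Fin n)} {o : V}
variable {𝒴 : CMfd (CotAmb V) (Fin n ⊕ Fin n)}
variable {Φ : CE (Fin n) → V} {U : Set (CE (Fin n))}

theorem cot_G_chart (Pd : PrelimData 𝓜 g o) (hΦ : 𝓜.IsHol Φ U) :
    ∃ a : Fin Pd.mX → CE (Fin n) → CE (Fin n), (∀ i, DifferentiableOn ℂ (a i) U) ∧
      (∀ z ∈ U, Submodule.span ℂ (Set.range fun i => a i z) = ⊤) ∧
      ∀ p ∈ cotDom U, Pd.G (cotParam Φ p) = WithLp.toLp 2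
        (Fin.addCases (fun i => Pd.F (Φ (cBase p)) i) (fun i => ∑ k, cFib p k * a i (cBase p) k)) := by
  choose a had ha using fun i => Pd.X_hol i Φ U hΦ
  refine ⟨a, had, fun z hz => ?_, fun p hp => ?_⟩
  · have := Pd.X_span Φ U hΦ z hz
    simp only [ha _ z hz, (𝓜.isParam hΦ).coVec_fderiv hz] at this
    exact this
  · unfold PrelimData.G
    have e : (fun i => (cotParam Φ p).2 (Pd.X i (cotParam Φ p).1)) =
        fun i => ∑ k, cFib p k * a i (cBase p) k := by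
      funext i
      show (cotParam Φ p).2 (Pd.X i (Φ (cBase p))) = _
      rw [ha i _ hp, s6g_cotParam_snd_fderiv hΦ hp, s6g_pairL_apply]
    rw [e]
    rfl

/-- the base projection as a complex linear map. -/
noncomputable def cot_baseL (n : ℕ) : CE (Fin n ⊕ Fin n) →L[ℂ] CE (Fin n) :=
  LinearMap.toContinuousLinearMap
    { toFun := cBase
      map_add' := fun _ _ => rfl
      map_smul' := fun _ _ => rfl }

theorem cot_baseL_apply (p : CE (Fin n ⊕ Fin n)) : cot_baseL n p = cBase p := rfl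

/-- spanning vectors separate covectors. -/
theorem cot_eq_zero_of_span {m : ℕ} {b : Fin m → CE (Fin n)}
    (hsp : Submodule.span ℂ (Set.range b) = ⊤) {ζ : Fin n → ℂ}
    (h : ∀ i, ∑ k, ζ k * b i k = 0) : ζ = 0 := by
  set ℓ : CE (Fin n) →ₗ[ℂ] ℂ :=
    ∑ k, ζ k • ((EuclideanSpace.proj k : CE (Fin n) →L[ℂ] ℂ) : CE (Fin n) →ₗ[ℂ] ℂ) with hℓ
  have hℓa : ∀ w : CE (Fin n), ℓ w = ∑ k, ζ k * w k := by
    intro w
    simp [hℓ]
  have hker : Submodule.span ℂ (Set.range b) ≤ LinearMap.ker ℓ := by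
    rw [Submodule.span_le]
    rintro _ ⟨j, rfl⟩
    rw [SetLike.mem_coe, LinearMap.mem_ker, hℓa]
    exact h j
  rw [hsp] at hker
  funext k
  have h1 : ℓ (eb k) = 0 := LinearMap.mem_ker.1 (hker Submodule.mem_top)
  rw [hℓa] at h1
  simpa [eb_apply] using h1

/-- the derivatives of the two blocks of `G` in a cotangent chart. -/
theorem cot_hasFDerivAt_block1 (Pd : PrelimData 𝓜 g o) (hΦ : 𝓜.IsHol Φ U)
    {p : CE (Fin n ⊕ Fin n)} (hp : p ∈ cotDom U) :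
    HasFDerivAt (fun q : CE (Fin n ⊕ Fin n) => Pd.F (Φ (cBase q)))
      ((fderiv ℂ (Pd.F ∘ Φ) (cBase p)).comp (cot_baseL n)) p := by
  have h1 : DifferentiableAt ℂ (Pd.F ∘ Φ) (cBase p) :=
    (Pd.F_hol Φ U hΦ).differentiableAt ((CMfd.isOpen_dom hΦ).mem_nhds hp)
  exact HasFDerivAt.comp (g := Pd.F ∘ Φ) (f := cBase) p h1.hasFDerivAt (cot_baseL n).hasFDerivAt

theorem cot_hasFDerivAt_block2 {a : CE (Fin n) → CE (Fin n)} (hU : IsOpen U)
    (ha : DifferentiableOn ℂ a U) {p : CE (Fin n ⊕ Fin n)} (hp : p ∈ cotDom U) :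
    HasFDerivAt (fun q : CE (Fin n ⊕ Fin n) => ∑ k, cFib q k * a (cBase q) k)
      (∑ k, (cFib p k • ((EuclideanSpace.proj k : CE (Fin n) →L[ℂ] ℂ).comp
          ((fderiv ℂ a (cBase p)).comp (cot_baseL n))) +
        a (cBase p) k • (EuclideanSpace.proj (Sum.inr k) : CE (Fin n ⊕ Fin n) →L[ℂ] ℂ))) p := by
  refine HasFDerivAt.fun_sum fun k _ => ?_
  have h1 : HasFDerivAt (fun q : CE (Fin n ⊕ Fin n) => cFib q k)
      (EuclideanSpace.proj (Sum.inr k) : CE (Fin n ⊕ Fin n) →L[ℂ] ℂ) p :=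
    (EuclideanSpace.proj (Sum.inr k) : CE (Fin n ⊕ Fin n) →L[ℂ] ℂ).hasFDerivAt
  have h2 : HasFDerivAt (fun q : CE (Fin n ⊕ Fin n) => a (cBase q))
      ((fderiv ℂ a (cBase p)).comp (cot_baseL n)) p :=
    HasFDerivAt.comp (g := a) (f := cBase) p
      (ha.differentiableAt (hU.mem_nhds hp)).hasFDerivAt (cot_baseL n).hasFDerivAt
  have h3 : HasFDerivAt (fun q : CE (Fin n ⊕ Fin n) => a (cBase q) k)
      ((EuclideanSpace.proj k : CE (Fin n) →L[ℂ] ℂ).comp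
        ((fderiv ℂ a (cBase p)).comp (cot_baseL n))) p :=
    (EuclideanSpace.proj k : CE (Fin n) →L[ℂ] ℂ).hasFDerivAt.comp p h2
  exact h1.mul h3

theorem cot_G_hol (Pd : PrelimData 𝓜 g o) (hΦ : 𝓜.IsHol Φ U) :
    DifferentiableOn ℂ (Pd.G ∘ cotParam Φ) (cotDom U) := by
  obtain ⟨a, had, -, hG⟩ := cot_G_chart Pd hΦ
  have hU := CMfd.isOpen_dom hΦ
  have h1 : DifferentiableOn ℂ (fun p : CE (Fin n ⊕ Fin n) => (WithLp.toLp 2
      (Fin.addCases (fun i => Pd.F (Φ (cBase p)) i) (fun i => ∑ k, cFib p k * a i (cBase p) k)) :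
        CE (Fin (Pd.NF + Pd.mX)))) (cotDom U) := by
    rw [differentiableOn_euclidean]
    intro j p hp
    refine Fin.addCases (fun i => ?_) (fun i => ?_) j
    · simp only [Fin.addCases_left]
      exact ((EuclideanSpace.proj i : CE (Fin Pd.NF) →L[ℂ] ℂ).hasFDerivAt.comp p
        (cot_hasFDerivAt_block1 Pd hΦ hp)).differentiableAt.differentiableWithinAt
    · simp only [Fin.addCases_right]
      exact (cot_hasFDerivAt_block2 hU (had i) hp).differentiableAt.differentiableWithinAt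
  exact h1.congr fun p hp => hG p hp

theorem cot_G_imm (Pd : PrelimData 𝓜 g o) (hΦ : 𝓜.IsHol Φ U) {p : CE (Fin n ⊕ Fin n)}
    (hp : p ∈ cotDom U) : Function.Injective (fderiv ℂ (Pd.G ∘ cotParam Φ) p) := by
  obtain ⟨a, had, hsp, hG⟩ := cot_G_chart Pd hΦ
  have hU := CMfd.isOpen_dom hΦ
  have hopen : IsOpen (cotDom U) := s6g_isOpen_cotDom hU
  have hd : DifferentiableAt ℂ (Pd.G ∘ cotParam Φ) p :=
    (cot_G_hol Pd hΦ).differentiableAt (hopen.mem_nhds hp)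
  rw [injective_iff_map_eq_zero]
  intro δ hδ
  -- components of the derivative
  have hcomp : ∀ j, fderiv ℂ (fun q => (Pd.G ∘ cotParam Φ) q j) p δ = 0 := by
    intro j
    have h1 : HasFDerivAt (fun q => (Pd.G ∘ cotParam Φ) q j)
        ((EuclideanSpace.proj j : CE (Fin (Pd.NF + Pd.mX)) →L[ℂ] ℂ).comp
          (fderiv ℂ (Pd.G ∘ cotParam Φ) p)) p :=
      (EuclideanSpace.proj j : CE (Fin (Pd.NF + Pd.mX)) →L[ℂ] ℂ).hasFDerivAt.comp p hd.hasFDerivAt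
    rw [h1.fderiv, ContinuousLinearMap.comp_apply, hδ, map_zero]
  have hb1 : cBase δ = 0 := by
    apply Pd.F_imm Φ U hΦ (cBase p) hp
    rw [map_zero]
    ext i
    have e : (fun q => (Pd.G ∘ cotParam Φ) q (Fin.castAdd Pd.mX i)) =ᶠ[𝓝 p]
        fun q => Pd.F (Φ (cBase q)) i := by
      filter_upwards [hopen.mem_nhds hp] with q hq
      show Pd.G (cotParam Φ q) (Fin.castAdd Pd.mX i) = _
      rw [hG q hq]
      simp
    have h2 := hcomp (Fin.castAdd Pd.mX i)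
    have h3 : HasFDerivAt (fun q : CE (Fin n ⊕ Fin n) => Pd.F (Φ (cBase q)) i)
        ((EuclideanSpace.proj i : CE (Fin Pd.NF) →L[ℂ] ℂ).comp
          ((fderiv ℂ (Pd.F ∘ Φ) (cBase p)).comp (cot_baseL n))) p :=
      (EuclideanSpace.proj i : CE (Fin Pd.NF) →L[ℂ] ℂ).hasFDerivAt.comp p
        (cot_hasFDerivAt_block1 Pd hΦ hp)
    rw [e.fderiv_eq, h3.fderiv] at h2
    exact h2
  have hb2 : cFib δ = 0 := by
    refine cot_eq_zero_of_span (hsp (cBase p) hp) fun i => ?_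
    have e : (fun q => (Pd.G ∘ cotParam Φ) q (Fin.natAdd Pd.NF i)) =ᶠ[𝓝 p]
        fun q => ∑ k, cFib q k * a i (cBase q) k := by
      filter_upwards [hopen.mem_nhds hp] with q hq
      show Pd.G (cotParam Φ q) (Fin.natAdd Pd.NF i) = _
      rw [hG q hq]
      simp
    have h2 := hcomp (Fin.natAdd Pd.NF i)
    rw [e.fderiv_eq, (cot_hasFDerivAt_block2 hU (had i) hp).fderiv] at h2
    simp only [sum_apply, add_apply, smul_apply, ContinuousLinearMap.comp_apply, cot_baseL_apply,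
      hb1, map_zero, smul_eq_mul, mul_zero, zero_add] at h2
    rw [← h2]
    refine Finset.sum_congr rfl fun k _ => ?_
    rw [mul_comm]
    rfl
  rw [← cJoin_eta δ, hb1]
  unfold cFibE
  rw [hb2]
  ext j
  rcases j with j | j <;> simp [cJoin]

theorem cot_G_inj (Pd : PrelimData 𝓜 g o) : Set.InjOn Pd.G (cotCarrier 𝓜) := by
  intro y hy y' hy' h
  have hF : Pd.F y.1 = Pd.F y'.1 := by
    ext i
    have := congrArg (fun v : CE (Fin (Pd.NF + Pd.mX)) => v (Fin.castAdd Pd.mX i)) h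
    simpa [PrelimData.G] using this
  have hx : y.1 = y'.1 := Pd.F_inj hy.1 hy'.1 hF
  have hΦ := 𝓜.isHol_pΦ hy.1
  have hz := 𝓜.co_mem hy.1
  have hxz : y.1 = 𝓜.pΦ y.1 (𝓜.co y.1) := (𝓜.pΦ_co hy.1).symm
  obtain ⟨a, -, hsp, hG⟩ := cot_G_chart Pd hΦ
  have e1 := cot_eq_cotParam hΦ hy hz hxz
  have e2 := cot_eq_cotParam hΦ hy' hz (hx ▸ hxz)
  set ζ := covComp (𝓜.pΦ y.1) (𝓜.co y.1) y.2 with hζ
  set ζ' := covComp (𝓜.pΦ y.1) (𝓜.co y.1) y'.2 with hζ'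
  have hsub : ζ - ζ' = 0 := by
    refine cot_eq_zero_of_span (hsp _ hz) fun i => ?_
    have h1 := congrArg (fun v : CE (Fin (Pd.NF + Pd.mX)) => v (Fin.natAdd Pd.NF i)) h
    rw [e1, e2] at h1
    simp only [hG _ (s6g_cJoin_mem_cotDom hz _), Fin.addCases_right, s6g_cFib_cJoin,
      cBase_cJoin] at h1
    simp only [Pi.sub_apply, sub_mul, Finset.sum_sub_distrib]
    exact sub_eq_zero.2 h1
  rw [e1, e2, sub_eq_zero.1 hsub]

/-- from the cotangent charts to all parametrisations of `𝒴`. -/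
theorem cot_gimm_of_charts (hY : IsCotangent 𝓜 𝒴) {q : ℕ} {G : CotAmb V → CE (Fin q)}
    (hhol : ∀ (Φ : CE (Fin n) → V) (U : Set (CE (Fin n))), 𝓜.IsHol Φ U →
      DifferentiableOn ℂ (G ∘ cotParam Φ) (cotDom U))
    (hinj : Set.InjOn G (cotCarrier 𝓜))
    (himm : ∀ (Φ : CE (Fin n) → V) (U : Set (CE (Fin n))), 𝓜.IsHol Φ U → ∀ p ∈ cotDom U,
      Function.Injective (fderiv ℂ (G ∘ cotParam Φ) p)) : GImm 𝒴 G := by
  -- local factorisation through a cotangent chart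
  have key : ∀ (Ψ : CE (Fin n ⊕ Fin n) → CotAmb V) (W : Set (CE (Fin n ⊕ Fin n))), 𝒴.IsHol Ψ W →
      ∀ w ∈ W, ∃ L : CE (Fin n ⊕ Fin n) →L[ℂ] CE (Fin q), HasFDerivAt (G ∘ Ψ) L w ∧
        Function.Injective L := by
    intro Ψ W hΨ w hw
    have hy : Ψ w ∈ 𝒴.carrier := CMfd.mem_carrier hΨ hw
    have hx := s6g_base_mem hY hy
    obtain ⟨hΦ, hz, hΦz⟩ := s6g_pspec hx
    obtain ⟨η, hη⟩ := s6g_exists_cotParam hY hy hΦ hz hΦz.symm
    have hH := hY.isHol hΦ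
    have hw' : w ∈ W ∩ Ψ ⁻¹' (cotParam (𝓜.pΦ (Ψ w).1) '' cotDom (𝓜.pU (Ψ w).1)) :=
      ⟨hw, ⟨_, s6g_cJoin_mem_cotDom hz η, hη.symm⟩⟩
    have hm := CMfd.trans_mem hΨ hH hw'
    have h1 : DifferentiableAt ℂ (G ∘ cotParam (𝓜.pΦ (Ψ w).1))
        ((Function.invFunOn (cotParam (𝓜.pΦ (Ψ w).1)) (cotDom (𝓜.pU (Ψ w).1)) ∘ Ψ) w) :=
      (hhol _ _ hΦ _ hm).differentiableAt ((CMfd.isOpen_dom hH).mem_nhds hm)
    have h2 := h1.hasFDerivAt.comp w (CMfd.trans_differentiableAt hΨ hH hw').hasFDerivAt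
    refine ⟨_, h2.congr_of_eventuallyEq (CMfd.eventually_comp_eq G hΨ hH hw'), ?_⟩
    rw [ContinuousLinearMap.coe_comp]
    exact (himm _ _ hΦ _ hm).comp (CMfd.fderiv_trans_injective hΨ hH hw')
  refine ⟨fun Ψ W hΨ w hw => ?_, ?_, fun Ψ W hΨ w hw => ?_⟩
  · obtain ⟨L, hL, -⟩ := key Ψ W hΨ w hw
    exact hL.differentiableAt.differentiableWithinAt
  · rw [hY.carrier_eq]
    exact hinj
  · obtain ⟨L, hL, hLi⟩ := key Ψ W hΨ w hw
    rw [hL.fderiv]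
    exact hLi

theorem gimm_prelim (Pd : PrelimData 𝓜 g o) (hY : IsCotangent 𝓜 𝒴) : GImm 𝒴 Pd.G :=
  cot_gimm_of_charts hY (fun _ _ hΦ => cot_G_hol Pd hΦ) (cot_G_inj Pd)
    (fun _ _ hΦ _ hp => cot_G_imm Pd hΦ hp)

end gimm

end Claimed.Agent.R316.S4
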