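import Claimed.Agent.R316.S4.Pot
import Claimed.Agent.R316.Base.Metric.Api
import Claimed.Agent.R316.Pack011

/-!
# Row 316, Section 4, BP-S4-CPT part 2: holomorphic curves in `M`, the functions `ψ`, `Λ`, trapping, Lemma M (design: helper58)

Everything here is about ONE holomorphic curve / disc (no sequences).  Consumer: `S4/Cpt2.lean`.

`InClass 𝓜 g K A₀ f`: `f` is holomorphic on a neighbourhood of the closed unit disc, `f(∂Δ) ⊆ K`, `g`-area `≤ A₀`.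

## LEAVES (auxiliary lemmas: prefix `cpt_`, in this file next to the leaf)

* **S4-C-CURVE1** `HolCurve.eventually_local`, `holCurve_of_local`, `HolCurve.mono`, `HolCurve.comp`, `HolCurve.contDiffOn`, `HolCurve.differentiableOn_comp`, `HolCurve.contDiffOn_comp`.  Chart bookkeeping with `CM/Param.lean`, `CM/Trans.lean` (`IsParam.eventually_mem_image`, `IsParam.contDiffAt_invFunOn_comp`, `CMfd.compat`).  They generalise `s6g_disc_local`, `s6g_isHolDisc_of_local` of `S6/GDisc.lean` from balls to open sets (same proofs; if those are proved first, copy).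
* **S4-C-CURVE2** `dspeed_local`, `dspeed_comp`, `ambQ_fderiv`, `continuousOn_dspeed`, `dspeed_nonneg`, `laplacian_comp_curve`.  `f = Ψ ∘ p` near `ζ₀`, `p` holomorphic: `fderiv ℝ f ζ c = fderiv ℝ Ψ (p ζ) (c • p'(ζ))`, `ambQ_param` (`Base/Metric/Norm.lean`), `qf A (c • v) = |c|² qf A v`.  `laplacian_comp_curve`: `s6g_laplacian_comp_hol`.
* **S4-C-LEN** `hdist_le_seg`: `hdist_le_integral_of_contDiffOn` for `γ t = f (z + t (y - z))` on `[0,1]`, `ambQ_fderiv` with `c = y - z`.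
* **S4-C-GRAM** `levi_logdet_gram_posSemidef` (framework-free, CW + `S7/H1/Griff.lean`): `H = JᴴJ`, `∂_l H = Jᴴ ∂_l J`, `∂̄_m H = (∂_m J)ᴴ J`, `∂̄_m ∂_l H = (∂_m J)ᴴ ∂_l J`, so `griffM H x X = - (∂_X J)ᴴ (1 - J H⁻¹ Jᴴ) (∂_X J) ≤ 0` (`1 - J H⁻¹ Jᴴ` is an orthogonal projection) and `qf (levi log det H) X = - tr (H⁻¹ griffM H x X)` (`trace_inv_mul_griffM`) `≥ 0`.
* **S4-C-PSI** `fE_isMetric`, `continuousOn_F`, `dspeed_fE`, `psiF_smooth`, `ddc_psiF_posSemidef`: `levi (ψ ∘ Φ) = levi log det (JᴴJ) + ricF g Φ`; `ricF g ≥ 0` from `BisecPos` (`ricF_eq_sum_Rm`, diagonalise `g⁻¹`, or `trace_inv_mul_griffM` + `bisec_eq_griffM`).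
* **S4-C-LAM** `lamF_smooth`, `ddc_lamF_posSemidef`: in a chart `Λ(Φ z) = tr (g⁻¹ JᴴJ) = ∑_i nloc g Φ (cJoin z (row_i J(z)))`, `nloc = dnorm (g Φ)` has `levi ≥ 0` (`S6.s6g_levi_nloc_posSemidef`), composed with the holomorphic map `z ↦ (z, ∂F_i(z))` (`levi (u ∘ τ) = (jac τ)ᴴ levi u (jac τ)`, CW).
* **S4-C-EIG** `qf_mul_det_le`, `qf_le_trace_mul`, `inv_jacobian_ineq`, `fE_le_lamF`: simultaneous diagonalisation (`st_exists_eigen` of `CM/FormsST.lean` or Mathlib's spectral theorem for `G^{-1/2} A G^{-1/2}`): eigenvalues `λ_i > 0`, `∏ λ ≤ λ_min (∑ λ)^{n-1}`, `λ_max ≤ ∑ λ`.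
* **S4-C-TRAP** `trapping` (~80 lines): `K₂ = M ∩ cthickening 1 K₁` (compact: `M` closed, `V` proper), shell `Σ = {y ∈ M : infDist y K₁ = 1}` compact, `η = min` of `‖F x - F y‖` on `K₁ × Σ` (`> 0` by injectivity; any `η` if `Σ = ∅` or `K₁ = ∅`); if `S ⊄ K₂` the continuous function `infDist · K₁` takes the values `0` and `> 1` on the preconnected set `S`, hence the value `1` (`IsPreconnected.intermediate_value`).
* **S4-C-INV** `InClass.comp_mob` (`exists_mob_mapsTo`, `HolCurve.comp`, `dspeed_comp`, `integral_mob`), `inClass_dilate` (uniform continuity of `f` on the closed disc; area of `ζ ↦ f(ρζ)` is `∫_{|z|<ρ} ≤ A₀`).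
* **S4-C-MAXP** `InClass.norm_F_le`, `InClass.norm_holFun_le` (maximum modulus, Mathlib `Complex.norm_le_of_forall_mem_frontier_norm_le`), `InClass.smooth_le` (`max_principle` of `Pot.lean` for `v ∘ f`, `ddc v ≥ 0`).
* **S4-C-SPEED** `InClass.speed_le`: `inv_jacobian_ineq`, `dspeed_fE`, Cauchy estimate `‖(F∘f)'(x)‖ ≤ C_F/(1-|x|)` (`Complex.norm_deriv_le_of_forall_mem_sphere_norm_le`), `Λ ∘ f ≤ Λ₀`.
* **S4-C-ANCH** `InClass.exists_anchor`: `exists_ray_le` with `φ = dspeed g f`, `hdist_le_seg` on `[ρ e, e]` (`seg σ (ρe) e = ∫_ρ^1 σ(t e) dt`), `exists_hcball_of_isCompact`, triangle inequality.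
* **S4-C-MASS** `InClass.psi_data` (`HolCurve.contDiffOn_comp`, `laplacian_comp_curve`, `dspeed_nonneg`, `ddc_psiF_posSemidef`), `InClass.wmass_le`: `wmass_le` of `Pot.lean` at the anchor `a = e/2`, `ψ` bounded on the compact `hcball b R₀` (`b` any point of `M`, `I.conn.nonempty`) and on `K`.
* **S4-C-LEMM** `lemmaM` = `lemmaM0` + `hdist_le_seg` + triangle inequality.
-/

set_option autoImplicit false
set_option linter.unusedSectionVars false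
open scoped ContDiff ComplexOrder Topology Matrix
open MeasureTheory Metric Set

namespace Claimed.Agent.R316.S4

open Claimed.Agent.R316 Claimed.Agent.R316.S6

local notation "Δ" => Laplacian.laplacian

/-! ### holomorphic curves -/

section curves

variable {V' : Type} [NormedAddCommGroup V'] [NormedSpace ℝ V'] [FiniteDimensional ℝ V']
variable {κ : Type} [Fintype κ] [DecidableEq κ]
variable {𝓧 : CMfd V' κ} {f : ℂ → V'} {Ω : Set ℂ}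

/-! #### S4-C-CURVE1 -/

theorem HolCurve.eventually_local (hΩ : IsOpen Ω) (hf : HolCurve 𝓧 f Ω) {ζ₀ : ℂ} (hζ : ζ₀ ∈ Ω)
    {Ψ : CE κ → V'} {W : Set (CE κ)} (hΨ : 𝓧.IsHol Ψ W) (h₀ : f ζ₀ ∈ Ψ '' W) :
    ∀ᶠ ζ in 𝓝 ζ₀, DifferentiableAt ℂ (Function.invFunOn Ψ W ∘ f) ζ ∧
      (Function.invFunOn Ψ W ∘ f) ζ ∈ W ∧ Ψ ((Function.invFunOn Ψ W ∘ f) ζ) = f ζ := by
  obtain ⟨hmem, hcont, hhol⟩ := hf
  obtain ⟨W₀, hW₀, hWeq⟩ := (𝓧.isParam hΨ).image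
  have hD : Ω ∩ f ⁻¹' (Ψ '' W) = Ω ∩ f ⁻¹' W₀ := by
    ext ζ
    constructor
    · rintro ⟨h1, h2⟩
      have h3 : f ζ ∈ Ψ '' W := h2
      rw [hWeq] at h3
      exact ⟨h1, h3.2⟩
    · rintro ⟨h1, h2⟩
      refine ⟨h1, ?_⟩
      show f ζ ∈ Ψ '' W
      rw [hWeq]
      exact ⟨hmem ζ h1, h2⟩
  have hopen : IsOpen (Ω ∩ f ⁻¹' (Ψ '' W)) := by
    rw [hD]
    exact hcont.isOpen_inter_preimage hΩ hW₀
  filter_upwards [hopen.mem_nhds ⟨hζ, h₀⟩] with ζ hζ'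
  exact ⟨(hhol Ψ W hΨ ζ hζ').differentiableAt (hopen.mem_nhds hζ'),
    Function.invFunOn_mem hζ'.2, Function.invFunOn_eq hζ'.2⟩

theorem holCurve_of_local
    (hloc : ∀ ζ₀ ∈ Ω, ∃ (Ψ : CE κ → V') (W : Set (CE κ)) (p : ℂ → CE κ),
      𝓧.IsHol Ψ W ∧ ∀ᶠ ζ in 𝓝 ζ₀, DifferentiableAt ℂ p ζ ∧ p ζ ∈ W ∧ f ζ = Ψ (p ζ)) :
    HolCurve 𝓧 f Ω := by
  refine ⟨fun ζ₀ hζ₀ => ?_, fun ζ₀ hζ₀ => ?_, fun Ψ' W' hΨ' ζ₀ hζ₀ => ?_⟩
  · obtain ⟨Ψ, W, F, hΨ, hev⟩ := hloc ζ₀ hζ₀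
    obtain ⟨-, h2, h3⟩ := hev.self_of_nhds
    rw [h3]
    exact s6g_mem_carrier hΨ h2
  · obtain ⟨Ψ, W, F, hΨ, hev⟩ := hloc ζ₀ hζ₀
    obtain ⟨h1, h2, h3⟩ := hev.self_of_nhds
    have hc : ContinuousAt (fun ζ => Ψ (F ζ)) ζ₀ :=
      ContinuousAt.comp (g := Ψ) (s6g_continuousAt hΨ h2) h1.continuousAt
    have he : f =ᶠ[𝓝 ζ₀] fun ζ => Ψ (F ζ) := hev.mono fun ζ h => h.2.2
    exact (hc.congr he.symm).continuousWithinAt
  · obtain ⟨Ψ, W, F, hΨ, hev⟩ := hloc ζ₀ hζ₀.1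
    obtain ⟨h1, h2, h3⟩ := hev.self_of_nhds
    have hz : F ζ₀ ∈ W ∩ Ψ ⁻¹' (Ψ' '' W') := by
      refine ⟨h2, ?_⟩
      show Ψ (F ζ₀) ∈ Ψ' '' W'
      rw [← h3]
      exact hζ₀.2
    have hd := CMfd.trans_differentiableAt hΨ hΨ' hz
    have hd2 : DifferentiableAt ℂ (fun ζ => (Function.invFunOn Ψ' W' ∘ Ψ) (F ζ)) ζ₀ :=
      DifferentiableAt.comp (g := Function.invFunOn Ψ' W' ∘ Ψ) ζ₀ hd h1
    have he : (Function.invFunOn Ψ' W' ∘ f) =ᶠ[𝓝 ζ₀]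
        fun ζ => (Function.invFunOn Ψ' W' ∘ Ψ) (F ζ) := by
      filter_upwards [hev] with ζ h
      show Function.invFunOn Ψ' W' (f ζ) = Function.invFunOn Ψ' W' (Ψ (F ζ))
      rw [h.2.2]
    exact (hd2.congr_of_eventuallyEq he).differentiableWithinAt

theorem HolCurve.mono (hf : HolCurve 𝓧 f Ω) {Ω' : Set ℂ} (h : Ω' ⊆ Ω) : HolCurve 𝓧 f Ω' :=
  ⟨fun ζ hζ => hf.1 ζ (h hζ), hf.2.1.mono h,
    fun Ψ W hΨ => (hf.2.2 Ψ W hΨ).mono (inter_subset_inter_left _ h)⟩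

/-- the standard local representation of a holomorphic curve. -/
theorem HolCurve.exists_local (hΩ : IsOpen Ω) (hf : HolCurve 𝓧 f Ω) {ζ₀ : ℂ} (hζ : ζ₀ ∈ Ω) :
    ∃ (Ψ : CE κ → V') (W : Set (CE κ)) (p : ℂ → CE κ),
      𝓧.IsHol Ψ W ∧ ∀ᶠ ζ in 𝓝 ζ₀, DifferentiableAt ℂ p ζ ∧ p ζ ∈ W ∧ f ζ = Ψ (p ζ) := by
  have hx := hf.1 ζ₀ hζ
  exact ⟨_, _, _, 𝓧.isHol_pΦ hx,
    (HolCurve.eventually_local hΩ hf hζ (𝓧.isHol_pΦ hx) (𝓧.mem_image_pΦ hx)).mono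
      fun ζ h => ⟨h.1, h.2.1, h.2.2.symm⟩⟩

theorem HolCurve.comp (hΩ : IsOpen Ω) (hf : HolCurve 𝓧 f Ω) {φ : ℂ → ℂ} {Ω' : Set ℂ}
    (hΩ' : IsOpen Ω') (hφ : DifferentiableOn ℂ φ Ω') (hm : MapsTo φ Ω' Ω) :
    HolCurve 𝓧 (fun ζ => f (φ ζ)) Ω' := by
  refine holCurve_of_local fun ζ₀ hζ₀ => ?_
  obtain ⟨Ψ, W, p, hΨ, hev⟩ := hf.exists_local hΩ (hm hζ₀)
  refine ⟨Ψ, W, fun ζ => p (φ ζ), hΨ, ?_⟩
  have hc : ContinuousAt φ ζ₀ := (hφ.differentiableAt (hΩ'.mem_nhds hζ₀)).continuousAt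
  filter_upwards [hc.eventually hev, hΩ'.mem_nhds hζ₀] with ζ h1 h2
  exact ⟨DifferentiableAt.comp (g := p) ζ h1.1 (hφ.differentiableAt (hΩ'.mem_nhds h2)),
    h1.2.1, h1.2.2⟩

theorem HolCurve.contDiffOn (hΩ : IsOpen Ω) (hf : HolCurve 𝓧 f Ω) : ContDiffOn ℝ ∞ f Ω := by
  intro ζ₀ hζ₀
  obtain ⟨Ψ, W, p, hΨ, hev⟩ := hf.exists_local hΩ hζ₀
  have hp : ContDiffAt ℝ ∞ p ζ₀ := hol_contDiffAt_real (hev.mono fun ζ h => h.1)
  have hP := 𝓧.isParam hΨ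
  have hΨc : ContDiffAt ℝ ∞ Ψ (p ζ₀) :=
    (hP.smooth _ hev.self_of_nhds.2.1).contDiffAt (hP.isOpen.mem_nhds hev.self_of_nhds.2.1)
  have h1 : ContDiffAt ℝ ∞ (fun ζ => Ψ (p ζ)) ζ₀ := hΨc.comp ζ₀ hp
  exact (h1.congr_of_eventuallyEq (hev.mono fun ζ h => h.2.2)).contDiffWithinAt

/-- a map which is holomorphic in all parametrisations is holomorphic along holomorphic curves. -/
theorem HolCurve.differentiableOn_comp (hΩ : IsOpen Ω) (hf : HolCurve 𝓧 f Ω) {E : Type}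
    [NormedAddCommGroup E] [NormedSpace ℂ E] {G : V' → E}
    (hG : ∀ (Ψ : CE κ → V') (W : Set (CE κ)), 𝓧.IsHol Ψ W → DifferentiableOn ℂ (G ∘ Ψ) W) :
    DifferentiableOn ℂ (fun ζ => G (f ζ)) Ω := by
  intro ζ₀ hζ₀
  obtain ⟨Ψ, W, p, hΨ, hev⟩ := hf.exists_local hΩ hζ₀
  have hP := 𝓧.isParam hΨ
  obtain ⟨h1, h2, -⟩ := hev.self_of_nhds
  have hd : DifferentiableAt ℂ (G ∘ Ψ) (p ζ₀) :=
    (hG Ψ W hΨ).differentiableAt (hP.isOpen.mem_nhds h2)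
  have h3 : DifferentiableAt ℂ (fun ζ => (G ∘ Ψ) (p ζ)) ζ₀ :=
    DifferentiableAt.comp (g := G ∘ Ψ) ζ₀ hd h1
  refine (h3.congr_of_eventuallyEq (hev.mono fun ζ h => ?_)).differentiableWithinAt
  show G (f ζ) = G (Ψ (p ζ))
  rw [h.2.2]

theorem HolCurve.contDiffOn_comp (hΩ : IsOpen Ω) (hf : HolCurve 𝓧 f Ω) {v : V' → ℝ}
    (hv : 𝓧.Smooth v) : ContDiffOn ℝ ∞ (fun ζ => v (f ζ)) Ω := by
  intro ζ₀ hζ₀
  obtain ⟨Ψ, W, p, hΨ, hev⟩ := hf.exists_local hΩ hζ₀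
  have hp : ContDiffAt ℝ ∞ p ζ₀ := hol_contDiffAt_real (hev.mono fun ζ h => h.1)
  have hP := 𝓧.isParam hΨ
  have hc : ContDiffAt ℝ ∞ (v ∘ Ψ) (p ζ₀) :=
    (hv Ψ W hΨ _ hev.self_of_nhds.2.1).contDiffAt (hP.isOpen.mem_nhds hev.self_of_nhds.2.1)
  have h1 : ContDiffAt ℝ ∞ (fun ζ => (v ∘ Ψ) (p ζ)) ζ₀ := hc.comp ζ₀ hp
  refine (h1.congr_of_eventuallyEq (hev.mono fun ζ h => ?_)).contDiffWithinAt
  show v (f ζ) = v (Ψ (p ζ))
  rw [h.2.2]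

/-! #### S4-C-CURVE2 -/

/-- real derivative of `Ψ ∘ p`. -/
theorem cpt_fderiv_local {Ψ : CE κ → V'} {W : Set (CE κ)}
    (hΨ : 𝓧.IsHol Ψ W) {p : ℂ → CE κ} {ζ₀ : ℂ} (hp : DifferentiableAt ℂ p ζ₀) (hpW : p ζ₀ ∈ W)
    (hfp : ∀ᶠ ζ in 𝓝 ζ₀, f ζ = Ψ (p ζ)) (c : ℂ) :
    fderiv ℝ f ζ₀ c = fderiv ℝ Ψ (p ζ₀) (c • deriv p ζ₀) := by
  have hP := 𝓧.isParam hΨ
  have hΨd : DifferentiableAt ℝ Ψ (p ζ₀) :=
    ((hP.smooth _ hpW).contDiffAt (hP.isOpen.mem_nhds hpW)).differentiableAt (by simp)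
  have hpd : HasFDerivAt p ((fderiv ℂ p ζ₀).restrictScalars ℝ) ζ₀ :=
    hp.hasFDerivAt.restrictScalars ℝ
  have h1 : HasFDerivAt (fun ζ => Ψ (p ζ))
      ((fderiv ℝ Ψ (p ζ₀)).comp ((fderiv ℂ p ζ₀).restrictScalars ℝ)) ζ₀ :=
    HasFDerivAt.comp (g := Ψ) ζ₀ hΨd.hasFDerivAt hpd
  have h2 : HasFDerivAt f ((fderiv ℝ Ψ (p ζ₀)).comp ((fderiv ℂ p ζ₀).restrictScalars ℝ)) ζ₀ :=
    h1.congr_of_eventuallyEq hfp
  rw [h2.fderiv, ContinuousLinearMap.comp_apply, ContinuousLinearMap.coe_restrictScalars']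
  congr 1
  have : c = c • (1 : ℂ) := by simp
  conv_lhs => rw [this, map_smul]
  rfl

theorem cpt_ambQ_local {A : HFam V' κ} (hA : IsHForm 𝓧 A) {Ψ : CE κ → V'} {W : Set (CE κ)}
    (hΨ : 𝓧.IsHol Ψ W) {p : ℂ → CE κ} {ζ₀ : ℂ} (hp : DifferentiableAt ℂ p ζ₀) (hpW : p ζ₀ ∈ W)
    (hfp : ∀ᶠ ζ in 𝓝 ζ₀, f ζ = Ψ (p ζ)) (c : ℂ) :
    ambQ 𝓧 A (f ζ₀) (fderiv ℝ f ζ₀ c) = ‖c‖ ^ 2 * qf (A Ψ (p ζ₀)) (deriv p ζ₀ : CE κ) := by
  rw [cpt_fderiv_local hΨ hp hpW hfp c, hfp.self_of_nhds, ambQ_param hA hΨ hpW]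
  exact qf_smul_vec _ _ c

theorem dspeed_local {A : HFam V' κ} (hA : IsHForm 𝓧 A) {Ψ : CE κ → V'} {W : Set (CE κ)}
    (hΨ : 𝓧.IsHol Ψ W) {p : ℂ → CE κ} {ζ₀ : ℂ} (hp : DifferentiableAt ℂ p ζ₀) (hpW : p ζ₀ ∈ W)
    (hfp : ∀ᶠ ζ in 𝓝 ζ₀, f ζ = Ψ (p ζ)) :
    dspeed 𝓧 A f ζ₀ = qf (A Ψ (p ζ₀)) (deriv p ζ₀ : CE κ) := by
  unfold dspeed
  rw [cpt_ambQ_local hA hΨ hp hpW hfp 1]
  simp

theorem dspeed_comp (hΩ : IsOpen Ω) (hf : HolCurve 𝓧 f Ω) {A : HFam V' κ} (hA : IsHForm 𝓧 A)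
    {φ : ℂ → ℂ} {ζ : ℂ} (hφ : DifferentiableAt ℂ φ ζ) (hζ : φ ζ ∈ Ω) :
    dspeed 𝓧 A (fun w => f (φ w)) ζ = ‖deriv φ ζ‖ ^ 2 * dspeed 𝓧 A f (φ ζ) := by
  obtain ⟨Ψ, W, p, hΨ, hev⟩ := hf.exists_local hΩ hζ
  obtain ⟨h1, h2, -⟩ := hev.self_of_nhds
  rw [dspeed_local hA hΨ h1 h2 (hev.mono fun w h => h.2.2)]
  have hd : DifferentiableAt ℂ (fun w => p (φ w)) ζ := DifferentiableAt.comp (g := p) ζ h1 hφ
  rw [dspeed_local (f := fun w => f (φ w)) (p := fun w => p (φ w)) hA hΨ hd h2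
    (hφ.continuousAt.eventually (hev.mono fun w h => h.2.2))]
  have h3 : deriv (fun w => p (φ w)) ζ = deriv φ ζ • deriv p (φ ζ) :=
    (HasDerivAt.scomp ζ h1.hasDerivAt hφ.hasDerivAt).deriv
  rw [h3]
  exact qf_smul_vec _ _ _

theorem ambQ_fderiv (hΩ : IsOpen Ω) (hf : HolCurve 𝓧 f Ω) {A : HFam V' κ} (hA : IsHForm 𝓧 A)
    {ζ : ℂ} (hζ : ζ ∈ Ω) (c : ℂ) :
    ambQ 𝓧 A (f ζ) (fderiv ℝ f ζ c) = ‖c‖ ^ 2 * dspeed 𝓧 A f ζ := by
  obtain ⟨Ψ, W, p, hΨ, hev⟩ := hf.exists_local hΩ hζ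
  obtain ⟨h1, h2, -⟩ := hev.self_of_nhds
  rw [dspeed_local hA hΨ h1 h2 (hev.mono fun w h => h.2.2),
    cpt_ambQ_local hA hΨ h1 h2 (hev.mono fun w h => h.2.2)]

theorem continuousOn_dspeed (hΩ : IsOpen Ω) (hf : HolCurve 𝓧 f Ω) {A : HFam V' κ}
    (hA : IsHForm 𝓧 A) : ContinuousOn (dspeed 𝓧 A f) Ω := by
  intro ζ₀ hζ₀
  obtain ⟨Ψ, W, p, hΨ, hev⟩ := hf.exists_local hΩ hζ₀
  have hP := 𝓧.isParam hΨ
  obtain ⟨h1, h2, -⟩ := hev.self_of_nhds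
  have he : dspeed 𝓧 A f =ᶠ[𝓝 ζ₀] fun ζ => qf (A Ψ (p ζ)) (deriv p ζ : CE κ) := by
    filter_upwards [hev.eventually_nhds] with ζ h
    exact dspeed_local hA hΨ h.self_of_nhds.1 h.self_of_nhds.2.1 (h.mono fun w h => h.2.2)
  have hpc : ContDiffAt ℝ ∞ p ζ₀ := hol_contDiffAt_real (hev.mono fun ζ h => h.1)
  have hdc : ContinuousAt (deriv p) ζ₀ := by
    have han : AnalyticAt ℂ p ζ₀ := by
      obtain ⟨s, hs, hso, hζs⟩ := _root_.eventually_nhds_iff.1 (hev.mono fun ζ h => h.1)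
      exact (DifferentiableOn.analyticOnNhd (fun z hz => (hs z hz).differentiableWithinAt) hso) ζ₀ hζs
    exact han.deriv.continuousAt
  have hAc : ∀ j k, ContinuousAt (fun ζ => A Ψ (p ζ) j k) ζ₀ := fun j k =>
    ContinuousAt.comp (g := fun z => A Ψ z j k)
      ((hA.smooth hΨ j k).continuousOn.continuousAt (hP.isOpen.mem_nhds h2)) h1.continuousAt
  have hcomp : ∀ j, ContinuousAt (fun ζ => (deriv p ζ : CE κ) j) ζ₀ := fun j =>
    ((EuclideanSpace.proj j : CE κ →L[ℂ] ℂ).continuous.continuousAt).comp hdc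
  have hq : ContinuousAt (fun ζ => qf (A Ψ (p ζ)) (deriv p ζ : CE κ)) ζ₀ := by
    simp only [qf_eq_sum]
    refine Complex.continuous_re.continuousAt.comp ?_
    refine tendsto_finsetSum _ fun j _ => tendsto_finsetSum _ fun k _ => ?_
    exact ((Complex.continuous_conj.continuousAt.comp (hcomp j)).mul (hAc j k)).mul (hcomp k)
  exact (hq.congr he.symm).continuousWithinAt

theorem dspeed_nonneg (hΩ : IsOpen Ω) (hf : HolCurve 𝓧 f Ω) {A : HFam V' κ} (hA : IsHForm 𝓧 A)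
    (h0 : ∀ (Ψ : CE κ → V') (W : Set (CE κ)), 𝓧.IsHol Ψ W → ∀ z ∈ W, (A Ψ z).PosSemidef)
    {ζ : ℂ} (hζ : ζ ∈ Ω) : 0 ≤ dspeed 𝓧 A f ζ := by
  obtain ⟨Ψ, W, p, hΨ, hev⟩ := hf.exists_local hΩ hζ
  obtain ⟨h1, h2, -⟩ := hev.self_of_nhds
  rw [dspeed_local hA hΨ h1 h2 (hev.mono fun w h => h.2.2)]
  exact qf_nonneg (h0 Ψ W hΨ _ h2) _

theorem laplacian_comp_curve (hΩ : IsOpen Ω) (hf : HolCurve 𝓧 f Ω) {v : V' → ℝ}
    (hv : 𝓧.Smooth v) {ζ : ℂ} (hζ : ζ ∈ Ω) :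
    Δ (fun w => v (f w)) ζ = 4 * dspeed 𝓧 (ddc v) f ζ := by
  obtain ⟨Ψ, W, p, hΨ, hev⟩ := hf.exists_local hΩ hζ
  have hP := 𝓧.isParam hΨ
  obtain ⟨h1, h2, -⟩ := hev.self_of_nhds
  rw [dspeed_local (isHForm_ddc hv) hΨ h1 h2 (hev.mono fun w h => h.2.2)]
  have hc : ContDiffAt ℝ 2 (v ∘ Ψ) (p ζ) :=
    ((hv Ψ W hΨ _ h2).contDiffAt (hP.isOpen.mem_nhds h2)).of_le lv_two_le_infty
  show _ = 4 * qf (levi (v ∘ Ψ) (p ζ)) (deriv p ζ : CE κ)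
  rw [← s6g_laplacian_comp_hol (hev.mono fun w h => h.1) hc]
  refine (InnerProductSpace.laplacian_congr_nhds ?_).eq_of_nhds
  filter_upwards [hev] with w h
  show v (f w) = v (Ψ (p w))
  rw [h.2.2]

/-! #### S4-C-LEN -/

/-- the distance of two points of a holomorphic curve is at most the length of the image of the segment. -/
theorem hdist_le_seg (hΩ : IsOpen Ω) (hf : HolCurve 𝓧 f Ω) {h : HFam V' κ} (hm : IsMetric 𝓧 h)
    {z y : ℂ} (hseg : ∀ t ∈ Icc (0 : ℝ) 1, z + t • (y - z) ∈ Ω) :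
    hdist 𝓧 h (f z) (f y) ≤ seg (fun ζ => Real.sqrt (dspeed 𝓧 h f ζ)) z y := by
  set γ : ℝ → V' := fun t => f (z + t • (y - z)) with hγ
  have hline : ∀ t : ℝ, HasDerivAt (fun t : ℝ => z + t • (y - z)) (y - z) t := fun t => by
    simpa using ((hasDerivAt_id t).smul_const (y - z)).const_add z
  have hfd : ∀ t ∈ Icc (0 : ℝ) 1, HasDerivAt γ (fderiv ℝ f (z + t • (y - z)) (y - z)) t := by
    intro t ht
    have h1 : DifferentiableAt ℝ f (z + t • (y - z)) :=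
      ((hf.contDiffOn hΩ _ (hseg t ht)).contDiffAt (hΩ.mem_nhds (hseg t ht))).differentiableAt
        (by simp)
    exact h1.hasFDerivAt.comp_hasDerivAt t (hline t)
  have hγc : ContDiffOn ℝ 1 γ (Icc 0 1) := by
    have h1 : ContDiffOn ℝ 1 f Ω := (hf.contDiffOn hΩ).of_le (by simp)
    refine h1.comp (t := Ω) (g := f) (f := fun t : ℝ => z + t • (y - z)) ?_ hseg
    exact (contDiff_const.add (contDiff_id.smul contDiff_const)).contDiffOn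
  have h1 := hdist_le_integral_of_contDiffOn hm zero_le_one hγc (fun t ht => hf.1 _ (hseg t ht))
  have e0 : γ 0 = f z := by simp [hγ]
  have e1 : γ 1 = f y := by simp [hγ]
  rw [e0, e1] at h1
  refine h1.trans (le_of_eq ?_)
  unfold seg
  rw [← intervalIntegral.integral_const_mul]
  refine intervalIntegral.integral_congr fun t ht => ?_
  rw [uIcc_of_le zero_le_one] at ht
  have h2 : derivWithin γ (Icc 0 1) t = fderiv ℝ f (z + t • (y - z)) (y - z) :=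
    (hfd t ht).hasDerivWithinAt.derivWithin (uniqueDiffOn_Icc zero_lt_one t ht)
  show Real.sqrt (ambQ 𝓧 h (f (z + t • (y - z))) (derivWithin γ (Icc 0 1) t)) = _
  rw [h2, ambQ_fderiv hΩ hf hm.toIsHForm (hseg t ht), Real.sqrt_mul (sq_nonneg _),
    Real.sqrt_sq (norm_nonneg _)]

/-! #### speed up to the boundary (for S4-C-INV) -/

theorem cpt_continuousOn_qf {X : Type} [TopologicalSpace X] {B : X → Matrix κ κ ℂ}
    {v : X → κ → ℂ} {S : Set X} (hB : ∀ j k, ContinuousOn (fun x => B x j k) S)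
    (hv : ∀ j, ContinuousOn (fun x => v x j) S) : ContinuousOn (fun x => qf (B x) (v x)) S := by
  simp only [qf_eq_sum]
  refine Complex.continuous_re.comp_continuousOn ?_
  refine continuousOn_finsetSum _ fun j _ => continuousOn_finsetSum _ fun k _ => ?_
  exact ((Complex.continuous_conj.comp_continuousOn (hv j)).mul (hB j k)).mul (hv k)

/-- continuity up to the boundary of the squared speed of a map which is `C¹` on a set. -/
theorem cpt_continuousOn_speedWithin {A : HFam V' κ} (hA : IsHForm 𝓧 A) {D : Set ℂ}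
    (hD : UniqueDiffOn ℝ D) (hf : ContDiffOn ℝ 1 f D) (hmem : ∀ ζ ∈ D, f ζ ∈ 𝓧.carrier) :
    ContinuousOn (fun ζ => ambQ 𝓧 A (f ζ) (fderivWithin ℝ f D ζ 1)) D := by
  intro ζ₀ hζ₀
  have hx := hmem ζ₀ hζ₀
  have hΦ := 𝓧.isHol_pΦ hx
  set Φ := 𝓧.pΦ (f ζ₀) with hΦdef
  set U := 𝓧.pU (f ζ₀) with hUdef
  have hp := 𝓧.isParam hΦ
  obtain ⟨O, hO, hOe⟩ := hp.image
  have hxO : f ζ₀ ∈ O := (hOe ▸ 𝓧.mem_image_pΦ hx : f ζ₀ ∈ 𝓧.carrier ∩ O).2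
  have hpre : f ⁻¹' O ∈ 𝓝[D] ζ₀ := (hf ζ₀ hζ₀).continuousWithinAt.preimage_mem_nhdsWithin
    (hO.mem_nhds hxO)
  obtain ⟨v, hvo, hζ₀v, hvs⟩ := mem_nhdsWithin.1 hpre
  have him : ∀ ζ ∈ D ∩ v, f ζ ∈ Φ '' U := by
    intro ζ hζ
    rw [hOe]
    exact ⟨hmem ζ hζ.1, hvs ⟨hζ.2, hζ.1⟩⟩
  set c := Function.invFunOn Φ U ∘ f with hc
  have hcd : ∀ ζ ∈ D ∩ v, ContDiffWithinAt ℝ 1 c D ζ := fun ζ hζ =>
    hp.contDiffWithinAt_invFunOn_comp (by exact_mod_cast le_top) (hf ζ hζ.1) hmem hζ.1 (him ζ hζ)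
  have hcd' : ContDiffOn ℝ 1 c (D ∩ v) := fun ζ hζ => (hcd ζ hζ).mono inter_subset_left
  have hu : UniqueDiffOn ℝ (D ∩ v) := hD.inter hvo
  have hcU : ∀ ζ ∈ D ∩ v, c ζ ∈ U := fun ζ hζ => hp.invFunOn_mem (him ζ hζ)
  have hcf : ∀ ζ ∈ D ∩ v, Φ (c ζ) = f ζ := fun ζ hζ => hp.rightInv (him ζ hζ)
  have hder : ∀ ζ ∈ D ∩ v, fderivWithin ℝ f D ζ 1 = fderiv ℝ Φ (c ζ) (fderivWithin ℝ c D ζ 1) := by
    intro ζ hζ
    have hd : HasFDerivWithinAt c (fderivWithin ℝ c D ζ) D ζ :=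
      ((hcd ζ hζ).differentiableWithinAt (by norm_num)).hasFDerivWithinAt
    have hcomp := (hp.differentiableAt (hcU ζ hζ)).hasFDerivAt.comp_hasFDerivWithinAt ζ hd
    have hev : f =ᶠ[𝓝[D] ζ] Φ ∘ c := by
      have : D ∩ v ∈ 𝓝[D] ζ := inter_mem_nhdsWithin D (hvo.mem_nhds hζ.2)
      filter_upwards [this] with y hy
      exact (hcf y hy).symm
    rw [(hcomp.congr_of_eventuallyEq hev (hcf ζ hζ).symm).fderivWithin (hD ζ hζ.1)]
    rfl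
  have heq : ∀ ζ ∈ D ∩ v, ambQ 𝓧 A (f ζ) (fderivWithin ℝ f D ζ 1) =
      qf (A Φ (c ζ)) (fderivWithin ℝ c D ζ 1 : CE κ) := by
    intro ζ hζ
    rw [hder ζ hζ, ← hcf ζ hζ, ambQ_param hA hΦ (hcU ζ hζ)]
  have hdc : ContinuousOn (fun ζ => fderivWithin ℝ c D ζ 1) (D ∩ v) := by
    have h1 : ContinuousOn (fderivWithin ℝ c (D ∩ v)) (D ∩ v) :=
      hcd'.continuousOn_fderivWithin hu le_rfl
    have h2 : ContinuousOn (fun ζ => fderivWithin ℝ c (D ∩ v) ζ 1) (D ∩ v) :=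
      h1.clm_apply continuousOn_const
    refine h2.congr fun ζ hζ => ?_
    show fderivWithin ℝ c D ζ 1 = fderivWithin ℝ c (D ∩ v) ζ 1
    rw [fderivWithin_inter (hvo.mem_nhds hζ.2)]
  have hq : ContinuousOn (fun ζ => qf (A Φ (c ζ)) (fderivWithin ℝ c D ζ 1 : CE κ)) (D ∩ v) := by
    refine cpt_continuousOn_qf (fun j k => ?_) fun j => ?_
    · exact ContinuousOn.comp (g := fun z => A Φ z j k) (t := U) (hA.smooth hΦ j k).continuousOn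
        hcd'.continuousOn hcU
    · exact (EuclideanSpace.proj j : CE κ →L[ℂ] ℂ).continuous.comp_continuousOn hdc
  have h3 := (hq.congr heq) ζ₀ ⟨hζ₀, hζ₀v⟩
  exact h3.mono_of_mem_nhdsWithin (inter_mem_nhdsWithin D (hvo.mem_nhds hζ₀v))

theorem cpt_integrableOn_dspeed {A : HFam V' κ} (hA : IsHForm 𝓧 A) (hf : IsSmDisc 𝓧 f) :
    IntegrableOn (dspeed 𝓧 A f) (ball 0 1) := by
  have hD : UniqueDiffOn ℝ (closedBall (0 : ℂ) 1) :=
    uniqueDiffOn_convex (convex_closedBall (0 : ℂ) 1)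
      (by rw [interior_closedBall _ one_ne_zero]; exact ⟨0, by simp⟩)
  have h1 := cpt_continuousOn_speedWithin hA hD (hf.2.1.of_le (by simp)) hf.2.2
  have h2 : IntegrableOn (fun ζ => ambQ 𝓧 A (f ζ) (fderivWithin ℝ f (closedBall 0 1) ζ 1))
      (ball 0 1) :=
    (h1.integrableOn_compact (isCompact_closedBall 0 1)).mono_set ball_subset_closedBall
  refine h2.congr_fun (fun ζ hζ => ?_) measurableSet_ball
  show ambQ 𝓧 A (f ζ) (fderivWithin ℝ f (closedBall 0 1) ζ 1) = ambQ 𝓧 A (f ζ) (fderiv ℝ f ζ 1)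
  rw [fderivWithin_of_mem_nhds
    (Filter.mem_of_superset (isOpen_ball.mem_nhds hζ) ball_subset_closedBall)]

end curves

/-! ### S4-C-GRAM, S4-C-EIG: matrix facts -/

section matrix

variable {ι κ : Type} [Fintype ι] [DecidableEq ι] [Fintype κ] [DecidableEq κ]

theorem cpt_griffM_gram {U : Set (CE ι)} (hU : IsOpen U) {J : CE ι → Matrix κ ι ℂ}
    (hJ : ∀ a b, DifferentiableOn ℂ (fun z => J z a b) U) {z : CE ι} (hz : z ∈ U) (X : ι → ℂ) :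
    griffM (fun w => (J w)ᴴ * J w) z X =
      - ((∑ l, X l • dzM l J z)ᴴ * (1 - J z * ((J z)ᴴ * J z)⁻¹ * (J z)ᴴ) *
        (∑ l, X l • dzM l J z)) := by
  have hJs : ∀ a b, ContDiffOn ℝ ∞ (fun w => J w a b) U := fun a b =>
    hol_contDiffOn_real hU (hJ a b)
  have hJc : ∀ w ∈ U, ∀ a b, ContDiffAt ℝ ∞ (fun w => J w a b) w := fun w hw a b =>
    (hJs a b w hw).contDiffAt (hU.mem_nhds hw)
  have hJd : ∀ w ∈ U, ∀ a b, DifferentiableAt ℝ (fun w => J w a b) w := fun w hw a b =>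
    (hJc w hw a b).differentiableAt (by simp)
  have hJHd : ∀ w ∈ U, ∀ a b, DifferentiableAt ℝ (fun w => (J w)ᴴ a b) w := fun w hw a b =>
    ((contDiffOn_conjTranspose hJs a b w hw).contDiffAt (hU.mem_nhds hw)).differentiableAt
      (by simp)
  have hb0 : ∀ w ∈ U, ∀ m, dzbM m J w = 0 := by
    intro w hw m
    ext a b
    exact dzb_of_differentiableAt ((hJ a b).differentiableAt (hU.mem_nhds hw))
  have h1 : ∀ w ∈ U, ∀ l, dzM l (fun w => (J w)ᴴ * J w) w = (J w)ᴴ * dzM l J w := by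
    intro w hw l
    rw [dzM_mul (hJHd w hw) (hJd w hw), dzM_conjTranspose, hb0 w hw, Matrix.conjTranspose_zero,
      Matrix.zero_mul, zero_add]
  have h2 : ∀ w ∈ U, ∀ m, dzbM m (fun w => (J w)ᴴ * J w) w = (dzM m J w)ᴴ * J w := by
    intro w hw m
    rw [dzbM_mul (hJHd w hw) (hJd w hw), dzbM_conjTranspose, hb0 w hw, Matrix.mul_zero, add_zero]
  have h3 : ∀ l m, dzbM m (dzM l (fun w => (J w)ᴴ * J w)) z = (dzM m J z)ᴴ * dzM l J z := by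
    intro l m
    have e : ∀ᶠ w in 𝓝 z, dzM l (fun w => (J w)ᴴ * J w) w = (J w)ᴴ * dzM l J w := by
      filter_upwards [hU.mem_nhds hz] with w hw
      exact h1 w hw l
    have hD : ∀ a b, DifferentiableAt ℝ (fun w => dzM l J w a b) z := fun a b =>
      (contDiffAt_dzM (N := 1) (N' := ∞) (hJc z hz)
        (by rw [one_add_one_eq_two]; exact lv_two_le_infty) a b).differentiableAt (by simp)
    have h0 : dzbM m (dzM l J) z = 0 := by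
      rw [← dzM_dzbM_comm (fun a b => (hJc z hz a b).of_le lv_two_le_infty)]
      have e2 : ∀ᶠ w in 𝓝 z, dzbM m J w = (fun _ => (0 : Matrix κ ι ℂ)) w := by
        filter_upwards [hU.mem_nhds hz] with w hw
        exact hb0 w hw m
      rw [dzM_congr e2, dzM_const]
    rw [dzbM_congr e, dzbM_mul (hJHd z hz) hD, dzbM_conjTranspose, h0, Matrix.mul_zero, add_zero]
  simp only [griffM, h3, h2 z hz, h1 z hz]
  rw [Matrix.conjTranspose_sum, Matrix.sum_mul, Matrix.sum_mul, ← Finset.sum_neg_distrib,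
    Finset.sum_comm]
  refine Finset.sum_congr rfl fun m _ => ?_
  rw [Matrix.mul_sum, ← Finset.sum_neg_distrib]
  refine Finset.sum_congr rfl fun l _ => ?_
  rw [Matrix.conjTranspose_smul, Matrix.smul_mul, Matrix.smul_mul, Matrix.mul_smul, smul_smul,
    ← smul_neg, mul_comm (X l)]
  congr 1
  rw [Matrix.mul_sub, Matrix.sub_mul, Matrix.mul_one]
  simp only [Matrix.mul_assoc]
  abel

/-- `log det (JᴴJ)` is plurisubharmonic for a holomorphic injective matrix function `J`. -/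
theorem levi_logdet_gram_posSemidef {U : Set (CE ι)} (hU : IsOpen U) {J : CE ι → Matrix κ ι ℂ}
    (hJ : ∀ a b, DifferentiableOn ℂ (fun z => J z a b) U)
    (hpd : ∀ z ∈ U, ((J z)ᴴ * J z).PosDef) {z : CE ι} (hz : z ∈ U) :
    (levi (fun w => Real.log ((J w)ᴴ * J w).det.re) z).PosSemidef := by
  have hJs : ∀ a b, ContDiffOn ℝ ∞ (fun w => J w a b) U := fun a b =>
    hol_contDiffOn_real hU (hJ a b)
  have hHs : ∀ j k, ContDiffOn ℝ ∞ (fun w => ((J w)ᴴ * J w) j k) U :=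
    contDiffOn_matMul (contDiffOn_conjTranspose hJs) hJs
  have hlog : ContDiffAt ℝ 2 (fun w => Real.log ((J w)ᴴ * J w).det.re) z :=
    (((contDiffOn_logDet_of_posDef hHs hpd) z hz).contDiffAt (hU.mem_nhds hz)).of_le lv_two_le_infty
  rw [posSemidef_iff_qf (levi_isHermitian hlog)]
  intro X
  have h := trace_inv_mul_griffM hU hHs hpd hz X
  rw [qf_neg, cpt_griffM_gram hU hJ hz X, Matrix.mul_neg, Matrix.trace_neg, Complex.neg_re,
    neg_inj] at h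
  rw [← h]
  refine trace_inv_mul_nonneg (hpd z hz) ?_
  refine Matrix.PosSemidef.conjTranspose_mul_mul_same ?_ _
  set H := (J z)ᴴ * J z with hH
  have hHu : IsUnit H.det := isUnit_iff_ne_zero.2 (hpd z hz).det_pos.ne'
  have hHi : (H⁻¹)ᴴ = H⁻¹ := (hpd z hz).inv.isHermitian.eq
  set P := 1 - J z * H⁻¹ * (J z)ᴴ with hP
  have hPh : Pᴴ = P := by
    rw [hP, Matrix.conjTranspose_sub, Matrix.conjTranspose_one, Matrix.conjTranspose_mul,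
      Matrix.conjTranspose_mul, Matrix.conjTranspose_conjTranspose, hHi, Matrix.mul_assoc]
  have hPP : P * P = P := by
    have e : J z * H⁻¹ * (J z)ᴴ * (J z * H⁻¹ * (J z)ᴴ) = J z * H⁻¹ * (J z)ᴴ := by
      calc _ = J z * (H⁻¹ * H) * H⁻¹ * (J z)ᴴ := by rw [hH]; simp only [Matrix.mul_assoc]
        _ = _ := by rw [Matrix.nonsing_inv_mul _ hHu, Matrix.mul_one]
    rw [hP, Matrix.mul_sub, Matrix.sub_mul, Matrix.sub_mul, Matrix.one_mul, Matrix.mul_one,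
      Matrix.one_mul, e]
    abel
  have : P = Pᴴ * P := by rw [hPh, hPP]
  rw [this]
  exact Matrix.posSemidef_conjTranspose_mul_self P

theorem qf_mul_det_le {G A : Matrix ι ι ℂ} (hG : G.PosDef) (hA : A.PosDef) (v : ι → ℂ) :
    qf G v * (A.det / G.det).re ≤ ((G⁻¹ * A).trace.re) ^ (Fintype.card ι - 1) * qf A v := by
  obtain ⟨T, d, hT, h1, hD⟩ := exists_simDiag hG hA.isHermitian
  have hd := (simDiag_posDef_iff h1 hD).1 hA
  have hu : IsUnit T.det := isUnit_iff_ne_zero.2 hT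
  have hv : v = T *ᵥ (T⁻¹ *ᵥ v) := by
    rw [Matrix.mulVec_mulVec, Matrix.mul_nonsing_inv _ hu, Matrix.one_mulVec]
  set w := T⁻¹ *ᵥ v with hw
  have hGdet : G.det ≠ 0 := hG.det_pos.ne'
  have hdet : (A.det / G.det).re = ∏ i, d i := by
    rw [simDiag_det h1 hD, mul_div_assoc, div_self hGdet, mul_one, Complex.ofReal_re]
  rw [hdet, simDiag_trace_re h1 hD, hv, simDiag_qf hD, simDiag_qf_one h1, Finset.sum_mul,
    Finset.mul_sum]
  refine Finset.sum_le_sum fun i _ => ?_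
  have h2 : ∏ j, d j ≤ (∑ j, d j) ^ (Fintype.card ι - 1) * d i := by
    rw [← Finset.mul_prod_erase Finset.univ d (Finset.mem_univ i), mul_comm]
    refine mul_le_mul_of_nonneg_right ?_ (hd i).le
    calc ∏ j ∈ Finset.univ.erase i, d j ≤ ∏ _j ∈ Finset.univ.erase i, (∑ j, d j) :=
          Finset.prod_le_prod (fun j _ => (hd j).le) fun j _ =>
            Finset.single_le_sum (fun k _ => (hd k).le) (Finset.mem_univ j)
      _ = _ := by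
          rw [Finset.prod_const, Finset.card_erase_of_mem (Finset.mem_univ i), Finset.card_univ]
  calc ‖w i‖ ^ 2 * ∏ j, d j ≤ ‖w i‖ ^ 2 * ((∑ j, d j) ^ (Fintype.card ι - 1) * d i) :=
        mul_le_mul_of_nonneg_left h2 (sq_nonneg _)
    _ = _ := by ring

theorem qf_le_trace_mul {G A : Matrix ι ι ℂ} (hG : G.PosDef) (hA : A.PosSemidef) (v : ι → ℂ) :
    qf A v ≤ (G⁻¹ * A).trace.re * qf G v := by
  obtain ⟨T, d, hT, h1, hD⟩ := exists_simDiag hG hA.isHermitian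
  have hd := (simDiag_posSemidef_iff h1 hD).1 hA
  have hu : IsUnit T.det := isUnit_iff_ne_zero.2 hT
  have hv : v = T *ᵥ (T⁻¹ *ᵥ v) := by
    rw [Matrix.mulVec_mulVec, Matrix.mul_nonsing_inv _ hu, Matrix.one_mulVec]
  set w := T⁻¹ *ᵥ v with hw
  rw [simDiag_trace_re h1 hD, hv, simDiag_qf hD, simDiag_qf_one h1, Finset.mul_sum]
  refine Finset.sum_le_sum fun i _ => ?_
  exact mul_le_mul_of_nonneg_right
    (Finset.single_le_sum (fun k _ => hd k) (Finset.mem_univ i)) (sq_nonneg _)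

end matrix

/-! ### the immersion `F`, the functions `ψ`, `Λ` -/

section immersion

variable {V : Type} [NormedAddCommGroup V] [InnerProductSpace ℝ V] [FiniteDimensional ℝ V]
variable [MeasurableSpace V] [BorelSpace V]
variable {n : ℕ} {𝓜 : CMfd V (Fin n)} {g : HFam V (Fin n)} {o : V}

/-! #### S4-C-PSI -/

theorem cpt_jacF_trans1 (Pd : PrelimData 𝓜 g o) {Φ Ψ : CE (Fin n) → V} {U W : Set (CE (Fin n))}
    (hΦ : 𝓜.IsHol Φ U) (hΨ : 𝓜.IsHol Ψ W) {z : CE (Fin n)} (hz : z ∈ U) (h : Φ z ∈ Ψ '' W) :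
    jac (Pd.F ∘ Φ) z = jac (Pd.F ∘ Ψ) (Function.invFunOn Ψ W (Φ z)) *
      jac (Function.invFunOn Ψ W ∘ Φ) z := by
  have hz' : z ∈ U ∩ Φ ⁻¹' (Ψ '' W) := ⟨hz, h⟩
  rw [jac_congr (CMfd.eventually_comp_eq Pd.F hΦ hΨ hz')]
  exact jac_comp _ _ ((Pd.F_hol Ψ W hΨ).differentiableAt
    ((CMfd.isOpen_dom hΨ).mem_nhds (CMfd.trans_mem hΦ hΨ hz')))
    (CMfd.trans_differentiableAt hΦ hΨ hz')

theorem cpt_jac_mulVec_injective {κ ι : Type} [Fintype κ] [DecidableEq κ] [Fintype ι]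
    [DecidableEq ι]
    {τ : CE ι → CE κ} {z : CE ι}
    (h : Function.Injective (fderiv ℂ τ z)) : Function.Injective (jac τ z).mulVec := by
  intro v w hvw
  have h1 : fderiv ℂ τ z (WithLp.toLp 2 v) = fderiv ℂ τ z (WithLp.toLp 2 w) := by
    ext k
    rw [← jac_mulVec, ← jac_mulVec]
    exact congrFun hvw k
  have h2 := h h1
  exact (WithLp.toLp_injective 2) h2

theorem fE_isMetric (Pd : PrelimData 𝓜 g o) : IsMetric 𝓜 (fE Pd) := by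
  refine ⟨⟨fun {Φ U} hΦ z hz => ?_, fun {Φ U} hΦ j k => ?_, fun {Φ Ψ U W} hΦ hΨ z hz h => ?_⟩,
    fun {Φ U} hΦ z hz => ?_⟩
  · exact Matrix.isHermitian_conjTranspose_mul_self _
  · have hJ : ∀ a b, ContDiffOn ℝ ∞ (fun w => jac (Pd.F ∘ Φ) w a b) U := fun a b =>
      contDiffOn_jac (CMfd.isOpen_dom hΦ) (Pd.F_hol Φ U hΦ) a b
    exact contDiffOn_matMul (contDiffOn_conjTranspose hJ) hJ j k
  · unfold fE
    rw [cpt_jacF_trans1 Pd hΦ hΨ hz h, Matrix.conjTranspose_mul]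
    simp only [Matrix.mul_assoc]
  · exact Matrix.PosDef.conjTranspose_mul_self _
      (cpt_jac_mulVec_injective (Pd.F_imm Φ U hΦ z hz))

theorem continuousOn_F (Pd : PrelimData 𝓜 g o) : ContinuousOn Pd.F 𝓜.carrier := by
  intro x hx
  obtain ⟨Φ, U, hΦ, z, hz, rfl⟩ := 𝓜.cover x hx
  have hP := 𝓜.isParam hΦ
  have h1 := hP.tendsto_invFunOn hz
  have h2 : ContinuousAt (Pd.F ∘ Φ) z :=
    ((Pd.F_hol Φ U hΦ).differentiableAt (hP.isOpen.mem_nhds hz)).continuousAt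
  have h3 : Filter.Tendsto (fun y => (Pd.F ∘ Φ) (Function.invFunOn Φ U y)) (𝓝[𝓜.carrier] (Φ z))
      (𝓝 (Pd.F (Φ z))) := h2.tendsto.comp h1
  refine h3.congr' ?_
  filter_upwards [hP.eventually_mem_image hz Filter.univ_mem] with y hy
  show Pd.F (Φ (Function.invFunOn Φ U y)) = Pd.F y
  rw [hP.rightInv (image_mono inter_subset_right hy)]

theorem dspeed_fE (Pd : PrelimData 𝓜 g o) {f : ℂ → V} {Ω : Set ℂ} (hΩ : IsOpen Ω)
    (hf : HolCurve 𝓜 f Ω) {ζ : ℂ} (hζ : ζ ∈ Ω) :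
    dspeed 𝓜 (fE Pd) f ζ = ‖deriv (fun w => Pd.F (f w)) ζ‖ ^ 2 := by
  obtain ⟨Ψ, W, p, hΨ, hev⟩ := hf.exists_local hΩ hζ
  obtain ⟨h1, h2, -⟩ := hev.self_of_nhds
  rw [dspeed_local (fE_isMetric Pd).toIsHForm hΨ h1 h2 (hev.mono fun w h => h.2.2)]
  have hFd : DifferentiableAt ℂ (Pd.F ∘ Ψ) (p ζ) :=
    (Pd.F_hol Ψ W hΨ).differentiableAt ((CMfd.isOpen_dom hΨ).mem_nhds h2)
  have e : (fun w => Pd.F (f w)) =ᶠ[𝓝 ζ] fun w => (Pd.F ∘ Ψ) (p w) := by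
    filter_upwards [hev] with w hw
    show Pd.F (f w) = Pd.F (Ψ (p w))
    rw [hw.2.2]
  have hd : HasDerivAt (fun w => (Pd.F ∘ Ψ) (p w)) (fderiv ℂ (Pd.F ∘ Ψ) (p ζ) (deriv p ζ)) ζ :=
    hFd.hasFDerivAt.comp_hasDerivAt ζ h1.hasDerivAt
  rw [e.deriv_eq, hd.deriv, EuclideanSpace.norm_sq_eq]
  unfold fE
  have : (jac (Pd.F ∘ Ψ) (p ζ))ᴴ * jac (Pd.F ∘ Ψ) (p ζ) =
      (jac (Pd.F ∘ Ψ) (p ζ))ᴴ * (1 : Matrix (Fin Pd.NF) (Fin Pd.NF) ℂ) * jac (Pd.F ∘ Ψ) (p ζ) := by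
    rw [Matrix.mul_one]
  rw [this, qf_conj, qf_one]
  refine Finset.sum_congr rfl fun j _ => ?_
  rw [← jac_mulVec]

theorem psiF_smooth (I : InitialData 𝓜 g) (Pd : PrelimData 𝓜 g o) : 𝓜.Smooth (psiF Pd) :=
  smooth_log_detRatio (fE_isMetric Pd) I.kahler.toIsMetric

theorem cpt_ricF_posSemidef (I : InitialData 𝓜 g) {Φ : CE (Fin n) → V}
    {U : Set (CE (Fin n))} (hΦ : 𝓜.IsHol Φ U) {z : CE (Fin n)} (hz : z ∈ U) :
    (ricF g Φ z).PosSemidef := by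
  have hg : IsMetric 𝓜 g := I.kahler.toIsMetric
  have hUo := CMfd.isOpen_dom hΦ
  rw [posSemidef_iff_qf ((isHForm_ricF hg).herm hΦ z hz)]
  intro X
  have h1 := trace_inv_mul_griffM (H := g Φ) hUo (fun j k => hg.smooth hΦ j k)
    (fun x hx => hg.posDef hΦ x hx) hz X
  show 0 ≤ qf (- levi (fun y => Real.log (g Φ y).det.re) z) X
  rw [← h1]
  have hherm := griffM_isHermitian (H := g Φ) hUo (fun j k => hg.smooth hΦ j k)
    (fun x hx => hg.posDef hΦ x hx) hz X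
  have hpd : (griffM (g Φ) z X).PosSemidef := by
    rw [posSemidef_iff_qf hherm]
    intro u
    rw [← bisec_eq_griffM]
    by_cases hu : u = 0
    · subst hu
      simp [bisec]
    by_cases hX : X = 0
    · subst hX
      simp [bisec]
    exact (I.bisec Φ U hΦ z hz u X hu hX).le
  exact trace_mul_nonneg (hg.posDef hΦ z hz).inv.posSemidef hpd

theorem ddc_psiF_posSemidef (I : InitialData 𝓜 g) (Pd : PrelimData 𝓜 g o) (Φ : CE (Fin n) → V)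
    (U : Set (CE (Fin n))) (hΦ : 𝓜.IsHol Φ U) (z : CE (Fin n)) (hz : z ∈ U) :
    (ddc (psiF Pd) Φ z).PosSemidef := by
  have hg : IsMetric 𝓜 g := I.kahler.toIsMetric
  have hE := fE_isMetric Pd
  have h1 := ricF_sub_ricF hE hg hΦ hz
  have h2 : ddc (psiF Pd) Φ z = ricF g Φ z + - ricF (fE Pd) Φ z := by
    have : ddc (psiF Pd) Φ z = ddc (fun x => Real.log (detRatio 𝓜 (fE Pd) g x)) Φ z := rfl
    rw [this, ← neg_inj, ← h1]
    abel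
  rw [h2]
  refine (cpt_ricF_posSemidef I hΦ hz).add ?_
  have h3 : - ricF (fE Pd) Φ z =
      levi (fun w => Real.log ((jac (Pd.F ∘ Φ) w)ᴴ * jac (Pd.F ∘ Φ) w).det.re) z := by
    simp only [ricF, neg_neg]
    rfl
  rw [h3]
  exact levi_logdet_gram_posSemidef (CMfd.isOpen_dom hΦ)
    (fun a b => differentiableOn_jac (CMfd.isOpen_dom hΦ) (Pd.F_hol Φ U hΦ) a b)
    (fun w hw => hE.posDef hΦ w hw) hz

/-! #### S4-C-LAM -/

theorem lamF_smooth (I : InitialData 𝓜 g) (Pd : PrelimData 𝓜 g o) : 𝓜.Smooth (lamF Pd) :=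
  smooth_tr I.kahler.toIsMetric (fE_isMetric Pd).toIsHForm

/-- `tr (G⁻¹ JᴴJ) = ∑_a |row_a J|²_{G⁻¹}`. -/
theorem cpt_trace_gram {ι κ : Type} [Fintype ι] [DecidableEq ι] [Fintype κ] [DecidableEq κ]
    (G : Matrix ι ι ℂ) (J : Matrix κ ι ℂ) :
    (G⁻¹ * (Jᴴ * J)).trace.re = ∑ a, qf (G⁻¹)ᵀ (J a) := by
  have h : Jᴴ * J = ∑ a, Matrix.of fun j k => (starRingEnd ℂ) (J a j) * J a k := by
    ext j k
    rw [Matrix.mul_apply, Matrix.sum_apply]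
    rfl
  rw [h, Finset.mul_sum, Matrix.trace_sum, Complex.re_sum]
  exact Finset.sum_congr rfl fun a _ => trace_inv_mul_rankOne G (J a)

theorem ddc_lamF_posSemidef (I : InitialData 𝓜 g) (Pd : PrelimData 𝓜 g o) (Φ : CE (Fin n) → V)
    (U : Set (CE (Fin n))) (hΦ : 𝓜.IsHol Φ U) (z : CE (Fin n)) (hz : z ∈ U) :
    (ddc (lamF Pd) Φ z).PosSemidef := by
  have hg : IsMetric 𝓜 g := I.kahler.toIsMetric
  have hE := fE_isMetric Pd
  have hU := CMfd.isOpen_dom hΦ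
  set τ : Fin Pd.NF → CE (Fin n) → CE (Fin n ⊕ Fin n) := fun a w =>
    cJoin w (WithLp.toLp 2 (jac (Pd.F ∘ Φ) w a)) with hτ
  have hτd : ∀ a, ∀ w ∈ U, DifferentiableAt ℂ (τ a) w := by
    intro a w hw
    rw [differentiableAt_euclidean]
    rintro (j | k)
    · exact (EuclideanSpace.proj j : CE (Fin n) →L[ℂ] ℂ).differentiableAt
    · exact (differentiableOn_jac hU (Pd.F_hol Φ U hΦ) a k).differentiableAt (hU.mem_nhds hw)
  have hτm : ∀ a, ∀ w ∈ U, τ a w ∈ cotDom U := fun a w hw => by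
    show cBase (τ a w) ∈ U
    exact hw
  have e : (lamF Pd ∘ Φ) =ᶠ[𝓝 z] fun w => ∑ a, nloc g Φ (τ a w) := by
    filter_upwards [hU.mem_nhds hz] with w hw
    show tr 𝓜 g (fE Pd) (Φ w) = _
    rw [tr_eq hg hE.toIsHForm hΦ hw]
    exact cpt_trace_gram _ _
  have hno : IsOpen (cotDom U) := s6g_isOpen_cotDom hU
  have hc : ∀ a, ContDiffAt ℝ 2 (nloc g Φ) (τ a z) := fun a =>
    (((s6g_contDiffOn_nloc hU (hg.smooth hΦ) (hg.posDef hΦ)) _ (hτm a z hz)).contDiffAt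
      (hno.mem_nhds (hτm a z hz))).of_le lv_two_le_infty
  have hev : ∀ a, ∀ᶠ w in 𝓝 z, DifferentiableAt ℂ (τ a) w := fun a => by
    filter_upwards [hU.mem_nhds hz] with w hw
    exact hτd a w hw
  have hc2 : ∀ a, ContDiffAt ℝ 2 (fun w => nloc g Φ (τ a w)) z := fun a =>
    (hc a).comp z ((hol_contDiffAt_real (hev a)).of_le lv_two_le_infty)
  show (levi (lamF Pd ∘ Φ) z).PosSemidef
  rw [levi_congr e, levi_sum _ _ fun a _ => hc2 a]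
  refine Matrix.posSemidef_sum _ fun a _ => ?_
  refine levi_comp_hol_posSemidef (τ a) (nloc g Φ) (hev a) (hc a) ?_
  refine s6g_levi_nloc_posSemidef hU (hg.smooth hΦ) (hg.posDef hΦ) ?_ (hτm a z hz)
  intro w hw v u
  by_cases hv : v = 0
  · subst hv
    simp [bisec]
  by_cases hu : u = 0
  · subst hu
    simp [bisec]
  exact (I.bisec Φ U hΦ w hw v u hv hu).le

/-! #### S4-C-EIG (manifold form) -/

/-- `g ≤ Λ^{n-1} e^{-ψ} F^*g_eucl`. -/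
theorem inv_jacobian_ineq (I : InitialData 𝓜 g) (Pd : PrelimData 𝓜 g o) {Φ : CE (Fin n) → V}
    {U : Set (CE (Fin n))} (hΦ : 𝓜.IsHol Φ U) {z : CE (Fin n)} (hz : z ∈ U) (v : Fin n → ℂ) :
    qf (g Φ z) v ≤ lamF Pd (Φ z) ^ (n - 1) * Real.exp (- psiF Pd (Φ z)) * qf (fE Pd Φ z) v := by
  have hg : IsMetric 𝓜 g := I.kahler.toIsMetric
  have hE := fE_isMetric Pd
  have hx : Φ z ∈ 𝓜.carrier := (𝓜.isParam hΦ).mem hz
  have hr : 0 < detRatio 𝓜 (fE Pd) g (Φ z) := detRatio_pos hE hg hx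
  have h1 := qf_mul_det_le (hg.posDef hΦ z hz) (hE.posDef hΦ z hz) v
  rw [← detRatio_eq hE.toIsHForm hg hΦ hz, ← tr_eq hg hE.toIsHForm hΦ hz, Fintype.card_fin] at h1
  unfold lamF psiF
  rw [Real.exp_neg, Real.exp_log hr]
  rw [← le_div_iff₀ hr] at h1
  refine h1.trans (le_of_eq ?_)
  rw [div_eq_mul_inv]
  ring

/-- `F^*g_eucl ≤ Λ g`. -/
theorem fE_le_lamF (I : InitialData 𝓜 g) (Pd : PrelimData 𝓜 g o) {Φ : CE (Fin n) → V}
    {U : Set (CE (Fin n))} (hΦ : 𝓜.IsHol Φ U) {z : CE (Fin n)} (hz : z ∈ U) (v : Fin n → ℂ) :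
    qf (fE Pd Φ z) v ≤ lamF Pd (Φ z) * qf (g Φ z) v := by
  have hg : IsMetric 𝓜 g := I.kahler.toIsMetric
  have hE := fE_isMetric Pd
  have h1 := qf_le_trace_mul (hg.posDef hΦ z hz) (hE.posDef hΦ z hz).posSemidef v
  rw [← tr_eq hg hE.toIsHForm hΦ hz] at h1
  exact h1

/-! #### S4-C-TRAP -/

/-- **Trapping lemma**: a connected subset of `M` which meets the compact `K₁` and has small `F`-diameter stays in a compact `K₂`. -/
theorem trapping (I : InitialData 𝓜 g) (Pd : PrelimData 𝓜 g o) {K₁ : Set V} (hK₁ : IsCompact K₁)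
    (hsub : K₁ ⊆ 𝓜.carrier) :
    ∃ η : ℝ, 0 < η ∧ ∃ K₂ : Set V, IsCompact K₂ ∧ K₂ ⊆ 𝓜.carrier ∧
      ∀ S : Set V, S ⊆ 𝓜.carrier → IsPreconnected S → (S ∩ K₁).Nonempty →
        (∀ x ∈ S, ∀ y ∈ S, ‖Pd.F x - Pd.F y‖ < η) → S ⊆ K₂ := by
  rcases K₁.eq_empty_or_nonempty with rfl | hne
  · exact ⟨1, one_pos, ∅, isCompact_empty, empty_subset _, fun S _ _ h => by simp at h⟩
  have hci : Continuous fun y : V => infDist y K₁ := continuous_infDist_pt K₁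
  have hK₂ : IsCompact (𝓜.carrier ∩ cthickening 1 K₁) :=
    (hK₁.cthickening).inter_left I.closed
  have hmemc : ∀ y : V, y ∈ cthickening 1 K₁ ↔ infDist y K₁ ≤ 1 := by
    intro y
    rw [mem_cthickening_iff, infDist, ENNReal.le_ofReal_iff_toReal_le (infEDist_ne_top hne) zero_le_one]
  set Sh : Set V := 𝓜.carrier ∩ {y | infDist y K₁ = 1} with hSh
  have hShc : IsCompact Sh := by
    refine hK₂.of_isClosed_subset (I.closed.inter (isClosed_eq hci continuous_const)) ?_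
    rintro y ⟨h1, h2⟩
    exact ⟨h1, (hmemc y).2 (le_of_eq h2)⟩
  have hF := continuousOn_F Pd
  -- the minimum of `‖F x - F y‖` on `K₁ × Sh`
  have hη : ∃ η : ℝ, 0 < η ∧ ∀ x ∈ K₁, ∀ y ∈ Sh, η ≤ ‖Pd.F x - Pd.F y‖ := by
    rcases Sh.eq_empty_or_nonempty with he | hne'
    · exact ⟨1, one_pos, fun x _ y hy => by rw [he] at hy; exact absurd hy (notMem_empty _)⟩
    have hc : ContinuousOn (fun q : V × V => ‖Pd.F q.1 - Pd.F q.2‖) (K₁ ×ˢ Sh) := by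
      refine ContinuousOn.norm (ContinuousOn.sub ?_ ?_)
      · exact ContinuousOn.comp (g := Pd.F) (f := fun q : V × V => q.1) (t := 𝓜.carrier) hF
          continuousOn_fst fun q hq => hsub hq.1
      · exact ContinuousOn.comp (g := Pd.F) (f := fun q : V × V => q.2) (t := 𝓜.carrier) hF
          continuousOn_snd fun q hq => hq.2.1
    obtain ⟨q, hq, hmin⟩ := (hK₁.prod hShc).exists_isMinOn (hne.prod hne') hc
    refine ⟨‖Pd.F q.1 - Pd.F q.2‖, ?_, fun x hx y hy => ?_⟩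
    swap
    · have := isMinOn_iff.1 hmin (x, y) (mk_mem_prod hx hy)
      exact this
    rw [norm_pos_iff, sub_ne_zero]
    intro h
    have h1 : q.1 = q.2 := Pd.F_inj (hsub hq.1) hq.2.1 h
    have h2 : infDist q.1 K₁ = 0 := infDist_zero_of_mem hq.1
    have h3 : infDist q.2 K₁ = 1 := hq.2.2
    rw [h1, h3] at h2
    exact one_ne_zero h2
  obtain ⟨η, hη0, hη⟩ := hη
  refine ⟨η, hη0, _, hK₂, inter_subset_left, ?_⟩
  rintro S hSM hS ⟨x₀, hx₀S, hx₀K⟩ hdiam y hy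
  refine ⟨hSM hy, ?_⟩
  rw [hmemc]
  by_contra hlt
  push Not at hlt
  have h0 : infDist x₀ K₁ = 0 := infDist_zero_of_mem hx₀K
  have hiv := hS.intermediate_value hx₀S hy hci.continuousOn
  obtain ⟨w, hwS, hw⟩ := hiv (show (1 : ℝ) ∈ Icc (infDist x₀ K₁) (infDist y K₁) from
    ⟨by rw [h0]; exact zero_le_one, hlt.le⟩)
  exact absurd (hdiam x₀ hx₀S w hwS) (not_lt.2 (hη x₀ hx₀K w ⟨hSM hwS, hw⟩))

/-! ### the class of discs -/

/-- discs holomorphic past the circle, with boundary in `K` and `g`-area `≤ A₀`. -/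
structure InClass (𝓜 : CMfd V (Fin n)) (g : HFam V (Fin n)) (K : Set V) (A₀ : ℝ) (f : ℂ → V) :
    Prop where
  hol : ∃ r : ℝ, 1 < r ∧ IsHolDisc 𝓜 f r
  bdry : ∀ ζ ∈ sphere (0 : ℂ) 1, f ζ ∈ K
  area : darea 𝓜 g f ≤ A₀

variable {K : Set V} {A₀ : ℝ}

/-! #### S4-C-INV -/

theorem InClass.comp_mob (hg : IsMetric 𝓜 g) {f : ℂ → V} (hf : InClass 𝓜 g K A₀ f) {a : ℂ}
    (ha : ‖a‖ < 1) : InClass 𝓜 g K A₀ (fun ζ => f (mob a ζ)) := by
  obtain ⟨r, hr, hd⟩ := hf.hol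
  obtain ⟨r', hr', hdiff, hmaps⟩ := exists_mob_mapsTo ha hr
  refine ⟨⟨r', hr', HolCurve.comp isOpen_ball hd isOpen_ball hdiff hmaps⟩, ?_, ?_⟩
  · intro ζ hζ
    exact hf.bdry _ ((mob_bijOn_sphere ha).mapsTo hζ)
  · refine le_trans (le_of_eq ?_) hf.area
    unfold darea
    rw [← integral_mob ha (dspeed 𝓜 g f)]
    refine setIntegral_congr_fun measurableSet_ball fun ζ hζ => ?_
    have hζ' : ζ ∈ ball (0 : ℂ) r' := ball_subset_ball hr'.le hζ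
    exact dspeed_comp isOpen_ball hd hg.toIsHForm
      (hdiff.differentiableAt (isOpen_ball.mem_nhds hζ')) (hmaps hζ')

/-- discs which are only smooth up to the boundary: dilations are in the class of a neighbourhood of `K`. -/
theorem inClass_dilate (hg : IsMetric 𝓜 g) {f : ℂ → V} (hf : IsSmDisc 𝓜 f)
    (hb : ∀ ζ ∈ sphere (0 : ℂ) 1, f ζ ∈ K) (ha : darea 𝓜 g f ≤ A₀) {O : Set V} (hO : IsOpen O)
    (hKO : K ⊆ O) :
    ∀ᶠ ρ : ℝ in 𝓝[<] 1, InClass 𝓜 g (𝓜.carrier ∩ O) A₀ (fun ζ => f (ρ • ζ)) := by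
  have hd : HolCurve 𝓜 f (ball 0 1) := hf.1
  have hcont : ContinuousOn f (closedBall 0 1) := hf.2.1.continuousOn
  -- a collar of the circle is mapped to `O`
  have hcollar : ∃ δ : ℝ, δ < 1 ∧ ∀ ζ ∈ closedBall (0 : ℂ) 1, δ < ‖ζ‖ → f ζ ∈ O := by
    set C : Set ℂ := closedBall (0 : ℂ) 1 ∩ f ⁻¹' Oᶜ with hC
    have hCc : IsCompact C :=
      (isCompact_closedBall 0 1).of_isClosed_subset
        (hcont.preimage_isClosed_of_isClosed isClosed_closedBall hO.isClosed_compl) inter_subset_left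
    rcases C.eq_empty_or_nonempty with he | hne
    · refine ⟨0, one_pos, fun ζ hζ _ => ?_⟩
      by_contra h
      have : ζ ∈ C := ⟨hζ, h⟩
      rw [he] at this
      exact this
    · obtain ⟨ζ₁, hζ₁, hmax⟩ := hCc.exists_isMaxOn hne continuous_norm.continuousOn
      refine ⟨‖ζ₁‖, ?_, fun ζ hζ hlt => ?_⟩
      · have h1 : ‖ζ₁‖ ≤ 1 := mem_closedBall_zero_iff.1 hζ₁.1
        refine lt_of_le_of_ne h1 fun h => ?_
        exact hζ₁.2 (hKO (hb ζ₁ (mem_sphere_zero_iff_norm.2 h)))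
      · by_contra h
        have h2 : ‖ζ‖ ≤ ‖ζ₁‖ := isMaxOn_iff.1 hmax ζ ⟨hζ, h⟩
        exact absurd hlt (not_lt.2 h2)
  obtain ⟨δ, hδ, hcol⟩ := hcollar
  have hint := cpt_integrableOn_dspeed hg.toIsHForm hf
  have hev : ∀ᶠ ρ : ℝ in 𝓝[<] 1, max δ 0 < ρ ∧ ρ < 1 := by
    have h1 : Ioo (max δ 0) 1 ∈ 𝓝[<] (1 : ℝ) := Ioo_mem_nhdsLT (max_lt hδ one_pos)
    exact h1
  filter_upwards [hev] with ρ hρ
  have hρ0 : 0 < ρ := lt_of_le_of_lt (le_max_right _ _) hρ.1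
  have hρδ : δ < ρ := lt_of_le_of_lt (le_max_left _ _) hρ.1
  have hρ1 : ρ < 1 := hρ.2
  have hnorm : ∀ ζ : ℂ, ‖ρ • ζ‖ = ρ * ‖ζ‖ := fun ζ => by
    rw [norm_smul, Real.norm_eq_abs, abs_of_pos hρ0]
  have hφd : ∀ ζ : ℂ, HasDerivAt (fun ζ : ℂ => ρ • ζ) (ρ : ℂ) ζ := fun ζ => by
    have := (hasDerivAt_id ζ).const_mul (ρ : ℂ)
    simpa [Complex.real_smul] using this
  have hmaps : MapsTo (fun ζ : ℂ => ρ • ζ) (ball 0 (1 / ρ)) (ball 0 1) := by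
    intro ζ hζ
    rw [mem_ball_zero_iff] at hζ ⊢
    rw [hnorm]
    rw [lt_div_iff₀ hρ0] at hζ
    linarith
  refine ⟨⟨1 / ρ, by rw [lt_div_iff₀ hρ0]; linarith, ?_⟩, ?_, ?_⟩
  · exact HolCurve.comp isOpen_ball hd isOpen_ball
      (fun ζ _ => (hφd ζ).differentiableAt.differentiableWithinAt) hmaps
  · intro ζ hζ
    have h1 : ‖ρ • ζ‖ = ρ := by rw [hnorm, mem_sphere_zero_iff_norm.1 hζ, mul_one]
    have h2 : ρ • ζ ∈ closedBall (0 : ℂ) 1 := mem_closedBall_zero_iff.2 (by rw [h1]; exact hρ1.le)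
    exact ⟨hf.2.2 _ h2, hcol _ h2 (by rw [h1]; exact hρδ)⟩
  · refine le_trans ?_ ha
    unfold darea
    have e1 : ∫ ζ in ball (0 : ℂ) 1, dspeed 𝓜 g (fun ζ => f (ρ • ζ)) ζ =
        ∫ ζ in ball (0 : ℂ) 1, ρ ^ 2 * dspeed 𝓜 g f (ρ • ζ) := by
      refine setIntegral_congr_fun measurableSet_ball fun ζ hζ => ?_
      have h1 : ρ • ζ ∈ ball (0 : ℂ) 1 := by
        rw [mem_ball_zero_iff] at hζ ⊢
        rw [hnorm]
        nlinarith
      have := dspeed_comp isOpen_ball hd hg.toIsHForm (hφd ζ).differentiableAt h1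
      rw [(hφd ζ).deriv] at this
      simpa [abs_of_pos hρ0] using this
    rw [e1, integral_const_mul,
      Measure.setIntegral_comp_smul_of_pos volume (dspeed 𝓜 g f) (ball (0 : ℂ) 1) hρ0,
      Complex.finrank_real_complex, smul_unitBall_of_pos hρ0, smul_eq_mul, ← mul_assoc,
      mul_inv_cancel₀ (pow_ne_zero 2 hρ0.ne'), one_mul]
    refine setIntegral_mono_set hint ?_ (LE.le.eventuallyLE (ball_subset_ball hρ1.le))
    exact (ae_restrict_iff' measurableSet_ball).2 (Filter.Eventually.of_forall fun ζ hζ =>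
      dspeed_nonneg isOpen_ball hd hg.toIsHForm
        (fun Ψ W hΨ z hz => (hg.posDef hΨ z hz).posSemidef) hζ)

/-! #### S4-C-MAXP -/

theorem InClass.norm_holFun_le {f : ℂ → V} (hf : InClass 𝓜 g K A₀ f) {E : Type}
    [NormedAddCommGroup E] [NormedSpace ℂ E] {G : V → E}
    (hG : ∀ (Ψ : CE (Fin n) → V) (W : Set (CE (Fin n))), 𝓜.IsHol Ψ W → DifferentiableOn ℂ (G ∘ Ψ) W)
    {C : ℝ} (hC : ∀ x ∈ K, ‖G x‖ ≤ C) : ∀ ζ ∈ closedBall (0 : ℂ) 1, ‖G (f ζ)‖ ≤ C := by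
  obtain ⟨r, hr, hd⟩ := hf.hol
  have hw : DifferentiableOn ℂ (fun ζ => G (f ζ)) (ball 0 r) :=
    HolCurve.differentiableOn_comp isOpen_ball hd hG
  have hcl : closure (ball (0 : ℂ) 1) = closedBall 0 1 := closure_ball 0 one_ne_zero
  have hdc : DiffContOnCl ℂ (fun ζ => G (f ζ)) (ball 0 1) := by
    refine DifferentiableOn.diffContOnCl ?_
    rw [hcl]
    exact hw.mono (closedBall_subset_ball hr)
  intro ζ hζ
  refine Complex.norm_le_of_forall_mem_frontier_norm_le isBounded_ball hdc ?_ (by rw [hcl]; exact hζ)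
  intro z hz
  rw [frontier_ball 0 one_ne_zero] at hz
  exact hC _ (hf.bdry z hz)

/-- composition of a smooth psh function with a disc of the class. -/
theorem InClass.sub_data {f : ℂ → V} (hf : InClass 𝓜 g K A₀ f) {v : V → ℝ} (hv : 𝓜.Smooth v)
    (h0 : ∀ (Ψ : CE (Fin n) → V) (W : Set (CE (Fin n))), 𝓜.IsHol Ψ W → ∀ z ∈ W,
      (ddc v Ψ z).PosSemidef) :
    ∃ r : ℝ, 1 < r ∧ ContDiffOn ℝ 2 (fun ζ => v (f ζ)) (ball 0 r) ∧
      ∀ ζ ∈ ball (0 : ℂ) r, 0 ≤ Δ (fun w => v (f w)) ζ := by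
  obtain ⟨r, hr, hd⟩ := hf.hol
  refine ⟨r, hr, (HolCurve.contDiffOn_comp isOpen_ball hd hv).of_le lv_two_le_infty, ?_⟩
  intro ζ hζ
  rw [laplacian_comp_curve isOpen_ball hd hv hζ]
  have := dspeed_nonneg isOpen_ball hd (isHForm_ddc hv) h0 hζ
  positivity

theorem InClass.smooth_le {f : ℂ → V} (hf : InClass 𝓜 g K A₀ f) {v : V → ℝ} (hv : 𝓜.Smooth v)
    (h0 : ∀ (Ψ : CE (Fin n) → V) (W : Set (CE (Fin n))), 𝓜.IsHol Ψ W → ∀ z ∈ W,
      (ddc v Ψ z).PosSemidef)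
    {C : ℝ} (hC : ∀ x ∈ K, v x ≤ C) : ∀ ζ ∈ closedBall (0 : ℂ) 1, v (f ζ) ≤ C := by
  obtain ⟨r, hr, hu, hΔ⟩ := hf.sub_data hv h0
  exact max_principle hr hu (fun ζ hζ => hΔ ζ (ball_subset_ball hr.le hζ))
    (fun ζ hζ => hC _ (hf.bdry ζ hζ))

/-! #### S4-C-SPEED -/

theorem lamF_nonneg (I : InitialData 𝓜 g) (Pd : PrelimData 𝓜 g o) {x : V} (hx : x ∈ 𝓜.carrier) :
    0 ≤ lamF Pd x := by
  have hg : IsMetric 𝓜 g := I.kahler.toIsMetric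
  have hΦ := 𝓜.isHol_pΦ hx
  have hz := 𝓜.co_mem hx
  set v : Fin n → ℂ := fun _ => 1 with hv
  have hv0 : v ≠ 0 := by
    intro h
    have := congrFun h ⟨0, I.n_pos⟩
    simp [hv] at this
  have h1 := fE_le_lamF I Pd hΦ hz v
  rw [𝓜.pΦ_co hx] at h1
  have h2 : 0 ≤ qf (fE Pd (𝓜.pΦ x) (𝓜.co x)) v :=
    qf_nonneg ((fE_isMetric Pd).posDef hΦ _ hz).posSemidef _
  have h3 : 0 < qf (g (𝓜.pΦ x) (𝓜.co x)) v := qf_pos (hg.posDef hΦ _ hz) hv0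
  by_contra hneg
  push Not at hneg
  nlinarith

theorem InClass.speed_le (I : InitialData 𝓜 g) (Pd : PrelimData 𝓜 g o) (hK : IsCompact K)
    (hKM : K ⊆ 𝓜.carrier) (A₀ : ℝ) :
    ∃ C₁ : ℝ, ∀ f : ℂ → V, InClass 𝓜 g K A₀ f → ∀ x ∈ ball (0 : ℂ) 1,
      Real.sqrt (dspeed 𝓜 g f x) * (1 - ‖x‖) ≤ C₁ * Real.exp (- psiF Pd (f x) / 2) := by
  have hg : IsMetric 𝓜 g := I.kahler.toIsMetric
  obtain ⟨CΛ, hCΛ⟩ := hK.exists_bound_of_continuousOn ((lamF_smooth I Pd).continuousOn.mono hKM)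
  obtain ⟨CF, hCF⟩ := hK.exists_bound_of_continuousOn ((continuousOn_F Pd).mono hKM)
  refine ⟨Real.sqrt (CΛ ^ (n - 1)) * CF, ?_⟩
  intro f hf x hx
  obtain ⟨r, hr, hd⟩ := hf.hol
  have hxr : x ∈ ball (0 : ℂ) r := ball_subset_ball hr.le hx
  have hxn : ‖x‖ < 1 := mem_ball_zero_iff.1 hx
  have hfx : f x ∈ 𝓜.carrier := hd.1 x hxr
  -- chart
  have hΨ := 𝓜.isHol_pΦ hfx
  have hloc := HolCurve.eventually_local isOpen_ball hd hxr hΨ (𝓜.mem_image_pΦ hfx)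
  set p : ℂ → CE (Fin n) := Function.invFunOn (𝓜.pΦ (f x)) (𝓜.pU (f x)) ∘ f with hp
  obtain ⟨hp1, hp2, hp3⟩ := hloc.self_of_nhds
  have hfp : ∀ᶠ ζ in 𝓝 x, f ζ = 𝓜.pΦ (f x) (p ζ) := hloc.mono fun ζ h => h.2.2.symm
  have e1 := dspeed_local hg.toIsHForm hΨ hp1 hp2 hfp
  have e2 := dspeed_local (fE_isMetric Pd).toIsHForm hΨ hp1 hp2 hfp
  have h1 := inv_jacobian_ineq I Pd hΨ hp2 (deriv p x : CE (Fin n))
  rw [← e1, ← e2, hp3, dspeed_fE Pd isOpen_ball hd hxr] at h1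
  -- bounds
  have hΛ1 : lamF Pd (f x) ≤ CΛ := hf.smooth_le (lamF_smooth I Pd) (ddc_lamF_posSemidef I Pd)
    (fun y hy => (le_abs_self _).trans (hCΛ y hy)) x (ball_subset_closedBall hx)
  have hΛ0 := lamF_nonneg I Pd hfx
  have hΛp : lamF Pd (f x) ^ (n - 1) ≤ CΛ ^ (n - 1) := pow_le_pow_left₀ hΛ0 hΛ1 _
  have hR : 0 < 1 - ‖x‖ := by linarith
  have hw : DifferentiableOn ℂ (fun ζ => Pd.F (f ζ)) (ball 0 r) :=
    HolCurve.differentiableOn_comp isOpen_ball hd Pd.F_hol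
  have hsubc : closedBall x (1 - ‖x‖) ⊆ closedBall (0 : ℂ) 1 := by
    refine closedBall_subset_closedBall' ?_
    rw [dist_zero_right]
    linarith
  have hdc : DiffContOnCl ℂ (fun ζ => Pd.F (f ζ)) (ball x (1 - ‖x‖)) := by
    refine DifferentiableOn.diffContOnCl ?_
    rw [closure_ball x hR.ne']
    exact hw.mono (hsubc.trans (closedBall_subset_ball hr))
  have hder : ‖deriv (fun ζ => Pd.F (f ζ)) x‖ ≤ CF / (1 - ‖x‖) :=
    Complex.norm_deriv_le_of_forall_mem_sphere_norm_le hR hdc fun z hz =>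
      hf.norm_holFun_le Pd.F_hol hCF z (hsubc (sphere_subset_closedBall hz))
  set D := ‖deriv (fun ζ => Pd.F (f ζ)) x‖ with hD
  have hD0 : 0 ≤ D := norm_nonneg _
  have hexp : Real.exp (- psiF Pd (f x)) = Real.exp (- psiF Pd (f x) / 2) ^ 2 := by
    rw [← Real.exp_nat_mul]
    congr 1
    push_cast
    ring
  have h2 : dspeed 𝓜 g f x ≤ CΛ ^ (n - 1) * (Real.exp (- psiF Pd (f x) / 2) * D) ^ 2 := by
    calc dspeed 𝓜 g f x ≤ lamF Pd (f x) ^ (n - 1) * Real.exp (- psiF Pd (f x)) * D ^ 2 := h1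
      _ ≤ CΛ ^ (n - 1) * Real.exp (- psiF Pd (f x)) * D ^ 2 := by gcongr
      _ = CΛ ^ (n - 1) * (Real.exp (- psiF Pd (f x) / 2) * D) ^ 2 := by rw [hexp]; ring
  have h3 : Real.sqrt (dspeed 𝓜 g f x) ≤
      Real.sqrt (CΛ ^ (n - 1)) * (Real.exp (- psiF Pd (f x) / 2) * D) := by
    refine (Real.sqrt_le_sqrt h2).trans (le_of_eq ?_)
    rw [Real.sqrt_mul' _ (sq_nonneg _), Real.sqrt_sq (by positivity)]
  have h4 : D * (1 - ‖x‖) ≤ CF := by rwa [le_div_iff₀ hR] at hder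
  calc Real.sqrt (dspeed 𝓜 g f x) * (1 - ‖x‖)
      ≤ Real.sqrt (CΛ ^ (n - 1)) * (Real.exp (- psiF Pd (f x) / 2) * D) * (1 - ‖x‖) := by gcongr
    _ = Real.sqrt (CΛ ^ (n - 1)) * Real.exp (- psiF Pd (f x) / 2) * (D * (1 - ‖x‖)) := by ring
    _ ≤ Real.sqrt (CΛ ^ (n - 1)) * Real.exp (- psiF Pd (f x) / 2) * CF := by gcongr
    _ = Real.sqrt (CΛ ^ (n - 1)) * CF * Real.exp (- psiF Pd (f x) / 2) := by ring

/-! #### S4-C-ANCH -/

/-- the `σ`-length of a radial segment. -/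
theorem cpt_seg_ray (σ : ℂ → ℝ) (e : ℂ) (he : ‖e‖ = 1) (a b : ℝ) :
    seg σ (a • e) (b • e) = |b - a| * ∫ t in (0 : ℝ)..1, σ ((a + (b - a) * t) • e) := by
  unfold seg
  have h1 : ‖b • e - a • e‖ = |b - a| := by
    rw [← sub_smul, norm_smul, he, mul_one, Real.norm_eq_abs]
  rw [h1]
  congr 1
  refine intervalIntegral.integral_congr fun t _ => ?_
  show σ (a • e + t • (b • e - a • e)) = σ ((a + (b - a) * t) • e)
  congr 1
  simp only [Complex.real_smul]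
  push_cast
  ring

theorem InClass.exists_anchor (I : InitialData 𝓜 g) {b : V} (hb : b ∈ 𝓜.carrier) (hK : IsCompact K)
    (hKM : K ⊆ 𝓜.carrier) (A₀ : ℝ) :
    ∃ R₀ : ℝ, ∀ f : ℂ → V, InClass 𝓜 g K A₀ f →
      ∃ e : ℂ, ‖e‖ = 1 ∧ ∀ ρ ∈ Icc (1 / 2 : ℝ) 1, hdist 𝓜 g b (f (ρ • e)) ≤ R₀ := by
  have hg : IsMetric 𝓜 g := I.kahler.toIsMetric
  obtain ⟨RK, -, hRK⟩ := exists_hcball_of_isCompact hg I.conn hb hK hKM
  refine ⟨RK + Real.sqrt A₀, ?_⟩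
  intro f hf
  obtain ⟨r, hr, hd⟩ := hf.hol
  have hcont : ContinuousOn (dspeed 𝓜 g f) (ball 0 r) :=
    continuousOn_dspeed isOpen_ball hd hg.toIsHForm
  have hnn : ∀ ζ ∈ ball (0 : ℂ) r, 0 ≤ dspeed 𝓜 g f ζ := fun ζ hζ =>
    dspeed_nonneg isOpen_ball hd hg.toIsHForm
      (fun Ψ W hΨ z hz => (hg.posDef hΨ z hz).posSemidef) hζ
  have hcb : closedBall (0 : ℂ) 1 ⊆ ball 0 r := closedBall_subset_ball hr
  obtain ⟨e, he, hray⟩ := exists_ray_le (hcont.mono hcb) (fun ζ hζ => hnn ζ (hcb hζ)) hf.area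
  refine ⟨e, he, fun ρ hρ => ?_⟩
  have hmem : ∀ s ∈ Icc (1 / 2 : ℝ) 1, s • e ∈ closedBall (0 : ℂ) 1 := by
    intro s hs
    rw [mem_closedBall_zero_iff, norm_smul, he, mul_one, Real.norm_eq_abs,
      abs_of_nonneg (by linarith [hs.1])]
    exact hs.2
  have h1mem : (1 : ℝ) ∈ Icc (1 / 2 : ℝ) 1 := ⟨by norm_num, le_rfl⟩
  set σ : ℂ → ℝ := fun ζ => Real.sqrt (dspeed 𝓜 g f ζ) with hσ
  have hconv : ∀ t ∈ Icc (0 : ℝ) 1, 1 + (ρ - 1) * t ∈ Icc (1 / 2 : ℝ) 1 := by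
    intro t ht
    have := (convex_Icc (1 / 2 : ℝ) 1).add_smul_sub_mem h1mem hρ ht
    rwa [smul_eq_mul, mul_comm] at this
  -- distance along the ray
  have h2 : hdist 𝓜 g (f ((1 : ℝ) • e)) (f (ρ • e)) ≤ seg σ ((1 : ℝ) • e) (ρ • e) := by
    refine hdist_le_seg isOpen_ball hd hg fun t ht => ?_
    have : (1 : ℝ) • e + t • (ρ • e - (1 : ℝ) • e) = (1 + (ρ - 1) * t) • e := by
      simp only [Complex.real_smul]
      push_cast
      ring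
    rw [this]
    exact hcb (hmem _ (hconv t ht))
  have hcs : ContinuousOn (fun s : ℝ => σ (s • e)) (Icc (1 / 2 : ℝ) 1) := by
    refine (Real.continuous_sqrt.comp_continuousOn (hcont.mono hcb)).comp
      (continuous_id.smul continuous_const).continuousOn hmem
  have h3 : seg σ ((1 : ℝ) • e) (ρ • e) ≤ ∫ s in (1 / 2 : ℝ)..1, σ (s • e) := by
    rw [cpt_seg_ray σ e he]
    have e1 : (ρ - 1) * ∫ t in (0 : ℝ)..1, σ ((1 + (ρ - 1) * t) • e) = ∫ s in (1 : ℝ)..ρ, σ (s • e) := by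
      have := intervalIntegral.mul_integral_comp_add_mul (a := 0) (b := 1)
        (f := fun s : ℝ => σ (s • e)) (ρ - 1) 1
      simpa using this
    have e2 : |ρ - 1| = -(ρ - 1) := abs_of_nonpos (by linarith [hρ.2])
    rw [e2, neg_mul, e1, ← intervalIntegral.integral_symm]
    refine intervalIntegral.integral_mono_interval hρ.1 hρ.2 le_rfl ?_ ?_
    · exact Filter.Eventually.of_forall fun s => Real.sqrt_nonneg _
    · refine ContinuousOn.intervalIntegrable ?_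
      rwa [uIcc_of_le (by norm_num)]
  have hm1 : f ((1 : ℝ) • e) ∈ 𝓜.carrier := hd.1 _ (hcb (hmem 1 h1mem))
  have hm2 : f (ρ • e) ∈ 𝓜.carrier := hd.1 _ (hcb (hmem ρ hρ))
  have t := hdist_triangle hg I.conn hb hm1 hm2
  have h4 : hdist 𝓜 g b (f ((1 : ℝ) • e)) < RK := by
    refine (hRK (hf.bdry _ ?_)).2
    rw [one_smul]
    exact mem_sphere_zero_iff_norm.2 he
  linarith

/-! #### S4-C-MASS -/

/-- `u = ψ ∘ f` is smooth and subharmonic on a neighbourhood of the closed disc. -/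
theorem InClass.psi_data (I : InitialData 𝓜 g) (Pd : PrelimData 𝓜 g o) {f : ℂ → V}
    (hf : InClass 𝓜 g K A₀ f) :
    ∃ r : ℝ, 1 < r ∧ ContDiffOn ℝ 2 (fun ζ => psiF Pd (f ζ)) (ball 0 r) ∧
      ∀ ζ ∈ ball (0 : ℂ) r, 0 ≤ Δ (fun w => psiF Pd (f w)) ζ :=
  hf.sub_data (psiF_smooth I Pd) (ddc_psiF_posSemidef I Pd)

theorem InClass.wmass_le (I : InitialData 𝓜 g) (Pd : PrelimData 𝓜 g o)
    (hK : IsCompact K) (hKM : K ⊆ 𝓜.carrier) (A₀ : ℝ) :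
    ∃ M₁ : ℝ, ∀ f : ℂ → V, InClass 𝓜 g K A₀ f → wmass (fun ζ => psiF Pd (f ζ)) ≤ M₁ := by
  obtain ⟨b, hb⟩ := I.conn.nonempty
  obtain ⟨R₀, hR₀⟩ := InClass.exists_anchor I hb hK hKM A₀
  have hψ := (psiF_smooth I Pd).continuousOn
  obtain ⟨B, hB⟩ := hK.exists_bound_of_continuousOn (hψ.mono hKM)
  obtain ⟨B', hB'⟩ := (I.proper b hb R₀).exists_bound_of_continuousOn
    (hψ.mono (hcball_subset_carrier 𝓜 g b R₀))
  refine ⟨8 * (B + B') / (1 - 1 / 2), ?_⟩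
  intro f hf
  obtain ⟨r, hr, hu, hΔ⟩ := hf.psi_data I Pd
  obtain ⟨rd, hrd, hd⟩ := hf.hol
  obtain ⟨e, he, hanch⟩ := hR₀ f hf
  have hhalf : (1 / 2 : ℝ) ∈ Icc (1 / 2 : ℝ) 1 := ⟨le_rfl, by norm_num⟩
  have hn : ‖(1 / 2 : ℝ) • e‖ = 1 / 2 := by
    rw [norm_smul, he, mul_one, Real.norm_eq_abs, abs_of_pos (by norm_num)]
  have ha : ‖(1 / 2 : ℝ) • e‖ < 1 := by rw [hn]; norm_num
  have hmem : f ((1 / 2 : ℝ) • e) ∈ hcball 𝓜 g b R₀ :=
    ⟨hd.1 _ (mem_ball_zero_iff.2 (ha.trans hrd)), hanch _ hhalf⟩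
  have h1 := Claimed.Agent.R316.S4.wmass_le hr hu (fun ζ hζ => hΔ ζ (ball_subset_ball hr.le hζ)) (B := B) (B' := B')
    (fun ζ hζ => (le_abs_self _).trans (hB _ (hf.bdry ζ hζ))) ha
    (by
      have := hB' _ hmem
      rw [Real.norm_eq_abs] at this
      linarith [neg_abs_le (psiF Pd (f ((1 / 2 : ℝ) • e)))])
  rwa [hn] at h1

/-! #### S4-C-LEMM -/

/-- **Lemma M**: on a ball where the Riesz mass of `ψ ∘ f` is `≤ 1` the disc has bounded diameter. -/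
theorem lemmaM (I : InitialData 𝓜 g) (Pd : PrelimData 𝓜 g o)
    (hK : IsCompact K) (hKM : K ⊆ 𝓜.carrier) (A₀ : ℝ) {s : ℝ} (hs : 0 < s) :
    ∃ C : ℝ, ∀ f : ℂ → V, InClass 𝓜 g K A₀ f → ∀ z₀ : ℂ, ‖z₀‖ + 2 * s < 1 →
      rmass (fun ζ => psiF Pd (f ζ)) (ball z₀ (2 * s)) ≤ 1 →
      ∀ z ∈ ball z₀ (s / 4), ∀ w ∈ ball z₀ (s / 4), hdist 𝓜 g (f z) (f w) ≤ C := by
  have hg : IsMetric 𝓜 g := I.kahler.toIsMetric
  obtain ⟨C₁, hC₁⟩ := InClass.speed_le I Pd hK hKM A₀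
  obtain ⟨M₁, hM₁⟩ := InClass.wmass_le I Pd hK hKM A₀
  obtain ⟨B, hB⟩ := hK.exists_bound_of_continuousOn ((psiF_smooth I Pd).continuousOn.mono hKM)
  obtain ⟨C, -, hC⟩ := lemmaM0 B M₁ C₁ hs
  refine ⟨C + C, ?_⟩
  intro f hf z₀ hz₀ hmass z hz w hw
  obtain ⟨r, hr, hu, hΔ⟩ := hf.psi_data I Pd
  obtain ⟨rd, hrd, hd⟩ := hf.hol
  have hd1 : HolCurve 𝓜 f (ball 0 1) := HolCurve.mono hd (ball_subset_ball hrd.le)
  have hsub : ball z₀ (s / 4) ⊆ ball (0 : ℂ) 1 := by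
    refine ball_subset_ball' ?_
    rw [dist_zero_right]
    linarith
  obtain ⟨y, hy, h1, h2⟩ := hC (fun ζ => psiF Pd (f ζ)) (fun ζ => Real.sqrt (dspeed 𝓜 g f ζ)) r hr hu
    (fun ζ hζ => hΔ ζ (ball_subset_ball hr.le hζ))
    (fun ζ hζ => by
      have := hB _ (hf.bdry ζ hζ)
      rw [Real.norm_eq_abs] at this
      linarith [neg_abs_le (psiF Pd (f ζ))])
    (hM₁ f hf)
    (Real.continuous_sqrt.comp_continuousOn (continuousOn_dspeed isOpen_ball hd1 hg.toIsHForm))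
    (fun x _ => Real.sqrt_nonneg _) (hC₁ f hf) z₀ hz₀ hmass z hz w hw
  have hseg : ∀ a ∈ ball z₀ (s / 4), ∀ t ∈ Icc (0 : ℝ) 1, a + t • (y - a) ∈ ball (0 : ℂ) 1 :=
    fun a ha t ht => (convex_ball (0 : ℂ) 1).add_smul_sub_mem (hsub ha) (hsub hy) ht
  have d1 := hdist_le_seg isOpen_ball hd1 hg (hseg z hz)
  have d2 := hdist_le_seg isOpen_ball hd1 hg (hseg w hw)
  have t := hdist_triangle hg I.conn (hd1.1 z (hsub hz)) (hd1.1 y (hsub hy)) (hd1.1 w (hsub hw))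
  rw [hdist_comm hg (f y) (f w)] at t
  linarith

end immersion

end Claimed.Agent.R316.S4
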