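import Claimed.Agent.R316.S4.XApx

/-!
# Row 316, Section 4, BP-S4-X: Lemma 4.3 (extra integrability) in MATRIX form (design: helper58)

FRAMEWORK-FREE: Mathlib + the Wirtinger calculus `CW/*` + `B6E.weak_dbar_regular` (on `CE Unit`).  No manifold, no bundle, no complete metric, no Krull.

`H : ℂ → Matrix (Fin d) (Fin d) ℂ` is a smooth Hermitian metric on the trivial bundle over the punctured disc `Δ* = ball 0 r \ {0}` (column convention `|v|²_H = vᴴ H v = qf H v`), `curv1 H z = - ∂_{\bar z} ∂_z H + ∂_{\bar z} H H⁻¹ ∂_z H` its curvature (`griffM` over the base `CE Unit`).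

**`extra_integrability`**: `curv1 H ≥ 0`, `H ≥ c > 0`, `a` holomorphic on `Δ*`, `∫_{Δ*} |a|²_H < ∞`  ⟹  `∃ σ > 0, r₀ > 0 : ∫_{|z| < r₀} |a|²_H |z|^{-σ} < ∞`.
Consumer: `S4/Cpt*.lean` with `H(z) = g` in the coordinates `F_I` at `f(z)`, `a = (F_I ∘ f)'`; then a radial path of `f` has finite length.

## STATUS (helper199, sub-captain): the theorem below is PROVED from `xi_approx`, `xi_tail` (`S4/XApx.lean`, using `xi_hormander` of `S4/XHor.lean`) and `xi_closure` (`S4/XGerm.lean`); the leaves S4-X-* live in these three files (`c1`, `curv1` moved to `S4/XApx.lean`).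

## PLAN (helper58)

Notation: `K = e^{-φ} H` with `φ` smooth real on `Δ*`; `⟨u, v⟩_K = vᴴ K u`; test vector = smooth `α : ℂ → ℂ^d` with compact support in `Δ*`; `δ_K α = - K⁻¹ ∂_z (K α)` (formal adjoint of `∂_{\bar z}`).
* **H1 (Bochner-Kodaira in dimension one)**  for test vectors: `∫ |δ_K α|²_K = ∫ |∂_{\bar z} α|²_K + ∫ αᴴ (curv1 K) α`, and `curv1 (e^{-φ} H) = e^{-φ} (curv1 H + φ_{z \bar z} H)`.
  (Two integrations by parts; commutator `[∂_{\bar z}, K⁻¹ ∂_z K] = ∂_{\bar z}(K⁻¹ ∂_z K) = - K⁻¹ curv1 K`.)  Hence `∫ |δ_K α|²_K ≥ ∫ φ_{z \bar z} |α|²_K`.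
* **H2 (dual estimate + Riesz)**  `b` smooth on `Δ*` with `B := ∫ |b|²_K / φ_{z \bar z} < ∞` (`φ_{z\bar z} > 0`).  Cauchy-Schwarz: `|∫ ⟨b, α⟩_K|² ≤ B ∫ |δ_K α|²_K` for ALL test vectors (in dimension one every `(0,1)`-form is closed, so neither completeness nor density of test forms is needed).
  Riesz/Hahn-Banach on the subspace `{δ_K α} ⊆ L²(Δ*, K)` ⟹ `v ∈ L²(K)`, `∫ |v|²_K ≤ B`, `∫ ⟨v, δ_K α⟩_K = ∫ ⟨b, α⟩_K` for all test `α`, i.e. componentwise `WeakDbar`: `∫ v_j ∂_{\bar z} w = - ∫ b_j w` (take `α = K⁻¹`-transform of a scalar test function).  To reuse Hilbert space API work in `L²(Δ*; ℂ^d)` with the unweighted measure via `v ↦ K^{1/2} v`, or copy the scheme of `B6E/Riesz.lean`, `B6E/Hilbert.lean`.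
* **H3 (regularity)**  `B6E.weak_dbar_regular` for each component (transport `ℂ ≃ CE Unit`, `c1`): a smooth representative with `∂_{\bar z} v = b` pointwise.
* **H4 (approximation)**  for `0 < ε < min(r,1)/2`, `m = ⌈log(1/ε)⌉`: `φ = (2/m) log|z| + |z|^{1/m}`, `φ_{z\bar z} = |z|^{1/m - 2}/(4m²)`; cutoff `χ = χ₀(log|z| / log ε)`, `χ₀ = 1` on `(-∞, 1]`, `0` on `[2, ∞)`, so `χ = 0` for `|z| ≤ ε²`, `χ = 1` for `|z| ≥ ε`, `|∂_{\bar z} χ| ≤ C₀ / (|z| log(1/ε))`.  `b = a ∂_{\bar z} χ`.  On the support of `b`: `|∂χ|² e^{-φ} / φ_{z \bar z} ≤ 4 C₀² m² |z|^{-3/m} / log²(1/ε) ≤ C₁` (as `|z| ≥ ε²`, `m ≥ log(1/ε)`, `m ≤ 2 log (1/ε)`) so `B ≤ C₁ ∫_{|z| < ε} |a|²_H → 0`.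
  `a_ε = χ a - v` is holomorphic on `Δ*`, `∫ |a_ε|²_H |z|^{-2/m} < ∞`, `∫ |a - a_ε|²_H ≤ 2 ∫_{|z|<ε} |a|²_H + 2 e B → 0` (`e^{-φ} ≥ e^{-1} |z|^{-2/m} ≥ e^{-1}` for `|z| < 1`; if `r > 1` first shrink `r`).
* **H5 (removable singularity, jets)**  `s` holomorphic on `Δ*` with `∫ ‖s‖² < ∞` extends holomorphically to `ball 0 r` (Laurent coefficients / `z s(z) → 0` by the sub mean value inequality, Mathlib `differentiableOn_update_limUnder_of_isLittleO`); `‖iteratedDeriv k s 0‖ ≤ C(k, r) ‖s‖_{L²}`.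
* **H6 (Artin-Rees without algebra)**  `𝓗 = {s : ∃ ε > 0, s holomorphic on ball 0 ε, ∫_{ball 0 ε \ {0}} |s|²_H < ∞}`: closed under sums and under multiplication by functions holomorphic near `0`.  `L_k = {k-th Taylor coefficient of s : s ∈ 𝓗, ord₀ s ≥ k} ⊆ ℂ^d` is an increasing chain of subspaces (`z 𝓗 ⊆ 𝓗`), so `L_k = L_κ` for `k ≥ κ`.
  CLAIM: `s ∈ 𝓗`, `ord₀ s ≥ κ + 1` ⟹ `s / z ∈ 𝓗`.  Proof: basis `e_1 … e_p` of `L_κ`, `t_i ∈ 𝓗` with `t_i = z^κ (e_i + O(z))`, `T(z) = [t_1 … t_p] / z^κ` (`d × p`, holomorphic, `T(0)` injective), `P(z) = (T(0)ᴴ T(z))⁻¹ T(0)ᴴ` holomorphic near `0`, `P T = 1`.  `c = P s / z^{κ+1}` is holomorphic; `w = s - z ∑ c_i t_i ∈ 𝓗`, `P w = 0`.  If `w ≢ 0` its leading coefficient `w_k` (`k ≥ κ + 1`) lies in `L_k = L_κ = range T(0)` and `P(0) w_k = 0`, so `w_k = 0`: contradiction.  Hence `s / z = ∑ c_i t_i ∈ 𝓗`.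
* **H7 (assembly)**  `S = {s holomorphic on ball 0 r : ∃ σ > 0, ∫ |s|²_H |z|^{-σ} < ∞}` is a linear subspace; `J_κ(S) ⊆ (ℂ^d)^{κ+1}` is a subspace of a finite dimensional space, hence closed; `a_ε ∈ S`, `J_κ(a_ε) → J_κ(a)` (H4, H5, `H ≥ c`), so `J_κ(a) = J_κ(s)`, `s ∈ S`; `a - s ∈ 𝓗` has order `≥ κ + 1`, so `∫_{|z|<ε} |a - s|²_H |z|^{-2} < ∞` (H6); `|a|² ≤ 2|s|² + 2|a-s|²`, exponent `min(σ, 2)`.
-/

set_option autoImplicit false
set_option linter.unusedSectionVars false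
open scoped ContDiff ComplexOrder Topology Matrix
open MeasureTheory

namespace Claimed.Agent.R316.S4

open Claimed.Agent.R316

/-- **Lemma 4.3** (extra integrability), matrix form. -/
theorem extra_integrability {d : ℕ} {r c : ℝ} (hr : 0 < r) (hc : 0 < c)
    {H : ℂ → Matrix (Fin d) (Fin d) ℂ}
    (hs : ∀ j k, ContDiffOn ℝ ∞ (fun z => H z j k) (Metric.ball 0 r \ {0}))
    (hpd : ∀ z ∈ Metric.ball (0 : ℂ) r \ {0}, (H z).PosDef)
    (hlow : ∀ z ∈ Metric.ball (0 : ℂ) r \ {0}, ∀ v : Fin d → ℂ, c * ∑ j, ‖v j‖ ^ 2 ≤ qf (H z) v)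
    (hcurv : ∀ z ∈ Metric.ball (0 : ℂ) r \ {0}, (curv1 H z).PosSemidef)
    {a : ℂ → Fin d → ℂ} (ha : DifferentiableOn ℂ a (Metric.ball 0 r \ {0}))
    (hint : IntegrableOn (fun z => qf (H z) (a z)) (Metric.ball 0 r \ {0})) :
    ∃ σ : ℝ, 0 < σ ∧ ∃ r₀ : ℝ, 0 < r₀ ∧ r₀ ≤ r ∧
      IntegrableOn (fun z => qf (H z) (a z) * ‖z‖ ^ (-σ)) (Metric.ball 0 r₀ \ {0}) := by
  obtain ⟨C₁, hC₁, happ⟩ := xi_approx
  have hr' : 0 < min r 1 := lt_min hr one_pos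
  have hsub : xiPd (min r 1) ⊆ Metric.ball 0 r \ {0} := xiPd_mono (min_le_left _ _)
  have M : XiMet (min r 1) c H :=
    ⟨hr', min_le_right _ _, hc, fun j k => ((hs j k).mono hsub).continuousOn,
      fun z hz => (hpd z (hsub hz)).posSemidef, fun z hz => hlow z (hsub hz)⟩
  have ha' := ha.mono hsub
  have hint' : IntegrableOn (fun z => qf (H z) (a z)) (xiPd (min r 1)) := hint.mono_set hsub
  obtain ⟨σ, hσ, r₀, hr₀, hr₀r, h⟩ := xi_closure M ha' hint' (by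
    intro η hη
    have ht := (xi_tail hint').const_mul C₁
    rw [mul_zero] at ht
    obtain ⟨n, hn⟩ := (ht.eventually (gt_mem_nhds hη)).exists
    obtain ⟨a', h1, h2, h3, h4⟩ := happ hr' (min_le_right _ _) (fun j k => (hs j k).mono hsub)
      (fun z hz => hpd z (hsub hz)) (fun z hz => hcurv z (hsub hz)) ha' hint'
      (m := (n : ℝ) + 1) (by linarith [(Nat.cast_nonneg n : (0 : ℝ) ≤ n)])
    exact ⟨a', h1, ⟨2 / ((n : ℝ) + 1), by positivity, h2⟩, h3, h4.trans hn.le⟩)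
  exact ⟨σ, hσ, r₀, hr₀, hr₀r.trans (min_le_left _ _), h⟩

end Claimed.Agent.R316.S4
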