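import Claimed.Agent.R316.Pack014_2
import Claimed.Agent.R316.Pack003
import Claimed.Agent.R316.Pack007
import Claimed.Agent.R316.S5.Setup
import Claimed.Agent.R316.S6.GTrans

/-!
# `BP-G3-SPRAY`: the Hamiltonian spray on `Y = T^{*(1,0)}M` (`exists_spray` of `S5/FromS4.lean`), PROVED

`S4.exists_spray : IsCotangent 𝓜 𝒴 → GImm 𝒴 G → ∃ Sg dom, IsSpray 𝓜 𝒴 G Sg dom` (closedness of `𝓜.carrier` is not needed).
Everything in this file is proved and its import closure is sorry-free for these theorems (`#print axioms S4.exists_spray`: standard axioms only).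

ROUTE (no ambient flow, no chain of charts, no complex time flow on the manifold):
1. (`section chart`) in ONE chart `W ⊆ E`, for a holomorphic field `a (w, τ)` homogeneous in the parameter `τ`:
   `sprF a W (w, τ)` = time one map of `w' = a (w, τ)` computed on `E × P` (`ODE.fl` of `pfield a`),
   `sprD a W` = the `(w, τ)` such that the flow line of `(w, c τ)` exists in `W` up to time one for ALL `|c| ≤ 1`
   (balanced by construction, an open set by the tube lemma); holomorphy: `ODE.differentiableOn_fl`;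
   first order part: `sprF (w, z τ) = cfl z (w, τ)` (`ODE.fl_map`) and `ODE.hasDerivAt_cfl`.
2. (`section mfd`) `SprayAtlas 𝒳 𝒜 a`: a covering family `𝒜` of charts with compatible chart fields.  Integral curves in two
   charts with the same initial point agree on the manifold (`SprayAtlas.curve_eq`: the coincidence set is closed and
   right-open, uniqueness `ODE.SolOn.eqOn` in the second chart).  So the chart sprays glue: `sprMap`, `sprDom`.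
3. (`section mfd2`) all properties of `IsSpray` except `first`, for an arbitrary `SprayAtlas`; `SprayAtlas.hasDerivAt_comp`.
4. (`section symp`) `symp_of_lift`: a holomorphic `σ` on `ℂ^{ι ⊕ ι}` covering `τ` with `ζ = (jac τ)ᵀ ζ'` satisfies
   `T Jstd Tᵀ = Jstd`, `T = jac σ` (differentiate the identity; symmetry of second derivatives; no derivative of an inverse).
5. (`section cot`) **(P1)** `jac_cotTrans_symp`: transitions of cotangent charts are symplectic; `sprCo`, `sprCo_spec` (= `cotCo`, `cotCo_spec` of `S4/Pois.lean`, for a general index type).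
6. (`section ham`) `hamC G Ψ (p, τ) = Jstd (jac (G ∘ Ψ) p)ᵀ τ`, `sprayAtlas_ham`, `jac_G_trans`, `exists_spray`.
   (The Poisson matrix in EVERY cotangent chart: `poisM_chart` of `S4/Pois.lean`, which imports this file.)
-/

set_option autoImplicit false
set_option linter.unusedSectionVars false
set_option maxSynthPendingDepth 3
open scoped ContDiff ComplexOrder Topology Matrix
open Filter

namespace Claimed.Agent.R316.S4

open Claimed.Agent.R316 Claimed.Agent.R316.ODE Claimed.Agent.R316.S6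

/-! ### 1. the time one map of a holomorphic field with parameters, in a chart -/

section chart

variable {E P : Type*} [NormedAddCommGroup E] [NormedSpace ℂ E]
variable [NormedAddCommGroup P] [NormedSpace ℂ P]

/-- the autonomous field on `E × P` of the equation `w' = a (w, τ)`, `τ' = 0`. -/
def pfield (a : E × P → E) : E × P → E × P := fun x => (a x, 0)

/-- the balanced domain of the time one map. -/
def sprD (a : E × P → E) (W : Set E) : Set (E × P) :=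
  {x | ∀ c : ℂ, ‖c‖ ≤ 1 → ((1 : ℝ), (x.1, c • x.2)) ∈ dom (pfield a) (W ×ˢ Set.univ)}

/-- the time one map. -/
noncomputable def sprF (a : E × P → E) (W : Set E) (x : E × P) : E :=
  (fl (pfield a) (W ×ˢ Set.univ) 1 x).1

variable {a : E × P → E} {W : Set E}

theorem differentiableOn_pfield (ha : DifferentiableOn ℂ a (W ×ˢ Set.univ)) :
    DifferentiableOn ℂ (pfield a) (W ×ˢ (Set.univ : Set P)) :=
  ha.prodMk (differentiableOn_const 0)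

theorem sprD_one_mem {x : E × P} (hx : x ∈ sprD a W) :
    ((1 : ℝ), x) ∈ dom (pfield a) (W ×ˢ Set.univ) := by
  have := hx 1 (by simp)
  simpa using this

theorem sprD_fst_mem {x : E × P} (hx : x ∈ sprD a W) : x.1 ∈ W :=
  (mem_of_mem_dom (sprD_one_mem hx)).1

theorem sprD_balanced {w : E} {τ : P} (hx : (w, τ) ∈ sprD a W) {c : ℂ} (hc : ‖c‖ ≤ 1) :
    (w, c • τ) ∈ sprD a W := by
  intro c' hc'
  have := hx (c' * c) (by
    rw [norm_mul]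
    calc ‖c'‖ * ‖c‖ ≤ 1 * 1 := mul_le_mul hc' hc (norm_nonneg _) zero_le_one
      _ = 1 := one_mul 1)
  simpa [mul_smul] using this

theorem sprF_mem {x : E × P} (hx : x ∈ sprD a W) : sprF a W x ∈ W :=
  (fl_mem (sprD_one_mem hx)).1

variable [CompleteSpace E] [CompleteSpace P]

theorem isOpen_sprD (hW : IsOpen W) (ha : DifferentiableOn ℂ a (W ×ˢ Set.univ)) :
    IsOpen (sprD a W) := by
  have hΩ : IsOpen (W ×ˢ (Set.univ : Set P)) := hW.prod isOpen_univ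
  have hopen := isOpen_dom hΩ (odeh_contDiffOn_real hΩ (differentiableOn_pfield ha))
  rw [isOpen_iff_eventually]
  intro x hx
  have hK : IsCompact (Metric.closedBall (0 : ℂ) 1) := isCompact_closedBall 0 1
  have key := hK.eventually_forall_of_forall_eventually (x₀ := x)
    (P := fun (y : E × P) (c : ℂ) => ((1 : ℝ), (y.1, c • y.2)) ∈ dom (pfield a) (W ×ˢ Set.univ)) ?_
  · filter_upwards [key] with y hy c hc
    exact hy c (by simpa using hc)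
  · intro c hc
    have hcont : Continuous fun z : (E × P) × ℂ => ((1 : ℝ), (z.1.1, z.2 • z.1.2)) := by fun_prop
    exact (hopen.preimage hcont).mem_nhds (hx c (by simpa using hc))

/-- scaling: the complex time flow is the flow with the scaled parameter. -/
theorem spr_scaling (hW : IsOpen W) (ha : DifferentiableOn ℂ a (W ×ˢ Set.univ))
    (hom : ∀ (w : E) (τ : P) (c : ℂ), a (w, c • τ) = c • a (w, τ)) {z : ℂ} {w : E} {τ : P}
    (h : (z, (w, τ)) ∈ cdom (pfield a) (W ×ˢ Set.univ)) :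
    ((1 : ℝ), (w, z • τ)) ∈ dom (pfield a) (W ×ˢ Set.univ) ∧
      sprF a W (w, z • τ) = (cfl (pfield a) (W ×ˢ Set.univ) z (w, τ)).1 := by
  have hΩ : IsOpen (W ×ˢ (Set.univ : Set P)) := hW.prod isOpen_univ
  have hA := odeh_contDiffOn_real hΩ (differentiableOn_pfield ha)
  let θ : E × P →L[ℝ] E × P :=
    (ContinuousLinearMap.fst ℝ E P).prod (z • ContinuousLinearMap.snd ℝ E P)
  have hθ : ∀ y : E × P, θ y = (y.1, z • y.2) := fun y => rfl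
  have := fl_map (f := fun y => z • pfield a y) (Ω := W ×ˢ (Set.univ : Set P)) (t := 1)
    (x := (w, τ)) hΩ hA (θ := θ) (θ' := fun _ => θ) (fun y _ => θ.hasFDerivAt)
    (fun y hy => ⟨hy.1, trivial⟩) (fun y _ => by
      rw [hθ, hθ]
      simp only [pfield, Prod.smul_mk, smul_zero]
      rw [hom]) h
  refine ⟨this.1, ?_⟩
  have h2 := this.2
  rw [hθ] at h2
  show (fl (pfield a) (W ×ˢ Set.univ) 1 (w, z • τ)).1 = _
  rw [h2, hθ]
  rfl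

theorem zero_mem_sprD (hW : IsOpen W) (ha : DifferentiableOn ℂ a (W ×ˢ Set.univ))
    (hom : ∀ (w : E) (τ : P) (c : ℂ), a (w, c • τ) = c • a (w, τ)) {w : E} (hw : w ∈ W) :
    (w, (0 : P)) ∈ sprD a W := by
  intro c _
  have h0 : ((0 : ℂ), (w, (0 : P))) ∈ cdom (pfield a) (W ×ˢ Set.univ) :=
    zero_mem_cdom.2 ⟨hw, trivial⟩
  have := (spr_scaling hW ha hom h0).1
  simpa using this

theorem sprF_zero (hW : IsOpen W) (ha : DifferentiableOn ℂ a (W ×ˢ Set.univ))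
    (hom : ∀ (w : E) (τ : P) (c : ℂ), a (w, c • τ) = c • a (w, τ)) {w : E} (hw : w ∈ W) :
    sprF a W (w, (0 : P)) = w := by
  have h0 : ((0 : ℂ), (w, (0 : P))) ∈ cdom (pfield a) (W ×ˢ Set.univ) :=
    zero_mem_cdom.2 ⟨hw, trivial⟩
  have := (spr_scaling hW ha hom h0).2
  rw [cfl_zero] at this
  simpa using this

theorem differentiableOn_sprF (hW : IsOpen W) (ha : DifferentiableOn ℂ a (W ×ˢ Set.univ)) :
    DifferentiableOn ℂ (sprF a W) (sprD a W) := by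
  have hΩ : IsOpen (W ×ˢ (Set.univ : Set P)) := hW.prod isOpen_univ
  have h1 := differentiableOn_fl hΩ (differentiableOn_pfield ha) 1
  exact (differentiable_fst.comp_differentiableOn h1).mono fun x hx => sprD_one_mem hx

/-- first order part of the time one map. -/
theorem hasDerivAt_sprF_zero (hW : IsOpen W) (ha : DifferentiableOn ℂ a (W ×ˢ Set.univ))
    (hom : ∀ (w : E) (τ : P) (c : ℂ), a (w, c • τ) = c • a (w, τ)) {w : E} (hw : w ∈ W) (τ : P) :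
    HasDerivAt (fun z : ℂ => sprF a W (w, z • τ)) (a (w, τ)) 0 := by
  have hΩ : IsOpen (W ×ˢ (Set.univ : Set P)) := hW.prod isOpen_univ
  have hA := differentiableOn_pfield ha
  have h0 : ((0 : ℂ), (w, τ)) ∈ cdom (pfield a) (W ×ˢ Set.univ) := zero_mem_cdom.2 ⟨hw, trivial⟩
  have h1 := hasDerivAt_cfl hΩ hA h0
  rw [cfl_zero] at h1
  have h2 : HasDerivAt (fun z : ℂ => (cfl (pfield a) (W ×ˢ Set.univ) z (w, τ)).1) (a (w, τ)) 0 :=
    h1.fst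
  refine h2.congr_of_eventuallyEq ?_
  have hcont : Continuous fun z : ℂ => (z, (w, τ)) := by fun_prop
  filter_upwards [((isOpen_cdom hΩ hA).preimage hcont).mem_nhds h0] with z hz
  exact (spr_scaling hW ha hom hz).2

end chart

/-! ### 2. gluing the chart sprays -/

section mfd

variable {V' : Type} [NormedAddCommGroup V'] [NormedSpace ℝ V']
variable {κ ρ : Type} [Fintype κ] [Fintype ρ]

/-- a covering family `𝒜` of holomorphic parametrisations of `𝒳`, with holomorphic chart fields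
`a Ψ (w, τ)` which are complex homogeneous in the parameter `τ` and compatible with the
transitions. -/
structure SprayAtlas (𝒳 : CMfd V' κ) (𝒜 : (CE κ → V') → Set (CE κ) → Prop)
    (a : (CE κ → V') → CE κ × CE ρ → CE κ) : Prop where
  isHol : ∀ {Ψ : CE κ → V'} {W : Set (CE κ)}, 𝒜 Ψ W → 𝒳.IsHol Ψ W
  cover : ∀ y ∈ 𝒳.carrier, ∃ (Ψ : CE κ → V') (W : Set (CE κ)), 𝒜 Ψ W ∧ y ∈ Ψ '' W
  hol : ∀ {Ψ : CE κ → V'} {W : Set (CE κ)}, 𝒜 Ψ W → DifferentiableOn ℂ (a Ψ) (W ×ˢ Set.univ)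
  hom : ∀ (Ψ : CE κ → V') (w : CE κ) (τ : CE ρ) (c : ℂ), a Ψ (w, c • τ) = c • a Ψ (w, τ)
  compat : ∀ {Ψ Ψ' : CE κ → V'} {W W' : Set (CE κ)}, 𝒜 Ψ W → 𝒜 Ψ' W' →
    ∀ w ∈ W ∩ Ψ ⁻¹' (Ψ' '' W'), ∀ τ : CE ρ,
      a Ψ' ((Function.invFunOn Ψ' W' ∘ Ψ) w, τ) =
        fderiv ℂ (Function.invFunOn Ψ' W' ∘ Ψ) w (a Ψ (w, τ))

/-- domain of the glued spray. -/
def sprDom (𝒜 : (CE κ → V') → Set (CE κ) → Prop) (a : (CE κ → V') → CE κ × CE ρ → CE κ) :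
    Set (V' × CE ρ) :=
  {p | ∃ (Ψ : CE κ → V') (W : Set (CE κ)) (w : CE κ), 𝒜 Ψ W ∧ Ψ w = p.1 ∧ (w, p.2) ∈ sprD (a Ψ) W}

open Classical in
/-- the glued spray. -/
noncomputable def sprMap (𝒜 : (CE κ → V') → Set (CE κ) → Prop)
    (a : (CE κ → V') → CE κ × CE ρ → CE κ) (y : V') (τ : CE ρ) : V' :=
  if h : ∃ (Ψ : CE κ → V') (W : Set (CE κ)) (w : CE κ), 𝒜 Ψ W ∧ Ψ w = y ∧ (w, τ) ∈ sprD (a Ψ) W then
    h.choose (sprF (a h.choose) h.choose_spec.choose (h.choose_spec.choose_spec.choose, τ))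
  else y

variable {𝒳 : CMfd V' κ} {𝒜 : (CE κ → V') → Set (CE κ) → Prop}
  {a : (CE κ → V') → CE κ × CE ρ → CE κ} {Ψ Ψ' : CE κ → V'} {W W' : Set (CE κ)}

/-- integral curves in two charts with the same initial point coincide on the manifold. -/
theorem SprayAtlas.curve_eq (H : SprayAtlas 𝒳 𝒜 a) (h1 : 𝒜 Ψ W) (h2 : 𝒜 Ψ' W')
    {c c' : ℝ → CE κ × CE ρ}
    (hc : SolOn (pfield (a Ψ)) (W ×ˢ Set.univ) (Set.Icc 0 1) c)
    (hc' : SolOn (pfield (a Ψ')) (W' ×ˢ Set.univ) (Set.Icc 0 1) c')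
    (h0 : (Ψ (c 0).1, (c 0).2) = (Ψ' (c' 0).1, (c' 0).2)) :
    ∀ s ∈ Set.Icc (0 : ℝ) 1, (Ψ (c s).1, (c s).2) = (Ψ' (c' s).1, (c' s).2) := by
  have hΨ := H.isHol h1
  have hΨ' := H.isHol h2
  have hΩ' : IsOpen (W' ×ˢ (Set.univ : Set (CE ρ))) := (CMfd.isOpen_dom hΨ').prod isOpen_univ
  have hA' := odeh_contDiffOn_real hΩ' (differentiableOn_pfield (H.hol h2))
  set S : Set ℝ := {s | (Ψ (c s).1, (c s).2) = (Ψ' (c' s).1, (c' s).2)} with hS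
  have hcontF : ∀ {Ψ : CE κ → V'} {W : Set (CE κ)}, 𝒳.IsHol Ψ W → ∀ {c : ℝ → CE κ × CE ρ},
      ContinuousOn c (Set.Icc 0 1) → (∀ s ∈ Set.Icc (0 : ℝ) 1, (c s).1 ∈ W) →
      ContinuousOn (fun s => (Ψ (c s).1, (c s).2)) (Set.Icc 0 1) := by
    intro Ψ W hΨ c hc hm
    refine ContinuousOn.prodMk ?_ (continuous_snd.comp_continuousOn hc)
    exact (𝒳.isParam hΨ).continuousOn.comp (continuous_fst.comp_continuousOn hc) hm
  have hclosed : IsClosed (S ∩ Set.Icc 0 1) := by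
    have := isClosed_Icc.isClosed_eq
      (hcontF hΨ hc.continuousOn fun s hs => (hc s hs).1.1)
      (hcontF hΨ' hc'.continuousOn fun s hs => (hc' s hs).1.1)
    convert this using 1
    ext s
    simp only [hS, Set.mem_inter_iff, Set.mem_ofPred_eq]
    tauto
  refine hclosed.Icc_subset_of_forall_mem_nhdsWithin h0 ?_
  rintro s₀ ⟨hs₀, hs₀I⟩
  have hs₀' : s₀ ∈ Set.Icc (0 : ℝ) 1 := ⟨hs₀I.1, hs₀I.2.le⟩
  have hs₀e : (Ψ (c s₀).1, (c s₀).2) = (Ψ' (c' s₀).1, (c' s₀).2) := hs₀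
  have he1 : Ψ (c s₀).1 = Ψ' (c' s₀).1 := (Prod.mk.inj hs₀e).1
  have he2 : (c s₀).2 = (c' s₀).2 := (Prod.mk.inj hs₀e).2
  have hD := CMfd.isOpen_overlap hΨ hΨ'
  have hmemD : (c s₀).1 ∈ W ∩ Ψ ⁻¹' (Ψ' '' W') :=
    ⟨(hc s₀ hs₀').1.1, ⟨(c' s₀).1, (hc' s₀ hs₀').1.1, he1.symm⟩⟩
  have hev : ∀ᶠ s in 𝓝[Set.Icc 0 1] s₀, (c s).1 ∈ W ∩ Ψ ⁻¹' (Ψ' '' W') :=
    (continuous_fst.continuousAt.comp_continuousWithinAt (hc.continuousOn s₀ hs₀')).eventually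
      (hD.mem_nhds hmemD)
  obtain ⟨ε, hε, hball⟩ := Metric.mem_nhdsWithin_iff.1 hev
  set δ : ℝ := min (ε / 2) (1 - s₀) with hδ
  have hδpos : 0 < δ := lt_min (by positivity) (by linarith [hs₀I.2])
  have hJsub : Set.Icc s₀ (s₀ + δ) ⊆ Set.Icc 0 1 := by
    intro s hs
    have : δ ≤ 1 - s₀ := min_le_right _ _
    exact ⟨hs₀I.1.trans hs.1, by linarith [hs.2]⟩
  have hJD : ∀ s ∈ Set.Icc s₀ (s₀ + δ), (c s).1 ∈ W ∩ Ψ ⁻¹' (Ψ' '' W') := by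
    intro s hs
    refine hball ⟨?_, hJsub hs⟩
    have : δ ≤ ε / 2 := min_le_left _ _
    rw [Metric.mem_ball, Real.dist_eq, abs_of_nonneg (by linarith [hs.1])]
    linarith [hs.2]
  set σ := Function.invFunOn Ψ' W' ∘ Ψ with hσ
  have hsol : SolOn (pfield (a Ψ')) (W' ×ˢ Set.univ) (Set.Icc s₀ (s₀ + δ))
      (fun s => (σ (c s).1, (c s).2)) := by
    intro s hs
    refine ⟨⟨CMfd.trans_mem hΨ hΨ' (hJD s hs), trivial⟩, ?_⟩
    have hd := ((hc s (hJsub hs)).2).mono hJsub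
    have hθ : HasFDerivAt (fun x : CE κ × CE ρ => (σ x.1, x.2))
        ((((fderiv ℂ σ (c s).1).restrictScalars ℝ).comp (ContinuousLinearMap.fst ℝ _ _)).prod
          (ContinuousLinearMap.snd ℝ _ _)) (c s) :=
      ((CMfd.trans_hasFDerivAt_real hΨ hΨ' (hJD s hs)).comp (c s) hasFDerivAt_fst).prodMk
        hasFDerivAt_snd
    have := hθ.comp_hasDerivWithinAt s hd
    refine (show HasDerivWithinAt (fun s => (σ (c s).1, (c s).2)) _ _ s from this).congr_deriv ?_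
    show (fderiv ℂ σ (c s).1 (a Ψ (c s)), (0 : CE ρ)) = (a Ψ' (σ (c s).1, (c s).2), (0 : CE ρ))
    rw [H.compat h1 h2 _ (hJD s hs)]
  have heq := SolOn.eqOn hΩ' hA' Set.ordConnected_Icc hsol (hc'.mono hJsub)
    (t₀ := s₀) (Set.left_mem_Icc.2 (by linarith)) (by
      have h4 : σ (c s₀).1 = (c' s₀).1 := CMfd.trans_eq hΨ hΨ' (hc' s₀ hs₀').1.1 he1
      show (σ (c s₀).1, (c s₀).2) = c' s₀
      rw [h4, he2])
  refine mem_of_superset (Icc_mem_nhdsGT (show s₀ < s₀ + δ by linarith)) ?_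
  intro s hs
  have h3 : (σ (c s).1, (c s).2) = c' s := heq hs
  show (Ψ (c s).1, (c s).2) = (Ψ' (c' s).1, (c' s).2)
  rw [← h3]
  have h5 : Ψ' (σ (c s).1) = Ψ (c s).1 := CMfd.trans_spec hΨ hΨ' (hJD s hs)
  show (Ψ (c s).1, (c s).2) = (Ψ' (σ (c s).1), (c s).2)
  rw [h5]

theorem SprayAtlas.time_one_eq (H : SprayAtlas 𝒳 𝒜 a) (h1 : 𝒜 Ψ W) (h2 : 𝒜 Ψ' W')
    {w w' : CE κ} {τ : CE ρ} (hx : ((1 : ℝ), (w, τ)) ∈ dom (pfield (a Ψ)) (W ×ˢ Set.univ))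
    (hx' : ((1 : ℝ), (w', τ)) ∈ dom (pfield (a Ψ')) (W' ×ˢ Set.univ)) (h : Ψ w = Ψ' w') :
    Ψ (sprF (a Ψ) W (w, τ)) = Ψ' (sprF (a Ψ') W' (w', τ)) := by
  obtain ⟨c, hc, he⟩ := dom_spec hx
  obtain ⟨c', hc', he'⟩ := dom_spec hx'
  have hI : Set.uIcc (0 : ℝ) 1 = Set.Icc 0 1 := Set.uIcc_of_le zero_le_one
  have h3 := H.curve_eq h1 h2 (c := c) (c' := c') (hI ▸ hc.2) (hI ▸ hc'.2)
    (by rw [hc.1, hc'.1, h]) 1 (Set.right_mem_Icc.2 zero_le_one)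
  unfold sprF
  rw [he, he']
  exact congrArg Prod.fst h3

theorem SprayAtlas.sprMap_eq (H : SprayAtlas 𝒳 𝒜 a) (h1 : 𝒜 Ψ W) {w : CE κ} {τ : CE ρ}
    (hx : (w, τ) ∈ sprD (a Ψ) W) : sprMap 𝒜 a (Ψ w) τ = Ψ (sprF (a Ψ) W (w, τ)) := by
  have h : ∃ (Ψ' : CE κ → V') (W' : Set (CE κ)) (w' : CE κ), 𝒜 Ψ' W' ∧ Ψ' w' = Ψ w ∧
      (w', τ) ∈ sprD (a Ψ') W' := ⟨Ψ, W, w, h1, rfl, hx⟩
  unfold sprMap
  rw [dif_pos h]
  obtain ⟨h2, h3, h4⟩ := h.choose_spec.choose_spec.choose_spec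
  exact H.time_one_eq h2 h1 (sprD_one_mem h4) (sprD_one_mem hx) h3

end mfd

section mfd2

variable {V' : Type} [NormedAddCommGroup V'] [NormedSpace ℝ V']
variable {κ ρ : Type} [Fintype κ] [Fintype ρ]
variable {𝒳 : CMfd V' κ} {𝒜 : (CE κ → V') → Set (CE κ) → Prop}
  {a : (CE κ → V') → CE κ × CE ρ → CE κ} {Ψ Ψ' : CE κ → V'} {W W' : Set (CE κ)}

theorem exists_isOpen_of_eventually {X : Type*} [TopologicalSpace X] {S D : Set X} (hDS : D ⊆ S)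
    (h : ∀ x ∈ D, ∀ᶠ y in 𝓝[S] x, y ∈ D) : ∃ O : Set X, IsOpen O ∧ D = S ∩ O := by
  have h' : ∀ x : D, ∃ u : Set X, IsOpen u ∧ (x : X) ∈ u ∧ u ∩ S ⊆ D := fun x =>
    mem_nhdsWithin.1 (h x x.2)
  choose u hu1 hu2 hu3 using h'
  refine ⟨⋃ x, u x, isOpen_iUnion hu1, ?_⟩
  ext y
  constructor
  · intro hy
    exact ⟨hDS hy, Set.mem_iUnion.2 ⟨⟨y, hy⟩, hu2 ⟨y, hy⟩⟩⟩
  · rintro ⟨hyS, hyO⟩
    obtain ⟨x, hx⟩ := Set.mem_iUnion.1 hyO
    exact hu3 x ⟨hx, hyS⟩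

theorem SprayAtlas.isOpen_sprD (H : SprayAtlas 𝒳 𝒜 a) (h1 : 𝒜 Ψ W) : IsOpen (sprD (a Ψ) W) :=
  S4.isOpen_sprD (CMfd.isOpen_dom (H.isHol h1)) (H.hol h1)

theorem SprayAtlas.sprDom_subset (H : SprayAtlas 𝒳 𝒜 a) :
    sprDom 𝒜 a ⊆ 𝒳.carrier ×ˢ Set.univ := by
  rintro ⟨y, τ⟩ ⟨Ψ, W, w, h1, h2, h3⟩
  refine ⟨?_, trivial⟩
  show y ∈ 𝒳.carrier
  rw [← show Ψ w = y from h2]
  exact CMfd.mem_carrier (H.isHol h1) (sprD_fst_mem h3)

theorem SprayAtlas.tendsto_inv (H : SprayAtlas 𝒳 𝒜 a) (h1 : 𝒜 Ψ W) {w : CE κ} (hw : w ∈ W)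
    (τ : CE ρ) :
    Tendsto (fun p : V' × CE ρ => (Function.invFunOn Ψ W p.1, p.2))
      (𝓝[𝒳.carrier ×ˢ Set.univ] (Ψ w, τ)) (𝓝 (w, τ)) := by
  rw [nhdsWithin_prod_eq, nhdsWithin_univ, nhds_prod_eq]
  exact (((𝒳.isParam (H.isHol h1)).tendsto_invFunOn hw).comp tendsto_fst).prodMk tendsto_snd

/-- points of the manifold near a point of the domain. -/
theorem SprayAtlas.eventually_rep (H : SprayAtlas 𝒳 𝒜 a) (h1 : 𝒜 Ψ W) {w : CE κ} {τ : CE ρ}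
    (hx : (w, τ) ∈ sprD (a Ψ) W) :
    ∀ᶠ p in 𝓝[𝒳.carrier ×ˢ Set.univ] (Ψ w, τ), p ∈ sprDom 𝒜 a ∧
      sprMap 𝒜 a p.1 p.2 = Ψ (sprF (a Ψ) W (Function.invFunOn Ψ W p.1, p.2)) := by
  have hw := sprD_fst_mem hx
  have hp := 𝒳.isParam (H.isHol h1)
  have e1 : ∀ᶠ p in 𝓝[𝒳.carrier ×ˢ (Set.univ : Set (CE ρ))] (Ψ w, τ), p.1 ∈ Ψ '' W := by
    have := hp.eventually_mem_image hw (N := Set.univ) univ_mem
    rw [nhdsWithin_prod_eq]
    filter_upwards [tendsto_fst.eventually this] with p hp'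
    simpa using hp'
  have e2 := (H.tendsto_inv h1 hw τ).eventually ((H.isOpen_sprD h1).mem_nhds hx)
  filter_upwards [e1, e2] with p hp1 hp2
  have h3 : Ψ (Function.invFunOn Ψ W p.1) = p.1 := hp.rightInv hp1
  have hp2' : (Function.invFunOn Ψ W p.1, p.2) ∈ sprD (a Ψ) W := hp2
  refine ⟨⟨Ψ, W, _, h1, h3, hp2'⟩, ?_⟩
  have h4 := H.sprMap_eq h1 hp2'
  rwa [h3] at h4

theorem SprayAtlas.exists_isOpen (H : SprayAtlas 𝒳 𝒜 a) :
    ∃ O : Set (V' × CE ρ), IsOpen O ∧ sprDom 𝒜 a = (𝒳.carrier ×ˢ Set.univ) ∩ O := by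
  refine exists_isOpen_of_eventually H.sprDom_subset ?_
  rintro ⟨y, τ⟩ ⟨Ψ, W, w, h1, h2, h3⟩
  have h2' : Ψ w = y := h2
  subst h2'
  exact (H.eventually_rep h1 h3).mono fun p hp => hp.1

theorem SprayAtlas.zero_mem (H : SprayAtlas 𝒳 𝒜 a) {y : V'} (hy : y ∈ 𝒳.carrier) :
    (y, (0 : CE ρ)) ∈ sprDom 𝒜 a := by
  obtain ⟨Ψ, W, h1, w, hw, rfl⟩ := H.cover y hy
  exact ⟨Ψ, W, w, h1, rfl, zero_mem_sprD (CMfd.isOpen_dom (H.isHol h1)) (H.hol h1) (H.hom Ψ) hw⟩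

theorem SprayAtlas.balanced (_H : SprayAtlas 𝒳 𝒜 a) {y : V'} {τ : CE ρ}
    (h : (y, τ) ∈ sprDom 𝒜 a) {c : ℂ} (hc : ‖c‖ ≤ 1) : (y, c • τ) ∈ sprDom 𝒜 a := by
  obtain ⟨Ψ, W, w, h1, h2, h3⟩ := h
  exact ⟨Ψ, W, w, h1, h2, sprD_balanced h3 hc⟩

theorem SprayAtlas.maps (H : SprayAtlas 𝒳 𝒜 a) {y : V'} {τ : CE ρ}
    (h : (y, τ) ∈ sprDom 𝒜 a) : sprMap 𝒜 a y τ ∈ 𝒳.carrier := by
  obtain ⟨Ψ, W, w, h1, h2, h3⟩ := h
  have h2' : Ψ w = y := h2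
  subst h2'
  rw [H.sprMap_eq h1 h3]
  exact CMfd.mem_carrier (H.isHol h1) (sprF_mem h3)

theorem SprayAtlas.map_zero (H : SprayAtlas 𝒳 𝒜 a) {y : V'} (hy : y ∈ 𝒳.carrier) :
    sprMap 𝒜 a y 0 = y := by
  obtain ⟨Ψ, W, h1, w, hw, rfl⟩ := H.cover y hy
  have hW := CMfd.isOpen_dom (H.isHol h1)
  rw [H.sprMap_eq h1 (zero_mem_sprD hW (H.hol h1) (H.hom Ψ) hw),
    sprF_zero hW (H.hol h1) (H.hom Ψ) hw]

theorem SprayAtlas.differentiableAt_sprF (H : SprayAtlas 𝒳 𝒜 a) (h1 : 𝒜 Ψ W) {x : CE κ × CE ρ}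
    (hx : x ∈ sprD (a Ψ) W) : DifferentiableAt ℂ (sprF (a Ψ) W) x :=
  (differentiableOn_sprF (CMfd.isOpen_dom (H.isHol h1)) (H.hol h1) x hx).differentiableAt
    ((H.isOpen_sprD h1).mem_nhds hx)

theorem SprayAtlas.continuousOn (H : SprayAtlas 𝒳 𝒜 a) :
    ContinuousOn (fun p : V' × CE ρ => sprMap 𝒜 a p.1 p.2) (sprDom 𝒜 a) := by
  rintro ⟨y, τ⟩ ⟨Ψ, W, w, h1, h2, h3⟩
  have h2' : Ψ w = y := h2
  subst h2'
  have hw := sprD_fst_mem h3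
  have hp := 𝒳.isParam (H.isHol h1)
  have e := H.eventually_rep h1 h3
  have ht : Tendsto (fun p : V' × CE ρ => Ψ (sprF (a Ψ) W (Function.invFunOn Ψ W p.1, p.2)))
      (𝓝[𝒳.carrier ×ˢ Set.univ] (Ψ w, τ)) (𝓝 (Ψ (sprF (a Ψ) W (w, τ)))) :=
    ((hp.differentiableAt (sprF_mem h3)).continuousAt.tendsto.comp
      (H.differentiableAt_sprF h1 h3).continuousAt.tendsto).comp (H.tendsto_inv h1 hw τ)
  have ht2 : Tendsto (fun p : V' × CE ρ => sprMap 𝒜 a p.1 p.2)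
      (𝓝[𝒳.carrier ×ˢ Set.univ] (Ψ w, τ)) (𝓝 (Ψ (sprF (a Ψ) W (w, τ)))) :=
    ht.congr' (e.mono fun p hp => hp.2.symm)
  show Tendsto _ _ (𝓝 (sprMap 𝒜 a (Ψ w) τ))
  rw [H.sprMap_eq h1 (show (w, τ) ∈ sprD (a Ψ) W from h3)]
  exact ht2.mono_left (nhdsWithin_mono _ H.sprDom_subset)

/-- the spray read from an arbitrary parametrisation of the source. -/
theorem SprayAtlas.local_rep (H : SprayAtlas 𝒳 𝒜 a) {Ψ₁ : CE κ → V'} {W₁ : Set (CE κ)}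
    (hΨ₁ : 𝒳.IsHol Ψ₁ W₁) {x₀ : CE κ × CE ρ} (hx₀ : x₀.1 ∈ W₁)
    (hd : (Ψ₁ x₀.1, x₀.2) ∈ sprDom 𝒜 a) :
    ∃ (Ψ : CE κ → V') (W : Set (CE κ)) (g : CE κ × CE ρ → CE κ), 𝒳.IsHol Ψ W ∧
      ∀ᶠ x in 𝓝 x₀, DifferentiableAt ℂ g x ∧ g x ∈ W ∧ sprMap 𝒜 a (Ψ₁ x.1) x.2 = Ψ (g x) := by
  obtain ⟨Ψ, W, w, h1, h2, h3⟩ := hd
  have h2' : Ψ w = Ψ₁ x₀.1 := h2
  have h3' : (w, x₀.2) ∈ sprD (a Ψ) W := h3
  have hΨ := H.isHol h1
  have hw := sprD_fst_mem h3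
  have hmem : x₀.1 ∈ W₁ ∩ Ψ₁ ⁻¹' (Ψ '' W) := ⟨hx₀, ⟨w, hw, h2'⟩⟩
  have hσ0 : (Function.invFunOn Ψ W ∘ Ψ₁) x₀.1 = w := CMfd.trans_eq hΨ₁ hΨ hw h2'.symm
  refine ⟨Ψ, W, fun x => sprF (a Ψ) W ((Function.invFunOn Ψ W ∘ Ψ₁) x.1, x.2), hΨ, ?_⟩
  have e1 : ∀ᶠ x in 𝓝 x₀, x.1 ∈ W₁ ∩ Ψ₁ ⁻¹' (Ψ '' W) :=
    continuous_fst.continuousAt.eventually ((CMfd.isOpen_overlap hΨ₁ hΨ).mem_nhds hmem)
  have hc : ContinuousAt (fun x : CE κ × CE ρ => ((Function.invFunOn Ψ W ∘ Ψ₁) x.1, x.2)) x₀ :=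
    ((CMfd.trans_continuousAt hΨ₁ hΨ hmem).comp continuous_fst.continuousAt).prodMk
      continuous_snd.continuousAt
  have e2 : ∀ᶠ x in 𝓝 x₀, ((Function.invFunOn Ψ W ∘ Ψ₁) x.1, x.2) ∈ sprD (a Ψ) W := by
    refine hc.eventually ((H.isOpen_sprD h1).mem_nhds ?_)
    show ((Function.invFunOn Ψ W ∘ Ψ₁) x₀.1, x₀.2) ∈ sprD (a Ψ) W
    rw [hσ0]
    exact h3'
  filter_upwards [e1, e2] with x hx1 hx2
  refine ⟨?_, sprF_mem hx2, ?_⟩
  · have hd1 : DifferentiableAt ℂ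
        (fun x : CE κ × CE ρ => ((Function.invFunOn Ψ W ∘ Ψ₁) x.1, x.2)) x :=
      ((CMfd.trans_differentiableAt hΨ₁ hΨ hx1).comp x differentiableAt_fst).prodMk
        differentiableAt_snd
    exact DifferentiableAt.comp x (g := sprF (a Ψ) W) (H.differentiableAt_sprF h1 hx2) hd1
  · rw [← H.sprMap_eq h1 hx2, CMfd.trans_spec hΨ₁ hΨ hx1]

theorem SprayAtlas.smooth (H : SprayAtlas 𝒳 𝒜 a) {Ψ₁ : CE κ → V'} {W₁ : Set (CE κ)}
    (hΨ₁ : 𝒳.IsHol Ψ₁ W₁) :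
    ContDiffOn ℝ ∞ (fun x : CE κ × CE ρ => sprMap 𝒜 a (Ψ₁ x.1) x.2)
      {x | x.1 ∈ W₁ ∧ (Ψ₁ x.1, x.2) ∈ sprDom 𝒜 a} := by
  rintro x₀ ⟨hx₀, hd⟩
  obtain ⟨Ψ, W, g, hΨ, hev⟩ := H.local_rep hΨ₁ hx₀ hd
  have hg : ContDiffAt ℝ ∞ g x₀ := hol_contDiffAt_real (hev.mono fun x hx => hx.1)
  have h1 : ContDiffAt ℝ ∞ (Ψ ∘ g) x₀ :=
    ((𝒳.isParam hΨ).contDiffAt hev.self_of_nhds.2.1).comp x₀ hg
  exact (h1.congr_of_eventuallyEq (hev.mono fun x hx => hx.2.2)).contDiffWithinAt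

theorem SprayAtlas.holo (H : SprayAtlas 𝒳 𝒜 a) {Ψ₁ Ψ₂ : CE κ → V'} {W₁ W₂ : Set (CE κ)}
    (hΨ₁ : 𝒳.IsHol Ψ₁ W₁) (hΨ₂ : 𝒳.IsHol Ψ₂ W₂) :
    DifferentiableOn ℂ (fun x : CE κ × CE ρ => Function.invFunOn Ψ₂ W₂ (sprMap 𝒜 a (Ψ₁ x.1) x.2))
      {x | x.1 ∈ W₁ ∧ (Ψ₁ x.1, x.2) ∈ sprDom 𝒜 a ∧ sprMap 𝒜 a (Ψ₁ x.1) x.2 ∈ Ψ₂ '' W₂} := by
  rintro x₀ ⟨hx₀, hd, him⟩
  obtain ⟨Ψ, W, g, hΨ, hev⟩ := H.local_rep hΨ₁ hx₀ hd
  obtain ⟨hg, hgW, hge⟩ := hev.self_of_nhds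
  have hmem : g x₀ ∈ W ∩ Ψ ⁻¹' (Ψ₂ '' W₂) := ⟨hgW, by
    show Ψ (g x₀) ∈ Ψ₂ '' W₂
    rw [← hge]; exact him⟩
  have h1 : DifferentiableAt ℂ ((Function.invFunOn Ψ₂ W₂ ∘ Ψ) ∘ g) x₀ :=
    (CMfd.trans_differentiableAt hΨ hΨ₂ hmem).comp x₀ hg
  refine (h1.congr_of_eventuallyEq (hev.mono fun x hx => ?_)).differentiableWithinAt
  show Function.invFunOn Ψ₂ W₂ (sprMap 𝒜 a (Ψ₁ x.1) x.2) = Function.invFunOn Ψ₂ W₂ (Ψ (g x))
  rw [hx.2.2]

/-- first order part of the spray, tested on a holomorphic map. -/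
theorem SprayAtlas.hasDerivAt_comp (H : SprayAtlas 𝒳 𝒜 a) (h1 : 𝒜 Ψ W) {w : CE κ} (hw : w ∈ W)
    (τ : CE ρ) {F' : Type*} [NormedAddCommGroup F'] [NormedSpace ℂ F'] {F : V' → F'}
    (hF : DifferentiableAt ℂ (F ∘ Ψ) w) :
    HasDerivAt (fun z : ℂ => F (sprMap 𝒜 a (Ψ w) (z • τ))) (fderiv ℂ (F ∘ Ψ) w (a Ψ (w, τ))) 0 := by
  have hW := CMfd.isOpen_dom (H.isHol h1)
  have h := hasDerivAt_sprF_zero hW (H.hol h1) (H.hom Ψ) hw τ
  have h0 : sprF (a Ψ) W (w, (0 : ℂ) • τ) = w := by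
    rw [zero_smul]; exact sprF_zero hW (H.hol h1) (H.hom Ψ) hw
  have hF' : HasFDerivAt (F ∘ Ψ) (fderiv ℂ (F ∘ Ψ) w) (sprF (a Ψ) W (w, (0 : ℂ) • τ)) := by
    rw [h0]; exact hF.hasFDerivAt
  have h2 := hF'.comp_hasDerivAt (0 : ℂ) h
  refine h2.congr_of_eventuallyEq ?_
  have hc : ContinuousAt (fun z : ℂ => (w, z • τ)) 0 := by fun_prop
  have e : ∀ᶠ z in 𝓝 (0 : ℂ), (w, z • τ) ∈ sprD (a Ψ) W := by
    refine hc.eventually ((H.isOpen_sprD h1).mem_nhds ?_)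
    show (w, (0 : ℂ) • τ) ∈ sprD (a Ψ) W
    rw [zero_smul]
    exact zero_mem_sprD hW (H.hol h1) (H.hom Ψ) hw
  filter_upwards [e] with z hz
  show F (sprMap 𝒜 a (Ψ w) (z • τ)) = F (Ψ (sprF (a Ψ) W (w, z • τ)))
  rw [H.sprMap_eq h1 hz]

end mfd2

/-! ### 3. cotangent lifts are symplectic -/

section symp

variable {ι : Type} [Fintype ι] [DecidableEq ι]

theorem symp_of_blocks {A C D : Matrix ι ι ℂ} (h1 : Aᵀ * D = 1) (h2 : (Aᵀ * C)ᵀ = Aᵀ * C) :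
    Matrix.fromBlocks A 0 C D * Jstd ι * (Matrix.fromBlocks A 0 C D)ᵀ = Jstd ι := by
  have h3 : D * Aᵀ = 1 := mul_eq_one_comm.1 h1
  have h4 : A * Dᵀ = 1 := by
    have := congrArg Matrix.transpose h3
    simpa [Matrix.transpose_mul] using this
  have h5 : C = D * (Aᵀ * C) := by rw [← Matrix.mul_assoc, h3, Matrix.one_mul]
  have h6 : C * Dᵀ = D * Cᵀ := by
    have h7 : Cᵀ = (Aᵀ * C) * Dᵀ := by
      conv_lhs => rw [h5, Matrix.transpose_mul, h2]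
    rw [h7]
    conv_lhs => rw [h5]
    simp only [Matrix.mul_assoc]
  unfold Jstd
  rw [Matrix.fromBlocks_transpose, Matrix.fromBlocks_multiply, Matrix.fromBlocks_multiply]
  simp only [Matrix.mul_zero, Matrix.zero_mul, Matrix.mul_one, Matrix.mul_neg, add_zero, zero_add,
    Matrix.neg_mul, Matrix.transpose_zero, neg_zero, h3, h4, h6]
  simp

/-- the base projection as a complex linear map. -/
noncomputable def cBaseL : CE (ι ⊕ ι) →L[ℂ] CE ι :=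
  LinearMap.toContinuousLinearMap
    { toFun := cBase
      map_add' := fun _ _ => rfl
      map_smul' := fun _ _ => rfl }

theorem cBaseL_apply (p : CE (ι ⊕ ι)) : cBaseL p = cBase p := rfl

theorem cBaseL_eb_inl (l : ι) : cBaseL (eb (Sum.inl l) : CE (ι ⊕ ι)) = eb l := by
  ext j
  show (eb (Sum.inl l) : CE (ι ⊕ ι)) (Sum.inl j) = (eb l : CE ι) j
  simp [eb_apply]

theorem cBaseL_eb_inr (l : ι) : cBaseL (eb (Sum.inr l) : CE (ι ⊕ ι)) = 0 := by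
  ext j
  show (eb (Sum.inr l) : CE (ι ⊕ ι)) (Sum.inl j) = 0
  simp [eb_apply]

/-- second derivatives of a holomorphic map are symmetric. -/
theorem fderiv_jac_symm {τ : CE ι → CE ι} {z : CE ι} (h : ∀ᶠ w in 𝓝 z, DifferentiableAt ℂ τ w)
    (j k l : ι) :
    fderiv ℂ (fun w => jac τ w j k) z (eb l) = fderiv ℂ (fun w => jac τ w j l) z (eb k) := by
  have hd : DifferentiableAt ℂ (fderiv ℂ τ) z := (hol_eventually_fderiv h).self_of_nhds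
  have key : ∀ k l : ι, fderiv ℂ (fun w => jac τ w j k) z (eb l) =
      fderiv ℂ (fderiv ℂ τ) z (eb l) (eb k) j := by
    intro k l
    have h1 : HasFDerivAt (fun w => fderiv ℂ τ w (eb k))
        ((fderiv ℂ (fderiv ℂ τ) z).flip (eb k)) z := by
      have := hd.hasFDerivAt.clm_apply (hasFDerivAt_const (eb k) z)
      simpa using this
    have h2 := ((EuclideanSpace.proj j : CE ι →L[ℂ] ℂ).hasFDerivAt.comp z h1)
    have h3 : fderiv ℂ (fun w => jac τ w j k) z =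
        (EuclideanSpace.proj j : CE ι →L[ℂ] ℂ).comp ((fderiv ℂ (fderiv ℂ τ) z).flip (eb k)) :=
      h2.fderiv
    rw [h3]
    rfl
  rw [key, key]
  have hs : IsSymmSndFDerivAt ℂ τ z :=
    (hol_contDiffAt h).isSymmSndFDerivAt
      (by rw [minSmoothness_of_isRCLikeNormedField]; exact WithTop.coe_le_coe.2 le_top)
  rw [hs.eq (eb l) (eb k)]

/-- **a holomorphic map of `ℂ^{ι ⊕ ι}` which covers `τ` on the base and pulls the tautological form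
back to itself is symplectic.** -/
theorem symp_of_lift {τ : CE ι → CE ι} {σ : CE (ι ⊕ ι) → CE (ι ⊕ ι)} {p : CE (ι ⊕ ι)}
    (hτ : ∀ᶠ w in 𝓝 (cBase p), DifferentiableAt ℂ τ w) (hσ : DifferentiableAt ℂ σ p)
    (h1 : ∀ᶠ p' in 𝓝 p, ∀ j, σ p' (Sum.inl j) = τ (cBase p') j)
    (h2 : ∀ᶠ p' in 𝓝 p, ∀ k, ∑ j, jac τ (cBase p') j k * σ p' (Sum.inr j) = p' (Sum.inr k)) :
    jac σ p * Jstd ι * (jac σ p)ᵀ = Jstd ι := by
  set L := fderiv ℂ σ p with hL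
  have hσa : ∀ a : ι ⊕ ι, HasFDerivAt (fun p' => σ p' a)
      ((EuclideanSpace.proj a : CE (ι ⊕ ι) →L[ℂ] ℂ).comp L) p := fun a =>
    (EuclideanSpace.proj a : CE (ι ⊕ ι) →L[ℂ] ℂ).hasFDerivAt.comp p hσ.hasFDerivAt
  have hbase : HasFDerivAt (fun p' : CE (ι ⊕ ι) => cBase p') cBaseL p := cBaseL.hasFDerivAt
  -- the upper blocks
  have hup : ∀ (j : ι) (v : CE (ι ⊕ ι)), L v (Sum.inl j) = fderiv ℂ τ (cBase p) (cBaseL v) j := by
    intro j v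
    have e1 : (fun p' => σ p' (Sum.inl j)) =ᶠ[𝓝 p] fun p' => τ (cBase p') j :=
      h1.mono fun p' hp' => hp' j
    have e2 : HasFDerivAt (fun p' => τ (cBase p') j)
        ((EuclideanSpace.proj j : CE ι →L[ℂ] ℂ).comp ((fderiv ℂ τ (cBase p)).comp cBaseL)) p :=
      (EuclideanSpace.proj j : CE ι →L[ℂ] ℂ).hasFDerivAt.comp p
        (hτ.self_of_nhds.hasFDerivAt.comp p hbase)
    have e3 := (hσa (Sum.inl j)).unique (e2.congr_of_eventuallyEq e1)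
    exact congrArg (fun M : CE (ι ⊕ ι) →L[ℂ] ℂ => M v) e3
  -- the derivative of the tautological identity
  have hlow : ∀ (k : ι) (v : CE (ι ⊕ ι)),
      ∑ j, (jac τ (cBase p) j k * L v (Sum.inr j) +
        σ p (Sum.inr j) * fderiv ℂ (fun w => jac τ w j k) (cBase p) (cBaseL v)) = v (Sum.inr k) := by
    intro k v
    have e1 : (fun p' => ∑ j, jac τ (cBase p') j k * σ p' (Sum.inr j)) =ᶠ[𝓝 p]
        fun p' => p' (Sum.inr k) := h2.mono fun p' hp' => hp' k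
    have e2 : ∀ j : ι, HasFDerivAt (fun p' => jac τ (cBase p') j k)
        ((fderiv ℂ (fun w => jac τ w j k) (cBase p)).comp cBaseL) p := fun j =>
      (differentiableAt_jac hτ j k).hasFDerivAt.comp p hbase
    have e3 := HasFDerivAt.fun_sum (u := Finset.univ) fun j _ => (e2 j).mul (hσa (Sum.inr j))
    have e4 : HasFDerivAt (fun p' : CE (ι ⊕ ι) => p' (Sum.inr k))
        (EuclideanSpace.proj (Sum.inr k) : CE (ι ⊕ ι) →L[ℂ] ℂ) p :=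
      (EuclideanSpace.proj (Sum.inr k) : CE (ι ⊕ ι) →L[ℂ] ℂ).hasFDerivAt
    have e5 := e3.unique (e4.congr_of_eventuallyEq e1)
    have e6 := congrArg (fun M : CE (ι ⊕ ι) →L[ℂ] ℂ => M v) e5
    simpa [sum_apply] using e6
  -- block form
  have hT : jac σ p = Matrix.fromBlocks (jac τ (cBase p)) 0 (jac σ p).toBlocks₂₁
      (jac σ p).toBlocks₂₂ := by
    conv_lhs => rw [← Matrix.fromBlocks_toBlocks (jac σ p)]
    congr 1
    · ext j k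
      show L (eb (Sum.inl k)) (Sum.inl j) = _
      rw [hup, cBaseL_eb_inl]
      rfl
    · ext j k
      show L (eb (Sum.inr k)) (Sum.inl j) = _
      rw [hup, cBaseL_eb_inr]
      simp
  rw [hT]
  refine symp_of_blocks ?_ ?_
  · ext k l
    have := hlow k (eb (Sum.inr l))
    rw [cBaseL_eb_inr] at this
    simp only [map_zero, mul_zero, add_zero] at this
    rw [Matrix.mul_apply]
    simp only [Matrix.transpose_apply, Matrix.toBlocks₂₂, Matrix.of_apply]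
    rw [show (∑ j, jac τ (cBase p) j k * jac σ p (Sum.inr j) (Sum.inr l)) =
      ∑ j, jac τ (cBase p) j k * L (eb (Sum.inr l)) (Sum.inr j) from rfl, this]
    simp [eb_apply, Matrix.one_apply]
  · have hform : ∀ k l : ι, ((jac τ (cBase p))ᵀ * (jac σ p).toBlocks₂₁) k l =
        - ∑ j, σ p (Sum.inr j) * fderiv ℂ (fun w => jac τ w j k) (cBase p) (eb l) := by
      intro k l
      have := hlow k (eb (Sum.inl l))
      rw [cBaseL_eb_inl, Finset.sum_add_distrib] at this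
      have h0 : (eb (Sum.inl l) : CE (ι ⊕ ι)) (Sum.inr k) = 0 := by simp [eb_apply]
      rw [h0] at this
      rw [Matrix.mul_apply]
      simp only [Matrix.transpose_apply, Matrix.toBlocks₂₁, Matrix.of_apply]
      rw [show (∑ j, jac τ (cBase p) j k * jac σ p (Sum.inr j) (Sum.inl l)) =
        ∑ j, jac τ (cBase p) j k * L (eb (Sum.inl l)) (Sum.inr j) from rfl]
      exact eq_neg_of_add_eq_zero_left this
    ext k l
    rw [Matrix.transpose_apply, hform, hform]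
    congr 1
    refine Finset.sum_congr rfl fun j _ => ?_
    rw [fderiv_jac_symm hτ j l k]

end symp

/-! ### 4. cotangent charts -/

section cot

variable {V : Type} [NormedAddCommGroup V] [InnerProductSpace ℝ V] [FiniteDimensional ℝ V]
variable {ι : Type} [Fintype ι] [DecidableEq ι]
variable {𝓜 : CMfd V ι} {𝒴 : CMfd (CotAmb V) (ι ⊕ ι)} {Φ Φ' : CE ι → V} {U U' : Set (CE ι)}

/-- the covector `cotParam Φ p` on tangent vectors. -/
theorem cotParam_snd_apply (hΦ : 𝓜.IsHol Φ U) {p : CE (ι ⊕ ι)} (hp : p ∈ cotDom U) (v : CE ι) :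
    (cotParam Φ p).2 (fderiv ℝ Φ (cBase p) v) = ∑ k, p (Sum.inr k) * v k := by
  show pairL (cFib p) (pinv (fderiv ℝ Φ (cBase p)) (fderiv ℝ Φ (cBase p) v)) = _
  rw [s6g_pinv_comp ((𝓜.isParam hΦ).immersion _ hp), s6g_pairL_apply]
  rfl

/-- base points of the overlap of two cotangent charts. -/
theorem cot_base_overlap (hΦ : 𝓜.IsHol Φ U) (hΦ' : 𝓜.IsHol Φ' U') {p p' : CE (ι ⊕ ι)}
    (hp : p ∈ cotDom U) (hp' : p' ∈ cotDom U') (h : cotParam Φ p = cotParam Φ' p') :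
    cBase p ∈ U ∩ Φ ⁻¹' (Φ' '' U') ∧ (Function.invFunOn Φ' U' ∘ Φ) (cBase p) = cBase p' := by
  have h1 : Φ (cBase p) = Φ' (cBase p') := congrArg Prod.fst h
  exact ⟨⟨hp, ⟨cBase p', hp', h1.symm⟩⟩, CMfd.trans_eq hΦ hΦ' hp' h1⟩

/-- the tautological form is invariant: `ζ = Aᵀ ζ'`. -/
theorem cot_taut (hΦ : 𝓜.IsHol Φ U) (hΦ' : 𝓜.IsHol Φ' U') {p p' : CE (ι ⊕ ι)}
    (hp : p ∈ cotDom U) (hp' : p' ∈ cotDom U') (h : cotParam Φ p = cotParam Φ' p') (k : ι) :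
    ∑ j, jac (Function.invFunOn Φ' U' ∘ Φ) (cBase p) j k * p' (Sum.inr j) = p (Sum.inr k) := by
  obtain ⟨hz, hτ⟩ := cot_base_overlap hΦ hΦ' hp hp' h
  have e1 := cotParam_snd_apply hΦ hp (eb k)
  rw [CMfd.fderiv_eq_comp_trans hΦ hΦ' hz, hτ, h, cotParam_snd_apply hΦ' hp'] at e1
  have e2 : ∑ j, p (Sum.inr j) * (eb k : CE ι) j = p (Sum.inr k) := by
    simp [eb_apply]
  rw [e2] at e1
  rw [← e1]
  exact Finset.sum_congr rfl fun j _ => mul_comm _ _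

/-- **(P1) the transitions of cotangent charts are symplectic.** -/
theorem jac_cotTrans_symp (hY : IsCotangent 𝓜 𝒴) (hΦ : 𝓜.IsHol Φ U) (hΦ' : 𝓜.IsHol Φ' U')
    {p : CE (ι ⊕ ι)} (hp₁ : p ∈ cotDom U) (hp₂ : cotParam Φ p ∈ cotParam Φ' '' cotDom U') :
    jac (Function.invFunOn (cotParam Φ') (cotDom U') ∘ cotParam Φ) p * Jstd ι *
      (jac (Function.invFunOn (cotParam Φ') (cotDom U') ∘ cotParam Φ) p)ᵀ = Jstd ι := by
  have hp : p ∈ cotDom U ∩ cotParam Φ ⁻¹' (cotParam Φ' '' cotDom U') := ⟨hp₁, hp₂⟩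
  have hΨ := hY.isHol hΦ
  have hΨ' := hY.isHol hΦ'
  have key : ∀ p' ∈ cotDom U ∩ cotParam Φ ⁻¹' (cotParam Φ' '' cotDom U'),
      (Function.invFunOn (cotParam Φ') (cotDom U') ∘ cotParam Φ) p' ∈ cotDom U' ∧
      cotParam Φ p' =
        cotParam Φ' ((Function.invFunOn (cotParam Φ') (cotDom U') ∘ cotParam Φ) p') :=
    fun p' hp' => ⟨CMfd.trans_mem hΨ hΨ' hp', (CMfd.trans_spec hΨ hΨ' hp').symm⟩
  have hev := (CMfd.isOpen_overlap hΨ hΨ').mem_nhds hp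
  refine symp_of_lift (τ := Function.invFunOn Φ' U' ∘ Φ) ?_
    (CMfd.trans_differentiableAt hΨ hΨ' hp) ?_ ?_
  · exact CMfd.trans_eventually_differentiableAt hΦ hΦ'
      (cot_base_overlap hΦ hΦ' hp.1 (key p hp).1 (key p hp).2).1
  · filter_upwards [hev] with p' hp' j
    have := (cot_base_overlap hΦ hΦ' hp'.1 (key p' hp').1 (key p' hp').2).2
    rw [this]
    rfl
  · filter_upwards [hev] with p' hp' k
    exact cot_taut hΦ hΦ' hp'.1 (key p' hp').1 (key p' hp').2 k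

/-- the chosen cotangent coordinates of a point of `Y`. -/
noncomputable def sprCo (𝓜 : CMfd V ι) (y : CotAmb V) : CE (ι ⊕ ι) :=
  WithLp.toLp 2 (Sum.elim (𝓜.co y.1) (covComp (𝓜.pΦ y.1) (𝓜.co y.1) y.2))

theorem sprCo_spec (hY : IsCotangent 𝓜 𝒴) {y : CotAmb V} (hy : y ∈ 𝒴.carrier) :
    𝓜.IsHol (𝓜.pΦ y.1) (𝓜.pU y.1) ∧ sprCo 𝓜 y ∈ cotDom (𝓜.pU y.1) ∧
      cotParam (𝓜.pΦ y.1) (sprCo 𝓜 y) = y := by
  rw [hY.carrier_eq] at hy
  obtain ⟨hy1, hy2⟩ := hy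
  have hΦ := 𝓜.isHol_pΦ hy1
  have hz := 𝓜.co_mem hy1
  refine ⟨hΦ, hz, ?_⟩
  have := s6g_eq_cotParam hΦ hz hy2
  rw [𝓜.pΦ_co hy1] at this
  exact this.symm

end cot

/-! ### 5. the Hamiltonian spray -/

section ham

variable {V : Type} [NormedAddCommGroup V] [InnerProductSpace ℝ V] [FiniteDimensional ℝ V]
variable {n q : ℕ} {𝓜 : CMfd V (Fin n)} {𝒴 : CMfd (CotAmb V) (Fin n ⊕ Fin n)}
variable {G : CotAmb V → CE (Fin q)} {Φ Φ' : CE (Fin n) → V} {U U' : Set (CE (Fin n))}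

/-- the cotangent charts. -/
def cotAtlas (𝓜 : CMfd V (Fin n)) (Ψ : CE (Fin n ⊕ Fin n) → CotAmb V)
    (W : Set (CE (Fin n ⊕ Fin n))) : Prop :=
  ∃ (Φ : CE (Fin n) → V) (U : Set (CE (Fin n))), 𝓜.IsHol Φ U ∧ Ψ = cotParam Φ ∧ W = cotDom U

/-- components of `∑ τ_α Z_α`, `Z_α` the Hamiltonian field of `G_α`, in the chart `Ψ`. -/
noncomputable def hamC (G : CotAmb V → CE (Fin q)) (Ψ : CE (Fin n ⊕ Fin n) → CotAmb V)
    (x : CE (Fin n ⊕ Fin n) × CE (Fin q)) : CE (Fin n ⊕ Fin n) :=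
  WithLp.toLp 2 (Jstd (Fin n) *ᵥ ((jac (G ∘ Ψ) x.1)ᵀ *ᵥ (x.2 : Fin q → ℂ)))

/-- chain rule for the Jacobian of `G` in two charts of `Y`. -/
theorem jac_G_trans (hG : GImm 𝒴 G) {Ψ Ψ' : CE (Fin n ⊕ Fin n) → CotAmb V}
    {W W' : Set (CE (Fin n ⊕ Fin n))} (hΨ : 𝒴.IsHol Ψ W) (hΨ' : 𝒴.IsHol Ψ' W')
    {w : CE (Fin n ⊕ Fin n)} (hw : w ∈ W ∩ Ψ ⁻¹' (Ψ' '' W')) :
    jac (G ∘ Ψ) w = jac (G ∘ Ψ') ((Function.invFunOn Ψ' W' ∘ Ψ) w) *
      jac (Function.invFunOn Ψ' W' ∘ Ψ) w := by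
  rw [← jac_comp _ _ ((hG.hol Ψ' W' hΨ' _ (CMfd.trans_mem hΨ hΨ' hw)).differentiableAt
    ((CMfd.isOpen_dom hΨ').mem_nhds (CMfd.trans_mem hΨ hΨ' hw)))
    (CMfd.trans_differentiableAt hΨ hΨ' hw)]
  exact jac_congr (CMfd.eventually_comp_eq G hΨ hΨ' hw)

theorem sprayAtlas_ham (hY : IsCotangent 𝓜 𝒴) (hG : GImm 𝒴 G) :
    SprayAtlas 𝒴 (cotAtlas 𝓜) (hamC G) where
  isHol := by
    rintro Ψ W ⟨Φ, U, hΦ, rfl, rfl⟩
    exact hY.isHol hΦ
  cover := by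
    intro y hy
    obtain ⟨h1, h2, h3⟩ := sprCo_spec hY hy
    exact ⟨_, _, ⟨_, _, h1, rfl, rfl⟩, _, h2, h3⟩
  hol := by
    rintro Ψ W ⟨Φ, U, hΦ, rfl, rfl⟩
    have hΨ := hY.isHol hΦ
    have hW := CMfd.isOpen_dom hΨ
    have hJ : ∀ (r : Fin q) (j : Fin n ⊕ Fin n), DifferentiableOn ℂ
        (fun x : CE (Fin n ⊕ Fin n) × CE (Fin q) => jac (G ∘ cotParam Φ) x.1 r j)
        (cotDom U ×ˢ Set.univ) := fun r j =>
      (differentiableOn_jac hW (hG.hol _ _ hΨ) r j).comp differentiableOn_fst fun x hx => hx.1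
    unfold hamC
    rw [differentiableOn_euclidean]
    intro i
    simp only [Matrix.mulVec, dotProduct, Matrix.transpose_apply]
    refine DifferentiableOn.fun_sum fun j _ => (differentiableOn_const _).mul ?_
    refine DifferentiableOn.fun_sum fun r _ => (hJ r j).mul ?_
    exact ((EuclideanSpace.proj r : CE (Fin q) →L[ℂ] ℂ).differentiable.comp
      differentiable_snd).differentiableOn
  hom := by
    intro Ψ w τ c
    unfold hamC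
    ext i
    simp [Matrix.mulVec_smul]
  compat := by
    rintro Ψ Ψ' W W' ⟨Φ, U, hΦ, rfl, rfl⟩ ⟨Φ', U', hΦ', rfl, rfl⟩ w hw τ
    have hΨ := hY.isHol hΦ
    have hΨ' := hY.isHol hΦ'
    have hT := jac_cotTrans_symp hY hΦ hΦ' hw.1 hw.2
    have hJ := jac_G_trans hG hΨ hΨ' hw
    ext i
    rw [← jac_mulVec]
    unfold hamC
    simp only []
    rw [hJ, Matrix.transpose_mul]
    simp only [Matrix.mulVec_mulVec]
    rw [← Matrix.mul_assoc, ← Matrix.mul_assoc, hT]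

/-- **the spray.** -/
theorem exists_spray (hY : IsCotangent 𝓜 𝒴) (hG : GImm 𝒴 G) :
    ∃ (Sg : CotAmb V → CE (Fin q) → CotAmb V) (dom : Set (CotAmb V × CE (Fin q))),
      IsSpray 𝓜 𝒴 G Sg dom := by
  have H := sprayAtlas_ham hY hG
  refine ⟨sprMap (cotAtlas 𝓜) (hamC G), sprDom (cotAtlas 𝓜) (hamC G), ?_⟩
  refine ⟨H.exists_isOpen, fun y hy => H.zero_mem hy, fun y τ h c hc => H.balanced h hc,
    fun y τ h => H.maps h, fun y hy => H.map_zero hy, H.continuousOn,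
    fun Ψ W hΨ => H.smooth hΨ, fun Ψ Ψ' W W' hΨ hΨ' => H.holo hΨ hΨ', ?_⟩
  intro y hy τ r
  obtain ⟨h1, h2, h3⟩ := sprCo_spec hY hy
  have hΨ := hY.isHol h1
  have hd : DifferentiableAt ℂ (G ∘ cotParam (𝓜.pΦ y.1)) (sprCo 𝓜 y) :=
    (hG.hol _ _ hΨ _ h2).differentiableAt ((CMfd.isOpen_dom hΨ).mem_nhds h2)
  have h4 := H.hasDerivAt_comp (Ψ := cotParam (𝓜.pΦ y.1)) ⟨_, _, h1, rfl, rfl⟩ h2 τ (F := G) hd
  rw [h3] at h4
  have h5 := ((EuclideanSpace.proj r : CE (Fin q) →L[ℂ] ℂ).hasFDerivAt.comp_hasDerivAt (0 : ℂ) h4)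
  have h6 : deriv (fun z : ℂ => G (sprMap (cotAtlas 𝓜) (hamC G) y (z • τ)) r) 0 = _ := h5.deriv
  rw [h6]
  show fderiv ℂ (G ∘ cotParam (𝓜.pΦ y.1)) (sprCo 𝓜 y)
    (hamC G (cotParam (𝓜.pΦ y.1)) (sprCo 𝓜 y, τ)) r = _
  rw [← jac_mulVec]
  unfold hamC poisM
  simp only []
  rw [Matrix.mulVec_mulVec, Matrix.mulVec_mulVec]
  rfl

end ham

end Claimed.Agent.R316.S4
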