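import Claimed.Agent.R316.S5.Setup
import Claimed.Agent.R316.S6.GDisc
import Claimed.Agent.R316.S4.Spray

/-!
# Row 316, Section 4, BP-S4-FR, part 2: the Poisson matrix `P = J Jstd Jᵀ`, its pseudo inverse `P⁺`, and the GENERIC consequences of `IsFrame`, `FrameBd`

Exports (statements of `S5/FromS4.lean` VERBATIM): `S4.poisM_frame`, `S4.frame_center`, `S4.frame_gram_lower`.  (`S4.exists_frame` is in `S4/Frame2.lean`.)

NOTATION.  `κ = Fin n ⊕ Fin n`; `J = jac (G ∘ cotParam Φ) p` (`q × κ`, injective); `linv J = (JᴴJ)⁻¹Jᴴ`; `pinvP J = (linv J)ᵀ (-Jstd) (linv J)`;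
`poisM 𝓜 G y = J Jstd Jᵀ`, `poisI 𝓜 G y = pinvP J` in the chosen cotangent chart at `y`; both are chart independent because transitions `T` of cotangent charts are symplectic (`T Jstd Tᵀ = Jstd`).
DESIGN (deviation from the paper and from the first plan): NO potential `Θ = log det JᴴJ`, NO Gauss area, NO `gDz`.  Everything is expressed by the two global matrix functions `P`, `P⁺`:
for a frame `U = J S`, `S JE Sᵀ = Jstd`:  `U JE Uᵀ = P(f)`,  `JE⁻¹ = Uᵀ P⁺(f) U`.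

## Leaves
* `S4-FR-2a` section `Mat1` (pure matrices): `linv_*`, `frobSq_*`, `normSq_mulVec_le`, `det_gram_ge`.
  `linv_mul_self`: `JᴴJ` is positive definite (`Matrix.posDef_conjTranspose_mul_self_iff_injective` or `Matrix.PosDef` from `qf`), so invertible.  `frobSq_mul_le`: Cauchy-Schwarz entrywise (`Finset.inner_mul_le_norm_mul_norm` / `Finset.sum_mul_sq_le_sq_mul_sq` on norms).
  `det_gram_ge`: `UᴴU - c•1 ≥ 0` (`posSemidef_sub_iff_qf`, `qf_conj`-type identity `qf (UᴴU) v = ∑ ‖(U v) i‖²`), `loewner_det_mono`, `det_smul_real_re` (`CW/MatAlg.lean`).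
* `S4-FR-2b` section `Mat2` (symplectic algebra): `symp_isUnit_det`, `symp_inv`, `pinvP_mul_symp`, `range_pmat`, `rank_pmat`, `frame_inv_alg`.  Use `Jstd_mul_self`, `Jstd_transpose`, `Jstd_det_ne_zero` (`S5/SympAlg.lean`).
  `range_pmat`: `⊆` clear; `⊇`: `J w = J Jstd Jᵀ v` with `v = conj`-free choice `v = (linv J)ᵀ (-Jstd) w` since `Jᵀ (linv J)ᵀ = (linv J * J)ᵀ = 1`.  `rank_pmat`: `Matrix.rank` = finrank of the range; `J.mulVecLin` injective (`LinearMap.finrank_range_of_inj`).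
* `S4-FR-2c` `jac_cotTrans_symp`: DONE, proved in `S4/Spray.lean` (helper267), imported here.
* `S4-FR-2d` `holFun_of_cot`, `smoothC_of_cot`, `holFun_comp_disc`, `G_comp_disc`: copy the proof of `CMfd.smooth_of_cover` (`CM/Top.lean`) with the cover `cot_cover`; discs: `s6g_disc_local`.
* `S4-FR-2e` `poisM_holFun`, `poisI_smooth`, `linv_cot_contDiffOn`: in a cotangent chart the entries of `J` are holomorphic (`differentiableOn_jac`, `hG.hol`, `s6g_isOpen_cotDom`), smooth (`contDiffOn_jac`); `contDiffOn_matMul`, `contDiffOn_conjTranspose`, `contDiffOn_matInv` (`CW/MatFun.lean`).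
* `S4-FR-2f` `frobSq_frame_le`, `frame_center`;  `S4-FR-2g` `frame_gram_lower`.  Plans at the statements.
-/

set_option autoImplicit false
set_option maxSynthPendingDepth 3
set_option linter.unusedSectionVars false
open scoped ContDiff ComplexOrder Topology Matrix
open Filter

namespace Claimed.Agent.R316.S4

open Claimed.Agent.R316 Claimed.Agent.R316.S6

/-! ### 1. matrices -/

section Mat1

variable {α β γ κ : Type} [Fintype α] [Fintype β] [Fintype γ] [Fintype κ] [DecidableEq κ]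

/-- Moore-Penrose left inverse of an injective matrix. -/
noncomputable def linv (J : Matrix α κ ℂ) : Matrix κ α ℂ := (Jᴴ * J)⁻¹ * Jᴴ

theorem isUnit_det_gram {J : Matrix α κ ℂ} (hJ : Function.Injective J.mulVec) :
    IsUnit (Jᴴ * J).det :=
  (Matrix.isUnit_iff_isUnit_det _).1 (Matrix.PosDef.conjTranspose_mul_self J hJ).isUnit

theorem linv_mul_self {J : Matrix α κ ℂ} (hJ : Function.Injective J.mulVec) : linv J * J = 1 := by
  unfold linv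
  rw [Matrix.mul_assoc]
  exact Matrix.nonsing_inv_mul _ (isUnit_det_gram hJ)

theorem linv_mul_unit {J : Matrix α κ ℂ} (_hJ : Function.Injective J.mulVec) {T : Matrix κ κ ℂ}
    (hT : IsUnit T.det) : linv (J * T) = T⁻¹ * linv J := by
  unfold linv
  have hT' : IsUnit (Tᴴ).det := by
    rw [Matrix.det_conjTranspose]
    exact hT.star
  rw [Matrix.conjTranspose_mul]
  have h1 : Tᴴ * Jᴴ * (J * T) = Tᴴ * (Jᴴ * J) * T := by simp only [Matrix.mul_assoc]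
  rw [h1, Matrix.mul_inv_rev, Matrix.mul_inv_rev]
  calc T⁻¹ * ((Jᴴ * J)⁻¹ * (Tᴴ)⁻¹) * (Tᴴ * Jᴴ)
      = T⁻¹ * ((Jᴴ * J)⁻¹ * ((Tᴴ)⁻¹ * Tᴴ) * Jᴴ) := by simp only [Matrix.mul_assoc]
    _ = T⁻¹ * ((Jᴴ * J)⁻¹ * Jᴴ) := by rw [Matrix.nonsing_inv_mul _ hT', Matrix.mul_one]

theorem linv_of_gram_one {U : Matrix α κ ℂ} (h : Uᴴ * U = 1) : linv U = Uᴴ := by
  simp [linv, h]

theorem normSq_sum_mul_le (a b : β → ℂ) :
    ‖∑ k, a k * b k‖ ^ 2 ≤ (∑ k, ‖a k‖ ^ 2) * ∑ k, ‖b k‖ ^ 2 := by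
  have h1 : ‖∑ k, a k * b k‖ ≤ ∑ k, ‖a k‖ * ‖b k‖ :=
    (norm_sum_le _ _).trans (Finset.sum_le_sum fun k _ => (norm_mul _ _).le)
  have h2 := Finset.sum_mul_sq_le_sq_mul_sq Finset.univ (fun k => ‖a k‖) fun k => ‖b k‖
  calc ‖∑ k, a k * b k‖ ^ 2 ≤ (∑ k, ‖a k‖ * ‖b k‖) ^ 2 := by gcongr
    _ ≤ _ := h2

theorem frobSq_mul_le (A : Matrix α β ℂ) (B : Matrix β γ ℂ) :
    frobSq (A * B) ≤ frobSq A * frobSq B := by
  unfold frobSq
  calc ∑ i, ∑ j, ‖(A * B) i j‖ ^ 2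
      ≤ ∑ i, ∑ j, (∑ k, ‖A i k‖ ^ 2) * ∑ k, ‖B k j‖ ^ 2 :=
        Finset.sum_le_sum fun i _ => Finset.sum_le_sum fun j _ => by
          rw [Matrix.mul_apply]
          exact normSq_sum_mul_le _ _
    _ = (∑ i, ∑ k, ‖A i k‖ ^ 2) * ∑ k, ∑ j, ‖B k j‖ ^ 2 := by
        rw [Finset.sum_comm (f := fun k j => ‖B k j‖ ^ 2), Finset.sum_mul_sum]

theorem normSq_mulVec_le (A : Matrix α β ℂ) (v : β → ℂ) :
    ∑ i, ‖(A *ᵥ v) i‖ ^ 2 ≤ frobSq A * ∑ j, ‖v j‖ ^ 2 := by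
  unfold frobSq
  rw [Finset.sum_mul]
  exact Finset.sum_le_sum fun i _ => normSq_sum_mul_le _ _

theorem frobSq_transpose (A : Matrix α β ℂ) : frobSq Aᵀ = frobSq A := by
  unfold frobSq
  rw [Finset.sum_comm]
  rfl

theorem frobSq_conjTranspose (A : Matrix α β ℂ) : frobSq Aᴴ = frobSq A := by
  unfold frobSq
  rw [Finset.sum_comm]
  simp

theorem qf_gram (U : Matrix α κ ℂ) (v : κ → ℂ) : qf (Uᴴ * U) v = ∑ i, ‖(U *ᵥ v) i‖ ^ 2 := by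
  classical
  have h := qf_conj U (1 : Matrix α α ℂ) v
  rw [Matrix.mul_one] at h
  rw [h, qf_one]

/-- a contraction has Frobenius norm `≤ √card`. -/
theorem frobSq_le_card {U : Matrix α κ ℂ}
    (h : ∀ v : κ → ℂ, ∑ i, ‖(U *ᵥ v) i‖ ^ 2 ≤ ∑ i, ‖v i‖ ^ 2) : frobSq U ≤ Fintype.card κ := by
  unfold frobSq
  rw [Finset.sum_comm]
  calc ∑ j, ∑ i, ‖U i j‖ ^ 2 ≤ ∑ _j : κ, (1 : ℝ) := by
        refine Finset.sum_le_sum fun j _ => ?_
        have h1 := h (Pi.single j 1)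
        have h2 : ∑ i, ‖(Pi.single j (1 : ℂ) : κ → ℂ) i‖ ^ 2 = 1 := by
          rw [Finset.sum_eq_single j]
          · simp
          · intro b _ hb
            simp [hb]
          · simp
        rw [h2] at h1
        simpa using h1
    _ = Fintype.card κ := by simp

theorem gram_one_iff {U : Matrix α κ ℂ} :
    Uᴴ * U = 1 ↔ ∀ v : κ → ℂ, ∑ i, ‖(U *ᵥ v) i‖ ^ 2 = ∑ i, ‖v i‖ ^ 2 := by
  constructor
  · intro h v
    rw [← qf_gram, h, qf_one]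
  · intro h
    refine eq_of_qf_eq (Matrix.isHermitian_conjTranspose_mul_self U) Matrix.isHermitian_one
      fun v => ?_
    rw [qf_gram, qf_one, h]

theorem det_gram_ge {U : Matrix α κ ℂ} {c : ℝ} (hc : 0 ≤ c)
    (h : ∀ v : κ → ℂ, c * ∑ i, ‖v i‖ ^ 2 ≤ ∑ i, ‖(U *ᵥ v) i‖ ^ 2) :
    c ^ Fintype.card κ ≤ (Uᴴ * U).det.re := by
  have h1 : ((Uᴴ * U) - ((c : ℝ) : ℂ) • (1 : Matrix κ κ ℂ)).PosSemidef := by
    refine (posSemidef_sub_iff_qf (isHermitian_smul_real c Matrix.isHermitian_one)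
      (Matrix.isHermitian_conjTranspose_mul_self U)).2 fun v => ?_
    rw [qf_smul, qf_one, qf_gram]
    exact h v
  have h2 := pow_mul_det_le hc Matrix.PosDef.one h1
  simpa using h2

end Mat1

section Mat2

variable {α ι : Type} [Fintype α] [DecidableEq α] [Fintype ι] [DecidableEq ι]

/-- the pseudo inverse of `J Jstd Jᵀ`. -/
noncomputable def pinvP (J : Matrix α (ι ⊕ ι) ℂ) : Matrix α α ℂ :=
  (linv J)ᵀ * (- Jstd ι) * linv J

theorem frobSq_Jstd : frobSq (Jstd ι) = 2 * Fintype.card ι := by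
  have h1 : ∑ i : ι, ∑ j : ι, ‖(1 : Matrix ι ι ℂ) i j‖ ^ 2 = Fintype.card ι := by
    have : ∀ i : ι, ∑ j : ι, ‖(1 : Matrix ι ι ℂ) i j‖ ^ 2 = 1 := by
      intro i
      rw [Finset.sum_eq_single i]
      · simp
      · intro b _ hb
        simp [Matrix.one_apply_ne' hb]
      · simp
    simp [this]
  unfold frobSq Jstd
  simp only [Fintype.sum_sum_type, Matrix.fromBlocks_apply₁₁, Matrix.fromBlocks_apply₁₂,
    Matrix.fromBlocks_apply₂₁, Matrix.fromBlocks_apply₂₂, Matrix.zero_apply, Matrix.neg_apply,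
    norm_neg, norm_zero]
  simp only [ne_eq, OfNat.ofNat_ne_zero, not_false_eq_true, zero_pow, Finset.sum_const_zero,
    zero_add, add_zero, h1]
  ring

theorem Jstd_inv : (Jstd ι)⁻¹ = - Jstd ι :=
  Matrix.inv_eq_right_inv (by rw [Matrix.mul_neg, Jstd_mul_self, neg_neg])

theorem symp_isUnit_det {T : Matrix (ι ⊕ ι) (ι ⊕ ι) ℂ} (hT : T * Jstd ι * Tᵀ = Jstd ι) :
    IsUnit T.det := by
  rw [isUnit_iff_ne_zero]
  intro h0
  have h1 := congrArg Matrix.det hT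
  rw [Matrix.det_mul, Matrix.det_mul, h0] at h1
  exact Jstd_det_ne_zero (ι := ι) (by rw [← h1]; ring)

/-- `T⁻ᵀ Jstd T⁻¹ = Jstd`. -/
theorem symp_inv {T : Matrix (ι ⊕ ι) (ι ⊕ ι) ℂ} (hT : T * Jstd ι * Tᵀ = Jstd ι) :
    (T⁻¹)ᵀ * Jstd ι * T⁻¹ = Jstd ι := by
  have h1 := congrArg (fun M => M⁻¹) hT
  simp only [Matrix.mul_inv_rev, Jstd_inv] at h1
  rw [Matrix.transpose_nonsing_inv]
  have h2 : (Tᵀ)⁻¹ * (-Jstd ι * T⁻¹) = -((Tᵀ)⁻¹ * Jstd ι * T⁻¹) := by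
    simp only [Matrix.mul_assoc, Matrix.mul_neg, Matrix.neg_mul]
  rw [h2] at h1
  exact neg_injective h1

theorem pmat_mul_symp (J : Matrix α (ι ⊕ ι) ℂ) {T : Matrix (ι ⊕ ι) (ι ⊕ ι) ℂ}
    (hT : T * Jstd ι * Tᵀ = Jstd ι) : (J * T) * Jstd ι * (J * T)ᵀ = J * Jstd ι * Jᵀ := by
  rw [Matrix.transpose_mul]
  calc J * T * Jstd ι * (Tᵀ * Jᵀ) = J * (T * Jstd ι * Tᵀ) * Jᵀ := by
        simp only [Matrix.mul_assoc]
    _ = J * Jstd ι * Jᵀ := by rw [hT]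

theorem pinvP_mul_symp {J : Matrix α (ι ⊕ ι) ℂ} (hJ : Function.Injective J.mulVec)
    {T : Matrix (ι ⊕ ι) (ι ⊕ ι) ℂ} (hT : T * Jstd ι * Tᵀ = Jstd ι) :
    pinvP (J * T) = pinvP J := by
  unfold pinvP
  rw [linv_mul_unit hJ (symp_isUnit_det hT), Matrix.transpose_mul]
  calc (linv J)ᵀ * (T⁻¹)ᵀ * -Jstd ι * (T⁻¹ * linv J)
      = (linv J)ᵀ * (-((T⁻¹)ᵀ * Jstd ι * T⁻¹)) * linv J := by
        simp only [Matrix.mul_assoc, Matrix.mul_neg, Matrix.neg_mul]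
    _ = (linv J)ᵀ * -Jstd ι * linv J := by rw [symp_inv hT]

theorem range_pmat {J : Matrix α (ι ⊕ ι) ℂ} (hJ : Function.Injective J.mulVec) :
    LinearMap.range (J * Jstd ι * Jᵀ).mulVecLin = LinearMap.range J.mulVecLin := by
  apply le_antisymm
  · rintro _ ⟨v, rfl⟩
    refine ⟨(Jstd ι * Jᵀ) *ᵥ v, ?_⟩
    simp only [Matrix.mulVecLin_apply, Matrix.mulVec_mulVec, Matrix.mul_assoc]
  · rintro _ ⟨w, rfl⟩
    refine ⟨((linv J)ᵀ * (- Jstd ι)) *ᵥ w, ?_⟩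
    simp only [Matrix.mulVecLin_apply, Matrix.mulVec_mulVec]
    have h1 : Jᵀ * (linv J)ᵀ = 1 := by
      rw [← Matrix.transpose_mul, linv_mul_self hJ, Matrix.transpose_one]
    have h2 : J * Jstd ι * Jᵀ * ((linv J)ᵀ * -Jstd ι) = J := by
      calc J * Jstd ι * Jᵀ * ((linv J)ᵀ * -Jstd ι)
          = J * (Jstd ι * ((Jᵀ * (linv J)ᵀ) * -Jstd ι)) := by simp only [Matrix.mul_assoc]
        _ = J := by rw [h1, Matrix.one_mul, Matrix.mul_neg, Jstd_mul_self, neg_neg, Matrix.mul_one]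
    rw [h2]

theorem rank_pmat {J : Matrix α (ι ⊕ ι) ℂ} (hJ : Function.Injective J.mulVec) :
    (J * Jstd ι * Jᵀ).rank = Fintype.card (ι ⊕ ι) := by
  unfold Matrix.rank
  rw [range_pmat hJ, LinearMap.finrank_range_of_inj (f := J.mulVecLin) hJ,
    Module.finrank_fintype_fun_eq_card]

/-- the matrix of the symplectic form in a frame. -/
theorem frame_inv_alg {J : Matrix α (ι ⊕ ι) ℂ} (hJ : Function.Injective J.mulVec)
    {S JE : Matrix (ι ⊕ ι) (ι ⊕ ι) ℂ} (hS : IsUnit S.det) (h : S * JE * Sᵀ = Jstd ι) :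
    IsUnit JE.det ∧ JE⁻¹ = (J * S)ᵀ * pinvP J * (J * S) ∧ S⁻¹ = JE * Sᵀ * (- Jstd ι) := by
  have h3 : S⁻¹ = JE * Sᵀ * (- Jstd ι) := by
    refine Matrix.inv_eq_right_inv ?_
    calc S * (JE * Sᵀ * -Jstd ι) = (S * JE * Sᵀ) * -Jstd ι := by simp only [Matrix.mul_assoc]
      _ = 1 := by rw [h, Matrix.mul_neg, Jstd_mul_self, neg_neg]
  refine ⟨?_, ?_, h3⟩
  · rw [isUnit_iff_ne_zero]
    intro h0
    have h1 := congrArg Matrix.det h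
    rw [Matrix.det_mul, Matrix.det_mul, h0] at h1
    exact Jstd_det_ne_zero (ι := ι) (by rw [← h1]; ring)
  · refine Matrix.inv_eq_right_inv ?_
    have h1 : (linv J * J) = 1 := linv_mul_self hJ
    have h2 : Jᵀ * (linv J)ᵀ = 1 := by
      rw [← Matrix.transpose_mul, h1, Matrix.transpose_one]
    unfold pinvP
    rw [Matrix.transpose_mul]
    calc JE * (Sᵀ * Jᵀ * ((linv J)ᵀ * -Jstd ι * linv J) * (J * S))
        = JE * Sᵀ * ((Jᵀ * (linv J)ᵀ) * -Jstd ι * (linv J * J)) * S := by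
          simp only [Matrix.mul_assoc]
      _ = (JE * Sᵀ * -Jstd ι) * S := by
          rw [h1, h2, Matrix.one_mul, Matrix.mul_one]
      _ = 1 := by rw [← h3, Matrix.nonsing_inv_mul _ hS]

end Mat2

/-! ### 2. cotangent charts -/

variable {V : Type} [NormedAddCommGroup V] [InnerProductSpace ℝ V] [FiniteDimensional ℝ V]
variable {n q : ℕ} {𝓜 : CMfd V (Fin n)} {𝒴 : CMfd (CotAmb V) (Fin n ⊕ Fin n)}
variable {G : CotAmb V → CE (Fin q)}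
variable {Φ Φ' : CE (Fin n) → V} {U₀ U₀' : Set (CE (Fin n))} {p p' : CE (Fin n ⊕ Fin n)}

/-- cotangent coordinates of `y` over the chosen parametrisation of `M` at the base point. -/
noncomputable def cotCo (𝓜 : CMfd V (Fin n)) (y : CotAmb V) : CE (Fin n ⊕ Fin n) :=
  WithLp.toLp 2 (Sum.elim (𝓜.co y.1) (covComp (𝓜.pΦ y.1) (𝓜.co y.1) y.2))

theorem poisM_def (y : CotAmb V) : poisM 𝓜 G y =
    jac (G ∘ cotParam (𝓜.pΦ y.1)) (cotCo 𝓜 y) * Jstd (Fin n) *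
      (jac (G ∘ cotParam (𝓜.pΦ y.1)) (cotCo 𝓜 y))ᵀ := rfl

theorem cotCo_spec (hY : IsCotangent 𝓜 𝒴) {y : CotAmb V} (hy : y ∈ 𝒴.carrier) :
    𝓜.IsHol (𝓜.pΦ y.1) (𝓜.pU y.1) ∧ cotCo 𝓜 y ∈ cotDom (𝓜.pU y.1) ∧
      cotParam (𝓜.pΦ y.1) (cotCo 𝓜 y) = y := by
  have hy' : y ∈ cotCarrier 𝓜 := hY.carrier_eq ▸ hy
  obtain ⟨h1, h2⟩ := hy'
  obtain ⟨hH, hco, hΦco⟩ := s6g_pspec h1
  refine ⟨hH, ?_, ?_⟩
  · show cBase (cotCo 𝓜 y) ∈ 𝓜.pU y.1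
    have h3 : cBase (cotCo 𝓜 y) = 𝓜.co y.1 :=
      cBase_cJoin _ (WithLp.toLp 2 (covComp (𝓜.pΦ y.1) (𝓜.co y.1) y.2))
    rw [h3]
    exact hco
  · have h3 := s6g_eq_cotParam hH hco h2
    rw [hΦco] at h3
    exact h3.symm

theorem cot_cover (hY : IsCotangent 𝓜 𝒴) {y : CotAmb V} (hy : y ∈ 𝒴.carrier) :
    ∃ (Φ : CE (Fin n) → V) (U₀ : Set (CE (Fin n))) (p : CE (Fin n ⊕ Fin n)),
      𝓜.IsHol Φ U₀ ∧ p ∈ cotDom U₀ ∧ y = cotParam Φ p :=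
  ⟨_, _, _, (cotCo_spec hY hy).1, (cotCo_spec hY hy).2.1, (cotCo_spec hY hy).2.2.symm⟩

theorem jac_cot_injective (hY : IsCotangent 𝓜 𝒴) (hG : GImm 𝒴 G) (hΦ : 𝓜.IsHol Φ U₀)
    (hp : p ∈ cotDom U₀) : Function.Injective (jac (G ∘ cotParam Φ) p).mulVec := by
  intro v w hvw
  have h := hG.imm _ _ (hY.isHol hΦ) p hp
  have h1 : fderiv ℂ (G ∘ cotParam Φ) p (WithLp.toLp 2 v) =
      fderiv ℂ (G ∘ cotParam Φ) p (WithLp.toLp 2 w) := by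
    ext k
    rw [← jac_mulVec, ← jac_mulVec]
    exact congrFun hvw k
  have h2 := h h1
  exact (WithLp.toLp_injective 2) h2

/- **the Jacobian of a change of cotangent charts is symplectic**: `S4.jac_cotTrans_symp` is PROVED in `S4/Spray.lean` (helper267),
with the statement that stood here (`hY hΦ hΦ' (hp : p ∈ cotDom U₀) (hp' : cotParam Φ p ∈ cotParam Φ' '' cotDom U₀')`). -/

/-- chain rule between two cotangent charts. -/
theorem exists_cot_trans (hY : IsCotangent 𝓜 𝒴) (hG : GImm 𝒴 G) (hΦ : 𝓜.IsHol Φ U₀)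
    (hΦ' : 𝓜.IsHol Φ' U₀') (hp : p ∈ cotDom U₀) (hp' : p' ∈ cotDom U₀')
    (h : cotParam Φ p = cotParam Φ' p') :
    ∃ T : Matrix (Fin n ⊕ Fin n) (Fin n ⊕ Fin n) ℂ, T * Jstd (Fin n) * Tᵀ = Jstd (Fin n) ∧
      jac (G ∘ cotParam Φ) p = jac (G ∘ cotParam Φ') p' * T := by
  have hH := hY.isHol hΦ
  have hH' := hY.isHol hΦ'
  have him : cotParam Φ p ∈ cotParam Φ' '' cotDom U₀' := ⟨p', hp', h.symm⟩
  have hz : p ∈ cotDom U₀ ∩ cotParam Φ ⁻¹' (cotParam Φ' '' cotDom U₀') := ⟨hp, him⟩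
  refine ⟨_, jac_cotTrans_symp hY hΦ hΦ' hp him, ?_⟩
  have hτ : (Function.invFunOn (cotParam Φ') (cotDom U₀') ∘ cotParam Φ) p = p' :=
    CMfd.trans_eq hH hH' hp' h
  rw [jac_congr (CMfd.eventually_comp_eq G hH hH' hz), jac_comp _ _ ?_
    (CMfd.trans_differentiableAt hH hH' hz), hτ]
  rw [hτ]
  exact (hG.hol _ _ hH' p' hp').differentiableAt ((CMfd.isOpen_dom hH').mem_nhds hp')

/-- the Poisson matrix in an arbitrary cotangent chart. -/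
theorem poisM_chart (hY : IsCotangent 𝓜 𝒴) (hG : GImm 𝒴 G) (hΦ : 𝓜.IsHol Φ U₀)
    (hp : p ∈ cotDom U₀) :
    poisM 𝓜 G (cotParam Φ p) =
      jac (G ∘ cotParam Φ) p * Jstd (Fin n) * (jac (G ∘ cotParam Φ) p)ᵀ := by
  obtain ⟨h1, h2, h3⟩ := cotCo_spec hY (s6g_cotParam_mem hY hΦ hp)
  obtain ⟨T, hT, hJ⟩ := exists_cot_trans hY hG hΦ h1 hp h2 h3.symm
  rw [hJ, pmat_mul_symp _ hT, poisM_def]

/-- the pseudo inverse `P⁺` of the Poisson matrix (ambient matrix of the symplectic form). -/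
noncomputable def poisI (𝓜 : CMfd V (Fin n)) (G : CotAmb V → CE (Fin q)) (y : CotAmb V) :
    Matrix (Fin q) (Fin q) ℂ :=
  pinvP (jac (G ∘ cotParam (𝓜.pΦ y.1)) (cotCo 𝓜 y))

theorem poisI_chart (hY : IsCotangent 𝓜 𝒴) (hG : GImm 𝒴 G) (hΦ : 𝓜.IsHol Φ U₀)
    (hp : p ∈ cotDom U₀) :
    poisI 𝓜 G (cotParam Φ p) = pinvP (jac (G ∘ cotParam Φ) p) := by
  obtain ⟨h1, h2, h3⟩ := cotCo_spec hY (s6g_cotParam_mem hY hΦ hp)
  obtain ⟨T, hT, hJ⟩ := exists_cot_trans hY hG hΦ h1 hp h2 h3.symm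
  rw [hJ, pinvP_mul_symp (jac_cot_injective hY hG h1 h2) hT]
  rfl

theorem rank_poisM (hY : IsCotangent 𝓜 𝒴) (hG : GImm 𝒴 G) {y : CotAmb V} (hy : y ∈ 𝒴.carrier) :
    (poisM 𝓜 G y).rank = Fintype.card (Fin n ⊕ Fin n) := by
  obtain ⟨h1, h2, _⟩ := cotCo_spec hY hy
  rw [poisM_def]
  exact rank_pmat (jac_cot_injective hY hG h1 h2)

/-! ### 3. frames -/

variable {f : ℂ → CotAmb V} {U : ℂ → Matrix (Fin q) (Fin n ⊕ Fin n) ℂ}
variable {JE : ℂ → Matrix (Fin n ⊕ Fin n) (Fin n ⊕ Fin n) ℂ}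

/-- the Poisson matrix in a frame (`S5/FromS4.lean`, verbatim). -/
theorem poisM_frame (hY : IsCotangent 𝓜 𝒴) (hG : GImm 𝒴 G)
    (hf : ∀ ζ ∈ uDiscC, f ζ ∈ 𝒴.carrier) (hF : IsFrame 𝓜 G f U JE) {ζ : ℂ} (hζ : ζ ∈ uDiscC) :
    poisM 𝓜 G (f ζ) = U ζ * JE ζ * (U ζ)ᵀ := by
  obtain ⟨Φ, U₀, p, hΦ, hp, hfp⟩ := cot_cover hY (hf ζ hζ)
  obtain ⟨S, _, hU, hS⟩ := hF.tangent ζ hζ Φ U₀ p hΦ hp hfp
  rw [hfp, poisM_chart hY hG hΦ hp, hU, Matrix.transpose_mul, ← hS]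
  simp only [Matrix.mul_assoc]

theorem poisI_frame (hY : IsCotangent 𝓜 𝒴) (hG : GImm 𝒴 G)
    (hf : ∀ ζ ∈ uDiscC, f ζ ∈ 𝒴.carrier) (hF : IsFrame 𝓜 G f U JE) {ζ : ℂ} (hζ : ζ ∈ uDiscC) :
    IsUnit (JE ζ).det ∧ (JE ζ)⁻¹ = (U ζ)ᵀ * poisI 𝓜 G (f ζ) * U ζ := by
  obtain ⟨Φ, U₀, p, hΦ, hp, hfp⟩ := cot_cover hY (hf ζ hζ)
  obtain ⟨S, hSu, hU, hS⟩ := hF.tangent ζ hζ Φ U₀ p hΦ hp hfp
  obtain ⟨h1, h2, _⟩ := frame_inv_alg (jac_cot_injective hY hG hΦ hp) hSu hS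
  refine ⟨h1, ?_⟩
  rw [hfp, poisI_chart hY hG hΦ hp, hU]
  exact h2

/-! ### 4. regularity -/

theorem holFun_of_cot (hY : IsCotangent 𝓜 𝒴) {u : CotAmb V → ℂ}
    (h : ∀ (Φ : CE (Fin n) → V) (U₀ : Set (CE (Fin n))), 𝓜.IsHol Φ U₀ →
      DifferentiableOn ℂ (u ∘ cotParam Φ) (cotDom U₀)) : 𝒴.HolFun u := by
  intro Ψ W hΨ w hw
  obtain ⟨Φ, U₀, p, hΦ, hp, hy⟩ := cot_cover hY (CMfd.mem_carrier hΨ hw)
  have hH := hY.isHol hΦ
  have hw' : w ∈ W ∩ Ψ ⁻¹' (cotParam Φ '' cotDom U₀) := ⟨hw, ⟨p, hp, hy.symm⟩⟩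
  have h1 : DifferentiableAt ℂ (u ∘ cotParam Φ)
      ((Function.invFunOn (cotParam Φ) (cotDom U₀) ∘ Ψ) w) :=
    (h Φ U₀ hΦ _ (CMfd.trans_mem hΨ hH hw')).differentiableAt
      ((CMfd.isOpen_dom hH).mem_nhds (CMfd.trans_mem hΨ hH hw'))
  have h2 := h1.comp w (CMfd.trans_differentiableAt hΨ hH hw')
  exact (h2.congr_of_eventuallyEq (CMfd.eventually_comp_eq u hΨ hH hw')).differentiableWithinAt

theorem smoothC_of_cot (hY : IsCotangent 𝓜 𝒴) {u : CotAmb V → ℂ}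
    (h : ∀ (Φ : CE (Fin n) → V) (U₀ : Set (CE (Fin n))), 𝓜.IsHol Φ U₀ →
      ContDiffOn ℝ ∞ (u ∘ cotParam Φ) (cotDom U₀)) :
    ∀ (Ψ : CE (Fin n ⊕ Fin n) → CotAmb V) (W : Set (CE (Fin n ⊕ Fin n))), 𝒴.IsHol Ψ W →
      ContDiffOn ℝ ∞ (u ∘ Ψ) W := by
  intro Ψ W hΨ w hw
  obtain ⟨Φ, U₀, p, hΦ, hp, hy⟩ := cot_cover hY (CMfd.mem_carrier hΨ hw)
  have hH := hY.isHol hΦ
  have hw' : w ∈ W ∩ Ψ ⁻¹' (cotParam Φ '' cotDom U₀) := ⟨hw, ⟨p, hp, hy.symm⟩⟩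
  have h1 : ContDiffAt ℝ ∞ (u ∘ cotParam Φ)
      ((Function.invFunOn (cotParam Φ) (cotDom U₀) ∘ Ψ) w) :=
    (h Φ U₀ hΦ _ (CMfd.trans_mem hΨ hH hw')).contDiffAt
      ((CMfd.isOpen_dom hH).mem_nhds (CMfd.trans_mem hΨ hH hw'))
  have h2 := h1.comp w (CMfd.trans_contDiffAt hΨ hH hw')
  exact (h2.congr_of_eventuallyEq (CMfd.eventually_comp_eq u hΨ hH hw')).contDiffWithinAt

theorem holFun_comp_disc {u : CotAmb V → ℂ} (hu : 𝒴.HolFun u) {r : ℝ} (hf : IsHolDisc 𝒴 f r) :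
    DifferentiableOn ℂ (fun ζ => u (f ζ)) (Metric.ball 0 r) := by
  intro ζ₀ hζ₀
  obtain ⟨Ψ, W, hΨ, hmem⟩ := 𝒴.cover (f ζ₀) (hf.1 ζ₀ hζ₀)
  have hloc := s6g_disc_local hf hζ₀ hΨ hmem
  have h0 := hloc.self_of_nhds
  have h1 : DifferentiableAt ℂ (u ∘ Ψ) ((Function.invFunOn Ψ W ∘ f) ζ₀) :=
    (hu Ψ W hΨ _ h0.2.1).differentiableAt ((CMfd.isOpen_dom hΨ).mem_nhds h0.2.1)
  have h2 := h1.comp ζ₀ h0.1
  refine (h2.congr_of_eventuallyEq ?_).differentiableWithinAt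
  filter_upwards [hloc] with ζ hζ
  show u (f ζ) = u (Ψ ((Function.invFunOn Ψ W ∘ f) ζ))
  rw [hζ.2.2]

theorem G_comp_disc (hG : GImm 𝒴 G) {r : ℝ} (hf : IsHolDisc 𝒴 f r) (a : Fin q) :
    DifferentiableOn ℂ (fun ζ => G (f ζ) a) (Metric.ball 0 r) := by
  refine holFun_comp_disc (u := fun y => G y a) ?_ hf
  intro Ψ W hΨ w hw
  exact (differentiableAt_comp_apply ((hG.hol Ψ W hΨ w hw).differentiableAt
    ((CMfd.isOpen_dom hΨ).mem_nhds hw)) a).differentiableWithinAt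

theorem differentiableOn_matMul {E : Type} [NormedAddCommGroup E] [NormedSpace ℂ E]
    {α β γ : Type} [Fintype β] {A : E → Matrix α β ℂ} {B : E → Matrix β γ ℂ} {s : Set E}
    (hA : ∀ i j, DifferentiableOn ℂ (fun z => A z i j) s)
    (hB : ∀ i j, DifferentiableOn ℂ (fun z => B z i j) s) (i : α) (j : γ) :
    DifferentiableOn ℂ (fun z => (A z * B z) i j) s := by
  simp only [Matrix.mul_apply]
  exact DifferentiableOn.fun_sum fun k _ => (hA i k).mul (hB k j)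

theorem poisM_holFun (hY : IsCotangent 𝓜 𝒴) (hG : GImm 𝒴 G) (a b : Fin q) :
    𝒴.HolFun fun y => poisM 𝓜 G y a b := by
  refine holFun_of_cot hY fun Φ U₀ hΦ => ?_
  have hH := hY.isHol hΦ
  have hJ : ∀ i j, DifferentiableOn ℂ (fun p => jac (G ∘ cotParam Φ) p i j) (cotDom U₀) :=
    differentiableOn_jac (CMfd.isOpen_dom hH) (hG.hol _ _ hH)
  have h1 : DifferentiableOn ℂ (fun p => (jac (G ∘ cotParam Φ) p * Jstd (Fin n) *
      (jac (G ∘ cotParam Φ) p)ᵀ) a b) (cotDom U₀) :=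
    differentiableOn_matMul (A := fun p => jac (G ∘ cotParam Φ) p * Jstd (Fin n))
      (B := fun p => (jac (G ∘ cotParam Φ) p)ᵀ)
      (differentiableOn_matMul (A := fun p => jac (G ∘ cotParam Φ) p)
        (B := fun _ => Jstd (Fin n)) hJ fun i j => differentiableOn_const _)
      (fun i j => hJ j i) a b
  refine h1.congr fun p hp => ?_
  show poisM 𝓜 G (cotParam Φ p) a b = _
  rw [poisM_chart hY hG hΦ hp]

theorem linv_cot_contDiffOn (hY : IsCotangent 𝓜 𝒴) (hG : GImm 𝒴 G) (hΦ : 𝓜.IsHol Φ U₀)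
    (k : Fin n ⊕ Fin n) (a : Fin q) :
    ContDiffOn ℝ ∞ (fun p => linv (jac (G ∘ cotParam Φ) p) k a) (cotDom U₀) := by
  have hH := hY.isHol hΦ
  have hJ : ∀ i j, ContDiffOn ℝ ∞ (fun p => jac (G ∘ cotParam Φ) p i j) (cotDom U₀) :=
    contDiffOn_jac (CMfd.isOpen_dom hH) (hG.hol _ _ hH)
  have hJH := contDiffOn_conjTranspose hJ
  unfold linv
  exact contDiffOn_matMul (contDiffOn_matInv (contDiffOn_matMul hJH hJ)
    fun p hp => (isUnit_det_gram (jac_cot_injective hY hG hΦ hp)).ne_zero) hJH k a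

theorem poisI_smooth (hY : IsCotangent 𝓜 𝒴) (hG : GImm 𝒴 G) (a b : Fin q) :
    ∀ (Ψ : CE (Fin n ⊕ Fin n) → CotAmb V) (W : Set (CE (Fin n ⊕ Fin n))), 𝒴.IsHol Ψ W →
      ContDiffOn ℝ ∞ ((fun y => poisI 𝓜 G y a b) ∘ Ψ) W := by
  refine smoothC_of_cot hY fun Φ U₀ hΦ => ?_
  have hL := linv_cot_contDiffOn hY hG hΦ
  have h1 : ContDiffOn ℝ ∞ (fun p => ((linv (jac (G ∘ cotParam Φ) p))ᵀ * (-Jstd (Fin n)) *
      linv (jac (G ∘ cotParam Φ) p)) a b) (cotDom U₀) :=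
    contDiffOn_matMul (A := fun p => (linv (jac (G ∘ cotParam Φ) p))ᵀ * (-Jstd (Fin n)))
      (B := fun p => linv (jac (G ∘ cotParam Φ) p))
      (contDiffOn_matMul (A := fun p => (linv (jac (G ∘ cotParam Φ) p))ᵀ)
        (B := fun _ => -Jstd (Fin n)) (fun i j => hL j i) fun i j => contDiffOn_const) hL a b
  refine h1.congr fun p hp => ?_
  show poisI 𝓜 G (cotParam Φ p) a b = _
  rw [poisI_chart hY hG hΦ hp]
  rfl

theorem poisI_continuousOn (hY : IsCotangent 𝓜 𝒴) (hG : GImm 𝒴 G) (a b : Fin q) :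
    ContinuousOn (fun y => poisI 𝓜 G y a b) 𝒴.carrier :=
  CMfd.continuousOn_iff.2 fun Ψ W hΨ => (poisI_smooth hY hG a b Ψ W hΨ).continuousOn

/-- bound of `P⁺` on compact sets. -/
theorem exists_frobSq_poisI_le (hY : IsCotangent 𝓜 𝒴) (hG : GImm 𝒴 G) {K : Set (CotAmb V)}
    (hK : IsCompact K) (hKY : K ⊆ 𝒴.carrier) :
    ∃ C : ℝ, 0 ≤ C ∧ ∀ y ∈ K, frobSq (poisI 𝓜 G y) ≤ C := by
  have hc : ContinuousOn (fun y => frobSq (poisI 𝓜 G y)) K := by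
    unfold frobSq
    refine continuousOn_finsetSum _ fun a _ => continuousOn_finsetSum _ fun b _ => ?_
    exact (((poisI_continuousOn hY hG a b).mono hKY).norm).pow 2
  obtain ⟨C, hC⟩ := hK.exists_bound_of_continuousOn hc
  exact ⟨|C|, abs_nonneg _, fun y hy =>
    (le_abs_self _).trans ((hC y hy).trans (le_abs_self C))⟩

/-! ### 5. generic consequences of `IsFrame`, `FrameBd` -/

/-- maximum principle for the columns of `U`: `HolSm.sum_normSq_le` for `ζ ↦ U ζ *ᵥ v`, `FrameBd.U_le`, then `frobSq_le_card`. -/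
theorem frobSq_frame_le {CF : ℝ} (hF : IsFrame 𝓜 G f U JE) (hB : FrameBd CF G f U JE) :
    ∀ ζ ∈ uDiscC, frobSq (U ζ) ≤ Fintype.card (Fin n ⊕ Fin n) := by
  intro ζ hζ
  refine frobSq_le_card fun v => ?_
  have hl : ∀ i, HolSm fun ξ => (U ξ *ᵥ v) i := fun i => by
    simp only [Matrix.mulVec, dotProduct]
    exact HolSm.sum _ fun j _ => (hF.U_hol i j).mul (holSm_const _)
  exact HolSm.sum_normSq_le hl (fun ξ hξ => hB.U_le ξ hξ v) ζ hζ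

/-- last assertion of Lemma 4.5 (`S5/FromS4.lean`, verbatim).
PLAN.  `C₁ = sup_{K₀} frobSq (linv J(p))` (`linv_cot_contDiffOn`, compactness).  `hF.tangent 0` gives `S` with `U 0 = J S`; `S0 = S` (`jac_cot_injective`: `linv J * (J S) = S`).  `S0 = linv J * U 0`:
`frobSq S0 ≤ C₁ card κ` (`frobSq_mul_le`, `frobSq_frame_le`).  `S0⁻¹ = JE 0 * S0ᵀ * (-Jstd)` (`frame_inv_alg`): `frobSq S0⁻¹ ≤ CF * frobSq S0 * 2 n` (`frobSq_transpose`, `frobSq_neg`, `frobSq_Jstd`). -/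
theorem frame_center (hY : IsCotangent 𝓜 𝒴) (hG : GImm 𝒴 G) {Φ : CE (Fin n) → V}
    {U₀ : Set (CE (Fin n))} (hΦ : 𝓜.IsHol Φ U₀) {K₀ : Set (CE (Fin n ⊕ Fin n))}
    (hK₀ : IsCompact K₀) (hsub : K₀ ⊆ cotDom U₀) (CF : ℝ) :
    ∃ C : ℝ, ∀ (f : ℂ → CotAmb V) (U : ℂ → Matrix (Fin q) (Fin n ⊕ Fin n) ℂ)
      (JE : ℂ → Matrix (Fin n ⊕ Fin n) (Fin n ⊕ Fin n) ℂ)
      (S0 : Matrix (Fin n ⊕ Fin n) (Fin n ⊕ Fin n) ℂ) (p : CE (Fin n ⊕ Fin n)),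
      IsFrame 𝓜 G f U JE → FrameBd CF G f U JE → p ∈ K₀ → f 0 = cotParam Φ p →
      U 0 = jac (G ∘ cotParam Φ) p * S0 →
      IsUnit S0.det ∧ S0 * JE 0 * S0ᵀ = Jstd (Fin n) ∧ frobSq S0 ≤ C ∧ frobSq S0⁻¹ ≤ C := by
  obtain ⟨C₁, hC₁0, hC₁⟩ : ∃ C₁ : ℝ, 0 ≤ C₁ ∧
      ∀ p ∈ K₀, frobSq (linv (jac (G ∘ cotParam Φ) p)) ≤ C₁ := by
    have hc : ContinuousOn (fun p => frobSq (linv (jac (G ∘ cotParam Φ) p))) K₀ := by
      unfold frobSq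
      refine continuousOn_finsetSum _ fun k _ => continuousOn_finsetSum _ fun a _ => ?_
      exact (((linv_cot_contDiffOn hY hG hΦ k a).continuousOn.mono hsub).norm).pow 2
    obtain ⟨C, hC⟩ := hK₀.exists_bound_of_continuousOn hc
    exact ⟨|C|, abs_nonneg _, fun p hp =>
      (le_abs_self _).trans ((hC p hp).trans (le_abs_self C))⟩
  set N : ℝ := (Fintype.card (Fin n ⊕ Fin n) : ℝ) with hN
  have hN0 : 0 ≤ N := by positivity
  refine ⟨max (C₁ * N) (|CF| * (C₁ * N) * (2 * Fintype.card (Fin n))), ?_⟩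
  intro f U JE S0 p hF hB hp hfp hU0
  have h0 : (0 : ℂ) ∈ uDiscC := by simp
  have hpd := hsub hp
  have hJ := jac_cot_injective hY hG hΦ hpd
  obtain ⟨S, hSu, hUS, hS⟩ := hF.tangent 0 h0 Φ U₀ p hΦ hpd hfp
  have hSS : S = S0 := by
    have h1 : linv (jac (G ∘ cotParam Φ) p) * (jac (G ∘ cotParam Φ) p * S) =
        linv (jac (G ∘ cotParam Φ) p) * (jac (G ∘ cotParam Φ) p * S0) := by rw [← hU0, ← hUS]
    rwa [← Matrix.mul_assoc, ← Matrix.mul_assoc, linv_mul_self hJ, Matrix.one_mul,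
      Matrix.one_mul] at h1
  subst hSS
  have h1 : S = linv (jac (G ∘ cotParam Φ) p) * U 0 := by
    rw [hU0, ← Matrix.mul_assoc, linv_mul_self hJ, Matrix.one_mul]
  have h2 : frobSq S ≤ C₁ * N := by
    rw [h1]
    exact (frobSq_mul_le _ _).trans
      (mul_le_mul (hC₁ p hp) (frobSq_frame_le hF hB 0 h0) (frobSq_nonneg _) hC₁0)
  have h3 := (frame_inv_alg hJ hSu hS).2.2
  have h4 : frobSq S⁻¹ ≤ |CF| * (C₁ * N) * (2 * Fintype.card (Fin n)) := by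
    rw [h3]
    have h5 : frobSq (JE 0) ≤ |CF| := (hB.JE_le 0 h0).trans (le_abs_self _)
    calc frobSq (JE 0 * Sᵀ * -Jstd (Fin n))
        ≤ frobSq (JE 0 * Sᵀ) * frobSq (-Jstd (Fin n)) := frobSq_mul_le _ _
      _ ≤ (frobSq (JE 0) * frobSq Sᵀ) * frobSq (-Jstd (Fin n)) :=
          mul_le_mul_of_nonneg_right (frobSq_mul_le _ _) (frobSq_nonneg _)
      _ = (frobSq (JE 0) * frobSq S) * (2 * Fintype.card (Fin n)) := by
          rw [frobSq_transpose, frobSq_neg, frobSq_Jstd]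
      _ ≤ (|CF| * (C₁ * N)) * (2 * Fintype.card (Fin n)) := by
          refine mul_le_mul_of_nonneg_right ?_ (by positivity)
          exact mul_le_mul h5 h2 (frobSq_nonneg _) (abs_nonneg _)
  exact ⟨hSu, hS, h2.trans (le_max_left _ _), h4.trans (le_max_right _ _)⟩

/-- lower bound of the Gram determinant (`S5/FromS4.lean`, verbatim).
PLAN.  `C' ≥ frobSq (poisI y)` on `K'` (`exists_frobSq_poisI_le`).  For `ζ ∈ uDiscC`, `v`: `v = JE (JE⁻¹ v)`, `JE⁻¹ = Uᵀ P⁺ U` (`poisI_frame`), so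
`|v|² ≤ frobSq JE * frobSq Uᵀ * frobSq P⁺ * |U v|² ≤ |CF| * card κ * C' * |U v|²` (`normSq_mulVec_le` three times, `Matrix.mulVec_mulVec`).  With `c = ((|CF| + 1) (card κ + 1) (C' + 1))⁻¹`: `c |v|² ≤ |U v|²`;
`det_gram_ge`; `c₀ = c ^ card κ`. -/
theorem frame_gram_lower (hY : IsCotangent 𝓜 𝒴) (hG : GImm 𝒴 G)
    {K' : Set (CotAmb V)} (hK' : IsCompact K') (hKY : K' ⊆ 𝒴.carrier) (CF : ℝ) :
    ∃ c₀ : ℝ, 0 < c₀ ∧ ∀ (f : ℂ → CotAmb V) (U : ℂ → Matrix (Fin q) (Fin n ⊕ Fin n) ℂ)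
      (JE : ℂ → Matrix (Fin n ⊕ Fin n) (Fin n ⊕ Fin n) ℂ),
      IsFrame 𝓜 G f U JE → FrameBd CF G f U JE → (∀ ζ ∈ uDiscC, f ζ ∈ K') →
      ∀ ζ ∈ uDiscC, c₀ ≤ ((U ζ)ᴴ * U ζ).det.re := by
  obtain ⟨C', hC'0, hC'⟩ := exists_frobSq_poisI_le (𝓜 := 𝓜) hY hG hK' hKY
  set N : ℝ := (Fintype.card (Fin n ⊕ Fin n) : ℝ) with hN
  have hN0 : 0 ≤ N := by positivity
  set B : ℝ := (|CF| + 1) * (N + 1) * (C' + 1) with hB
  have hB0 : 0 < B := by positivity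
  refine ⟨B⁻¹ ^ Fintype.card (Fin n ⊕ Fin n), by positivity, ?_⟩
  intro f U JE hF hBd hfK ζ hζ
  refine det_gram_ge (by positivity) fun v => ?_
  have hf : ∀ ζ ∈ uDiscC, f ζ ∈ 𝒴.carrier := fun ζ hζ => hKY (hfK ζ hζ)
  obtain ⟨hu, hinv⟩ := poisI_frame hY hG hf hF hζ
  have h1 : v = JE ζ *ᵥ ((U ζ)ᵀ *ᵥ (poisI 𝓜 G (f ζ) *ᵥ (U ζ *ᵥ v))) := by
    rw [Matrix.mulVec_mulVec, Matrix.mulVec_mulVec, Matrix.mulVec_mulVec,
      Matrix.mul_assoc (JE ζ), Matrix.mul_assoc (JE ζ), ← hinv,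
      Matrix.mul_nonsing_inv _ hu, Matrix.one_mulVec]
  set w := ∑ i, ‖(U ζ *ᵥ v) i‖ ^ 2 with hw
  have hw0 : 0 ≤ w := Finset.sum_nonneg fun _ _ => by positivity
  have h2 : ∑ i, ‖v i‖ ^ 2 ≤ B * w := by
    calc ∑ i, ‖v i‖ ^ 2
        = ∑ i, ‖(JE ζ *ᵥ ((U ζ)ᵀ *ᵥ (poisI 𝓜 G (f ζ) *ᵥ (U ζ *ᵥ v)))) i‖ ^ 2 := by rw [← h1]
      _ ≤ frobSq (JE ζ) * ∑ i, ‖((U ζ)ᵀ *ᵥ (poisI 𝓜 G (f ζ) *ᵥ (U ζ *ᵥ v))) i‖ ^ 2 :=
          normSq_mulVec_le _ _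
      _ ≤ frobSq (JE ζ) * (frobSq (U ζ)ᵀ * ∑ i, ‖(poisI 𝓜 G (f ζ) *ᵥ (U ζ *ᵥ v)) i‖ ^ 2) :=
          mul_le_mul_of_nonneg_left (normSq_mulVec_le _ _) (frobSq_nonneg _)
      _ ≤ frobSq (JE ζ) * (frobSq (U ζ)ᵀ * (frobSq (poisI 𝓜 G (f ζ)) * w)) :=
          mul_le_mul_of_nonneg_left (mul_le_mul_of_nonneg_left (normSq_mulVec_le _ _)
            (frobSq_nonneg _)) (frobSq_nonneg _)
      _ ≤ (|CF| + 1) * ((N + 1) * ((C' + 1) * w)) := by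
          have a1 : frobSq (JE ζ) ≤ |CF| + 1 :=
            (hBd.JE_le ζ hζ).trans ((le_abs_self _).trans (by linarith))
          have a2 : frobSq (U ζ)ᵀ ≤ N + 1 := by
            rw [frobSq_transpose]
            exact (frobSq_frame_le hF hBd ζ hζ).trans (by linarith)
          have a3 : frobSq (poisI 𝓜 G (f ζ)) ≤ C' + 1 := (hC' _ (hfK ζ hζ)).trans (by linarith)
          have b1 := frobSq_nonneg (JE ζ)
          have b2 := frobSq_nonneg (U ζ)ᵀ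
          have b3 := frobSq_nonneg (poisI 𝓜 G (f ζ))
          gcongr
      _ = B * w := by rw [hB]; ring
  rw [inv_mul_le_iff₀ hB0]
  exact h2

end Claimed.Agent.R316.S4
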