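import Claimed.Agent.R316.S4.Cpt1
import Claimed.Agent.R316.S4.Extra
import Claimed.Agent.R316.S4.Pois

/-!
# Row 316, Section 4, BP-S4-CPT part 3: limits along an ultrafilter, removal of a puncture, Proposition 4.2 (design: helper58)

ROUTE.  Suppose the centres `f_l(0)` of discs `f_l` of the class `InClass 𝓜 g K A₀` are unbounded.  Instead of subsequences we fix a free ULTRAFILTER `𝒰` on `ℕ` (`Filter.hyperfilter ℕ`): every sequence in a compact set converges along `𝒰`, `¬ ∀ᶠ ↔ ∀ᶠ ¬`.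
1. `concSet`: the points `x` of `ball 0 (3/4)` with `∀ s ∈ (0, 1/8], ∀ᶠ l in 𝒰, 1 < rmass (ψ ∘ f_l) (ball x s)`.  It is finite (`≤ 8 M₁` points).
2. Off `concSet` Lemma M applies for `𝒰`-almost all `l` on a fixed ball: boundedness along `𝒰` propagates (`ubdd_propagate`); it holds at one point (anchors, `ubdd_anchor`); `ball 0 (3/4) \ concSet` is connected ⟹ `f_l` is locally uniformly bounded along `𝒰` off `concSet` (`ubdd_off_conc`).
3. If `0 ∈ concSet`: on a punctured disc `Ω = ball 0 r₁ \ {0}` the `f_l` converge locally uniformly along `𝒰` to a holomorphic curve `f` of finite area (`exists_limit_curve`, `limit_area`); `radial_bound` (Lemma 4.3 = `extra_integrability`) gives a ray `ρ ↦ f(ρ e)` which stays in a compact set `K₁`; `F ∘ f_l → Fl` uniformly on a small closed disc `|z| ≤ ε`, `Fl` continuous at `0`: the connected sets `f_l(closedBall 0 ε)` meet (a neighbourhood of) `K₁`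 and have small `F`-diameter: `trapping` bounds `f_l(0)` (`puncture`).
4. `centre_bound`, then all points by `InClass.comp_mob`, discs smooth up to the boundary by `inClass_dilate`, discs in `Y` by the maximum modulus principle for `ξ(X_i)`.

## LEAVES (auxiliary lemmas: prefix `cpt_`, in this file next to the leaf)

* **S4-U-TOP** (Mathlib only) `isPreconnected_ball_diff_finite` (`OpenPartialHomeomorph.univBall`/`Homeomorph.unitBall` transports `Set.Countable.isPathConnected_compl_of_one_lt_rank`, `Complex.rank_real_complex`), `preconnected_induction` (`{P}` and `⋃ {N x : ¬ P}` interiors are disjoint open sets covering `S`), `exists_punctured_ne_zero` (removable singularity `Complex.differentiableOn_update_limUnder_of_bddAbove`, identity theorem `AnalyticOnNhd.eqOn_zero_of_preconnected_of_frequently_eq_zero`), `injOn_compact_uniform` (compactness of `{(a,b) ∈ K×K : ε ≤ ‖a-b‖}`).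
* **S4-U-MONTEL** (Mathlib only) `montel_ultrafilter`: pointwise limit along `𝒰` (closed balls of `E` are compact: `Ultrafilter.le_nhds_lim`/`IsCompact.ultrafilter_le_nhds`); on `closedBall x δ ⊆ Ω` with `closedBall x (2δ) ⊆ Ω` all `w_l` are `C/δ`-Lipschitz (Cauchy estimate + mean value), so is the limit; finite `ε`-net + finitely many `𝒰`-sets ⟹ uniform convergence on `closedBall x δ`; `TendstoLocallyUniformlyOn.differentiableOn`.
* **S4-U-INT** (Mathlib only) `integrableOn_of_tendstoLocallyUniformlyOn`: for compact `Q ⊆ Ω`: `∫_Q φ ≤ ∫_Q φ_l + ε |Q| ≤ A₀ + ε |Q|` (`tendstoLocallyUniformlyOn_iff_forall_isCompact`); exhaust `Ω` by compacts (`MeasureTheory.AECover.integrable_of_integral_bounded_of_nonneg_ae` or lintegral monotone convergence).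
* **S4-U-LIMC** `holCurve_of_tendsto`, `tendsto_dspeed`: near `ζ₀`, `Ψ` a parametrisation around `f ζ₀`, `W' ⊆ W` compact neighbourhood: for `ζ` near `ζ₀` and `L`-almost all `l`, `f_l ζ ∈ Ψ '' W'` (image is a neighbourhood in the carrier), `p_l = Ψ⁻¹ ∘ f_l → p = Ψ⁻¹ ∘ f` uniformly (`Ψ⁻¹` is uniformly continuous on the compact `Ψ '' W'`); `TendstoLocallyUniformlyOn.differentiableOn`, `.deriv`; `dspeed_local`.
* **S4-U-CONC** `concSet_finite`, `not_mem_concSet`: `k` distinct points, disjoint balls `ball x_i s ⊆ ball 0 (7/8)`, one `l` in the finite intersection of `𝒰`-sets: `k < ∑ rmass ≤ rmass (ball 0 (7/8)) ≤ 8 M₁` (`sum_rmass_le`, `rmass_le_wmass`, `InClass.wmass_le`).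
* **S4-U-PROP** `ubdd_propagate` (`not_mem_concSet`, `rmass_mono`, `lemmaM`), `ubdd_anchor` (`InClass.exists_anchor`; `e_l → e_∞` along `𝒰` on the compact circle; `ρ_* ∈ [1/2, 3/4)` with `ρ_* e_∞ ∉ concSet`), `ubdd_off_conc` (`preconnected_induction`).
* **S4-U-LIM** `exists_limit_curve`: `montel_ultrafilter` for `F ∘ f_l`; `f z = lim_𝒰 f_l z` exists in the compact `hcball b R`; `F (f z) = Fl z`; `injOn_compact_uniform` ⟹ locally uniform convergence; `holCurve_of_tendsto`.  `limit_area`: `tendsto_dspeed` + `integrableOn_of_tendstoLocallyUniformlyOn`.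
* **S4-U-XF** `xF_holFun`, `xF_eq`, `exists_proj`: `P = J₁ᴴ`, `Q = C₁ᴴ` at one point `z₁`; `m(z) = det (P * xF (f z) * Q) = det (P * gJac) det (C * Q)` bounded holomorphic, `m(z₁) ≠ 0`; `exists_punctured_ne_zero`.
* **S4-U-COORD** `exists_param_pF`: inverse function theorem for `pF ∘ Φ` (holomorphic, invertible Jacobian `P * jac (F ∘ Φ)`), `CMfd.reparam` with the local inverse; `IsHForm.compat`.
* **S4-U-CURV** `curv1_comp` (chain rule for `griffM`, as `RmM_comp` of `CM/Curv.lean` but with base `CE Unit → CE κ`), `griffM_posSemidef_of_bisec` (`bisec_eq_griffM`, `griffM_isHermitian`).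
* **S4-U-HP** `hP_curve_data`: locally `hP (f z) = g Ψ (τ z)`, `τ = pF ∘ f`, `f = Ψ ∘ τ` with `Ψ` of `exists_param_pF`; lower bound `c = 1/(C ‖P‖²)` from `fE_le_lamF`.
* **S4-U-RAD** `radial_bound` = `exists_proj` + `hP_curve_data` + `extra_integrability` + `exists_ray_integrable` + `hdist_le_seg`.
* **S4-U-PUNC** `puncture` (step 3 above).
* **S4-U-CENTRE** `centre_bound`, `confine_class`, `confine_smooth`.
* **S4-U-Y** `isSmDisc_base`, `isCompact_cot_of_bound`, `smDisc_pairing_le`, `disc_compactness`.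
-/

set_option autoImplicit false
set_option linter.unusedSectionVars false
open scoped ContDiff ComplexOrder Topology Matrix
open MeasureTheory Metric Set Filter

namespace Claimed.Agent.R316.S4

open Claimed.Agent.R316 Claimed.Agent.R316.S6

local notation "Δ" => Laplacian.laplacian

/-! ### S4-U-TOP, S4-U-MONTEL, S4-U-INT: Mathlib only -/

theorem isPreconnected_ball_diff_finite (c : ℂ) (R : ℝ) {Z : Set ℂ} (hZ : Z.Finite) :
    IsPreconnected (ball c R \ Z) := by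
  rcases le_or_gt R 0 with hR | hR
  · rw [ball_eq_empty.2 hR, empty_sdiff]
    exact isPreconnected_empty
  set φ := OpenPartialHomeomorph.univBall c R with hφ
  have hsrc : φ.source = univ := OpenPartialHomeomorph.univBall_source c R
  have htgt : φ.target = ball c R := OpenPartialHomeomorph.univBall_target c hR
  have hinj : Function.Injective φ := by
    have := φ.injOn
    rw [hsrc] at this
    exact injOn_univ.1 this
  have hfin : (φ ⁻¹' Z).Finite := hZ.preimage hinj.injOn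
  have hrank : 1 < Module.rank ℝ ℂ := by
    rw [Complex.rank_real_complex]; norm_num
  have hconn := (hfin.countable.isConnected_compl_of_one_lt_rank hrank).isPreconnected
  have himg : φ '' (φ ⁻¹' Z)ᶜ = ball c R \ Z := by
    ext y
    constructor
    · rintro ⟨x, hx, rfl⟩
      refine ⟨?_, hx⟩
      rw [← htgt]
      exact φ.map_source (by rw [hsrc]; exact mem_univ x)
    · rintro ⟨hy, hyZ⟩
      rw [← htgt] at hy
      refine ⟨φ.symm y, ?_, φ.right_inv hy⟩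
      show φ (φ.symm y) ∉ Z
      rw [φ.right_inv hy]
      exact hyZ
  rw [← himg]
  exact hconn.image _ (OpenPartialHomeomorph.continuous_univBall c R).continuousOn

theorem preconnected_induction {X : Type} [TopologicalSpace X] {S : Set X} (hS : IsPreconnected S)
    {P : X → Prop} (h : ∀ x ∈ S, ∃ N ∈ 𝓝 x, ∀ y ∈ N, ∀ z ∈ N, P y → P z) {x₀ : X} (hx₀ : x₀ ∈ S)
    (hP : P x₀) : ∀ x ∈ S, P x := by
  intro x hx
  by_contra hPx
  have hcov : S ⊆ interior {y | P y} ∪ interior {y | ¬ P y} := by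
    intro y hy
    obtain ⟨N, hN, hNP⟩ := h y hy
    by_cases hPy : P y
    · left
      rw [mem_interior_iff_mem_nhds]
      exact mem_of_superset hN fun z hz => hNP y (mem_of_mem_nhds hN) z hz hPy
    · right
      rw [mem_interior_iff_mem_nhds]
      exact mem_of_superset hN fun z hz hPz => hPy (hNP z hz y (mem_of_mem_nhds hN) hPz)
  have h1 : (S ∩ interior {y | P y}).Nonempty := by
    refine ⟨x₀, hx₀, ?_⟩
    rcases hcov hx₀ with h' | h'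
    · exact h'
    · exact absurd hP (interior_subset h')
  have h2 : (S ∩ interior {y | ¬ P y}).Nonempty := by
    refine ⟨x, hx, ?_⟩
    rcases hcov hx with h' | h'
    · exact absurd (interior_subset h') hPx
    · exact h'
  obtain ⟨y, -, hy1, hy2⟩ := hS _ _ isOpen_interior isOpen_interior hcov h1 h2
  exact (interior_subset hy2) (interior_subset hy1)

theorem exists_punctured_ne_zero {m : ℂ → ℂ} {r₁ C : ℝ}
    (hm : DifferentiableOn ℂ m (ball 0 r₁ \ {0})) (hb : ∀ z ∈ ball (0 : ℂ) r₁ \ {0}, ‖m z‖ ≤ C)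
    {z₁ : ℂ} (hz₁ : z₁ ∈ ball (0 : ℂ) r₁ \ {0}) (hne : m z₁ ≠ 0) :
    ∃ r₂ : ℝ, 0 < r₂ ∧ r₂ ≤ r₁ ∧ ∀ z ∈ ball (0 : ℂ) r₂ \ {0}, m z ≠ 0 := by
  have hr₁ : 0 < r₁ := pos_of_mem_ball hz₁.1
  set M := Function.update m 0 (limUnder (𝓝[≠] 0) m) with hM
  have hMd : DifferentiableOn ℂ M (ball 0 r₁) := by
    refine Complex.differentiableOn_update_limUnder_of_bddAbove (ball_mem_nhds 0 hr₁) hm ?_
    refine ⟨C, ?_⟩
    rintro _ ⟨z, hz, rfl⟩
    exact hb z hz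
  have hMa : AnalyticOnNhd ℂ M (ball 0 r₁) := hMd.analyticOnNhd isOpen_ball
  have hMeq : ∀ z, z ≠ 0 → M z = m z := fun z hz => Function.update_of_ne hz _ _
  have hev : ∀ᶠ z in 𝓝[≠] (0 : ℂ), M z ≠ 0 := by
    by_contra hcon
    rw [not_eventually] at hcon
    have hcon' : ∃ᶠ z in 𝓝[≠] (0 : ℂ), M z = 0 := hcon.mono fun z hz => not_not.1 hz
    have := hMa.eqOn_zero_of_preconnected_of_frequently_eq_zero (convex_ball 0 r₁).isPreconnected
      (mem_ball_self hr₁) hcon'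
    have h1 := this hz₁.1
    rw [hMeq z₁ hz₁.2] at h1
    exact hne h1
  rw [eventually_nhdsWithin_iff, Metric.eventually_nhds_iff_ball] at hev
  obtain ⟨ε, hε, hball⟩ := hev
  refine ⟨min ε r₁, lt_min hε hr₁, min_le_right _ _, ?_⟩
  rintro z ⟨hz, hz0⟩
  have := hball z (ball_subset_ball (min_le_left _ _) hz) hz0
  rwa [hMeq z hz0] at this

/-- the inverse of an injective continuous map on a compact set is uniformly continuous. -/
theorem injOn_compact_uniform {X Y : Type} [PseudoMetricSpace X] [PseudoMetricSpace Y] {Q : Set X}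
    (hQ : IsCompact Q) {F : X → Y} (hF : ContinuousOn F Q)
    (hinj : ∀ a ∈ Q, ∀ b ∈ Q, dist (F a) (F b) = 0 → dist a b = 0) {ε : ℝ} (hε : 0 < ε) :
    ∃ δ : ℝ, 0 < δ ∧ ∀ a ∈ Q, ∀ b ∈ Q, dist (F a) (F b) < δ → dist a b < ε := by
  set T : Set (X × X) := (Q ×ˢ Q) ∩ {p | ε ≤ dist p.1 p.2} with hT
  have hTc : IsCompact T :=
    (hQ.prod hQ).inter_right (isClosed_le continuous_const continuous_dist)
  rcases T.eq_empty_or_nonempty with hemp | hne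
  · refine ⟨1, one_pos, fun a ha b hb _ => ?_⟩
    by_contra hcon
    have : (a, b) ∈ T := ⟨⟨ha, hb⟩, not_lt.1 hcon⟩
    rw [hemp] at this
    exact this
  · have hcont : ContinuousOn (fun p : X × X => dist (F p.1) (F p.2)) T := by
      refine continuous_dist.comp_continuousOn (ContinuousOn.prodMk ?_ ?_)
      · exact hF.comp continuous_fst.continuousOn fun p hp => hp.1.1
      · exact hF.comp continuous_snd.continuousOn fun p hp => hp.1.2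
    obtain ⟨p₀, hp₀, hmin⟩ := hTc.exists_isMinOn hne hcont
    refine ⟨dist (F p₀.1) (F p₀.2), ?_, fun a ha b hb hab => ?_⟩
    · rcases (dist_nonneg (x := F p₀.1) (y := F p₀.2)).lt_or_eq with h | h
      · exact h
      · have := hinj _ hp₀.1.1 _ hp₀.1.2 h.symm
        have h2 : ε ≤ dist p₀.1 p₀.2 := hp₀.2
        linarith
    · by_contra hcon
      have hmem : (a, b) ∈ T := ⟨⟨ha, hb⟩, not_lt.1 hcon⟩
      have h3 : dist (F p₀.1) (F p₀.2) ≤ dist (F a) (F b) := hmin hmem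
      linarith

/-- Cauchy estimate + mean value: a bounded holomorphic function is Lipschitz well inside. -/
theorem cpt_lipschitz_of_bounded {E : Type} [NormedAddCommGroup E] [NormedSpace ℂ E]
    {f : ℂ → E} {Ω : Set ℂ} (hΩ : IsOpen Ω)
    (hf : DifferentiableOn ℂ f Ω) {C : ℝ} (hC : ∀ z ∈ Ω, ‖f z‖ ≤ C) {x : ℂ} {δ : ℝ} (hδ : 0 < δ)
    (hsub : closedBall x (2 * δ) ⊆ Ω) {a b : ℂ} (ha : a ∈ closedBall x δ) (hb : b ∈ closedBall x δ) :
    ‖f b - f a‖ ≤ C / δ * ‖b - a‖ := by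
  have hin : ∀ z ∈ closedBall x δ, closedBall z δ ⊆ Ω := by
    intro z hz
    refine Subset.trans ?_ hsub
    intro y hy
    rw [mem_closedBall] at hy hz ⊢
    calc dist y x ≤ dist y z + dist z x := dist_triangle _ _ _
      _ ≤ 2 * δ := by linarith
  refine Convex.norm_image_sub_le_of_norm_deriv_le (s := closedBall x δ) ?_ ?_
    (convex_closedBall x δ) ha hb
  · intro z hz
    exact hf.differentiableAt (hΩ.mem_nhds (hin z hz (mem_closedBall_self hδ.le)))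
  · intro z hz
    refine Complex.norm_deriv_le_of_forall_mem_sphere_norm_le hδ ?_ ?_
    · exact (hf.mono (hin z hz)).diffContOnCl_ball Subset.rfl
    · intro y hy
      exact hC y (hin z hz (sphere_subset_closedBall hy))

/-- Montel's theorem along an ultrafilter. -/
theorem montel_ultrafilter {E : Type} [NormedAddCommGroup E] [NormedSpace ℂ E]
    [FiniteDimensional ℂ E] (𝒰 : Ultrafilter ℕ) {ws : ℕ → ℂ → E} {Ω : Set ℂ} (hΩ : IsOpen Ω)
    (hw : ∀ l, DifferentiableOn ℂ (ws l) Ω) {C : ℝ} (hC : ∀ l, ∀ z ∈ Ω, ‖ws l z‖ ≤ C) :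
    ∃ w : ℂ → E, DifferentiableOn ℂ w Ω ∧ TendstoLocallyUniformlyOn ws w 𝒰 Ω := by
  have : ProperSpace E := FiniteDimensional.proper ℂ E
  have : CompleteSpace E := FiniteDimensional.complete ℂ E
  -- pointwise limits
  have hpt : ∀ z : ℂ, ∃ e : E, z ∈ Ω → Tendsto (fun l => ws l z) 𝒰 (𝓝 e) := by
    intro z
    by_cases hz : z ∈ Ω
    · have hle : ((𝒰.map fun l => ws l z : Ultrafilter E) : Filter E) ≤ 𝓟 (closedBall (0 : E) C) := by
        rw [le_principal_iff]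
        refine mem_map.2 (Filter.univ_mem' fun l => ?_)
        show ws l z ∈ closedBall (0 : E) C
        rw [mem_closedBall_zero_iff]
        exact hC l z hz
      obtain ⟨e, -, he⟩ := (isCompact_closedBall (0 : E) C).ultrafilter_le_nhds _ hle
      exact ⟨e, fun _ => he⟩
    · exact ⟨0, fun h => absurd h hz⟩
  choose w hwlim using hpt
  have hloc : TendstoLocallyUniformlyOn ws w 𝒰 Ω := by
    rw [Metric.tendstoLocallyUniformlyOn_iff]
    intro ε hε x hx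
    obtain ⟨ρ, hρ, hρsub⟩ := Metric.nhds_basis_closedBall.mem_iff.1 (hΩ.mem_nhds hx)
    set δ := ρ / 2 with hδdef
    have hδ : 0 < δ := by positivity
    have hsub : closedBall x (2 * δ) ⊆ Ω := by
      have : 2 * δ = ρ := by rw [hδdef]; ring
      rw [this]; exact hρsub
    have hsub1 : closedBall x δ ⊆ Ω :=
      (closedBall_subset_closedBall (by linarith)).trans hsub
    have hC0 : 0 ≤ C := (norm_nonneg _).trans (hC 0 x hx)
    set Lc := C / δ with hLc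
    have hLc0 : 0 ≤ Lc := by positivity
    have hlip : ∀ l, ∀ a ∈ closedBall x δ, ∀ b ∈ closedBall x δ, ‖ws l b - ws l a‖ ≤ Lc * ‖b - a‖ :=
      fun l a ha b hb => cpt_lipschitz_of_bounded hΩ (hw l) (hC l) hδ hsub ha hb
    have hlipw : ∀ a ∈ closedBall x δ, ∀ b ∈ closedBall x δ, ‖w b - w a‖ ≤ Lc * ‖b - a‖ := by
      intro a ha b hb
      have h1 : Tendsto (fun l => ‖ws l b - ws l a‖) 𝒰 (𝓝 ‖w b - w a‖) :=
        ((hwlim b (hsub1 hb)).sub (hwlim a (hsub1 ha))).norm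
      exact le_of_tendsto h1 (Eventually.of_forall fun l => hlip l a ha b hb)
    -- a finite net
    set η := ε / (3 * (Lc + 1)) with hη
    have hη0 : 0 < η := by positivity
    obtain ⟨N, hNsub, hNfin, hNcov⟩ :=
      (isCompact_closedBall x δ).finite_cover_balls hη0
    have hev : ∀ᶠ l in (𝒰 : Filter ℕ), ∀ a ∈ N, dist (w a) (ws l a) < ε / 3 := by
      rw [eventually_all_finite hNfin]
      intro a ha
      have h1 := hwlim a (hsub1 (hNsub ha))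
      rw [Metric.tendsto_nhds] at h1
      filter_upwards [h1 (ε / 3) (by positivity)] with l hl
      rwa [dist_comm]
    refine ⟨closedBall x δ, mem_nhdsWithin_of_mem_nhds (closedBall_mem_nhds x hδ), ?_⟩
    filter_upwards [hev] with l hl y hy
    obtain ⟨a, ha, hya⟩ := mem_iUnion₂.1 (hNcov hy)
    have haB := hNsub ha
    have hya' : ‖y - a‖ < η := by rwa [mem_ball, dist_eq_norm] at hya
    have hsmall : Lc * ‖y - a‖ < ε / 3 := by
      have h1 : Lc * ‖y - a‖ ≤ Lc * η := mul_le_mul_of_nonneg_left hya'.le hLc0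
      have h2 : Lc * η < ε / 3 := by
        rw [hη]
        have : Lc * (ε / (3 * (Lc + 1))) = (ε / 3) * (Lc / (Lc + 1)) := by
          field_simp
        rw [this]
        have h3 : Lc / (Lc + 1) < 1 := by
          rw [div_lt_one (by positivity)]; linarith
        have h4 : 0 < ε / 3 := by positivity
        nlinarith
      linarith
    have e1 : dist (w y) (w a) < ε / 3 := by
      rw [dist_eq_norm]
      exact (hlipw a haB y hy).trans_lt hsmall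
    have e2 : dist (ws l a) (ws l y) < ε / 3 := by
      rw [dist_comm, dist_eq_norm]
      exact (hlip l a haB y hy).trans_lt hsmall
    calc dist (w y) (ws l y) ≤ dist (w y) (w a) + dist (w a) (ws l a) + dist (ws l a) (ws l y) :=
          dist_triangle4 _ _ _ _
      _ < ε := by linarith [hl a ha]
  exact ⟨w, hloc.differentiableOn (Eventually.of_forall hw) hΩ, hloc⟩

theorem integrableOn_of_tendstoLocallyUniformlyOn {α : Type} {L : Filter α} [L.NeBot]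
    {φs : α → ℂ → ℝ} {φ : ℂ → ℝ} {Ω : Set ℂ} {A₀ : ℝ} (hΩ : IsOpen Ω)
    (hc : ∀ l, ContinuousOn (φs l) Ω) (h0 : ∀ l, ∀ ζ ∈ Ω, 0 ≤ φs l ζ)
    (hi : ∀ l, IntegrableOn (φs l) Ω) (hA : ∀ l, ∫ ζ in Ω, φs l ζ ≤ A₀)
    (hlim : TendstoLocallyUniformlyOn φs φ L Ω) :
    IntegrableOn φ Ω ∧ ∫ ζ in Ω, φ ζ ≤ A₀ := by
  have hφc : ContinuousOn φ Ω := hlim.continuousOn (Eventually.of_forall hc).frequently
  have hφ0 : ∀ ζ ∈ Ω, 0 ≤ φ ζ := fun ζ hζ =>
    ge_of_tendsto' (hlim.tendsto_at hζ) fun l => h0 l ζ hζ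
  -- compact subsets
  have hcpt : ∀ Q : Set ℂ, IsCompact Q → Q ⊆ Ω → ∫ ζ in Q, φ ζ ≤ A₀ := by
    intro Q hQ hQΩ
    have hunif := (tendstoLocallyUniformlyOn_iff_forall_isCompact hΩ).1 hlim Q hQΩ hQ
    rw [Metric.tendstoUniformlyOn_iff] at hunif
    set v := (volume Q).toReal with hv
    have hv0 : 0 ≤ v := ENNReal.toReal_nonneg
    have hQfin : volume Q ≠ ⊤ := hQ.measure_lt_top.ne
    refine le_of_forall_pos_le_add fun ε' hε' => ?_
    set ε := ε' / (v + 1) with hε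
    have hε0 : 0 < ε := by positivity
    obtain ⟨l, hl⟩ := (hunif ε hε0).exists
    have hle : ∀ ζ ∈ Q, φ ζ ≤ φs l ζ + ε := by
      intro ζ hζ
      have := hl ζ hζ
      rw [Real.dist_eq] at this
      linarith [(abs_lt.1 this).2]
    have hiQ : IntegrableOn (φs l) Q := (hi l).mono_set hQΩ
    have hiφ : IntegrableOn φ Q := (hφc.mono hQΩ).integrableOn_compact hQ
    have hic : IntegrableOn (fun _ : ℂ => ε) Q := integrableOn_const hQfin
    calc ∫ ζ in Q, φ ζ ≤ ∫ ζ in Q, (φs l ζ + ε) :=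
          setIntegral_mono_on hiφ (hiQ.add hic) hQ.measurableSet hle
      _ = (∫ ζ in Q, φs l ζ) + ε * v := by
          rw [integral_add hiQ hic, setIntegral_const, smul_eq_mul, mul_comm]
          rfl
      _ ≤ (∫ ζ in Ω, φs l ζ) + ε * v := by
          have h2 : ∫ ζ in Q, φs l ζ ≤ ∫ ζ in Ω, φs l ζ :=
            setIntegral_mono_set (hi l)
              ((ae_restrict_iff' hΩ.measurableSet).2 (Eventually.of_forall fun ζ hζ => h0 l ζ hζ))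
              (LE.le.eventuallyLE hQΩ)
          linarith
      _ ≤ A₀ + ε' := by
          have h1 : ε * v ≤ ε' := by
            rw [hε, div_mul_eq_mul_div, div_le_iff₀ (by positivity)]
            nlinarith
          linarith [hA l]
  -- exhaustion
  obtain ⟨F, hFc, hFsub, hFU, hFmono⟩ := hΩ.exists_iUnion_isClosed
  set Kn : ℕ → Set ℂ := fun n => F n ∩ closedBall 0 n with hKn
  have hKc : ∀ n, IsCompact (Kn n) := fun n => (isCompact_closedBall 0 _).inter_left (hFc n)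
  have hKsub : ∀ n, Kn n ⊆ Ω := fun n => inter_subset_left.trans (hFsub n)
  have hcover : AECover (volume.restrict Ω) atTop Kn := by
    refine ⟨?_, fun n => (hKc n).measurableSet⟩
    refine (ae_restrict_iff' hΩ.measurableSet).2 (Eventually.of_forall fun ζ hζ => ?_)
    rw [← hFU] at hζ
    obtain ⟨n₀, hn₀⟩ := mem_iUnion.1 hζ
    obtain ⟨n₁, hn₁⟩ := exists_nat_ge ‖ζ‖
    filter_upwards [eventually_ge_atTop (max n₀ n₁)] with n hn
    refine ⟨hFmono ((le_max_left _ _).trans hn) hn₀, ?_⟩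
    rw [mem_closedBall_zero_iff]
    exact hn₁.trans (by exact_mod_cast (le_max_right _ _).trans hn)
  have hrr : ∀ n, (volume.restrict Ω).restrict (Kn n) = volume.restrict (Kn n) := fun n =>
    Measure.restrict_restrict_of_subset (hKsub n)
  have hint : Integrable φ (volume.restrict Ω) := by
    refine hcover.integrable_of_integral_bounded_of_nonneg_ae A₀ ?_ ?_ ?_
    · intro n
      unfold IntegrableOn
      rw [hrr n]
      exact (hφc.mono (hKsub n)).integrableOn_compact (hKc n)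
    · exact (ae_restrict_iff' hΩ.measurableSet).2 (Eventually.of_forall hφ0)
    · refine Eventually.of_forall fun n => ?_
      rw [hrr n]
      exact hcpt _ (hKc n) (hKsub n)
  refine ⟨hint, ?_⟩
  have ht := hcover.integral_tendsto_of_countably_generated hint
  refine le_of_tendsto ht (Eventually.of_forall fun n => ?_)
  rw [hrr n]
  exact hcpt _ (hKc n) (hKsub n)

/-! ### S4-U-LIMC: limits of holomorphic curves -/

section curves

variable {V' : Type} [NormedAddCommGroup V'] [NormedSpace ℝ V'] [FiniteDimensional ℝ V']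
variable {κ : Type} [Fintype κ] [DecidableEq κ]
variable {𝓧 : CMfd V' κ} {α : Type} {L : Filter α} [L.NeBot] {fs : α → ℂ → V'} {f : ℂ → V'}
variable {Ω : Set ℂ}

theorem cpt_limit_local (hΩ : IsOpen Ω) (hfs : ∀ l, HolCurve 𝓧 (fs l) Ω)
    (hlim : TendstoLocallyUniformlyOn fs f L Ω) (hmem : ∀ ζ ∈ Ω, f ζ ∈ 𝓧.carrier) {ζ₀ : ℂ}
    (hζ₀ : ζ₀ ∈ Ω) :
    ∃ (Ψ : CE κ → V') (W Kc : Set (CE κ)) (s : ℝ), 𝓧.IsHol Ψ W ∧ IsCompact Kc ∧ Kc ⊆ W ∧ 0 < s ∧
      ball ζ₀ s ⊆ Ω ∧ (∀ ζ ∈ ball ζ₀ s, f ζ ∈ Ψ '' Kc) ∧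
      (∀ᶠ l in L, ∀ ζ ∈ ball ζ₀ s, fs l ζ ∈ Ψ '' Kc) ∧
      TendstoUniformlyOn (fun l ζ => Function.invFunOn Ψ W (fs l ζ))
        (fun ζ => Function.invFunOn Ψ W (f ζ)) L (ball ζ₀ s) := by
  obtain ⟨Ψ, W, hΨ, y₀, hy₀, hy₀x⟩ := 𝓧.cover _ (hmem ζ₀ hζ₀)
  have hP := 𝓧.isParam hΨ
  obtain ⟨ρ, hρ, hρW⟩ := Metric.nhds_basis_closedBall.mem_iff.1 (hP.isOpen.mem_nhds hy₀)
  obtain ⟨O, hO, hOeq⟩ := hP.exists_isOpen_image (isOpen_ball (x := y₀) (ε := ρ))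
    (ball_subset_closedBall.trans hρW)
  have hxO : f ζ₀ ∈ O := by
    have : Ψ y₀ ∈ 𝓧.carrier ∩ O := hOeq ▸ ⟨y₀, mem_ball_self hρ, rfl⟩
    rw [← hy₀x]; exact this.2
  obtain ⟨ε, hε, hεO⟩ := Metric.isOpen_iff.1 hO _ hxO
  have hfc : ContinuousOn f Ω :=
    hlim.continuousOn (Eventually.of_forall fun l => (hfs l).2.1).frequently
  have hfc0 : ContinuousAt f ζ₀ := hfc.continuousAt (hΩ.mem_nhds hζ₀)
  obtain ⟨t, ht, htl⟩ := Metric.tendstoLocallyUniformlyOn_iff.1 hlim (ε/2) (half_pos hε) ζ₀ hζ₀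
  rw [hΩ.nhdsWithin_eq hζ₀] at ht
  have h1 : ∀ᶠ ζ in 𝓝 ζ₀, dist (f ζ) (f ζ₀) < ε/2 := Metric.tendsto_nhds.1 hfc0 _ (half_pos hε)
  obtain ⟨s, hs, hsub⟩ := Metric.nhds_basis_closedBall.mem_iff.1
    (inter_mem (inter_mem (hΩ.mem_nhds hζ₀) ht) h1)
  have hKc : IsCompact (closedBall y₀ ρ) := isCompact_closedBall y₀ ρ
  have himg : ∀ x ∈ 𝓧.carrier, dist x (f ζ₀) < ε → x ∈ Ψ '' closedBall y₀ ρ := by
    intro x hx hd
    have : x ∈ 𝓧.carrier ∩ O := ⟨hx, hεO hd⟩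
    rw [← hOeq] at this
    exact image_mono ball_subset_closedBall this
  have hf1 : ∀ ζ ∈ closedBall ζ₀ s, f ζ ∈ Ψ '' closedBall y₀ ρ := by
    intro ζ hζ
    have h := hsub hζ
    exact himg _ (hmem ζ h.1.1) (lt_trans h.2 (half_lt_self hε))
  have hf2 : ∀ᶠ l in L, ∀ ζ ∈ closedBall ζ₀ s, fs l ζ ∈ Ψ '' closedBall y₀ ρ := by
    filter_upwards [htl] with l hl ζ hζ
    have h := hsub hζ
    refine himg _ ((hfs l).1 ζ h.1.1) ?_
    have h2 : dist (f ζ) (f ζ₀) < ε / 2 := h.2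
    calc dist (fs l ζ) (f ζ₀) ≤ dist (fs l ζ) (f ζ) + dist (f ζ) (f ζ₀) := dist_triangle _ _ _
      _ < ε / 2 + ε / 2 := add_lt_add (by rw [dist_comm]; exact hl ζ h.1.2) h2
      _ = ε := add_halves ε
  have hu : TendstoUniformlyOn fs f L (closedBall ζ₀ s) :=
    (tendstoLocallyUniformlyOn_iff_forall_isCompact hΩ).1 hlim _ (fun ζ hζ => (hsub hζ).1.1)
      (isCompact_closedBall ζ₀ s)
  have hKi : IsCompact (Ψ '' closedBall y₀ ρ) := hKc.image_of_continuousOn (hP.continuousOn.mono hρW)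
  have huc : UniformContinuousOn (Function.invFunOn Ψ W) (Ψ '' closedBall y₀ ρ) :=
    hKi.uniformContinuousOn_of_continuous (hP.cont_inv.mono (image_mono hρW))
  refine ⟨Ψ, W, closedBall y₀ ρ, s, hΨ, hKc, hρW, hs,
    fun ζ hζ => (hsub (ball_subset_closedBall hζ)).1.1,
    fun ζ hζ => hf1 ζ (ball_subset_closedBall hζ),
    hf2.mono fun l hl ζ hζ => hl ζ (ball_subset_closedBall hζ), ?_⟩
  exact (huc.comp_tendstoUniformlyOn_eventually hf2 hf1 hu).mono ball_subset_closedBall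

theorem holCurve_of_tendsto (hΩ : IsOpen Ω) (hfs : ∀ l, HolCurve 𝓧 (fs l) Ω)
    (hlim : TendstoLocallyUniformlyOn fs f L Ω) (hmem : ∀ ζ ∈ Ω, f ζ ∈ 𝓧.carrier) :
    HolCurve 𝓧 f Ω := by
  refine holCurve_of_local fun ζ₀ hζ₀ => ?_
  obtain ⟨Ψ, W, Kc, s, hΨ, hKc, hKW, hs, hsΩ, hf1, hf2, hu⟩ :=
    cpt_limit_local hΩ hfs hlim hmem hζ₀
  refine ⟨Ψ, W, fun ζ => Function.invFunOn Ψ W (f ζ), hΨ, ?_⟩
  have hd : DifferentiableOn ℂ (fun ζ => Function.invFunOn Ψ W (f ζ)) (ball ζ₀ s) := by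
    refine hu.tendstoLocallyUniformlyOn.differentiableOn ?_ isOpen_ball
    filter_upwards [hf2] with l hl
    exact ((hfs l).2.2 Ψ W hΨ).mono fun ζ hζ => ⟨hsΩ hζ, image_mono hKW (hl ζ hζ)⟩
  filter_upwards [isOpen_ball.mem_nhds (mem_ball_self hs)] with ζ hζ
  have h := image_mono hKW (hf1 ζ hζ)
  exact ⟨hd.differentiableAt (isOpen_ball.mem_nhds hζ), Function.invFunOn_mem h,
    (Function.invFunOn_eq h).symm⟩

theorem cpt_tlu_of_local {β : Type} [UniformSpace β] {F : α → ℂ → β} {g : ℂ → β}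
    (h : ∀ x ∈ Ω, ∃ t ∈ 𝓝 x, TendstoUniformlyOn F g L t) :
    TendstoLocallyUniformlyOn F g L Ω := by
  intro u hu x hx
  obtain ⟨t, ht, h1⟩ := h x hx
  exact ⟨t, mem_nhdsWithin_of_mem_nhds ht, h1 u hu⟩

theorem cpt_tendstoUniformlyOn_prodMk {β γ : Type} [PseudoMetricSpace β] [PseudoMetricSpace γ]
    {F : α → ℂ → β} {F' : α → ℂ → γ} {g : ℂ → β} {g' : ℂ → γ} {s : Set ℂ}
    (h : TendstoUniformlyOn F g L s) (h' : TendstoUniformlyOn F' g' L s) :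
    TendstoUniformlyOn (fun l a => (F l a, F' l a)) (fun a => (g a, g' a)) L s := by
  rw [Metric.tendstoUniformlyOn_iff] at *
  intro ε hε
  filter_upwards [h ε hε, h' ε hε] with l h1 h2 x hx
  exact max_lt (h1 x hx) (h2 x hx)

theorem tendsto_dspeed (hΩ : IsOpen Ω) (hfs : ∀ l, HolCurve 𝓧 (fs l) Ω) (hf : HolCurve 𝓧 f Ω)
    (hlim : TendstoLocallyUniformlyOn fs f L Ω) {A : HFam V' κ} (hA : IsHForm 𝓧 A) :
    TendstoLocallyUniformlyOn (fun l => dspeed 𝓧 A (fs l)) (dspeed 𝓧 A f) L Ω := by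
  refine cpt_tlu_of_local fun ζ₀ hζ₀ => ?_
  obtain ⟨Ψ, W, Kc, s, hΨ, hKc, hKW, hs, hsΩ, hf1, hf2, hu⟩ :=
    cpt_limit_local hΩ hfs hlim hf.1 hζ₀
  have hP := 𝓧.isParam hΨ
  set q := Function.invFunOn Ψ W with hq
  have hqK : ∀ x ∈ Ψ '' Kc, q x ∈ Kc := by
    rintro x ⟨w, hw, rfl⟩
    rw [hq, hP.leftInv (hKW hw)]
    exact hw
  have hdl : ∀ᶠ l in L, DifferentiableOn ℂ (fun ζ => q (fs l ζ)) (ball ζ₀ s) := by
    filter_upwards [hf2] with l hl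
    exact ((hfs l).2.2 Ψ W hΨ).mono fun ζ hζ => ⟨hsΩ hζ, image_mono hKW (hl ζ hζ)⟩
  have hd : DifferentiableOn ℂ (fun ζ => q (f ζ)) (ball ζ₀ s) :=
    (hf.2.2 Ψ W hΨ).mono fun ζ hζ => ⟨hsΩ hζ, image_mono hKW (hf1 ζ hζ)⟩
  have hder : TendstoLocallyUniformlyOn (deriv ∘ fun l ζ => q (fs l ζ))
      (deriv fun ζ => q (f ζ)) L (ball ζ₀ s) :=
    hu.tendstoLocallyUniformlyOn.deriv hdl isOpen_ball
  have hcb : closedBall ζ₀ (s/2) ⊆ ball ζ₀ s := closedBall_subset_ball (half_lt_self hs)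
  have hderu : TendstoUniformlyOn (deriv ∘ fun l ζ => q (fs l ζ))
      (deriv fun ζ => q (f ζ)) L (closedBall ζ₀ (s/2)) :=
    (tendstoLocallyUniformlyOn_iff_forall_isCompact isOpen_ball).1 hder _ hcb
      (isCompact_closedBall _ _)
  have hdc : ContinuousOn (deriv fun ζ => q (f ζ)) (ball ζ₀ s) :=
    (hd.deriv isOpen_ball).continuousOn
  obtain ⟨C, hC⟩ := ((isCompact_closedBall ζ₀ (s/2)).image_of_continuousOn
    (hdc.mono hcb)).isBounded.subset_closedBall 0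
  have hb1 : ∀ ζ ∈ closedBall ζ₀ (s/2), deriv (fun ζ => q (f ζ)) ζ ∈ closedBall (0 : CE κ) (C + 1) :=
    fun ζ hζ => closedBall_subset_closedBall (by linarith) (hC ⟨ζ, hζ, rfl⟩)
  have hb2 : ∀ᶠ l in L, ∀ ζ ∈ closedBall ζ₀ (s/2),
      deriv (fun ζ => q (fs l ζ)) ζ ∈ closedBall (0 : CE κ) (C + 1) := by
    filter_upwards [Metric.tendstoUniformlyOn_iff.1 hderu 1 one_pos] with l hl ζ hζ
    have h1 : dist (deriv (fun ζ => q (f ζ)) ζ) 0 ≤ C := hC ⟨ζ, hζ, rfl⟩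
    have h2 : dist (deriv (fun ζ => q (f ζ)) ζ) (deriv (fun ζ => q (fs l ζ)) ζ) < 1 := hl ζ hζ
    rw [mem_closedBall]
    have h3 := dist_triangle_left (deriv (fun ζ => q (fs l ζ)) ζ) 0 (deriv (fun ζ => q (f ζ)) ζ)
    linarith
  have hpair := cpt_tendstoUniformlyOn_prodMk (hu.mono hcb) hderu
  set G : CE κ × CE κ → ℝ := fun yv => qf (A Ψ yv.1) yv.2 with hG
  have hGc : ContinuousOn G (Kc ×ˢ closedBall (0 : CE κ) (C + 1)) := by
    refine cpt_continuousOn_qf (fun j k => ?_) (fun j => ?_)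
    · exact ((hA.smooth hΨ j k).continuousOn.mono hKW).comp continuous_fst.continuousOn
        fun yv h => h.1
    · exact ((EuclideanSpace.proj j : CE κ →L[ℂ] ℂ).continuous.comp continuous_snd).continuousOn
  have hGu := (hKc.prod (isCompact_closedBall (0 : CE κ) (C + 1))).uniformContinuousOn_of_continuous hGc
  have hm1 : ∀ᶠ l in L, ∀ ζ ∈ closedBall ζ₀ (s/2),
      (q (fs l ζ), (deriv ∘ fun l ζ => q (fs l ζ)) l ζ) ∈ Kc ×ˢ closedBall (0 : CE κ) (C + 1) := by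
    filter_upwards [hf2, hb2] with l h1 h2 ζ hζ
    exact ⟨hqK _ (h1 ζ (hcb hζ)), h2 ζ hζ⟩
  have hm2 : ∀ ζ ∈ closedBall ζ₀ (s/2),
      (q (f ζ), deriv (fun ζ => q (f ζ)) ζ) ∈ Kc ×ˢ closedBall (0 : CE κ) (C + 1) :=
    fun ζ hζ => ⟨hqK _ (hf1 ζ (hcb hζ)), hb1 ζ hζ⟩
  have hfin := hGu.comp_tendstoUniformlyOn_eventually hm1 hm2 hpair
  refine ⟨closedBall ζ₀ (s/2), closedBall_mem_nhds _ (half_pos hs), ?_⟩
  refine (hfin.congr ?_).congr_right ?_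
  · filter_upwards [hf2, hdl] with l h1 h2 ζ hζ
    have hζb := hcb hζ
    symm
    refine dspeed_local hA hΨ (h2.differentiableAt (isOpen_ball.mem_nhds hζb))
      (hKW (hqK _ (h1 ζ hζb))) ?_
    filter_upwards [isOpen_ball.mem_nhds hζb] with w hw
    exact (Function.invFunOn_eq (image_mono hKW (h1 w hw))).symm
  · intro ζ hζ
    have hζb := hcb hζ
    symm
    refine dspeed_local hA hΨ (hd.differentiableAt (isOpen_ball.mem_nhds hζb))
      (hKW (hqK _ (hf1 ζ hζb))) ?_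
    filter_upwards [isOpen_ball.mem_nhds hζb] with w hw
    exact (Function.invFunOn_eq (image_mono hKW (hf1 w hw))).symm

end curves

/-! ### S4-U-CURV -/

section curv

variable {κ : Type} [Fintype κ] [DecidableEq κ]

section gen
variable {ι' μ : Type} [Fintype ι'] [DecidableEq ι'] [Fintype μ] [DecidableEq μ]
variable {H : CE κ → Matrix μ μ ℂ} {x : CE ι'}

theorem cpt_dzM_comp_hol (T : CE ι' → CE κ) (hT : DifferentiableAt ℂ T x)
    (hH : ∀ a b, DifferentiableAt ℝ (fun y => H y a b) (T x)) (l : ι') :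
    dzM l (fun y => H (T y)) x = ∑ c, jac T x c l • dzM c H (T x) := by
  ext a b
  rw [dzM_apply, dz_comp_hol T (fun y => H y a b) hT (hH a b), Matrix.sum_apply]
  refine Finset.sum_congr rfl fun c _ => ?_
  rw [Matrix.smul_apply, dzM_apply, smul_eq_mul, mul_comm]

theorem cpt_dzbM_comp_hol (T : CE ι' → CE κ) (hT : DifferentiableAt ℂ T x)
    (hH : ∀ a b, DifferentiableAt ℝ (fun y => H y a b) (T x)) (m : ι') :
    dzbM m (fun y => H (T y)) x = ∑ d, (starRingEnd ℂ) (jac T x d m) • dzbM d H (T x) := by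
  ext a b
  rw [dzbM_apply, dzb_comp_hol T (fun y => H y a b) hT (hH a b), Matrix.sum_apply]
  refine Finset.sum_congr rfl fun c _ => ?_
  rw [Matrix.smul_apply, dzbM_apply, smul_eq_mul, mul_comm]

/-- the curvature of `H ∘ T`, `T` holomorphic between different spaces. -/
theorem cpt_curv_comp (T : CE ι' → CE κ) (hT : ∀ᶠ w in 𝓝 x, DifferentiableAt ℂ T w)
    (hH : ∀ a b, ContDiffAt ℝ 2 (fun y => H y a b) (T x)) (l m : ι') :
    - dzbM m (dzM l (fun w => H (T w))) x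
        + dzbM m (fun w => H (T w)) x * (H (T x))⁻¹ * dzM l (fun w => H (T w)) x
      = ∑ c, ∑ d, (jac T x c l * (starRingEnd ℂ) (jac T x d m)) •
          (- dzbM d (dzM c H) (T x) + dzbM d H (T x) * (H (T x))⁻¹ * dzM c H (T x)) := by
  have hTx : DifferentiableAt ℂ T x := hT.self_of_nhds
  have hd : ∀ a b, DifferentiableAt ℝ (fun y => H y a b) (T x) := fun a b =>
    (hH a b).differentiableAt (by norm_num)
  have hd1 : ∀ c a b, DifferentiableAt ℝ (fun y => dzM c H y a b) (T x) := fun c a b =>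
    (contDiffAt_dzM (N := 1) hH (by norm_num) a b).differentiableAt (by norm_num)
  have hev0 : ∀ᶠ w in 𝓝 (T x), ∀ a b, DifferentiableAt ℝ (fun y => H y a b) w := by
    rw [Filter.eventually_all]
    intro a
    rw [Filter.eventually_all]
    intro b
    exact lv_eventually_differentiableAt (hH a b)
  have hev : ∀ᶠ w in 𝓝 x, ∀ a b, DifferentiableAt ℝ (fun y => H y a b) (T w) :=
    hTx.continuousAt.eventually hev0
  have b1 : ∀ᶠ w in 𝓝 x, dzM l (fun y => H (T y)) w = ∑ c, jac T w c l • dzM c H (T w) := by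
    filter_upwards [hT, hev] with w h1 h2
    exact cpt_dzM_comp_hol T h1 h2 l
  have b3 : dzbM m (dzM l (fun y => H (T y))) x
      = ∑ c, ∑ d, (jac T x c l * (starRingEnd ℂ) (jac T x d m)) • dzbM d (dzM c H) (T x) := by
    rw [dzbM_congr b1]
    ext a b
    have hA : ∀ c, DifferentiableAt ℝ (fun w => dzM c H (T w) a b) x := fun c =>
      (hd1 c a b).comp x (hTx.restrictScalars ℝ)
    have hBc : ∀ c, DifferentiableAt ℂ (fun w => jac T w c l) x := fun c =>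
      differentiableAt_jac hT c l
    have e : (fun w => (∑ c, jac T w c l • dzM c H (T w)) a b)
        = fun w => ∑ c, jac T w c l * dzM c H (T w) a b := by
      funext w
      rw [Matrix.sum_apply]
      rfl
    rw [dzbM_apply, e, dzb_sum Finset.univ (fun c w => jac T w c l * dzM c H (T w) a b)
      fun c _ => ((hBc c).restrictScalars ℝ).mul (hA c), Matrix.sum_apply]
    refine Finset.sum_congr rfl fun c _ => ?_
    rw [dzb_mul ((hBc c).restrictScalars ℝ) (hA c), dzb_of_differentiableAt (hBc c), zero_mul,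
      zero_add, dzb_comp_hol T (fun y => dzM c H y a b) hTx (hd1 c a b),
      Matrix.sum_apply, Finset.mul_sum]
    refine Finset.sum_congr rfl fun d _ => ?_
    rw [Matrix.smul_apply, dzbM_apply, smul_eq_mul]
    ring
  rw [b3, b1.self_of_nhds, cpt_dzbM_comp_hol T hTx hd m]
  simp only [smul_add, smul_neg, Finset.sum_add_distrib, Finset.sum_neg_distrib]
  congr 1
  rw [Finset.sum_mul, Finset.sum_mul, Finset.sum_comm]
  refine Finset.sum_congr rfl fun d _ => ?_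
  rw [Finset.mul_sum]
  refine Finset.sum_congr rfl fun c _ => ?_
  rw [Matrix.smul_mul, Matrix.smul_mul, Matrix.mul_smul, smul_smul, mul_comm]

end gen

theorem curv1_comp {d : ℕ} {H : CE κ → Matrix (Fin d) (Fin d) ℂ} {τ : ℂ → CE κ} {z : ℂ}
    (hτ : ∀ᶠ w in 𝓝 z, DifferentiableAt ℂ τ w)
    (hH : ∀ a b, ContDiffAt ℝ 2 (fun y => H y a b) (τ z)) :
    curv1 (fun w => H (τ w)) z = griffM H (τ z) (deriv τ z : CE κ) := by
  set pr : CE Unit →L[ℂ] ℂ := EuclideanSpace.proj () with hpr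
  set T : CE Unit → CE κ := fun w => τ (pr w) with hT
  have hprz : pr (c1 z) = z := rfl
  have hTd : ∀ᶠ w in 𝓝 (c1 z), DifferentiableAt ℂ T w := by
    have h1 : Tendsto pr (𝓝 (c1 z)) (𝓝 z) := pr.continuous.tendsto (c1 z)
    filter_upwards [h1.eventually hτ] with w hw
    exact DifferentiableAt.comp (g := τ) w hw pr.differentiableAt
  have hjac : ∀ c, jac T (c1 z) c () = (deriv τ z : CE κ) c := by
    intro c
    have h3 : HasFDerivAt T ((fderiv ℂ τ z).comp pr) (c1 z) :=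
      HasFDerivAt.comp (g := τ) (c1 z) hτ.self_of_nhds.hasFDerivAt pr.hasFDerivAt
    show fderiv ℂ T (c1 z) (eb ()) c = _
    rw [h3.fderiv]
    have h4 : pr (eb ()) = 1 := by simp [hpr, eb]
    rw [ContinuousLinearMap.comp_apply, h4]
    rfl
  have key := cpt_curv_comp (H := H) T hTd hH () ()
  unfold curv1 griffM
  simp only [Finset.univ_unique, Finset.sum_singleton, one_mul, star_one, one_smul]
  refine Eq.trans key ?_
  refine Finset.sum_congr rfl fun c _ => Finset.sum_congr rfl fun e _ => ?_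
  rw [hjac, hjac]
  rfl

end curv

section main

variable {V : Type} [NormedAddCommGroup V] [InnerProductSpace ℝ V] [FiniteDimensional ℝ V]
variable [MeasurableSpace V] [BorelSpace V]
variable {n : ℕ} {𝓜 : CMfd V (Fin n)} {g : HFam V (Fin n)} {o : V}
variable {K : Set V} {A₀ : ℝ}

theorem griffM_posSemidef_of_bisec (hg : IsMetric 𝓜 g) (hb : BisecNonneg 𝓜 g)
    {Ψ : CE (Fin n) → V} {W : Set (CE (Fin n))} (hΨ : 𝓜.IsHol Ψ W) {y : CE (Fin n)} (hy : y ∈ W)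
    (X : Fin n → ℂ) : (griffM (g Ψ) y X).PosSemidef := by
  have hherm : (griffM (g Ψ) y X).IsHermitian :=
    griffM_isHermitian (CMfd.isOpen_dom hΨ) (hg.smooth hΨ) (hg.posDef hΨ) hy X
  refine (posSemidef_iff_qf hherm).2 fun u => ?_
  rw [← bisec_eq_griffM]
  exact hb Ψ W hΨ y hy u X

/-! ### S4-U-CONC -/

/-- discs of the class as holomorphic curves on the open unit disc. -/
theorem InClass.holCurve {f : ℂ → V} (hf : InClass 𝓜 g K A₀ f) : HolCurve 𝓜 f (ball 0 1) := by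
  obtain ⟨r, hr, hd⟩ := hf.hol
  exact HolCurve.mono hd (ball_subset_ball hr.le)

theorem InClass.mem_carrier {f : ℂ → V} (hf : InClass 𝓜 g K A₀ f) {ζ : ℂ}
    (hζ : ζ ∈ closedBall (0 : ℂ) 1) : f ζ ∈ 𝓜.carrier := by
  obtain ⟨r, hr, hd⟩ := hf.hol
  exact hd.1 ζ (closedBall_subset_ball hr hζ)

theorem InClass.continuousOn {f : ℂ → V} (hf : InClass 𝓜 g K A₀ f) :
    ContinuousOn f (closedBall 0 1) := by
  obtain ⟨r, hr, hd⟩ := hf.hol
  exact hd.2.1.mono (closedBall_subset_ball hr)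

/-- closed conditions pass to the limit along the filter. -/
theorem cpt_le_of_tendsto {α : Type} {L : Filter α} [L.NeBot] {xs : α → V} {x : V}
    (hx : Tendsto xs L (𝓝 x)) (hxs : ∀ l, xs l ∈ 𝓜.carrier) (hxM : x ∈ 𝓜.carrier) {v : V → ℝ}
    (hv : ContinuousOn v 𝓜.carrier) {C : ℝ} (hC : ∀ l, v (xs l) ≤ C) : v x ≤ C := by
  have h1 : Tendsto xs L (𝓝[𝓜.carrier] x) :=
    tendsto_nhdsWithin_iff.2 ⟨hx, Eventually.of_forall hxs⟩
  exact le_of_tendsto ((hv x hxM).tendsto.comp h1) (Eventually.of_forall hC)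

/-- the concentration set of the Riesz masses of `ψ ∘ f_l` along `𝒰`, inside `ball 0 (3/4)`. -/
def concSet (Pd : PrelimData 𝓜 g o) (𝒰 : Ultrafilter ℕ) (fs : ℕ → ℂ → V) : Set ℂ :=
  {x | x ∈ ball (0 : ℂ) (3 / 4) ∧
    ∀ s : ℝ, 0 < s → s ≤ 1 / 8 → ∀ᶠ l in 𝒰, 1 < rmass (fun ζ => psiF Pd (fs l ζ)) (ball x s)}

theorem cpt_exists_sep (T : Finset ℂ) : ∃ δ : ℝ, 0 < δ ∧ ∀ x ∈ T, ∀ y ∈ T, x ≠ y → δ ≤ dist x y := by
  rcases T.offDiag.eq_empty_or_nonempty with h | h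
  · refine ⟨1, one_pos, fun x hx y hy hne => ?_⟩
    have : (x, y) ∈ T.offDiag := Finset.mem_offDiag.2 ⟨hx, hy, hne⟩
    rw [h] at this
    exact absurd this (Finset.notMem_empty _)
  · refine ⟨T.offDiag.inf' h (fun p => dist p.1 p.2), ?_, ?_⟩
    · rw [Finset.lt_inf'_iff]
      intro p hp
      exact dist_pos.2 (Finset.mem_offDiag.1 hp).2.2
    · intro x hx y hy hne
      exact Finset.inf'_le (fun p : ℂ × ℂ => dist p.1 p.2)
        (show (x, y) ∈ T.offDiag from Finset.mem_offDiag.2 ⟨hx, hy, hne⟩)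

theorem concSet_finite (I : InitialData 𝓜 g) (Pd : PrelimData 𝓜 g o) (hK : IsCompact K)
    (hKM : K ⊆ 𝓜.carrier) (𝒰 : Ultrafilter ℕ) {fs : ℕ → ℂ → V}
    (hfs : ∀ l, InClass 𝓜 g K A₀ (fs l)) : (concSet Pd 𝒰 fs).Finite := by
  obtain ⟨M₁, hM₁⟩ := InClass.wmass_le I Pd hK hKM A₀
  by_contra hinf
  obtain ⟨T, hTZ, hTc⟩ := (Set.not_finite.1 hinf).exists_subset_card_eq (⌈8 * M₁⌉₊ + 1)
  obtain ⟨δ, hδ, hsep⟩ := cpt_exists_sep T
  set s : ℝ := min (1 / 8) (δ / 2) with hs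
  have hs0 : 0 < s := lt_min (by norm_num) (by positivity)
  have hs8 : s ≤ 1 / 8 := min_le_left _ _
  have hev : ∀ᶠ l in 𝒰, ∀ x ∈ T, 1 < rmass (fun ζ => psiF Pd (fs l ζ)) (ball x s) :=
    (Filter.eventually_all_finset T).2 fun x hx => (hTZ hx).2 s hs0 hs8
  obtain ⟨l, hl⟩ := hev.exists
  obtain ⟨r, hr, hu, hΔ⟩ := (hfs l).psi_data I Pd
  have hΔ1 : ∀ ζ ∈ ball (0 : ℂ) 1, 0 ≤ Laplacian.laplacian (fun w => psiF Pd (fs l w)) ζ :=
    fun ζ hζ => hΔ ζ (ball_subset_ball hr.le hζ)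
  have h1 : ∑ x ∈ T, rmass (fun ζ => psiF Pd (fs l ζ)) (ball x s) ≤
      rmass (fun ζ => psiF Pd (fs l ζ)) (ball 0 (7 / 8)) := by
    refine sum_rmass_le hr hu hΔ1 T (fun x => ball x s) (fun _ _ => measurableSet_ball)
      measurableSet_ball ?_ ?_ (ball_subset_ball (by norm_num))
    · intro x hx y hy hne
      refine ball_disjoint_ball ?_
      have h2 : s ≤ δ / 2 := min_le_right _ _
      linarith [hsep x hx y hy hne]
    · intro x hx
      refine ball_subset_ball' ?_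
      have h3 : dist x 0 < 3 / 4 := (hTZ hx).1
      linarith
  have h2 : (T.card : ℝ) ≤ ∑ x ∈ T, rmass (fun ζ => psiF Pd (fs l ζ)) (ball x s) := by
    have := Finset.card_nsmul_le_sum T (fun x => rmass (fun ζ => psiF Pd (fs l ζ)) (ball x s)) 1
      (fun x hx => (hl x hx).le)
    simpa using this
  have h3 := rmass_le_wmass hr hu hΔ1 (ρ := 7 / 8) (by norm_num)
  have h4 := hM₁ _ (hfs l)
  have h5 : (8 * M₁ : ℝ) ≤ ⌈8 * M₁⌉₊ := Nat.le_ceil _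
  rw [hTc] at h2
  push_cast at h2
  linarith

theorem not_mem_concSet (Pd : PrelimData 𝓜 g o) (𝒰 : Ultrafilter ℕ) {fs : ℕ → ℂ → V} {x : ℂ}
    (hx : x ∈ ball (0 : ℂ) (3 / 4)) (hx' : x ∉ concSet Pd 𝒰 fs) :
    ∃ s : ℝ, 0 < s ∧ s ≤ 1 / 8 ∧
      ∀ᶠ l in 𝒰, rmass (fun ζ => psiF Pd (fs l ζ)) (ball x s) ≤ 1 := by
  have h1 : ¬ ∀ s : ℝ, 0 < s → s ≤ 1 / 8 →
      ∀ᶠ l in 𝒰, 1 < rmass (fun ζ => psiF Pd (fs l ζ)) (ball x s) := fun h => hx' ⟨hx, h⟩
  push Not at h1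
  obtain ⟨s, hs, hs8, hns⟩ := h1
  exact ⟨s, hs, hs8, hns⟩

/-! ### S4-U-PROP -/

theorem ubdd_propagate (I : InitialData 𝓜 g) (Pd : PrelimData 𝓜 g o) (hK : IsCompact K)
    (hKM : K ⊆ 𝓜.carrier) (𝒰 : Ultrafilter ℕ) {fs : ℕ → ℂ → V}
    (hfs : ∀ l, InClass 𝓜 g K A₀ (fs l)) {x : ℂ} (hx : x ∈ ball (0 : ℂ) (3 / 4))
    (hx' : x ∉ concSet Pd 𝒰 fs) :
    ∃ N ∈ 𝓝 x, ∃ C : ℝ, ∀ᶠ l in 𝒰, ∀ y ∈ N, ∀ z ∈ N, hdist 𝓜 g (fs l y) (fs l z) ≤ C := by
  obtain ⟨s₀, hs₀, hs₀8, hev⟩ := not_mem_concSet Pd 𝒰 hx hx'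
  have hs : 0 < s₀ / 2 := by positivity
  obtain ⟨C, hC⟩ := lemmaM I Pd hK hKM A₀ hs
  have hxn : ‖x‖ < 3 / 4 := mem_ball_zero_iff.1 hx
  refine ⟨ball x (s₀ / 2 / 4), ball_mem_nhds x (by positivity), C, ?_⟩
  filter_upwards [hev] with l hl
  refine hC _ (hfs l) x (by linarith) ?_
  have : 2 * (s₀ / 2) = s₀ := by ring
  rw [this]
  exact hl

theorem ubdd_anchor (I : InitialData 𝓜 g) (Pd : PrelimData 𝓜 g o) (hK : IsCompact K)
    (hKM : K ⊆ 𝓜.carrier) (𝒰 : Ultrafilter ℕ) {fs : ℕ → ℂ → V}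
    (hfs : ∀ l, InClass 𝓜 g K A₀ (fs l)) {b : V} (hb : b ∈ 𝓜.carrier) :
    ∃ a ∈ ball (0 : ℂ) (3 / 4) \ concSet Pd 𝒰 fs, ∃ R : ℝ, ∀ᶠ l in 𝒰, hdist 𝓜 g b (fs l a) ≤ R := by
  have hg : IsMetric 𝓜 g := I.kahler.toIsMetric
  obtain ⟨R₀, hR₀⟩ := InClass.exists_anchor I hb hK hKM A₀
  choose e he hanch using fun l => hR₀ _ (hfs l)
  -- the limit direction
  obtain ⟨e', he', hlim⟩ := (isCompact_sphere (0 : ℂ) 1).ultrafilter_le_nhds (𝒰.map e) (by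
    rw [Ultrafilter.coe_map, Filter.le_principal_iff, Filter.mem_map]
    exact Filter.Eventually.of_forall fun l => mem_sphere_zero_iff_norm.2 (he l))
  have hlim' : Tendsto e 𝒰 (𝓝 e') := hlim
  have hne' : ‖e'‖ = 1 := mem_sphere_zero_iff_norm.1 he'
  have he0 : e' ≠ 0 := fun h => by rw [h, norm_zero] at hne'; exact zero_ne_one hne'
  -- a radius which avoids the concentration set
  have hZ := concSet_finite I Pd hK hKM 𝒰 hfs
  have hinj : Function.Injective fun ρ : ℝ => ρ • e' := fun a b h => smul_left_injective ℝ he0 h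
  obtain ⟨ρ, hρ, hρZ⟩ := (Set.Ico_infinite (show (1 / 2 : ℝ) < 3 / 4 by norm_num)).exists_notMem_finite
    (hZ.preimage hinj.injOn)
  have hρ0 : 0 < ρ := lt_of_lt_of_le (by norm_num) hρ.1
  have hnorm : ∀ c : ℂ, ‖c‖ = 1 → ‖ρ • c‖ = ρ := fun c hc => by
    rw [norm_smul, hc, mul_one, Real.norm_eq_abs, abs_of_pos hρ0]
  have ha : ρ • e' ∈ ball (0 : ℂ) (3 / 4) := mem_ball_zero_iff.2 (by rw [hnorm _ hne']; exact hρ.2)
  obtain ⟨N, hN, C, hC⟩ := ubdd_propagate I Pd hK hKM 𝒰 hfs ha hρZ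
  refine ⟨ρ • e', ⟨ha, hρZ⟩, R₀ + C, ?_⟩
  have hev : ∀ᶠ l in 𝒰, ρ • e l ∈ N := (hlim'.const_smul ρ).eventually hN
  filter_upwards [hC, hev] with l h1 h2
  have hm1 : fs l (ρ • e l) ∈ 𝓜.carrier := (hfs l).mem_carrier
    (mem_closedBall_zero_iff.2 (by rw [hnorm _ (he l)]; linarith [hρ.2]))
  have hm2 : fs l (ρ • e') ∈ 𝓜.carrier := (hfs l).mem_carrier
    (mem_closedBall_zero_iff.2 (by rw [hnorm _ hne']; linarith [hρ.2]))
  have t := hdist_triangle hg I.conn hb hm1 hm2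
  have t1 := hanch l ρ ⟨hρ.1, by linarith [hρ.2]⟩
  have t2 := h1 _ h2 _ (mem_of_mem_nhds hN)
  linarith

/-- off the concentration set the discs are locally uniformly bounded along `𝒰`. -/
theorem ubdd_off_conc (I : InitialData 𝓜 g) (Pd : PrelimData 𝓜 g o) (hK : IsCompact K)
    (hKM : K ⊆ 𝓜.carrier) (𝒰 : Ultrafilter ℕ) {fs : ℕ → ℂ → V}
    (hfs : ∀ l, InClass 𝓜 g K A₀ (fs l)) {b : V} (hb : b ∈ 𝓜.carrier) {x : ℂ}
    (hx : x ∈ ball (0 : ℂ) (3 / 4) \ concSet Pd 𝒰 fs) :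
    ∃ N ∈ 𝓝 x, ∃ R : ℝ, ∀ᶠ l in 𝒰, ∀ z ∈ N, hdist 𝓜 g b (fs l z) ≤ R := by
  have hg : IsMetric 𝓜 g := I.kahler.toIsMetric
  have hZ := concSet_finite I Pd hK hKM 𝒰 hfs
  -- local propagation, inside the unit disc
  have hprop : ∀ x ∈ ball (0 : ℂ) (3 / 4) \ concSet Pd 𝒰 fs, ∃ N ∈ 𝓝 x, ∃ C : ℝ, ∀ᶠ l in 𝒰,
      ∀ y ∈ N, ∀ z ∈ N, ∀ R : ℝ, hdist 𝓜 g b (fs l y) ≤ R → hdist 𝓜 g b (fs l z) ≤ R + C := by
    intro x hx
    obtain ⟨N, hN, C, hC⟩ := ubdd_propagate I Pd hK hKM 𝒰 hfs hx.1 hx.2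
    have hx1 : ball (0 : ℂ) 1 ∈ 𝓝 x :=
      isOpen_ball.mem_nhds (ball_subset_ball (by norm_num) hx.1)
    refine ⟨N ∩ ball 0 1, Filter.inter_mem hN hx1, C, ?_⟩
    filter_upwards [hC] with l hl y hy z hz R hR
    have t := hdist_triangle hg I.conn hb ((hfs l).mem_carrier (ball_subset_closedBall hy.2))
      ((hfs l).mem_carrier (ball_subset_closedBall hz.2))
    linarith [hl y hy.1 z hz.1]
  obtain ⟨a, ha, Ra, hRa⟩ := ubdd_anchor I Pd hK hKM 𝒰 hfs hb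
  have hall : ∀ x ∈ ball (0 : ℂ) (3 / 4) \ concSet Pd 𝒰 fs,
      ∃ R : ℝ, ∀ᶠ l in 𝒰, hdist 𝓜 g b (fs l x) ≤ R := by
    refine preconnected_induction (isPreconnected_ball_diff_finite 0 (3 / 4) hZ)
      (P := fun x => ∃ R : ℝ, ∀ᶠ l in 𝒰, hdist 𝓜 g b (fs l x) ≤ R) ?_ ha ⟨Ra, hRa⟩
    intro x hx
    obtain ⟨N, hN, C, hC⟩ := hprop x hx
    refine ⟨N, hN, fun y hy z hz => ?_⟩
    rintro ⟨R, hR⟩
    exact ⟨R + C, by filter_upwards [hC, hR] with l h1 h2 using h1 y hy z hz R h2⟩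
  obtain ⟨R, hR⟩ := hall x hx
  obtain ⟨N, hN, C, hC⟩ := hprop x hx
  exact ⟨N, hN, R + C, by
    filter_upwards [hC, hR] with l h1 h2 z hz using h1 x (mem_of_mem_nhds hN) z hz R h2⟩

/-! ### S4-U-LIM -/

theorem exists_limit_curve (I : InitialData 𝓜 g) (Pd : PrelimData 𝓜 g o) (hK : IsCompact K)
    (hKM : K ⊆ 𝓜.carrier) (𝒰 : Ultrafilter ℕ) {fs : ℕ → ℂ → V}
    (hfs : ∀ l, InClass 𝓜 g K A₀ (fs l)) {b : V} (hb : b ∈ 𝓜.carrier) {Ω : Set ℂ} (hΩ : IsOpen Ω)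
    (hsub : Ω ⊆ ball 0 1)
    (hloc : ∀ x ∈ Ω, ∃ N ∈ 𝓝 x, ∃ R : ℝ, ∀ᶠ l in 𝒰, ∀ z ∈ N, hdist 𝓜 g b (fs l z) ≤ R) :
    ∃ f : ℂ → V, HolCurve 𝓜 f Ω ∧ TendstoLocallyUniformlyOn fs f 𝒰 Ω := by
  have hF := continuousOn_F Pd
  obtain ⟨CF, hCF⟩ := hK.exists_bound_of_continuousOn (hF.mono hKM)
  have hcurve : ∀ l, HolCurve 𝓜 (fs l) Ω := fun l => (hfs l).holCurve.mono hsub
  -- Montel for `F ∘ f_l`
  obtain ⟨w, -, hw⟩ := montel_ultrafilter 𝒰 (ws := fun l ζ => Pd.F (fs l ζ)) hΩ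
    (fun l => HolCurve.differentiableOn_comp hΩ (hcurve l) Pd.F_hol) (C := CF)
    (fun l z hz => (hfs l).norm_holFun_le Pd.F_hol hCF z (ball_subset_closedBall (hsub hz)))
  -- pointwise limits
  have hpt : ∀ z ∈ Ω, ∃ y : V, y ∈ 𝓜.carrier ∧ Tendsto (fun l => fs l z) 𝒰 (𝓝 y) := by
    intro z hz
    obtain ⟨N, hN, R, hR⟩ := hloc z hz
    obtain ⟨y, hy, hlim⟩ := (I.proper b hb R).ultrafilter_le_nhds (𝒰.map fun l => fs l z) (by
      rw [Ultrafilter.coe_map, Filter.le_principal_iff, Filter.mem_map]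
      filter_upwards [hR] with l hl
      exact ⟨(hcurve l).1 z hz, hl z (mem_of_mem_nhds hN)⟩)
    exact ⟨y, hy.1, hlim⟩
  classical
  set f : ℂ → V := fun z => if hz : z ∈ Ω then (hpt z hz).choose else b with hf
  have hfM : ∀ z ∈ Ω, f z ∈ 𝓜.carrier := fun z hz => by
    simp only [hf, dif_pos hz]
    exact (hpt z hz).choose_spec.1
  have hflim : ∀ z ∈ Ω, Tendsto (fun l => fs l z) 𝒰 (𝓝 (f z)) := fun z hz => by
    simp only [hf, dif_pos hz]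
    exact (hpt z hz).choose_spec.2
  have hFf : ∀ z ∈ Ω, Pd.F (f z) = w z := by
    intro z hz
    have h1 : Tendsto (fun l => fs l z) 𝒰 (𝓝[𝓜.carrier] (f z)) :=
      tendsto_nhdsWithin_iff.2 ⟨hflim z hz, Eventually.of_forall fun l => (hcurve l).1 z hz⟩
    have h2 : Tendsto (fun l => Pd.F (fs l z)) 𝒰 (𝓝 (Pd.F (f z))) :=
      ((hF (f z) (hfM z hz)).tendsto).comp h1
    exact tendsto_nhds_unique h2 (hw.tendsto_at hz)
  have hlu : TendstoLocallyUniformlyOn fs f 𝒰 Ω := by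
    rw [Metric.tendstoLocallyUniformlyOn_iff]
    intro ε hε x hx
    obtain ⟨N, hN, R, hR⟩ := hloc x hx
    have hQ := I.proper b hb R
    have hQM : hcball 𝓜 g b R ⊆ 𝓜.carrier := hcball_subset_carrier 𝓜 g b R
    obtain ⟨δ, hδ, hinj⟩ := injOn_compact_uniform hQ (hF.mono hQM) (fun a ha c hc h => by
      rw [dist_eq_zero] at h ⊢
      exact Pd.F_inj (hQM ha) (hQM hc) h) hε
    obtain ⟨t, ht, hev⟩ := (Metric.tendstoLocallyUniformlyOn_iff.1 hw) δ hδ x hx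
    refine ⟨t ∩ (N ∩ Ω), inter_mem ht (inter_mem (mem_nhdsWithin_of_mem_nhds hN) self_mem_nhdsWithin), ?_⟩
    filter_upwards [hev, hR] with l h1 h2 y hy
    have hyΩ : y ∈ Ω := hy.2.2
    have hfy : f y ∈ hcball 𝓜 g b R := by
      refine hQ.isClosed.mem_of_tendsto (hflim y hyΩ) ?_
      filter_upwards [hR] with l' hl'
      exact ⟨(hcurve l').1 y hyΩ, hl' y hy.2.1⟩
    refine hinj _ hfy _ ⟨(hcurve l).1 y hyΩ, h2 y hy.2.1⟩ ?_
    rw [hFf y hyΩ]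
    exact h1 y hy.1
  exact ⟨f, holCurve_of_tendsto hΩ hcurve hlu hfM, hlu⟩

theorem limit_area (hg : IsMetric 𝓜 g) (𝒰 : Ultrafilter ℕ) {fs : ℕ → ℂ → V}
    (hfs : ∀ l, InClass 𝓜 g K A₀ (fs l)) {Ω : Set ℂ} (hΩ : IsOpen Ω) (hsub : Ω ⊆ ball 0 1)
    {f : ℂ → V} (hf : HolCurve 𝓜 f Ω) (hlim : TendstoLocallyUniformlyOn fs f 𝒰 Ω) :
    IntegrableOn (dspeed 𝓜 g f) Ω := by
  have hcurve : ∀ l, HolCurve 𝓜 (fs l) Ω := fun l => (hfs l).holCurve.mono hsub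
  have hnn : ∀ l, ∀ ζ ∈ ball (0 : ℂ) 1, 0 ≤ dspeed 𝓜 g (fs l) ζ := fun l ζ hζ =>
    dspeed_nonneg isOpen_ball (hfs l).holCurve hg.toIsHForm
      (fun Ψ W hΨ z hz => (hg.posDef hΨ z hz).posSemidef) hζ
  have hint : ∀ l, IntegrableOn (dspeed 𝓜 g (fs l)) (ball 0 1) := by
    intro l
    obtain ⟨r, hr, hd⟩ := (hfs l).hol
    have hc : ContinuousOn (dspeed 𝓜 g (fs l)) (closedBall 0 1) :=
      (continuousOn_dspeed isOpen_ball hd hg.toIsHForm).mono (closedBall_subset_ball hr)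
    exact (hc.integrableOn_compact (isCompact_closedBall 0 1)).mono_set ball_subset_closedBall
  refine (integrableOn_of_tendstoLocallyUniformlyOn (A₀ := A₀) hΩ
    (fun l => continuousOn_dspeed hΩ (hcurve l) hg.toIsHForm) (fun l ζ hζ => hnn l ζ (hsub hζ))
    (fun l => (hint l).mono_set hsub) (fun l => ?_)
    (tendsto_dspeed hΩ hcurve hf hlim hg.toIsHForm)).1
  refine le_trans ?_ (hfs l).area
  refine setIntegral_mono_set (hint l) ?_ (LE.le.eventuallyLE hsub)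
  exact (ae_restrict_iff' measurableSet_ball).2 (Eventually.of_forall fun ζ hζ => hnn l ζ hζ)

/-! ### S4-U-XF -/

/-- the matrix of the global holomorphic functions `X_j F_i = dF_i(X_j)`. -/
noncomputable def xF (Pd : PrelimData 𝓜 g o) (x : V) : Matrix (Fin Pd.NF) (Fin Pd.mX) ℂ :=
  fun i j => (gJac 𝓜 Pd.F x *ᵥ (coVec (𝓜.pΦ x) (𝓜.co x) (Pd.X j x) : CE (Fin n))) i

/-- chain rule for the Jacobian of `F` in two charts. -/
theorem cpt_jac_F_trans (Pd : PrelimData 𝓜 g o) {Φ Ψ : CE (Fin n) → V} {U W : Set (CE (Fin n))}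
    (hΦ : 𝓜.IsHol Φ U) (hΨ : 𝓜.IsHol Ψ W) {z : CE (Fin n)} (hz : z ∈ U ∩ Φ ⁻¹' (Ψ '' W)) :
    jac (Pd.F ∘ Φ) z = jac (Pd.F ∘ Ψ) ((Function.invFunOn Ψ W ∘ Φ) z) *
      jac (Function.invFunOn Ψ W ∘ Φ) z := by
  rw [← jac_comp _ _ ((Pd.F_hol Ψ W hΨ _ (CMfd.trans_mem hΦ hΨ hz)).differentiableAt
    ((CMfd.isOpen_dom hΨ).mem_nhds (CMfd.trans_mem hΦ hΨ hz)))
    (CMfd.trans_differentiableAt hΦ hΨ hz)]
  exact jac_congr (CMfd.eventually_comp_eq Pd.F hΦ hΨ hz)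

/-- the Jacobian of `F` in a chart, through the chosen chart. -/
theorem cpt_jac_F_eq (Pd : PrelimData 𝓜 g o) {Φ : CE (Fin n) → V} {U : Set (CE (Fin n))}
    (hΦ : 𝓜.IsHol Φ U) {z : CE (Fin n)} (hz : z ∈ U) :
    jac (Pd.F ∘ Φ) z = gJac 𝓜 Pd.F (Φ z) *
      jac (Function.invFunOn (𝓜.pΦ (Φ z)) (𝓜.pU (Φ z)) ∘ Φ) z := by
  have hx : Φ z ∈ 𝓜.carrier := CMfd.mem_carrier hΦ hz
  exact cpt_jac_F_trans Pd hΦ (𝓜.isHol_pΦ hx) ⟨hz, 𝓜.mem_image_pΦ hx⟩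

theorem xF_eq (Pd : PrelimData 𝓜 g o) {Φ : CE (Fin n) → V} {U : Set (CE (Fin n))}
    (hΦ : 𝓜.IsHol Φ U) {z : CE (Fin n)} (hz : z ∈ U) (i : Fin Pd.NF) (j : Fin Pd.mX) :
    xF Pd (Φ z) i j = (jac (Pd.F ∘ Φ) z *ᵥ (coVec Φ z (Pd.X j (Φ z)) : CE (Fin n))) i := by
  obtain ⟨a, -, ha⟩ := Pd.X_hol j Φ U hΦ
  unfold xF
  rw [ha z hz, g0_coVec_param hΦ hz, (𝓜.isParam hΦ).coVec_fderiv hz, cpt_jac_F_eq Pd hΦ hz,
    ← Matrix.mulVec_mulVec]
  congr 2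
  funext k
  exact (jac_mulVec _ (a z) k).symm

theorem xF_holFun (Pd : PrelimData 𝓜 g o) (i : Fin Pd.NF) (j : Fin Pd.mX) :
    𝓜.HolFun (fun x => xF Pd x i j) := by
  intro Φ U hΦ
  obtain ⟨a, had, ha⟩ := Pd.X_hol j Φ U hΦ
  have hU := CMfd.isOpen_dom hΦ
  have h1 : DifferentiableOn ℂ (fun z => ∑ k, jac (Pd.F ∘ Φ) z i k * (a z : CE (Fin n)) k) U := by
    refine DifferentiableOn.fun_sum fun k _ => (differentiableOn_jac hU (Pd.F_hol Φ U hΦ) i k).mul ?_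
    exact (EuclideanSpace.proj k : CE (Fin n) →L[ℂ] ℂ).differentiable.comp_differentiableOn had
  refine h1.congr fun z hz => ?_
  show xF Pd (Φ z) i j = _
  rw [xF_eq Pd hΦ hz, ha z hz, (𝓜.isParam hΦ).coVec_fderiv hz]
  rfl

/-- the matrix of the components of the fields `X_j`. -/
noncomputable def xC (Pd : PrelimData 𝓜 g o) (x : V) : Matrix (Fin n) (Fin Pd.mX) ℂ :=
  fun k j => (coVec (𝓜.pΦ x) (𝓜.co x) (Pd.X j x) : CE (Fin n)) k

theorem cpt_xF_eq_mul (Pd : PrelimData 𝓜 g o) (x : V) : xF Pd x = gJac 𝓜 Pd.F x * xC Pd x := rfl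

theorem cpt_xC_posDef (Pd : PrelimData 𝓜 g o) {x : V} (hx : x ∈ 𝓜.carrier) :
    (xC Pd x * (xC Pd x)ᴴ).PosDef := by
  refine Matrix.PosDef.mul_conjTranspose_self _ ?_
  have hlin : ∀ v : Fin n → ℂ, v ᵥ* xC Pd x = 0 → v = 0 := by
    intro v hv
    set ℓ : CE (Fin n) →ₗ[ℂ] ℂ :=
      ∑ k, v k • ((EuclideanSpace.proj k : CE (Fin n) →L[ℂ] ℂ) : CE (Fin n) →ₗ[ℂ] ℂ) with hℓ
    have hℓa : ∀ w : CE (Fin n), ℓ w = ∑ k, v k * w k := by
      intro w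
      simp [hℓ]
    have hsp := Pd.X_span _ _ (𝓜.isHol_pΦ hx) _ (𝓜.co_mem hx)
    rw [𝓜.pΦ_co hx] at hsp
    have hker : Submodule.span ℂ (Set.range fun i => coVec (𝓜.pΦ x) (𝓜.co x) (Pd.X i x)) ≤
        LinearMap.ker ℓ := by
      rw [Submodule.span_le]
      rintro _ ⟨j, rfl⟩
      rw [SetLike.mem_coe, LinearMap.mem_ker, hℓa]
      exact congrFun hv j
    rw [hsp] at hker
    funext k
    have h1 : ℓ (eb k) = 0 := LinearMap.mem_ker.1 (hker Submodule.mem_top)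
    rw [hℓa] at h1
    simpa [eb_apply] using h1
  intro v w hvw
  have hvw' : v ᵥ* xC Pd x = w ᵥ* xC Pd x := hvw
  have : (v - w) ᵥ* xC Pd x = 0 := by rw [Matrix.sub_vecMul, hvw', sub_self]
  exact sub_eq_zero.1 (hlin _ this)

/-- a constant projection `P : ℂ^NF → ℂⁿ` such that `P ∘ F` is a local coordinate along the curve near the puncture. -/
theorem exists_proj (Pd : PrelimData 𝓜 g o) {f : ℂ → V} {r₁ : ℝ} (hr₁ : 0 < r₁)
    (hf : HolCurve 𝓜 f (ball 0 r₁ \ {0})) {C : ℝ}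
    (hX : ∀ z ∈ ball (0 : ℂ) r₁ \ {0}, ∀ i j, ‖xF Pd (f z) i j‖ ≤ C) :
    ∃ P : Matrix (Fin n) (Fin Pd.NF) ℂ, ∃ r₂ : ℝ, 0 < r₂ ∧ r₂ ≤ r₁ ∧
      ∀ z ∈ ball (0 : ℂ) r₂ \ {0}, (P * gJac 𝓜 Pd.F (f z)).det ≠ 0 := by
  have hΩ : IsOpen (ball (0 : ℂ) r₁ \ {0}) := isOpen_ball.sdiff isClosed_singleton
  -- a base point
  set z₁ : ℂ := ((r₁ / 2 : ℝ) : ℂ) with hz₁def
  have hz₁n : ‖z₁‖ = r₁ / 2 := by
    rw [hz₁def, Complex.norm_real, Real.norm_eq_abs, abs_of_pos (by positivity)]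
  have hz₁ : z₁ ∈ ball (0 : ℂ) r₁ \ {0} := by
    refine ⟨mem_ball_zero_iff.2 (by rw [hz₁n]; linarith), fun h => ?_⟩
    rw [mem_singleton_iff.1 h, norm_zero] at hz₁n
    linarith
  have hx₁ : f z₁ ∈ 𝓜.carrier := hf.1 z₁ hz₁
  set P : Matrix (Fin n) (Fin Pd.NF) ℂ := (gJac 𝓜 Pd.F (f z₁))ᴴ with hP
  set Q : Matrix (Fin Pd.mX) (Fin n) ℂ := (xC Pd (f z₁))ᴴ with hQ
  set m : ℂ → ℂ := fun z => (P * xF Pd (f z) * Q).det with hm
  have hfac : ∀ z, m z = (P * gJac 𝓜 Pd.F (f z)).det * (xC Pd (f z) * Q).det := by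
    intro z
    simp only [hm]
    rw [cpt_xF_eq_mul, ← Matrix.det_mul]
    congr 1
    simp only [Matrix.mul_assoc]
  have hne : m z₁ ≠ 0 := by
    rw [hfac]
    refine mul_ne_zero ?_ ?_
    · have h1 := (fE_isMetric Pd).posDef (𝓜.isHol_pΦ hx₁) _ (𝓜.co_mem hx₁)
      exact h1.det_pos.ne'
    · exact (cpt_xC_posDef Pd hx₁).det_pos.ne'
  have hent : ∀ i j, DifferentiableOn ℂ (fun z => xF Pd (f z) i j) (ball 0 r₁ \ {0}) := fun i j =>
    HolCurve.differentiableOn_comp hΩ hf (G := fun x => xF Pd x i j) (xF_holFun Pd i j)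
  have hmd : DifferentiableOn ℂ m (ball 0 r₁ \ {0}) := by
    simp only [hm, Matrix.det_apply, Matrix.mul_apply]
    refine DifferentiableOn.fun_sum fun σ _ => DifferentiableOn.const_smul ?_ _
    refine DifferentiableOn.fun_finsetProd fun a _ => ?_
    refine DifferentiableOn.fun_sum fun b _ => DifferentiableOn.mul_const ?_ _
    exact DifferentiableOn.fun_sum fun c _ => (hent c b).const_mul _
  -- boundedness
  have hcpt : IsCompact {M : Matrix (Fin Pd.NF) (Fin Pd.mX) ℂ | ∀ i j, ‖M i j‖ ≤ C} := by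
    have h1 : {M : Matrix (Fin Pd.NF) (Fin Pd.mX) ℂ | ∀ i j, ‖M i j‖ ≤ C} =
        Set.pi univ fun _ : Fin Pd.NF => Set.pi univ fun _ : Fin Pd.mX => closedBall (0 : ℂ) C := by
      ext M
      constructor
      · intro h i _ j _
        exact mem_closedBall_zero_iff.2 (h i j)
      · intro h i j
        exact mem_closedBall_zero_iff.1 (h i (mem_univ i) j (mem_univ j))
    rw [h1]
    exact isCompact_univ_pi fun _ => isCompact_univ_pi fun _ => isCompact_closedBall _ _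
  have hcont : Continuous fun M : Matrix (Fin Pd.NF) (Fin Pd.mX) ℂ => (P * M * Q).det :=
    Continuous.matrix_det ((continuous_const.matrix_mul continuous_id).matrix_mul continuous_const)
  obtain ⟨C', hC'⟩ := hcpt.exists_bound_of_continuousOn hcont.continuousOn
  obtain ⟨r₂, hr₂, hr₂₁, hnz⟩ := exists_punctured_ne_zero hmd
    (fun z hz => hC' (xF Pd (f z)) (hX z hz)) hz₁ hne
  refine ⟨P, r₂, hr₂, hr₂₁, fun z hz h0 => hnz z hz ?_⟩
  rw [hfac, h0, zero_mul]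

/-! ### S4-U-COORD, S4-U-HP -/

/-- the projected map `P ∘ F : M → ℂⁿ`. -/
noncomputable def pF (Pd : PrelimData 𝓜 g o) (P : Matrix (Fin n) (Fin Pd.NF) ℂ) (x : V) : Fin n → ℂ :=
  P *ᵥ (Pd.F x : CE (Fin Pd.NF))

/-- the matrix of `g` in the local coordinates `P ∘ F`. -/
noncomputable def hP (Pd : PrelimData 𝓜 g o) (P : Matrix (Fin n) (Fin Pd.NF) ℂ) (x : V) :
    Matrix (Fin n) (Fin n) ℂ :=
  ((P * gJac 𝓜 Pd.F x)⁻¹)ᴴ * g (𝓜.pΦ x) (𝓜.co x) * (P * gJac 𝓜 Pd.F x)⁻¹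

/-- the linear map of a matrix on Euclidean spaces. -/
noncomputable def cptL {p q : ℕ} (P : Matrix (Fin p) (Fin q) ℂ) : CE (Fin q) →L[ℂ] CE (Fin p) :=
  LinearMap.toContinuousLinearMap (Matrix.toEuclideanLin P)

theorem cptL_apply {p q : ℕ} (P : Matrix (Fin p) (Fin q) ℂ) (v : CE (Fin q)) (j : Fin p) :
    cptL P v j = (P *ᵥ (v : Fin q → ℂ)) j := rfl

/-- `P ∘ F` in a chart, with values in `CE`. -/
noncomputable def pFc (Pd : PrelimData 𝓜 g o) (P : Matrix (Fin n) (Fin Pd.NF) ℂ)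
    (Φ : CE (Fin n) → V) (z : CE (Fin n)) : CE (Fin n) := cptL P (Pd.F (Φ z))

theorem cpt_pFc_apply (Pd : PrelimData 𝓜 g o) (P : Matrix (Fin n) (Fin Pd.NF) ℂ)
    (Φ : CE (Fin n) → V) (z : CE (Fin n)) : (pFc Pd P Φ z : Fin n → ℂ) = pF Pd P (Φ z) := rfl

theorem cpt_differentiableOn_pFc (Pd : PrelimData 𝓜 g o) (P : Matrix (Fin n) (Fin Pd.NF) ℂ)
    {Φ : CE (Fin n) → V} {U : Set (CE (Fin n))} (hΦ : 𝓜.IsHol Φ U) :
    DifferentiableOn ℂ (pFc Pd P Φ) U :=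
  (cptL P).differentiable.comp_differentiableOn (Pd.F_hol Φ U hΦ)

theorem cpt_jac_pFc (Pd : PrelimData 𝓜 g o) (P : Matrix (Fin n) (Fin Pd.NF) ℂ)
    {Φ : CE (Fin n) → V} {U : Set (CE (Fin n))} (hΦ : 𝓜.IsHol Φ U) {z : CE (Fin n)} (hz : z ∈ U) :
    jac (pFc Pd P Φ) z = P * jac (Pd.F ∘ Φ) z := by
  have hd : DifferentiableAt ℂ (Pd.F ∘ Φ) z :=
    (Pd.F_hol Φ U hΦ).differentiableAt ((CMfd.isOpen_dom hΦ).mem_nhds hz)
  have h1 : HasFDerivAt (pFc Pd P Φ) ((cptL P).comp (fderiv ℂ (Pd.F ∘ Φ) z)) z :=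
    (cptL P).hasFDerivAt.comp z hd.hasFDerivAt
  ext j k
  show fderiv ℂ (pFc Pd P Φ) z (eb k) j = _
  rw [h1.fderiv, ContinuousLinearMap.comp_apply, cptL_apply]
  rfl

/-- `hP` in an arbitrary chart. -/
theorem cpt_hP_eq (hg : IsHForm 𝓜 g) (Pd : PrelimData 𝓜 g o) (P : Matrix (Fin n) (Fin Pd.NF) ℂ)
    {Φ : CE (Fin n) → V} {U : Set (CE (Fin n))} (hΦ : 𝓜.IsHol Φ U) {z : CE (Fin n)} (hz : z ∈ U) :
    hP Pd P (Φ z) = ((P * jac (Pd.F ∘ Φ) z)⁻¹)ᴴ * g Φ z * (P * jac (Pd.F ∘ Φ) z)⁻¹ := by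
  have hx : Φ z ∈ 𝓜.carrier := CMfd.mem_carrier hΦ hz
  have hz' : z ∈ U ∩ Φ ⁻¹' (𝓜.pΦ (Φ z) '' 𝓜.pU (Φ z)) := ⟨hz, 𝓜.mem_image_pΦ hx⟩
  set T := jac (Function.invFunOn (𝓜.pΦ (Φ z)) (𝓜.pU (Φ z)) ∘ Φ) z with hT
  have hTu : IsUnit T.det := (Matrix.isUnit_iff_isUnit_det T).1
    (CMfd.isUnit_jac_trans hΦ (𝓜.isHol_pΦ hx) hz')
  have hinv : (P * (gJac 𝓜 Pd.F (Φ z) * T))⁻¹ = T⁻¹ * (P * gJac 𝓜 Pd.F (Φ z))⁻¹ := by
    rw [← Matrix.mul_assoc, Matrix.mul_inv_rev]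
  rw [cpt_jac_F_eq Pd hΦ hz, hg.compat hΦ (𝓜.isHol_pΦ hx) z hz (𝓜.mem_image_pΦ hx), ← hT,
    hinv, Matrix.conjTranspose_mul]
  have h1 : T * T⁻¹ = 1 := Matrix.mul_nonsing_inv T hTu
  have h2 : (T⁻¹)ᴴ * Tᴴ = 1 := by rw [← Matrix.conjTranspose_mul, h1, Matrix.conjTranspose_one]
  unfold hP
  set B := (P * gJac 𝓜 Pd.F (Φ z))⁻¹ with hB
  set G := g (𝓜.pΦ (Φ z)) (Function.invFunOn (𝓜.pΦ (Φ z)) (𝓜.pU (Φ z)) (Φ z)) with hG
  show Bᴴ * G * B = _
  calc Bᴴ * G * B = Bᴴ * (((T⁻¹)ᴴ * Tᴴ) * G * (T * T⁻¹)) * B := by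
        rw [h1, h2, Matrix.one_mul, Matrix.mul_one]
    _ = _ := by simp only [Matrix.mul_assoc]

theorem exists_param_pF (hg : IsMetric 𝓜 g) (Pd : PrelimData 𝓜 g o)
    (P : Matrix (Fin n) (Fin Pd.NF) ℂ) {x : V} (hx : x ∈ 𝓜.carrier)
    (hdet : (P * gJac 𝓜 Pd.F x).det ≠ 0) :
    ∃ (Ψ : CE (Fin n) → V) (W : Set (CE (Fin n))), 𝓜.IsHol Ψ W ∧ x ∈ Ψ '' W ∧
      (∀ w ∈ W, pF Pd P (Ψ w) = (w : CE (Fin n))) ∧ ∀ w ∈ W, g Ψ w = hP Pd P (Ψ w) := by
  have hΦ := 𝓜.isHol_pΦ hx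
  set Φ := 𝓜.pΦ x with hΦdef
  set U := 𝓜.pU x with hUdef
  set z₀ := 𝓜.co x with hz₀def
  have hz₀ : z₀ ∈ U := 𝓜.co_mem hx
  have hU : IsOpen U := CMfd.isOpen_dom hΦ
  set σ := pFc Pd P Φ with hσ
  have hσd : DifferentiableOn ℂ σ U := cpt_differentiableOn_pFc Pd P hΦ
  have hjac : ∀ z ∈ U, jac σ z = P * jac (Pd.F ∘ Φ) z := fun z hz => cpt_jac_pFc Pd P hΦ hz
  have hJ₀ : (jac σ z₀).det ≠ 0 := by rw [hjac z₀ hz₀]; exact hdet
  -- equivalences from nonvanishing determinants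
  have hequiv : ∀ z ∈ U, (jac σ z).det ≠ 0 → ∃ e' : CE (Fin n) ≃L[ℂ] CE (Fin n),
      HasFDerivAt σ (e' : CE (Fin n) →L[ℂ] CE (Fin n)) z := by
    intro z hz hJ
    have hd : (fderiv ℂ σ z).det ≠ 0 := by rwa [det_fderiv_eq_det_jac]
    refine ⟨(fderiv ℂ σ z).toContinuousLinearEquivOfDetNeZero hd, ?_⟩
    rw [ContinuousLinearMap.coe_toContinuousLinearEquivOfDetNeZero]
    exact (hσd.differentiableAt (hU.mem_nhds hz)).hasFDerivAt
  obtain ⟨e₀, he₀⟩ := hequiv z₀ hz₀ hJ₀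
  have hstrict : HasStrictFDerivAt σ (e₀ : CE (Fin n) →L[ℂ] CE (Fin n)) z₀ := by
    have h1 : ∀ᶠ y in 𝓝 z₀, HasFDerivAt σ (fderiv ℂ σ y) y := by
      filter_upwards [hU.mem_nhds hz₀] with y hy
      exact (hσd.differentiableAt (hU.mem_nhds hy)).hasFDerivAt
    have h2 : ContinuousAt (fderiv ℂ σ) z₀ :=
      ((hol_differentiableOn_fderiv hU hσd).differentiableAt (hU.mem_nhds hz₀)).continuousAt
    have h3 := hasStrictFDerivAt_of_hasFDerivAt_of_continuousAt h1 h2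
    rwa [he₀.fderiv] at h3
  set e := hstrict.toOpenPartialHomeomorph σ with he
  have hecoe : ∀ z, e z = σ z := fun z => rfl
  have hz₀s : z₀ ∈ e.source := hstrict.mem_toOpenPartialHomeomorph_source
  -- the good set in the source
  have hdetc : ContinuousOn (fun z => (jac σ z).det) U := by
    simp only [Matrix.det_apply]
    refine continuousOn_finsetSum _ fun τ _ => ContinuousOn.const_smul ?_ _
    exact continuousOn_finsetProd _ fun i _ => (differentiableOn_jac hU hσd _ _).continuousOn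
  have hS₁ : IsOpen (U ∩ (fun z => (jac σ z).det) ⁻¹' {0}ᶜ) :=
    hdetc.isOpen_inter_preimage hU isOpen_compl_singleton
  set S : Set (CE (Fin n)) := e.source ∩ (U ∩ (fun z => (jac σ z).det) ⁻¹' {0}ᶜ) with hS
  have hSo : IsOpen S := e.open_source.inter hS₁
  set W : Set (CE (Fin n)) := e.target ∩ e.symm ⁻¹' S with hW
  have hWo : IsOpen W := e.isOpen_inter_preimage_symm hSo
  have hτσ : ∀ w ∈ W, σ (e.symm w) = w := fun w hw => e.right_inv hw.1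
  have hτd : ∀ w ∈ W, ∃ e' : CE (Fin n) ≃L[ℂ] CE (Fin n),
      HasFDerivAt e.symm (e'.symm : CE (Fin n) →L[ℂ] CE (Fin n)) w := by
    intro w hw
    obtain ⟨e', he'⟩ := hequiv (e.symm w) hw.2.2.1 hw.2.2.2
    exact ⟨e', e.hasFDerivAt_symm hw.1 he'⟩
  have hΨ : 𝓜.IsHol (Φ ∘ e.symm) W := by
    refine 𝓜.reparam hΦ e.symm W hWo ?_ ?_ ?_ fun w hw => hw.2.2.1
    · intro w hw
      obtain ⟨e', he'⟩ := hτd w hw
      exact he'.differentiableAt.differentiableWithinAt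
    · exact e.symm.injOn.mono fun w hw => hw.1
    · intro w hw
      obtain ⟨e', he'⟩ := hτd w hw
      rw [he'.fderiv]
      exact e'.symm.injective
  have hpF : ∀ w ∈ W, pF Pd P ((Φ ∘ e.symm) w) = (w : CE (Fin n)) := by
    intro w hw
    have := hτσ w hw
    rw [← cpt_pFc_apply]
    exact congrArg _ this
  refine ⟨Φ ∘ e.symm, W, hΨ, ⟨σ z₀, ⟨e.map_source hz₀s, ?_⟩, ?_⟩, hpF, ?_⟩
  · show e.symm (e z₀) ∈ S
    rw [e.left_inv hz₀s]
    exact ⟨hz₀s, hz₀, hJ₀⟩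
  · show Φ (e.symm (e z₀)) = x
    rw [e.left_inv hz₀s]
    exact 𝓜.pΦ_co hx
  · intro w hw
    rw [cpt_hP_eq hg.toIsHForm Pd P hΨ hw, ← cpt_jac_pFc Pd P hΨ hw]
    have h1 : jac (pFc Pd P (Φ ∘ e.symm)) w = 1 := by
      rw [← jac_id (z := w)]
      refine jac_congr ?_
      filter_upwards [hWo.mem_nhds hw] with y hy
      exact hτσ y hy
    rw [h1]
    simp

/-- local form of the data along the curve in the coordinates `P ∘ F`. -/
theorem cpt_hP_local (hg : IsMetric 𝓜 g) (Pd : PrelimData 𝓜 g o)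
    (P : Matrix (Fin n) (Fin Pd.NF) ℂ) {f : ℂ → V} {Ω : Set ℂ} (hΩ : IsOpen Ω)
    (hf : HolCurve 𝓜 f Ω) {z₀ : ℂ} (hz₀ : z₀ ∈ Ω)
    (hdet : (P * gJac 𝓜 Pd.F (f z₀)).det ≠ 0) :
    ∃ (Ψ : CE (Fin n) → V) (W : Set (CE (Fin n))) (p : ℂ → CE (Fin n)), 𝓜.IsHol Ψ W ∧
      (∀ w ∈ W, pF Pd P (Ψ w) = (w : CE (Fin n))) ∧
      ∀ᶠ ζ in 𝓝 z₀, DifferentiableAt ℂ p ζ ∧ p ζ ∈ W ∧ f ζ = Ψ (p ζ) ∧
        pF Pd P (f ζ) = (p ζ : CE (Fin n)) ∧ hP Pd P (f ζ) = g Ψ (p ζ) := by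
  obtain ⟨Ψ, W, hΨ, hx, h1, h2⟩ := exists_param_pF hg Pd P (hf.1 z₀ hz₀) hdet
  refine ⟨Ψ, W, Function.invFunOn Ψ W ∘ f, hΨ, h1,
    (HolCurve.eventually_local hΩ hf hz₀ hΨ hx).mono fun ζ h => ?_⟩
  refine ⟨h.1, h.2.1, h.2.2.symm, ?_, ?_⟩
  · rw [← h.2.2]; exact h1 _ h.2.1
  · rw [← h.2.2]; exact (h2 _ h.2.1).symm

/-- `‖P u‖² ≤ ‖P‖²_F ‖u‖²`. -/
theorem cpt_sum_mulVec_le {p q : ℕ} (P : Matrix (Fin p) (Fin q) ℂ) (u : Fin q → ℂ) :
    ∑ j, ‖(P *ᵥ u) j‖ ^ 2 ≤ (∑ j, ∑ i, ‖P j i‖ ^ 2) * ∑ i, ‖u i‖ ^ 2 := by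
  rw [Finset.sum_mul]
  refine Finset.sum_le_sum fun j _ => ?_
  have h1 : ‖(P *ᵥ u) j‖ ≤ ∑ i, ‖P j i‖ * ‖u i‖ := by
    simp only [Matrix.mulVec, dotProduct]
    refine (norm_sum_le _ _).trans (le_of_eq ?_)
    exact Finset.sum_congr rfl fun i _ => norm_mul _ _
  have h2 := Finset.sum_mul_sq_le_sq_mul_sq Finset.univ (fun i => ‖P j i‖) (fun i => ‖u i‖)
  calc ‖(P *ᵥ u) j‖ ^ 2 ≤ (∑ i, ‖P j i‖ * ‖u i‖) ^ 2 := by gcongr
    _ ≤ _ := h2

theorem cpt_qf_gram {p q : ℕ} (J : Matrix (Fin p) (Fin q) ℂ) (v : Fin q → ℂ) :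
    qf (Jᴴ * J) v = ∑ i, ‖(J *ᵥ v) i‖ ^ 2 := by
  unfold qf
  rw [← Matrix.mulVec_mulVec, Matrix.dotProduct_mulVec, ← Matrix.star_mulVec]
  simp only [dotProduct, Pi.star_apply, Complex.re_sum]
  refine Finset.sum_congr rfl fun i _ => ?_
  rw [Complex.star_def, mul_comm, Complex.mul_conj, Complex.ofReal_re, Complex.normSq_eq_norm_sq]

theorem cpt_real_aux {a b Q L NP C : ℝ} (hNP : 0 ≤ NP) (h1 : a ≤ NP * b) (h2 : b ≤ L * Q)
    (hQ : 0 ≤ Q) (hL : L ≤ |C| + 1) (hb : 0 ≤ b) : 1 / ((NP + 1) * (|C| + 1)) * a ≤ Q := by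
  have hC : 0 ≤ |C| := abs_nonneg C
  have e7 : a ≤ (NP + 1) * (|C| + 1) * Q := by
    calc a ≤ NP * b := h1
      _ ≤ (NP + 1) * b := by gcongr; linarith
      _ ≤ (NP + 1) * (L * Q) := by gcongr
      _ ≤ (NP + 1) * ((|C| + 1) * Q) := by gcongr
      _ = _ := by ring
  rw [div_mul_eq_mul_div, one_mul, div_le_iff₀ (by positivity)]
  linarith

theorem hP_curve_data (I : InitialData 𝓜 g) (Pd : PrelimData 𝓜 g o)
    (P : Matrix (Fin n) (Fin Pd.NF) ℂ) {f : ℂ → V} {Ω : Set ℂ} (hΩ : IsOpen Ω)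
    (hf : HolCurve 𝓜 f Ω) (hdet : ∀ z ∈ Ω, (P * gJac 𝓜 Pd.F (f z)).det ≠ 0) {C : ℝ}
    (hΛ : ∀ z ∈ Ω, lamF Pd (f z) ≤ C) :
    (∀ j k, ContDiffOn ℝ ∞ (fun z => hP Pd P (f z) j k) Ω) ∧
    (∀ z ∈ Ω, (hP Pd P (f z)).PosDef) ∧
    (∃ c : ℝ, 0 < c ∧ ∀ z ∈ Ω, ∀ v : Fin n → ℂ, c * ∑ j, ‖v j‖ ^ 2 ≤ qf (hP Pd P (f z)) v) ∧
    (∀ z ∈ Ω, (curv1 (fun w => hP Pd P (f w)) z).PosSemidef) ∧
    DifferentiableOn ℂ (fun z => deriv (fun w => pF Pd P (f w)) z) Ω ∧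
    ∀ z ∈ Ω, qf (hP Pd P (f z)) (deriv (fun w => pF Pd P (f w)) z) = dspeed 𝓜 g f z := by
  have hg : IsMetric 𝓜 g := I.kahler.toIsMetric
  have hloc := fun z (hz : z ∈ Ω) => cpt_hP_local hg Pd P hΩ hf hz (hdet z hz)
  refine ⟨?_, ?_, ?_, ?_, ?_, ?_⟩
  · intro j k z hz
    obtain ⟨Ψ, W, p, hΨ, -, hev⟩ := hloc z hz
    have hp : ContDiffAt ℝ ∞ p z := hol_contDiffAt_real (hev.mono fun ζ h => h.1)
    have hW := CMfd.isOpen_dom hΨ
    have h1 : ContDiffAt ℝ ∞ (fun y => g Ψ y j k) (p z) :=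
      (hg.smooth hΨ j k).contDiffAt (hW.mem_nhds hev.self_of_nhds.2.1)
    have h2 : ContDiffAt ℝ ∞ (fun ζ => g Ψ (p ζ) j k) z := h1.comp z hp
    refine (h2.congr_of_eventuallyEq (hev.mono fun ζ h => ?_)).contDiffWithinAt
    show hP Pd P (f ζ) j k = g Ψ (p ζ) j k
    rw [h.2.2.2.2]
  · intro z hz
    obtain ⟨Ψ, W, p, hΨ, -, hev⟩ := hloc z hz
    obtain ⟨-, h2, -, -, h5⟩ := hev.self_of_nhds
    rw [h5]
    exact hg.posDef hΨ _ h2
  · set NP : ℝ := ∑ j, ∑ i, ‖P j i‖ ^ 2 with hNP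
    have hNP0 : 0 ≤ NP := by positivity
    refine ⟨1 / ((NP + 1) * (|C| + 1)), by positivity, fun z hz v => ?_⟩
    obtain ⟨Ψ, W, p, hΨ, hpF, hev⟩ := hloc z hz
    obtain ⟨-, h2, h3, -, h5⟩ := hev.self_of_nhds
    rw [h5]
    have hW := CMfd.isOpen_dom hΨ
    -- `P * jac (F ∘ Ψ) = 1`
    have hone : P * jac (Pd.F ∘ Ψ) (p z) = 1 := by
      rw [← cpt_jac_pFc Pd P hΨ h2, ← jac_id (z := p z)]
      refine jac_congr ?_
      filter_upwards [hW.mem_nhds h2] with y hy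
      ext i
      exact congrFun (hpF y hy) i
    set u := jac (Pd.F ∘ Ψ) (p z) *ᵥ v with hu
    have hv : v = P *ᵥ u := by rw [hu, Matrix.mulVec_mulVec, hone, Matrix.one_mulVec]
    have e1 : ∑ j, ‖v j‖ ^ 2 ≤ NP * ∑ i, ‖u i‖ ^ 2 := by
      conv_lhs => rw [hv]
      exact cpt_sum_mulVec_le P u
    have e2 : qf (fE Pd Ψ (p z)) v = ∑ i, ‖u i‖ ^ 2 := cpt_qf_gram _ v
    have e3 := fE_le_lamF I Pd hΨ h2 v
    rw [← h3] at e3
    have e4 : 0 ≤ qf (g Ψ (p z)) v := qf_nonneg (hg.posDef hΨ _ h2).posSemidef _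
    have e5 : lamF Pd (f z) ≤ |C| + 1 := (hΛ z hz).trans (by linarith [le_abs_self C])
    have e6 : 0 ≤ ∑ i, ‖u i‖ ^ 2 := by positivity
    rw [e2] at e3
    exact cpt_real_aux hNP0 e1 e3 e4 e5 e6
  · intro z hz
    obtain ⟨Ψ, W, p, hΨ, -, hev⟩ := hloc z hz
    obtain ⟨-, h2, -, -, -⟩ := hev.self_of_nhds
    have hW := CMfd.isOpen_dom hΨ
    have e1 : curv1 (fun w => hP Pd P (f w)) z = curv1 (fun w => g Ψ (p w)) z := by
      unfold curv1
      refine griffM_congr ?_ _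
      have h1 : Tendsto (fun w : CE Unit => w ()) (𝓝 (c1 z)) (𝓝 z) :=
        ((EuclideanSpace.proj () : CE Unit →L[ℂ] ℂ).continuous.tendsto (c1 z))
      exact (h1.eventually hev).mono fun w h => h.2.2.2.2
    rw [e1, curv1_comp (hev.mono fun ζ h => h.1) fun a b =>
      ((hg.smooth hΨ a b).contDiffAt (hW.mem_nhds h2)).of_le lv_two_le_infty]
    exact griffM_posSemidef_of_bisec hg I.bisec.nonneg hΨ h2 _
  · have h1 : DifferentiableOn ℂ (fun w => pF Pd P (f w)) Ω := by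
      have h2 : DifferentiableOn ℂ (fun w => Pd.F (f w)) Ω :=
        HolCurve.differentiableOn_comp hΩ hf Pd.F_hol
      rw [differentiableOn_pi]
      intro j
      simp only [pF, Matrix.mulVec, dotProduct]
      refine DifferentiableOn.fun_sum fun i _ => DifferentiableOn.const_mul ?_ _
      exact (EuclideanSpace.proj i : CE (Fin Pd.NF) →L[ℂ] ℂ).differentiable.comp_differentiableOn h2
    exact h1.deriv hΩ
  · intro z hz
    obtain ⟨Ψ, W, p, hΨ, -, hev⟩ := hloc z hz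
    obtain ⟨h1, h2, -, -, h5⟩ := hev.self_of_nhds
    rw [dspeed_local hg.toIsHForm hΨ h1 h2 (hev.mono fun ζ h => h.2.2.1), h5]
    congr 1
    have e1 : (fun w => pF Pd P (f w)) =ᶠ[𝓝 z] fun w => (p w : Fin n → ℂ) :=
      hev.mono fun ζ h => h.2.2.2.1
    rw [e1.deriv_eq]
    have e2 : HasDerivAt (fun w => (p w : Fin n → ℂ)) (deriv p z : CE (Fin n)) z := by
      rw [hasDerivAt_pi]
      intro i
      exact (EuclideanSpace.proj i : CE (Fin n) →L[ℂ] ℂ).hasFDerivAt.comp_hasDerivAt z h1.hasDerivAt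
    exact e2.deriv

/-! ### S4-U-RAD -/

theorem cpt_conv_mem {a b r₀ t : ℝ} (ha : a ∈ Ioo (0 : ℝ) r₀) (hb : b ∈ Ioo (0 : ℝ) r₀)
    (ht : t ∈ Icc (0 : ℝ) 1) : a + (b - a) * t ∈ Ioo (0 : ℝ) r₀ := by
  have := (convex_Ioo (0 : ℝ) r₀).add_smul_sub_mem ha hb ht
  rwa [smul_eq_mul, mul_comm] at this

theorem cpt_seg_ray_le {σ : ℂ → ℝ} {e : ℂ} (he : ‖e‖ = 1) {r₀ : ℝ}
    (h0 : ∀ ρ ∈ Ioo (0 : ℝ) r₀, 0 ≤ σ (ρ • e))
    (hi : IntegrableOn (fun ρ : ℝ => σ (ρ • e)) (Ioo 0 r₀)) {a b : ℝ} (ha : a ∈ Ioo (0 : ℝ) r₀)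
    (hb : b ∈ Ioo (0 : ℝ) r₀) :
    seg σ (a • e) (b • e) ≤ ∫ ρ in Ioo (0 : ℝ) r₀, σ (ρ • e) := by
  rw [cpt_seg_ray σ e he]
  have h1 : (b - a) * ∫ t in (0 : ℝ)..1, σ ((a + (b - a) * t) • e) = ∫ s in a..b, σ (s • e) := by
    have := intervalIntegral.mul_integral_comp_add_mul (a := 0) (b := 1)
      (f := fun s : ℝ => σ (s • e)) (b - a) a
    simpa using this
  have hsub : uIoc a b ⊆ Ioo (0 : ℝ) r₀ := by
    intro s hs
    rcases le_total a b with hab | hab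
    · rw [uIoc_of_le hab] at hs
      exact ⟨ha.1.trans hs.1, hs.2.trans_lt hb.2⟩
    · rw [uIoc_of_ge hab] at hs
      exact ⟨hb.1.trans hs.1, hs.2.trans_lt ha.2⟩
  have hint0 : 0 ≤ ∫ t in (0 : ℝ)..1, σ ((a + (b - a) * t) • e) := by
    exact intervalIntegral.integral_nonneg zero_le_one fun t ht => h0 _ (cpt_conv_mem ha hb ht)
  calc |b - a| * ∫ t in (0 : ℝ)..1, σ ((a + (b - a) * t) • e)
      = |(b - a) * ∫ t in (0 : ℝ)..1, σ ((a + (b - a) * t) • e)| := by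
        rw [abs_mul, abs_of_nonneg hint0]
    _ = ‖∫ s in a..b, σ (s • e)‖ := by rw [h1, Real.norm_eq_abs]
    _ ≤ ∫ s in uIoc a b, ‖σ (s • e)‖ := intervalIntegral.norm_integral_le_integral_norm_uIoc
    _ = ∫ s in uIoc a b, σ (s • e) := by
        refine setIntegral_congr_fun measurableSet_uIoc fun s hs => ?_
        exact Real.norm_of_nonneg (h0 s (hsub hs))
    _ ≤ ∫ ρ in Ioo (0 : ℝ) r₀, σ (ρ • e) := by
        refine setIntegral_mono_set hi ?_ (LE.le.eventuallyLE hsub)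
        exact (ae_restrict_iff' measurableSet_Ioo).2 (Eventually.of_forall fun s hs => h0 s hs)

/-- a holomorphic punctured disc of finite area (with the natural bounds) has a ray which stays bounded. -/
theorem radial_bound (I : InitialData 𝓜 g) (Pd : PrelimData 𝓜 g o) {f : ℂ → V} {r₁ : ℝ}
    (hr₁ : 0 < r₁) (hf : HolCurve 𝓜 f (ball 0 r₁ \ {0}))
    (harea : IntegrableOn (dspeed 𝓜 g f) (ball 0 r₁ \ {0})) {C : ℝ}
    (hΛ : ∀ z ∈ ball (0 : ℂ) r₁ \ {0}, lamF Pd (f z) ≤ C)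
    (hX : ∀ z ∈ ball (0 : ℂ) r₁ \ {0}, ∀ i j, ‖xF Pd (f z) i j‖ ≤ C) {b : V}
    (hb : b ∈ 𝓜.carrier) :
    ∃ e : ℂ, ‖e‖ = 1 ∧ ∃ r₀ : ℝ, 0 < r₀ ∧ r₀ ≤ r₁ ∧ ∃ R : ℝ,
      ∀ ρ ∈ Ioo (0 : ℝ) r₀, hdist 𝓜 g b (f (ρ • e)) ≤ R := by
  have hg : IsMetric 𝓜 g := I.kahler.toIsMetric
  have hopen : ∀ r : ℝ, IsOpen (ball (0 : ℂ) r \ {0}) := fun r =>
    isOpen_ball.sdiff isClosed_singleton
  have hmono : ∀ {r r' : ℝ}, r ≤ r' → ball (0 : ℂ) r \ {0} ⊆ ball (0 : ℂ) r' \ {0} :=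
    fun h => sdiff_subset_sdiff_left (ball_subset_ball h)
  obtain ⟨P, r₂, hr₂, hr₂₁, hdet⟩ := exists_proj Pd hr₁ hf hX
  have hf₂ := hf.mono (hmono hr₂₁)
  obtain ⟨hs, hpd, ⟨c, hc, hlow⟩, hcurv, ha, hq⟩ := hP_curve_data I Pd P (hopen r₂) hf₂ hdet
    (fun z hz => hΛ z (hmono hr₂₁ hz))
  have hint : IntegrableOn (fun z => qf (hP Pd P (f z)) (deriv (fun w => pF Pd P (f w)) z))
      (ball 0 r₂ \ {0}) :=
    (harea.mono_set (hmono hr₂₁)).congr_fun (fun z hz => (hq z hz).symm) (hopen r₂).measurableSet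
  obtain ⟨σ, hσ, r₀, hr₀, hr₀₂, hi⟩ := extra_integrability hr₂ hc hs hpd hlow hcurv ha hint
  have hf₀ := hf₂.mono (hmono hr₀₂)
  have hi' : IntegrableOn (fun z => dspeed 𝓜 g f z * ‖z‖ ^ (-σ)) (ball 0 r₀ \ {0}) :=
    hi.congr_fun (fun z hz => by simp only [hq z (hmono hr₀₂ hz)]) (hopen r₀).measurableSet
  have hnn : ∀ ζ ∈ ball (0 : ℂ) r₀ \ {0}, 0 ≤ dspeed 𝓜 g f ζ := fun ζ hζ =>
    dspeed_nonneg (hopen r₀) hf₀ hg.toIsHForm
      (fun Ψ W hΨ z hz => (hg.posDef hΨ z hz).posSemidef) hζ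
  obtain ⟨e, he, hray⟩ := exists_ray_integrable hr₀ hσ
    (continuousOn_dspeed (hopen r₀) hf₀ hg.toIsHForm) hnn hi'
  have hmem : ∀ ρ ∈ Ioo (0 : ℝ) r₀, ρ • e ∈ ball (0 : ℂ) r₀ \ {0} := by
    intro ρ hρ
    have hn : ‖ρ • e‖ = ρ := by rw [norm_smul, he, mul_one, Real.norm_eq_abs, abs_of_pos hρ.1]
    refine ⟨mem_ball_zero_iff.2 (by rw [hn]; exact hρ.2), fun h => ?_⟩
    rw [mem_singleton_iff.1 h, norm_zero] at hn
    exact hρ.1.ne hn
  refine ⟨e, he, r₀, hr₀, hr₀₂.trans hr₂₁,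
    hdist 𝓜 g b (f ((r₀ / 2) • e)) + ∫ ρ in Ioo (0 : ℝ) r₀, Real.sqrt (dspeed 𝓜 g f (ρ • e)), ?_⟩
  intro ρ hρ
  have hρ₀ : r₀ / 2 ∈ Ioo (0 : ℝ) r₀ := ⟨by positivity, by linarith⟩
  have h1 := hdist_triangle hg I.conn hb (hf₀.1 _ (hmem _ hρ₀)) (hf₀.1 _ (hmem _ hρ))
  have h2 : hdist 𝓜 g (f ((r₀ / 2) • e)) (f (ρ • e)) ≤
      seg (fun ζ => Real.sqrt (dspeed 𝓜 g f ζ)) ((r₀ / 2) • e) (ρ • e) := by
    refine hdist_le_seg (hopen r₀) hf₀ hg fun t ht => ?_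
    have : (r₀ / 2) • e + t • (ρ • e - (r₀ / 2) • e) = (r₀ / 2 + (ρ - r₀ / 2) * t) • e := by
      simp only [Complex.real_smul]
      push_cast
      ring
    rw [this]
    exact hmem _ (cpt_conv_mem hρ₀ hρ ht)
  have h3 := cpt_seg_ray_le (σ := fun ζ => Real.sqrt (dspeed 𝓜 g f ζ)) he
    (fun _ _ => Real.sqrt_nonneg _) hray hρ₀ hρ
  linarith

/-! ### S4-U-PUNC -/

theorem puncture (I : InitialData 𝓜 g) (Pd : PrelimData 𝓜 g o) (hK : IsCompact K)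
    (hKM : K ⊆ 𝓜.carrier) (𝒰 : Ultrafilter ℕ) {fs : ℕ → ℂ → V}
    (hfs : ∀ l, InClass 𝓜 g K A₀ (fs l)) {b : V} (hb : b ∈ 𝓜.carrier) {r₁ : ℝ} (hr₁ : 0 < r₁)
    (hr₁' : r₁ < 1)
    (hloc : ∀ x ∈ ball (0 : ℂ) r₁ \ {0}, ∃ N ∈ 𝓝 x, ∃ R : ℝ, ∀ᶠ l in 𝒰, ∀ z ∈ N,
      hdist 𝓜 g b (fs l z) ≤ R) :
    ∃ R : ℝ, ∀ᶠ l in 𝒰, hdist 𝓜 g b (fs l 0) ≤ R := by
  have hg : IsMetric 𝓜 g := I.kahler.toIsMetric
  have hΩ : IsOpen (ball (0 : ℂ) r₁ \ {0}) := isOpen_ball.sdiff isClosed_singleton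
  have hsub : ball (0 : ℂ) r₁ \ {0} ⊆ ball 0 1 :=
    sdiff_subset.trans (ball_subset_ball hr₁'.le)
  have hsubc : ball (0 : ℂ) r₁ \ {0} ⊆ closedBall 0 1 := hsub.trans ball_subset_closedBall
  -- the limit curve
  obtain ⟨f, hf, hlim⟩ := exists_limit_curve I Pd hK hKM 𝒰 hfs hb hΩ hsub hloc
  have harea := limit_area hg 𝒰 hfs hΩ hsub hf hlim
  have hpt : ∀ z ∈ ball (0 : ℂ) r₁ \ {0}, Tendsto (fun l => fs l z) 𝒰 (𝓝 (f z)) :=
    fun z hz => hlim.tendsto_at hz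
  -- bounds along the limit curve
  obtain ⟨CΛ, hCΛ⟩ := hK.exists_bound_of_continuousOn ((lamF_smooth I Pd).continuousOn.mono hKM)
  have hΛ : ∀ z ∈ ball (0 : ℂ) r₁ \ {0}, lamF Pd (f z) ≤ CΛ := by
    intro z hz
    refine cpt_le_of_tendsto (hpt z hz) (fun l => (hfs l).mem_carrier (hsubc hz)) (hf.1 z hz)
      (lamF_smooth I Pd).continuousOn fun l => ?_
    exact (hfs l).smooth_le (lamF_smooth I Pd) (ddc_lamF_posSemidef I Pd)
      (fun x hx => (le_abs_self _).trans (hCΛ x hx)) z (hsubc hz)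
  have hXc : ∀ i j, ∃ C : ℝ, ∀ x ∈ K, ‖xF Pd x i j‖ ≤ C := fun i j =>
    hK.exists_bound_of_continuousOn ((xF_holFun Pd i j).continuousOn.mono hKM)
  choose CX hCX using hXc
  have hX : ∀ z ∈ ball (0 : ℂ) r₁ \ {0}, ∀ i j, ‖xF Pd (f z) i j‖ ≤ CX i j := by
    intro z hz i j
    refine cpt_le_of_tendsto (v := fun x => ‖xF Pd x i j‖) (hpt z hz)
      (fun l => (hfs l).mem_carrier (hsubc hz)) (hf.1 z hz)
      (xF_holFun Pd i j).continuousOn.norm fun l => ?_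
    exact (hfs l).norm_holFun_le (G := fun x => xF Pd x i j) (xF_holFun Pd i j) (hCX i j) z
      (hsubc hz)
  set C : ℝ := |CΛ| + ∑ i, ∑ j, |CX i j| with hC
  have hCX' : ∀ i j, CX i j ≤ C := by
    intro i j
    have h1 : |CX i j| ≤ ∑ j', |CX i j'| :=
      Finset.single_le_sum (f := fun j' => |CX i j'|) (fun _ _ => abs_nonneg _) (Finset.mem_univ j)
    have h2 : ∑ j', |CX i j'| ≤ ∑ i', ∑ j', |CX i' j'| :=
      Finset.single_le_sum (f := fun i' => ∑ j', |CX i' j'|)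
        (fun _ _ => Finset.sum_nonneg fun _ _ => abs_nonneg _) (Finset.mem_univ i)
    have h3 := le_abs_self (CX i j)
    have h4 := abs_nonneg CΛ
    linarith
  have hCΛ' : CΛ ≤ C := by
    have h1 : 0 ≤ ∑ i, ∑ j, |CX i j| :=
      Finset.sum_nonneg fun _ _ => Finset.sum_nonneg fun _ _ => abs_nonneg _
    have h3 := le_abs_self CΛ
    linarith
  -- a bounded ray
  obtain ⟨e, he, r₀, hr₀, hr₀₁, R₁, hR₁⟩ := radial_bound I Pd hr₁ hf harea
    (fun z hz => (hΛ z hz).trans hCΛ') (fun z hz i j => (hX z hz i j).trans (hCX' i j)) hb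
  -- trapping
  obtain ⟨η, hη, K₂, hK₂, hK₂M, htrap⟩ := trapping I Pd (I.proper b hb (R₁ + 1))
    (hcball_subset_carrier 𝓜 g b (R₁ + 1))
  -- the limit of `F ∘ f_l`
  obtain ⟨CF, hCF⟩ := hK.exists_bound_of_continuousOn ((continuousOn_F Pd).mono hKM)
  obtain ⟨Fl, hFl, hFlim⟩ := montel_ultrafilter 𝒰 (ws := fun l ζ => Pd.F (fs l ζ)) isOpen_ball
    (fun l => (hfs l).holCurve.differentiableOn_comp isOpen_ball Pd.F_hol)
    (fun l z hz => (hfs l).norm_holFun_le Pd.F_hol hCF z (ball_subset_closedBall hz))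
  have hFc : ContinuousAt Fl 0 :=
    (hFl.continuousOn).continuousAt (isOpen_ball.mem_nhds (mem_ball_self one_pos))
  obtain ⟨ε₁, hε₁, hFε⟩ := Metric.continuousAt_iff.1 hFc (η / 8) (by positivity)
  set ε : ℝ := min (ε₁ / 2) (r₀ / 2) with hε
  have hε0 : 0 < ε := lt_min (by positivity) (by positivity)
  have hεε₁ : ε < ε₁ := (min_le_left _ _).trans_lt (by linarith)
  have hεr₀ : ε < r₀ := (min_le_right _ _).trans_lt (by linarith)
  have hQ1 : closedBall (0 : ℂ) ε ⊆ ball 0 1 := closedBall_subset_ball (by linarith)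
  have hunif : TendstoUniformlyOn (fun l ζ => Pd.F (fs l ζ)) Fl 𝒰 (closedBall 0 ε) :=
    (tendstoLocallyUniformlyOn_iff_forall_isCompact isOpen_ball).1 hFlim _ hQ1
      (isCompact_closedBall 0 ε)
  have hev1 := Metric.tendstoUniformlyOn_iff.1 hunif (η / 8) (by positivity)
  -- the point `ε e` of the ray
  have hnorm : ‖ε • e‖ = ε := by rw [norm_smul, he, mul_one, Real.norm_eq_abs, abs_of_pos hε0]
  have hεΩ : ε • e ∈ ball (0 : ℂ) r₁ \ {0} := by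
    refine ⟨mem_ball_zero_iff.2 (by rw [hnorm]; linarith), ?_⟩
    intro h
    have : ‖ε • e‖ = 0 := by rw [mem_singleton_iff.1 h, norm_zero]
    rw [hnorm] at this
    exact hε0.ne' this
  have hev2 : ∀ᶠ l in 𝒰, hdist 𝓜 g b (fs l (ε • e)) < R₁ + 1 := by
    have h1 : Tendsto (fun l => fs l (ε • e)) 𝒰 (𝓝[𝓜.carrier] (f (ε • e))) :=
      tendsto_nhdsWithin_iff.2 ⟨hpt _ hεΩ, Eventually.of_forall fun l =>
        (hfs l).mem_carrier (hsubc hεΩ)⟩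
    have h2 := ((continuousOn_hdist_right hg I.conn hb) _ (hf.1 _ hεΩ)).tendsto.comp h1
    exact h2.eventually (gt_mem_nhds (by linarith [hR₁ ε ⟨hε0, hεr₀⟩]))
  obtain ⟨R₂, -, hR₂⟩ := exists_hcball_of_isCompact hg I.conn hb hK₂ hK₂M
  refine ⟨R₂, ?_⟩
  filter_upwards [hev1, hev2] with l h1 h2
  have hQc : closedBall (0 : ℂ) ε ⊆ closedBall 0 1 := hQ1.trans ball_subset_closedBall
  have hS : fs l '' closedBall 0 ε ⊆ K₂ := by
    refine htrap _ ?_ ?_ ?_ ?_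
    · rintro _ ⟨z, hz, rfl⟩
      exact (hfs l).mem_carrier (hQc hz)
    · exact (convex_closedBall (0 : ℂ) ε).isPreconnected.image _ ((hfs l).continuousOn.mono hQc)
    · refine ⟨fs l (ε • e), ⟨ε • e, mem_closedBall_zero_iff.2 hnorm.le, rfl⟩, ?_, h2.le⟩
      exact (hfs l).mem_carrier (hsubc hεΩ)
    · rintro _ ⟨z, hz, rfl⟩ _ ⟨w, hw, rfl⟩
      have hz1 := h1 z hz
      have hw1 := h1 w hw
      have hz2 : dist (Fl z) (Fl 0) < η / 8 :=
        hFε (by rw [dist_zero_right]; exact (mem_closedBall_zero_iff.1 hz).trans_lt hεε₁)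
      have hw2 : dist (Fl w) (Fl 0) < η / 8 :=
        hFε (by rw [dist_zero_right]; exact (mem_closedBall_zero_iff.1 hw).trans_lt hεε₁)
      rw [← dist_eq_norm]
      have t1 := dist_triangle4 (Pd.F (fs l z)) (Fl z) (Fl 0) (Pd.F (fs l w))
      have t2 := dist_triangle (Fl 0) (Fl w) (Pd.F (fs l w))
      rw [dist_comm (Pd.F (fs l z)) (Fl z)] at t1
      rw [dist_comm (Fl 0) (Fl w)] at t2
      linarith
  exact (hR₂ (hS ⟨0, mem_closedBall_self hε0.le, rfl⟩)).2.le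

/-! ### S4-U-CENTRE -/

theorem InClass.mono {K K' : Set V} (h : K ⊆ K') {f : ℂ → V} (hf : InClass 𝓜 g K A₀ f) :
    InClass 𝓜 g K' A₀ f := ⟨hf.hol, fun ζ hζ => h (hf.bdry ζ hζ), hf.area⟩

theorem centre_bound (I : InitialData 𝓜 g) (Pd : PrelimData 𝓜 g o) (hK : IsCompact K)
    (hKM : K ⊆ 𝓜.carrier) (A₀ : ℝ) {b : V} (hb : b ∈ 𝓜.carrier) :
    ∃ R : ℝ, ∀ f : ℂ → V, InClass 𝓜 g K A₀ f → hdist 𝓜 g b (f 0) ≤ R := by
  by_contra hcon
  push Not at hcon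
  choose fs hfs hlt using fun l : ℕ => hcon (l : ℝ)
  set 𝒰 : Ultrafilter ℕ := hyperfilter ℕ with h𝒰
  have hZ := concSet_finite I Pd hK hKM 𝒰 hfs
  have h0 : (0 : ℂ) ∈ ball (0 : ℂ) (3 / 4) := mem_ball_self (by norm_num)
  have key : ∃ R : ℝ, ∀ᶠ l in 𝒰, hdist 𝓜 g b (fs l 0) ≤ R := by
    by_cases h0Z : (0 : ℂ) ∈ concSet Pd 𝒰 fs
    · -- a punctured disc which avoids the concentration set
      have hfin : (concSet Pd 𝒰 fs \ {0}).Finite := hZ.subset sdiff_subset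
      have hopen : (concSet Pd 𝒰 fs \ {0})ᶜ ∈ 𝓝 (0 : ℂ) :=
        hfin.isClosed.isOpen_compl.mem_nhds (fun h => h.2 rfl)
      obtain ⟨r, hr, hsub⟩ := Metric.mem_nhds_iff.1 hopen
      have hr₁ : 0 < min r (3 / 4) := lt_min hr (by norm_num)
      have hr₁' : min r (3 / 4) < 1 := (min_le_right _ _).trans_lt (by norm_num)
      refine puncture I Pd hK hKM 𝒰 hfs hb hr₁ hr₁' fun x hx => ?_
      refine ubdd_off_conc I Pd hK hKM 𝒰 hfs hb ⟨ball_subset_ball (min_le_right _ _) hx.1, ?_⟩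
      intro hxZ
      exact hsub (ball_subset_ball (min_le_left _ _) hx.1) ⟨hxZ, hx.2⟩
    · obtain ⟨N, hN, R, hR⟩ := ubdd_off_conc I Pd hK hKM 𝒰 hfs hb ⟨h0, h0Z⟩
      exact ⟨R, hR.mono fun l hl => hl 0 (mem_of_mem_nhds hN)⟩
  obtain ⟨R, hR⟩ := key
  have hle : (𝒰 : Filter ℕ) ≤ atTop := by
    rw [← Nat.cofinite_eq_atTop]
    exact hyperfilter_le_cofinite
  have hbig : ∀ᶠ l : ℕ in 𝒰, R < (l : ℝ) :=
    (tendsto_natCast_atTop_atTop.eventually (eventually_gt_atTop R)).filter_mono hle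
  obtain ⟨l, h1, h2⟩ := (hR.and hbig).exists
  linarith [hlt l]

theorem confine_class (I : InitialData 𝓜 g) (Pd : PrelimData 𝓜 g o) (hK : IsCompact K)
    (hKM : K ⊆ 𝓜.carrier) (A₀ : ℝ) :
    ∃ K' : Set V, IsCompact K' ∧ K' ⊆ 𝓜.carrier ∧
      ∀ f : ℂ → V, InClass 𝓜 g K A₀ f → ∀ ζ ∈ closedBall (0 : ℂ) 1, f ζ ∈ K' := by
  obtain ⟨b, hb⟩ := I.conn.nonempty
  obtain ⟨R, hR⟩ := centre_bound I Pd hK hKM A₀ hb
  refine ⟨hcball 𝓜 g b R ∪ K, (I.proper b hb R).union hK,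
    union_subset (hcball_subset_carrier 𝓜 g b R) hKM, ?_⟩
  intro f hf ζ hζ
  rcases (mem_closedBall_zero_iff.1 hζ).lt_or_eq with h | h
  · left
    have h1 := hR _ (hf.comp_mob I.kahler.toIsMetric h)
    simp only [mob_zero] at h1
    obtain ⟨r, hr, hd⟩ := hf.hol
    exact ⟨hd.1 ζ (mem_ball_zero_iff.2 (h.trans hr)), h1⟩
  · right
    exact hf.bdry ζ (mem_sphere_zero_iff_norm.2 h)

/-- **Proposition 4.2** for discs in `M` which are smooth up to the boundary. -/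
theorem confine_smooth (I : InitialData 𝓜 g) (Pd : PrelimData 𝓜 g o) (hK : IsCompact K)
    (hKM : K ⊆ 𝓜.carrier) (A₀ : ℝ) :
    ∃ K' : Set V, IsCompact K' ∧ K' ⊆ 𝓜.carrier ∧
      ∀ f : ℂ → V, IsSmDisc 𝓜 f → (∀ ζ ∈ sphere (0 : ℂ) 1, f ζ ∈ K) → darea 𝓜 g f ≤ A₀ →
        ∀ ζ ∈ closedBall (0 : ℂ) 1, f ζ ∈ K' := by
  have hKp : IsCompact (𝓜.carrier ∩ cthickening 1 K) :=
    (hK.cthickening).inter_left I.closed
  obtain ⟨K', hK', hK'M, hconf⟩ := confine_class I Pd hKp inter_subset_left A₀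
  refine ⟨K', hK', hK'M, ?_⟩
  intro f hf hb ha ζ hζ
  have hev := inClass_dilate I.kahler.toIsMetric hf hb ha (isOpen_thickening (δ := 1) (E := K))
    (self_subset_thickening one_pos K)
  -- `f (ρ ζ) ∈ K'` for `ρ` close to `1`
  have h1 : ∀ᶠ ρ : ℝ in 𝓝[<] 1, f (ρ • ζ) ∈ K' := by
    filter_upwards [hev] with ρ hρ
    exact hconf _ (hρ.mono (inter_subset_inter_right _ (thickening_subset_cthickening 1 K))) ζ hζ
  -- continuity of `f` on the closed disc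
  have hc : ContinuousOn f uDiscC := hf.2.1.continuousOn
  have h2 : Tendsto (fun ρ : ℝ => ρ • ζ) (𝓝[<] 1) (𝓝[uDiscC] ζ) := by
    refine tendsto_nhdsWithin_iff.2 ⟨?_, ?_⟩
    · have : Tendsto (fun ρ : ℝ => ρ • ζ) (𝓝 1) (𝓝 ((1 : ℝ) • ζ)) :=
        (continuous_id.smul continuous_const).tendsto 1
      rw [one_smul] at this
      exact this.mono_left nhdsWithin_le_nhds
    · have h0 : ∀ᶠ ρ : ℝ in 𝓝[<] 1, 0 < ρ :=
        (eventually_gt_nhds (zero_lt_one)).filter_mono nhdsWithin_le_nhds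
      filter_upwards [h0, self_mem_nhdsWithin] with ρ hρ0 hρ1
      have hρ1' : ρ < 1 := hρ1
      have hζ' : ‖ζ‖ ≤ 1 := by simpa using hζ
      show ρ • ζ ∈ closedBall (0 : ℂ) 1
      rw [mem_closedBall_zero_iff, norm_smul, Real.norm_eq_abs, abs_of_pos hρ0]
      nlinarith [norm_nonneg ζ]
  have h3 : Tendsto (fun ρ : ℝ => f (ρ • ζ)) (𝓝[<] 1) (𝓝 (f ζ)) := (hc ζ hζ).tendsto.comp h2
  exact hK'.isClosed.mem_of_tendsto h3 h1

/-! ### S4-U-Y -/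

variable {𝒴 : CMfd (CotAmb V) (Fin n ⊕ Fin n)}

theorem isSmDisc_base (hY : IsCotangent 𝓜 𝒴) {f : ℂ → CotAmb V} (hf : IsSmDisc 𝒴 f) :
    IsSmDisc 𝓜 (fun ζ => (f ζ).1) := by
  refine ⟨?_, contDiff_fst.comp_contDiffOn hf.2.1, fun ζ hζ => s6g_base_mem hY (hf.2.2 ζ hζ)⟩
  refine s6g_isHolDisc_of_local fun ζ₀ hζ₀ => ?_
  obtain ⟨Φ, U, F, hΦ, hev⟩ := s6k_disc_chart hY hf.1 hζ₀
  refine ⟨Φ, U, fun ζ => cBase (F ζ), hΦ, hev.mono fun ζ h => ⟨?_, h.2.1, ?_⟩⟩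
  · exact (cBaseL : CE (Fin n ⊕ Fin n) →L[ℂ] CE (Fin n)).differentiableAt.comp ζ h.1
  · rw [← h.2.2]
    rfl

/-- the pairing `ξ(X_i)` in a cotangent chart. -/
theorem cpt_pairing_chart (Pd : PrelimData 𝓜 g o) {Φ : CE (Fin n) → V} {U : Set (CE (Fin n))}
    (hΦ : 𝓜.IsHol Φ U) {i : Fin Pd.mX} {a : CE (Fin n) → CE (Fin n)}
    (ha : ∀ z ∈ U, Pd.X i (Φ z) = fderiv ℝ Φ z (a z)) {p : CE (Fin n ⊕ Fin n)}
    (hp : p ∈ cotDom U) :
    (cotParam Φ p).2 (Pd.X i (cotParam Φ p).1) = ∑ k, cFib p k * (a (cBase p) : CE (Fin n)) k := by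
  show (cotParam Φ p).2 (Pd.X i (Φ (cBase p))) = _
  rw [ha _ hp, s6g_cotParam_snd_fderiv hΦ hp, s6g_pairL_apply]

theorem cpt_pairing_holFun (Pd : PrelimData 𝓜 g o) (hY : IsCotangent 𝓜 𝒴) (i : Fin Pd.mX) :
    𝒴.HolFun (fun y => y.2 (Pd.X i y.1)) := by
  refine holFun_of_cot hY fun Φ U hΦ => ?_
  obtain ⟨a, had, ha⟩ := Pd.X_hol i Φ U hΦ
  have h1 : DifferentiableOn ℂ
      (fun p : CE (Fin n ⊕ Fin n) => ∑ k, cFib p k * (a (cBase p) : CE (Fin n)) k) (cotDom U) := by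
    refine DifferentiableOn.fun_sum fun k _ => DifferentiableOn.mul ?_ ?_
    · exact (EuclideanSpace.proj (Sum.inr k) :
        CE (Fin n ⊕ Fin n) →L[ℂ] ℂ).differentiable.differentiableOn
    · refine (EuclideanSpace.proj k : CE (Fin n) →L[ℂ] ℂ).differentiable.comp_differentiableOn ?_
      exact had.comp (cBaseL : CE (Fin n ⊕ Fin n) →L[ℂ] CE (Fin n)).differentiable.differentiableOn
        fun p hp => hp
  exact h1.congr fun p hp => cpt_pairing_chart Pd hΦ ha hp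

/-- spanning vectors control a covector, uniformly on compact sets. -/
theorem cpt_span_bound {m : ℕ} {a : Fin m → CE (Fin n) → CE (Fin n)} {B : Set (CE (Fin n))}
    (hB : IsCompact B) (hc : ∀ i, ContinuousOn (a i) B)
    (hsp : ∀ z ∈ B, Submodule.span ℂ (Set.range fun i => a i z) = ⊤) (C : ℝ) :
    ∃ R : ℝ, ∀ z ∈ B, ∀ ζ : CE (Fin n), (∀ i, ‖∑ k, ζ k * a i z k‖ ≤ C) → ‖ζ‖ ≤ R := by
  set φ : CE (Fin n) × CE (Fin n) → ℝ := fun q => ∑ i, ‖∑ k, q.2 k * a i q.1 k‖ with hφ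
  have hφc : ContinuousOn φ (B ×ˢ sphere (0 : CE (Fin n)) 1) := by
    refine continuousOn_finsetSum _ fun i _ => ContinuousOn.norm ?_
    refine continuousOn_finsetSum _ fun k _ => ContinuousOn.mul ?_ ?_
    · exact ((EuclideanSpace.proj k : CE (Fin n) →L[ℂ] ℂ).continuous.comp
        continuous_snd).continuousOn
    · refine (EuclideanSpace.proj k : CE (Fin n) →L[ℂ] ℂ).continuous.comp_continuousOn ?_
      exact ContinuousOn.comp (g := a i) (f := fun q : CE (Fin n) × CE (Fin n) => q.1) (t := B)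
        (hc i) continuousOn_fst fun q hq => hq.1
  rcases (B ×ˢ sphere (0 : CE (Fin n)) 1).eq_empty_or_nonempty with he | hne
  · -- no unit vectors or no points
    refine ⟨0, fun z hz ζ _ => ?_⟩
    by_contra hpos
    push Not at hpos
    have : (z, (‖ζ‖⁻¹ : ℝ) • ζ) ∈ B ×ˢ sphere (0 : CE (Fin n)) 1 := by
      refine ⟨hz, ?_⟩
      rw [mem_sphere_zero_iff_norm, norm_smul, Real.norm_eq_abs, abs_of_pos (inv_pos.2 hpos),
        inv_mul_cancel₀ hpos.ne']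
    rw [he] at this
    exact this
  obtain ⟨q, hq, hmin⟩ := (hB.prod (isCompact_sphere _ _)).exists_isMinOn hne hφc
  have hpos : 0 < φ q := by
    have h0 : 0 ≤ φ q := Finset.sum_nonneg fun i _ => norm_nonneg _
    refine lt_of_le_of_ne h0 fun h => ?_
    have hz : ∀ i, ∑ k, q.2 k * a i q.1 k = 0 := by
      intro i
      have := (Finset.sum_eq_zero_iff_of_nonneg (fun i _ => norm_nonneg _)).1 h.symm i
        (Finset.mem_univ i)
      exact norm_eq_zero.1 this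
    set ℓ : CE (Fin n) →ₗ[ℂ] ℂ :=
      ∑ k, q.2 k • ((EuclideanSpace.proj k : CE (Fin n) →L[ℂ] ℂ) : CE (Fin n) →ₗ[ℂ] ℂ) with hℓ
    have hℓa : ∀ w : CE (Fin n), ℓ w = ∑ k, q.2 k * w k := by
      intro w
      simp [hℓ]
    have hker : Submodule.span ℂ (Set.range fun i => a i q.1) ≤ LinearMap.ker ℓ := by
      rw [Submodule.span_le]
      rintro _ ⟨j, rfl⟩
      rw [SetLike.mem_coe, LinearMap.mem_ker, hℓa]
      exact hz j
    rw [hsp q.1 hq.1] at hker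
    have hq0 : q.2 = 0 := by
      ext k
      have h1 : ℓ (eb k) = 0 := LinearMap.mem_ker.1 (hker Submodule.mem_top)
      rw [hℓa] at h1
      simpa [eb_apply] using h1
    have hq1 : ‖q.2‖ = 1 := mem_sphere_zero_iff_norm.1 hq.2
    rw [hq0, norm_zero] at hq1
    exact zero_ne_one hq1
  refine ⟨m * |C| / φ q, fun z hz ζ hζ => ?_⟩
  rcases eq_or_ne ζ 0 with rfl | hζ0
  · rw [norm_zero]
    positivity
  have hn : 0 < ‖ζ‖ := norm_pos_iff.2 hζ0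
  have hmem : (z, (‖ζ‖⁻¹ : ℝ) • ζ) ∈ B ×ˢ sphere (0 : CE (Fin n)) 1 := by
    refine ⟨hz, ?_⟩
    rw [mem_sphere_zero_iff_norm, norm_smul, Real.norm_eq_abs, abs_of_pos (inv_pos.2 hn),
      inv_mul_cancel₀ hn.ne']
  have h1 : φ q ≤ φ (z, (‖ζ‖⁻¹ : ℝ) • ζ) := isMinOn_iff.1 hmin _ hmem
  have h2 : φ (z, (‖ζ‖⁻¹ : ℝ) • ζ) = ‖ζ‖⁻¹ * ∑ i, ‖∑ k, ζ k * a i z k‖ := by
    simp only [hφ]
    rw [Finset.mul_sum]
    refine Finset.sum_congr rfl fun i _ => ?_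
    have : ∑ k, ((‖ζ‖⁻¹ : ℝ) • ζ) k * a i z k = ((‖ζ‖⁻¹ : ℝ) : ℂ) * ∑ k, ζ k * a i z k := by
      rw [Finset.mul_sum]
      refine Finset.sum_congr rfl fun k _ => ?_
      simp only [PiLp.smul_apply, Complex.real_smul]
      ring
    rw [this, norm_mul, Complex.norm_real, Real.norm_eq_abs, abs_of_pos (inv_pos.2 hn)]
  have h3 : ∑ i, ‖∑ k, ζ k * a i z k‖ ≤ m * |C| := by
    calc ∑ i, ‖∑ k, ζ k * a i z k‖ ≤ ∑ _i : Fin m, |C| :=
          Finset.sum_le_sum fun i _ => (hζ i).trans (le_abs_self C)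
      _ = m * |C| := by simp
  rw [le_div_iff₀ hpos]
  rw [h2] at h1
  have h4 : ‖ζ‖ * φ q ≤ ∑ i, ‖∑ k, ζ k * a i z k‖ := by
    calc ‖ζ‖ * φ q ≤ ‖ζ‖ * (‖ζ‖⁻¹ * ∑ i, ‖∑ k, ζ k * a i z k‖) := by gcongr
      _ = _ := by rw [← mul_assoc, mul_inv_cancel₀ hn.ne', one_mul]
  exact h4.trans h3

theorem isCompact_cot_of_bound (I : InitialData 𝓜 g) (Pd : PrelimData 𝓜 g o)
    (hY : IsCotangent 𝓜 𝒴) {K₀ : Set V} (hK₀ : IsCompact K₀) (hsub : K₀ ⊆ 𝓜.carrier) (C : ℝ) :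
    IsCompact {y : CotAmb V | y ∈ 𝒴.carrier ∧ y.1 ∈ K₀ ∧ ∀ i, ‖y.2 (Pd.X i y.1)‖ ≤ C} := by
  -- step 1: the set over `K` lies in a compact subset of `Y`
  have key : ∃ Q : Set (CotAmb V), IsCompact Q ∧ Q ⊆ 𝒴.carrier ∧
      {y : CotAmb V | y ∈ 𝒴.carrier ∧ y.1 ∈ K₀ ∧ ∀ i, ‖y.2 (Pd.X i y.1)‖ ≤ C} ⊆ Q := by
    refine hK₀.induction_on (p := fun K => ∃ Q : Set (CotAmb V), IsCompact Q ∧ Q ⊆ 𝒴.carrier ∧
      {y : CotAmb V | y ∈ 𝒴.carrier ∧ y.1 ∈ K ∧ ∀ i, ‖y.2 (Pd.X i y.1)‖ ≤ C} ⊆ Q) ?_ ?_ ?_ ?_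
    · exact ⟨∅, isCompact_empty, empty_subset _, fun y hy => hy.2.1⟩
    · rintro s t hst ⟨Q, hQ, hQY, hQs⟩
      exact ⟨Q, hQ, hQY, fun y hy => hQs ⟨hy.1, hst hy.2.1, hy.2.2⟩⟩
    · rintro s t ⟨Q, hQ, hQY, hQs⟩ ⟨Q', hQ', hQY', hQs'⟩
      refine ⟨Q ∪ Q', hQ.union hQ', union_subset hQY hQY', fun y hy => ?_⟩
      rcases hy.2.1 with h | h
      · exact Or.inl (hQs ⟨hy.1, h, hy.2.2⟩)
      · exact Or.inr (hQs' ⟨hy.1, h, hy.2.2⟩)
    · intro x hx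
      have hxM := hsub hx
      have hΦ := 𝓜.isHol_pΦ hxM
      set Φ := 𝓜.pΦ x with hΦdef
      set U := 𝓜.pU x with hUdef
      have hz₀ : 𝓜.co x ∈ U := 𝓜.co_mem hxM
      have hU : IsOpen U := CMfd.isOpen_dom hΦ
      have hP := 𝓜.isParam hΦ
      obtain ⟨r, hr, hrU⟩ := Metric.nhds_basis_closedBall.mem_iff.1 (hU.mem_nhds hz₀)
      choose a had ha using fun i => Pd.X_hol i Φ U hΦ
      obtain ⟨R, hR⟩ := cpt_span_bound (a := a) (isCompact_closedBall (𝓜.co x) r)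
        (fun i => (had i).continuousOn.mono hrU) (fun z hz => by
          have := Pd.X_span Φ U hΦ z (hrU hz)
          simp only [ha _ z (hrU hz), hP.coVec_fderiv (hrU hz)] at this
          exact this) C
      refine ⟨Φ '' closedBall (𝓜.co x) r, ?_, ?_⟩
      · have h1 : Φ '' closedBall (𝓜.co x) r ∈ 𝓝[𝓜.carrier] x := by
          have := hP.map_nhds_eq hz₀
          have e : Φ (𝓜.co x) = x := 𝓜.pΦ_co hxM
          rw [e] at this
          rw [← this]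
          exact image_mem_map (closedBall_mem_nhds _ hr)
        exact nhdsWithin_mono x hsub h1
      · refine ⟨(fun q : CE (Fin n) × CE (Fin n) => cotParam Φ (cJoin q.1 q.2)) ''
          (closedBall (𝓜.co x) r ×ˢ closedBall 0 R), ?_, ?_, ?_⟩
        · refine ((isCompact_closedBall _ _).prod (isCompact_closedBall _ _)).image_of_continuousOn ?_
          intro q hq
          have h1 : cJoin q.1 q.2 ∈ cotDom U := s6g_cJoin_mem_cotDom (hrU hq.1) q.2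
          exact (ContinuousAt.comp (g := cotParam Φ)
            (f := fun q : CE (Fin n) × CE (Fin n) => cJoin q.1 q.2)
            (s6g_continuousAt_cotParam hY hΦ h1)
            s6_continuous_cJoin.continuousAt).continuousWithinAt
        · rintro _ ⟨q, hq, rfl⟩
          exact s6g_cotParam_mem hY hΦ (s6g_cJoin_mem_cotDom (hrU hq.1) q.2)
        · rintro y ⟨hy, ⟨z, hz, hzy⟩, hb⟩
          obtain ⟨ζ, hζ⟩ := s6g_exists_cotParam hY hy hΦ (hrU hz) hzy.symm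
          refine ⟨(z, ζ), ⟨hz, ?_⟩, hζ.symm⟩
          rw [mem_closedBall_zero_iff]
          refine hR z hz ζ fun i => ?_
          have h1 := cpt_pairing_chart Pd hΦ (ha i) (s6g_cJoin_mem_cotDom (hrU hz) ζ)
          rw [← hζ, s6g_cFib_cJoin, cBase_cJoin] at h1
          rw [← h1]
          exact hb i
  obtain ⟨Q, hQ, hQY, hsubQ⟩ := key
  -- step 2: it is closed in `Q`
  have hc : ∀ i, ContinuousOn (fun y : CotAmb V => ‖y.2 (Pd.X i y.1)‖) Q := fun i =>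
    ((cpt_pairing_holFun Pd hY i).continuousOn.mono hQY).norm
  have hcl : IsClosed (Q ∩ (Prod.fst ⁻¹' K₀ ∩
      ⋂ i, (Q ∩ (fun y : CotAmb V => ‖y.2 (Pd.X i y.1)‖) ⁻¹' Iic C))) := by
    refine hQ.isClosed.inter ((hK₀.isClosed.preimage continuous_fst).inter ?_)
    exact isClosed_iInter fun i => (hc i).preimage_isClosed_of_isClosed hQ.isClosed isClosed_Iic
  refine hQ.of_isClosed_subset ?_ hsubQ
  convert hcl using 1
  ext y
  constructor
  · intro hy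
    exact ⟨hsubQ hy, hy.2.1, mem_iInter.2 fun i => ⟨hsubQ hy, hy.2.2 i⟩⟩
  · rintro ⟨h1, h2, h3⟩
    exact ⟨hQY h1, h2, fun i => (mem_iInter.1 h3 i).2⟩

theorem smDisc_pairing_le (Pd : PrelimData 𝓜 g o) (hY : IsCotangent 𝓜 𝒴) {Q : Set (CotAmb V)}
    (hQ : IsCompact Q) (hQY : Q ⊆ 𝒴.carrier) :
    ∃ C : ℝ, ∀ f : ℂ → CotAmb V, IsSmDisc 𝒴 f → (∀ ζ ∈ sphere (0 : ℂ) 1, f ζ ∈ Q) →
      ∀ ζ ∈ closedBall (0 : ℂ) 1, ∀ i, ‖(f ζ).2 (Pd.X i (f ζ).1)‖ ≤ C := by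
  have hc : ∀ i, ContinuousOn (fun y : CotAmb V => y.2 (Pd.X i y.1)) 𝒴.carrier := fun i =>
    (cpt_pairing_holFun Pd hY i).continuousOn
  choose B hB using fun i => hQ.exists_bound_of_continuousOn ((hc i).mono hQY)
  refine ⟨∑ i, |B i|, fun f hf hb ζ hζ i => ?_⟩
  have hBi : B i ≤ ∑ i, |B i| :=
    (le_abs_self _).trans (Finset.single_le_sum (f := fun i => |B i|) (fun j _ => abs_nonneg _)
      (Finset.mem_univ i))
  have hcl : closure (ball (0 : ℂ) 1) = closedBall 0 1 := closure_ball 0 one_ne_zero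
  have hdc : DiffContOnCl ℂ (fun ζ => (f ζ).2 (Pd.X i (f ζ).1)) (ball 0 1) := by
    refine ⟨holFun_comp_disc (cpt_pairing_holFun Pd hY i) hf.1, ?_⟩
    rw [hcl]
    exact ContinuousOn.comp (g := fun y : CotAmb V => y.2 (Pd.X i y.1)) (hc i)
      hf.2.1.continuousOn hf.2.2
  refine (Complex.norm_le_of_forall_mem_frontier_norm_le isBounded_ball hdc ?_
    (by rw [hcl]; exact hζ)).trans hBi
  intro z hz
  rw [frontier_ball 0 one_ne_zero] at hz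
  exact hB i _ (hb z hz)

/-- **Proposition 4.2** (confinement) = `disc_compactness` of `S5/FromS4.lean`. -/
theorem disc_compactness (I : InitialData 𝓜 g) (Pd : PrelimData 𝓜 g o) (hY : IsCotangent 𝓜 𝒴)
    {K : Set (CotAmb V)} (hK : IsCompact K) (hKY : K ⊆ 𝒴.carrier) (A₀ : ℝ) :
    ∃ K' : Set (CotAmb V), IsCompact K' ∧ K' ⊆ 𝒴.carrier ∧
      ∀ f : ℂ → CotAmb V, IsSmDisc 𝒴 f → (∀ ζ ∈ uCirc, f ζ ∈ K) → areaG 𝓜 g f ≤ A₀ →
        ∀ ζ ∈ uDiscC, f ζ ∈ K' := by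
  have hK1 : IsCompact (Prod.fst '' K) := hK.image continuous_fst
  have hK1M : Prod.fst '' K ⊆ 𝓜.carrier := by
    rintro _ ⟨y, hy, rfl⟩
    exact s6g_base_mem hY (hKY hy)
  obtain ⟨K₀, hK₀, hK₀M, hconf⟩ := confine_smooth I Pd hK1 hK1M A₀
  obtain ⟨C, hC⟩ := smDisc_pairing_le Pd hY hK hKY
  refine ⟨_, isCompact_cot_of_bound I Pd hY hK₀ hK₀M C, fun y hy => hy.1, ?_⟩
  intro f hf hb ha ζ hζ
  refine ⟨hf.2.2 ζ hζ, ?_, hC f hf hb ζ hζ⟩
  exact hconf _ (isSmDisc_base hY hf) (fun ξ hξ => ⟨f ξ, hb ξ hξ, rfl⟩) ha ζ hζ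

end main

end Claimed.Agent.R316.S4
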