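import Claimed.Agent.R316.S5.Setup
import Claimed.Agent.R316.S6.GDisc
import Claimed.Agent.R316.S6.GFlow

/-!
# Row 316, Section 4 (discs.tex): definitions (section captain helper58)

THE INTERFACE of Section 4 is `R316/S5/FromS4.lean` (helper1): `gimm_prelim`, `disc_compactness`, `exists_frame`, `frame_center`, `frame_gram_lower`, `symplectic_evolution`, `poisM_frame`, and `StCotangentExists` of `Top/S5.lean`.
The files of `R316/S4/` are the SUB-BLUEPRINTS of these statements.  They use the definitions of `S5/Setup.lean`, `S5/SympAlg.lean`, `S5/Circle.lean` (`sympP`, `Jstd`, `GImm`, `IsFrame`, `FrameBd`, `IsSmDisc`, `areaG`, `HolSm`, `Dsq…`)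
and the cotangent chart API of `S6/GTrans`, `S6/GDual`, `S6/GDisc`, `S6/GFlow` (`nloc`, `bmat`, `cJoin`, `s6g_*`).

* `HolCurve 𝓧 f Ω`: holomorphic map of an open set `Ω ⊆ ℂ` into a complex manifold (`IsHolDisc 𝓧 f r` is `HolCurve 𝓧 f (ball 0 r)`, by `Iff.rfl`).
* `dspeed 𝓧 A f ζ = A(f'(ζ), \overline{f'(ζ)})`, `darea 𝓧 A f = ∫_Δ A(f', \bar f') dA` for a Hermitian form family `A`; `areaG 𝓜 g f = darea 𝓜 g (fun ζ => (f ζ).1)` by `rfl`.
* `mob a`: the disc automorphism with `0 ↦ a`.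
* `fE = F^* g_eucl` on `M`, `psiF = ψ = log (det fE / det g)` (`= log ∑_I |dF_I|²_g` by Cauchy-Binet, which is never needed), `lamF = tr_g fE = |dF|²_g`.
-/

set_option autoImplicit false
set_option linter.unusedSectionVars false
open scoped ContDiff ComplexOrder Topology Matrix
open MeasureTheory

namespace Claimed.Agent.R316.S4

open Claimed.Agent.R316 Claimed.Agent.R316.S6

/-! ### holomorphic curves, speed, area -/

section curves

variable {V' : Type} [NormedAddCommGroup V'] [NormedSpace ℝ V']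
variable {κ : Type} [Fintype κ]

/-- `f` is a holomorphic map of the (open) set `Ω ⊆ ℂ` into the complex manifold `𝓧`. -/
def HolCurve (𝓧 : CMfd V' κ) (f : ℂ → V') (Ω : Set ℂ) : Prop :=
  (∀ ζ ∈ Ω, f ζ ∈ 𝓧.carrier) ∧ ContinuousOn f Ω ∧
  ∀ (Ψ : CE κ → V') (W : Set (CE κ)), 𝓧.IsHol Ψ W →
    DifferentiableOn ℂ (Function.invFunOn Ψ W ∘ f) (Ω ∩ f ⁻¹' (Ψ '' W))

theorem isHolDisc_iff (𝓧 : CMfd V' κ) (f : ℂ → V') (r : ℝ) :
    IsHolDisc 𝓧 f r ↔ HolCurve 𝓧 f (Metric.ball 0 r) := Iff.rfl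

variable [DecidableEq κ]

/-- `A(f'(ζ), \overline{f'(ζ)})` for a Hermitian form family `A` on `𝓧`. -/
noncomputable def dspeed (𝓧 : CMfd V' κ) (A : HFam V' κ) (f : ℂ → V') (ζ : ℂ) : ℝ :=
  ambQ 𝓧 A (f ζ) (fderiv ℝ f ζ 1)

/-- `∫_Δ A(f', \bar f') dA`. -/
noncomputable def darea (𝓧 : CMfd V' κ) (A : HFam V' κ) (f : ℂ → V') : ℝ :=
  ∫ ζ in Metric.ball (0 : ℂ) 1, dspeed 𝓧 A f ζ

end curves

/-- the disc automorphism `φ_a(ζ) = (ζ + a) / (1 + \bar a ζ)`, `φ_a(0) = a`. -/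
noncomputable def mob (a ζ : ℂ) : ℂ := (ζ + a) / (1 + (starRingEnd ℂ) a * ζ)

/-! ### the immersion `F` -/

section immersion

variable {V : Type} [NormedAddCommGroup V] [InnerProductSpace ℝ V] [FiniteDimensional ℝ V]
variable [MeasurableSpace V] [BorelSpace V]
variable {n : ℕ} {𝓜 : CMfd V (Fin n)} {g : HFam V (Fin n)} {o : V}

theorem areaG_eq_darea (𝓜 : CMfd V (Fin n)) (g : HFam V (Fin n)) (f : ℂ → CotAmb V) :
    areaG 𝓜 g f = darea 𝓜 g (fun ζ => (f ζ).1) := rfl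

/-- `F^* g_eucl`, a Kaehler metric on `M`. -/
noncomputable def fE (Pd : PrelimData 𝓜 g o) : HFam V (Fin n) :=
  fun Φ z => (jac (Pd.F ∘ Φ) z)ᴴ * jac (Pd.F ∘ Φ) z

/-- `ψ = log (det F^*g_eucl / det g) = log ∑_I |dF_I|²_g`. -/
noncomputable def psiF (Pd : PrelimData 𝓜 g o) (x : V) : ℝ :=
  Real.log (detRatio 𝓜 (fE Pd) g x)

/-- `|dF|²_g = tr_g F^*g_eucl`. -/
noncomputable def lamF (Pd : PrelimData 𝓜 g o) (x : V) : ℝ := tr 𝓜 g (fE Pd) x

end immersion

end Claimed.Agent.R316.S4
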