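import Claimed.Agent.R316.S4.Defs
import Claimed.Agent.R316.Pack011
import Claimed.Agent.R316.Pack005

/-!
# S4-EV: Lemma 4.1 (symplectic evolution) `∂_t N = p(dd_Y N)`, `p(dd_Y (N + d)) = ∂_t N + Δ_{h_t} d` (leaf, ~900 lines; two independent halves EV1 / EV2)

EXPORT: `S4.symplectic_evolution` = the statement of `symplectic_evolution` in `S5/FromS4.lean`, verbatim (glue proved below).  `p(W) = sympP W (Jstd ι)` (`S5/SympAlg.lean`).

The claimer owns this file: replace the `sorry`s IN PLACE, keep the statements (auxiliary lemmas: prefix `s4e_`; problems: msg helper58).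
NO normal coordinates: direct computation in an arbitrary chart.

NOTATION.  `H : CE κ → Matrix ι ι ℂ` smooth positive definite on the open `O`, `x = dBase p`, `ζ = dFib p`, `b = (H x)⁻¹ᵀ`, `u = (H x)⁻¹ conj ζ` (`dualVec`),
`R = conR H p`, `R k l = ∑_j ∂_l H_{jk}(x) conj u_j`, `𝓡 = curR H p`, `𝓡 m l = uᴴ Θ_{l \bar m} u`, `Θ_{l \bar m} = RmM`-type matrix `- ∂̄_m ∂_l H + ∂̄_m H H⁻¹ ∂_l H`.

## EV1 `levi_dnorm_fromBlocks` (~500 lines, Wirtinger calculus)
`S7/H1/Griff.lean` states `qf (levi (dnorm H) p) (X, W) = qf b (W - Γ) + qf (griffM H x X) u` with `Γ = conj (A_Xᴴ u) = R X` (see its header: the explicit `Γ` is in the derivation, the statement only says `∃ Γ`).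
Either prove the blocks directly (entries of `levi` blockwise: `∂̄_{ζ_j} ∂_{ζ_k} N = b_{jk}`, `∂̄_{ζ_j} ∂_{x_l} N = ∑_k ∂_l b_{jk} ζ_k = - (b R)_{jl}`, `∂̄_{x_m} ∂_{x_l} N = ζᴴ ∂̄_m ∂_l b ζ`, `∂ H⁻¹ = - H⁻¹ ∂H H⁻¹`),
or prove the explicit form of `qf_levi_dnorm` and polarise (a Hermitian matrix is determined by its quadratic form: `CW/Levi.lean` `lv_posSemidef_iff_qf`…, `levi` of a real `C²` function is Hermitian).
If you also own `Griff.lean`: `qf_levi_dnorm` follows from `levi_dnorm_fromBlocks` by expanding `qf (fromBlocks …) (dJoin X W)`.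

## EV2 the rest (~400 lines)
* `conR_symm`: `IsClosedForm`: `∂_l H_{jk} = ∂_k H_{jl}`.
* `sympP_levi_nloc`: `nloc h Φ = dnorm (h Φ)` (`s6g_nloc_eq`, `cBase = dBase`, `cFib = dFib` by `rfl`), `sympP_block` (the off-diagonal blocks are `B = - Rᴴ b`, `Bᴴ = - b R`, `b` Hermitian; `∑ B_ij conj B_ji = tr (B (Bᴴ)ᵀ)`):
  `tr ((Rᴴ b R + 𝓡) bᵀ) - tr (Rᴴ b (b R)ᵀ) = tr (𝓡 bᵀ) + tr (Rᴴ b R bᵀ) - tr (Rᴴ b Rᵀ bᵀ) = tr (𝓡 H⁻¹)` because `Rᵀ = R`;
  `tr (H⁻¹ 𝓡) = ∑_{jk} u_j conj u_k ∑_{lm} H⁻¹_{lm} R_{j \bar k l \bar m} = ∑ u_j conj u_k Ric_{kj}` by `Rm_eq_RmM`, `ricF_eq_sum_Rm` (Kaehler).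
* `hasDerivAt_nloc`: `nloc (D.h s) Φ p = ηᴴ (H_s)⁻¹ η`, `η = conj ζ`; `fc_dt_h` (`∂_t H = - Ric`), derivative of the inverse matrix (`CW/MatFun`, or `HasDerivAt` of `Ring.inverse`/`Matrix.inv` through `H⁻¹ = adjugate / det`): `∂_t H⁻¹ = H⁻¹ Ric H⁻¹`; `H⁻¹` Hermitian.
* `sympP_levi_add_base`: `levi (fun q => e (cBase q)) p = fromBlocks (levi e (cBase p)) 0 0 0` (complex linear substitution, `levi_comp_hol`-type lemma of `CW/Levi.lean`), additivity of `levi` for `C²` functions, `sympP_add_horizontal`, `toBlocks₂₂ = b`, `bᵀ = H⁻¹`, `trace_mul_comm`.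
-/

set_option autoImplicit false
set_option linter.unusedSectionVars false
open scoped ContDiff ComplexOrder Topology Matrix

namespace Claimed.Agent.R316.S4

open Claimed.Agent.R316 Claimed.Agent.R316.S6 Matrix

section chart

variable {κ ι : Type} [Fintype κ] [DecidableEq κ] [Fintype ι] [DecidableEq ι]

/-- the metric dual `u = H⁻¹ \bar ζ` of the covector `ζ`. -/
noncomputable def dualVec (H : CE κ → Matrix ι ι ℂ) (p : CE (κ ⊕ ι)) : ι → ℂ :=
  (H (dBase p))⁻¹ *ᵥ star (dFib p)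

/-- the connection matrix contracted with the covector: `R k l = ∑_j ∂_l H_{jk} conj u_j`. -/
noncomputable def conR (H : CE κ → Matrix ι ι ℂ) (p : CE (κ ⊕ ι)) : Matrix ι κ ℂ :=
  fun k l => ∑ j, dz l (fun w => H w j k) (dBase p) * star (dualVec H p j)

/-- the curvature contracted with the covector: `𝓡 m l = uᴴ Θ_{l \bar m} u`. -/
noncomputable def curR (H : CE κ → Matrix ι ι ℂ) (p : CE (κ ⊕ ι)) : Matrix κ κ ℂ :=
  fun m l => star (dualVec H p) ⬝ᵥ
    ((- dzbM m (dzM l H) (dBase p) + dzbM m H (dBase p) * (H (dBase p))⁻¹ * dzM l H (dBase p)) *ᵥ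
      dualVec H p)

variable {H : CE κ → Matrix ι ι ℂ} {O : Set (CE κ)}

theorem s4e_qf_diagBlocks (A : Matrix κ κ ℂ) (D : Matrix ι ι ℂ) (X : κ → ℂ) (W : ι → ℂ) :
    qf (fromBlocks A 0 0 D) (Sum.elim X W) = qf A X + qf D W := by
  unfold qf
  rw [fromBlocks_mulVec]
  simp only [Matrix.zero_mulVec, add_zero, zero_add]
  have h1 : (Sum.elim X W ∘ Sum.inl) = X := rfl
  have h2 : (Sum.elim X W ∘ Sum.inr) = W := rfl
  rw [h1, h2]
  have h3 : star (Sum.elim X W) = Sum.elim (star X) (star W) := by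
    funext a
    rcases a with a | a <;> rfl
  rw [h3, sumElim_dotProduct_sumElim, Complex.add_re]

theorem s4e_blocks_factor (R : Matrix ι κ ℂ) (b : Matrix ι ι ℂ) (C : Matrix κ κ ℂ) :
    fromBlocks (Rᴴ * b * R + C) (- (Rᴴ * b)) (- (b * R)) b =
      (fromBlocks 1 0 (-R) 1)ᴴ * fromBlocks C 0 0 b * fromBlocks 1 0 (-R) 1 := by
  rw [fromBlocks_conjTranspose, fromBlocks_multiply, fromBlocks_multiply]
  simp only [conjTranspose_one, conjTranspose_zero, conjTranspose_neg, Matrix.one_mul,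
    Matrix.mul_zero, Matrix.zero_mul, add_zero, zero_add, Matrix.mul_one, Matrix.neg_mul,
    Matrix.mul_neg, neg_neg]
  congr 1
  rw [add_comm]

/-- the curvature matrices `Θ_{l \bar m}`. -/
noncomputable def s4e_Th (H : CE κ → Matrix ι ι ℂ) (x : CE κ) (l m : κ) : Matrix ι ι ℂ :=
  - dzbM m (dzM l H) x + dzbM m H x * (H x)⁻¹ * dzM l H x

theorem s4e_Th_conjTranspose (hO : IsOpen O) (hs : ∀ j k, ContDiffOn ℝ ∞ (fun x => H x j k) O)
    (hpos : ∀ x ∈ O, (H x).PosDef) {x : CE κ} (hx : x ∈ O) (l m : κ) :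
    (s4e_Th H x l m)ᴴ = s4e_Th H x m l := by
  have hh := griff_herm_nhds hO hpos hx
  have hH : ∀ j k, ContDiffAt ℝ 2 (fun w => H w j k) x := fun j k =>
    ((hs j k).contDiffAt (hO.mem_nhds hx)).of_le lv_two_le_infty
  have key : (dzbM m (dzM l H) x)ᴴ = dzbM l (dzM m H) x := by
    rw [← dzM_conjTranspose, ← dzM_dzbM_comm hH]
    apply dzM_congr
    filter_upwards [hh.eventually_nhds] with w hw
    exact conjTranspose_dzM_of_isHermitian hw
  have h1 : ∀ l, (dzM l H x)ᴴ = dzbM l H x := fun l => conjTranspose_dzM_of_isHermitian hh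
  have h2 : ∀ l, (dzbM l H x)ᴴ = dzM l H x := fun l => by rw [← h1, conjTranspose_conjTranspose]
  have h3 : ((H x)⁻¹)ᴴ = (H x)⁻¹ := (hpos x hx).inv.isHermitian
  unfold s4e_Th
  rw [conjTranspose_add, conjTranspose_neg, key, conjTranspose_mul, conjTranspose_mul, h1, h2, h3,
    Matrix.mul_assoc]

theorem s4e_curR_apply (H : CE κ → Matrix ι ι ℂ) (p : CE (κ ⊕ ι)) (m l : κ) :
    curR H p m l = star (dualVec H p) ⬝ᵥ (s4e_Th H (dBase p) l m *ᵥ dualVec H p) := rfl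

theorem s4e_curR_isHermitian (hO : IsOpen O) (hs : ∀ j k, ContDiffOn ℝ ∞ (fun x => H x j k) O)
    (hpos : ∀ x ∈ O, (H x).PosDef) {p : CE (κ ⊕ ι)} (hp : dBase p ∈ O) :
    (curR H p).IsHermitian := by
  ext m l
  rw [conjTranspose_apply, s4e_curR_apply, s4e_curR_apply,
    ← s4e_Th_conjTranspose hO hs hpos hp m l]
  set u := dualVec H p
  set T := s4e_Th H (dBase p) m l
  rw [← Matrix.star_dotProduct_star, star_star, Matrix.star_mulVec, ← Matrix.dotProduct_mulVec,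
    dotProduct_comm]

theorem s4e_qf_curR (H : CE κ → Matrix ι ι ℂ) (p : CE (κ ⊕ ι)) (X : κ → ℂ) :
    qf (curR H p) X = qf (griffM H (dBase p) X) (dualVec H p) := by
  have e : griffM H (dBase p) X = ∑ l, ∑ m, (X l * star (X m)) • s4e_Th H (dBase p) l m := rfl
  rw [qf_eq_sum, qf_def, e]
  congr 1
  simp only [Matrix.sum_mulVec, dotProduct_sum, Matrix.smul_mulVec, dotProduct_smul, smul_eq_mul,
    s4e_curR_apply]
  rw [Finset.sum_comm]
  refine Finset.sum_congr rfl fun l _ => Finset.sum_congr rfl fun m _ => ?_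
  rw [Complex.star_def]
  ring

theorem s4e_star_conR_mulVec {p : CE (κ ⊕ ι)} (hh : ∀ᶠ w in 𝓝 (dBase p), (H w).IsHermitian)
    (X : κ → ℂ) : star (conR H p *ᵥ X) = griff_B H (dBase p) X *ᵥ dualVec H p := by
  have key : ∀ l j k, star (dz l (fun w => H w j k) (dBase p)) =
      dzb l (fun w => H w k j) (dBase p) := by
    intro l j k
    have := congrFun (congrFun (conjTranspose_dzM_of_isHermitian (l := l) hh) k) j
    rwa [conjTranspose_apply, dzM_apply, dzbM_apply] at this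
  funext k
  simp only [Pi.star_apply, Matrix.mulVec, dotProduct, conR, griff_B, Matrix.sum_apply,
    Matrix.smul_apply, smul_eq_mul, dzbM_apply, star_sum, star_mul', star_star, key,
    Finset.sum_mul]
  rw [Finset.sum_comm]
  refine Finset.sum_congr rfl fun j _ => Finset.sum_congr rfl fun l _ => ?_
  ring

/-- **EV1**: the Levi matrix of a dual norm in blocks. -/
theorem levi_dnorm_fromBlocks (hO : IsOpen O) (hs : ∀ j k, ContDiffOn ℝ ∞ (fun x => H x j k) O)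
    (hpos : ∀ x ∈ O, (H x).PosDef) {p : CE (κ ⊕ ι)} (hp : dBase p ∈ O) :
    levi (dnorm H) p = fromBlocks
      ((conR H p)ᴴ * ((H (dBase p))⁻¹)ᵀ * conR H p + curR H p)
      (- ((conR H p)ᴴ * ((H (dBase p))⁻¹)ᵀ))
      (- (((H (dBase p))⁻¹)ᵀ * conR H p))
      ((H (dBase p))⁻¹)ᵀ := by
  have hb : (((H (dBase p))⁻¹)ᵀ).IsHermitian := (hpos _ hp).inv.isHermitian.transpose
  have hD : (fromBlocks (curR H p) 0 0 ((H (dBase p))⁻¹)ᵀ).IsHermitian :=
    Matrix.IsHermitian.fromBlocks (s4e_curR_isHermitian hO hs hpos hp) (by simp) hb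
  rw [s4e_blocks_factor]
  refine eq_of_qf_eq (levi_isHermitian (griff_contDiffAt_dnorm hO hs hpos hp))
    (isHermitian_conj hD _) fun v => ?_
  have e : v = dJoin (WithLp.toLp 2 fun a => v (Sum.inl a)) (WithLp.toLp 2 fun a => v (Sum.inr a)) := by
    funext a
    rcases a with a | a <;> simp [dJoin]
  set X : κ → ℂ := fun a => v (Sum.inl a) with hX
  set W : ι → ℂ := fun a => v (Sum.inr a) with hW
  have e' : v = Sum.elim X W := by
    funext a
    rcases a with a | a <;> rfl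
  rw [qf_conj]
  conv_lhs => rw [e]
  rw [griff_qf_levi hO hs hpos hp, e', fromBlocks_mulVec]
  have h1 : (Sum.elim X W ∘ Sum.inl) = X := rfl
  have h2 : (Sum.elim X W ∘ Sum.inr) = W := rfl
  rw [h1, h2]
  simp only [Matrix.one_mulVec, Matrix.zero_mulVec, add_zero, Matrix.neg_mulVec]
  rw [s4e_qf_diagBlocks, s4e_qf_curR, qf_transpose, add_comm]
  congr 2
  rw [neg_add_eq_sub, star_sub, s4e_star_conR_mulVec (griff_herm_nhds hO hpos hp)]
  rfl

end chart

section manifold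

variable {V : Type} [NormedAddCommGroup V] [InnerProductSpace ℝ V] [FiniteDimensional ℝ V]
variable {ι : Type} [Fintype ι] [DecidableEq ι]
variable {𝓜 : CMfd V ι} {h : HFam V ι} {Φ : CE ι → V} {U : Set (CE ι)}

theorem conR_symm (hh : IsKahler 𝓜 h) (hΦ : 𝓜.IsHol Φ U) {p : CE (ι ⊕ ι)} (hp : p ∈ cotDom U) :
    (conR (h Φ) p)ᵀ = conR (h Φ) p := by
  ext k l
  rw [transpose_apply]
  unfold conR
  refine Finset.sum_congr rfl fun j _ => ?_
  congr 1
  exact hh.closed Φ U hΦ (cBase p) hp j l k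

/-- the block form of the Levi matrix of `nloc`. -/
theorem s4e_levi_nloc (hh : IsMetric 𝓜 h) (hΦ : 𝓜.IsHol Φ U) {p : CE (ι ⊕ ι)}
    (hp : p ∈ cotDom U) :
    levi (nloc h Φ) p = fromBlocks
      ((conR (h Φ) p)ᴴ * bmat h Φ (cBase p) * conR (h Φ) p + curR (h Φ) p)
      (- ((conR (h Φ) p)ᴴ * bmat h Φ (cBase p)))
      (- ((conR (h Φ) p)ᴴ * bmat h Φ (cBase p)))ᴴ
      (bmat h Φ (cBase p)) := by
  have hb : (bmat h Φ (cBase p)).IsHermitian := (hh.posDef hΦ _ hp).inv.isHermitian.transpose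
  have e : (- ((conR (h Φ) p)ᴴ * bmat h Φ (cBase p)))ᴴ = - (bmat h Φ (cBase p) * conR (h Φ) p) := by
    rw [conjTranspose_neg, conjTranspose_mul, conjTranspose_conjTranspose, hb.eq]
  rw [e]
  exact levi_dnorm_fromBlocks (CMfd.isOpen_dom hΦ) (hh.smooth hΦ) (hh.posDef hΦ) hp

theorem toBlocks₂₂_levi_nloc (hh : IsMetric 𝓜 h) (hΦ : 𝓜.IsHol Φ U) {p : CE (ι ⊕ ι)}
    (hp : p ∈ cotDom U) : (levi (nloc h Φ) p).toBlocks₂₂ = bmat h Φ (cBase p) := by
  rw [s4e_levi_nloc hh hΦ hp, toBlocks_fromBlocks₂₂]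

theorem s4e_trace_curR (hh : IsKahler 𝓜 h) (hΦ : 𝓜.IsHol Φ U) {p : CE (ι ⊕ ι)}
    (hp : p ∈ cotDom U) :
    (curR (h Φ) p * (h Φ (cBase p))⁻¹).trace.re =
      qf (ricF h Φ (cBase p)) ((h Φ (cBase p))⁻¹ *ᵥ star (cFib p)) := by
  set u : ι → ℂ := (h Φ (cBase p))⁻¹ *ᵥ star (cFib p) with hu
  have hcur : ∀ m l, curR (h Φ) p m l = ∑ k, ∑ j, star (u k) * Rm h Φ (cBase p) j k l m * u j := by
    intro m l
    show star u ⬝ᵥ (RmM (h Φ) (cBase p) l m *ᵥ u) = _
    simp only [dotProduct, Matrix.mulVec, Finset.mul_sum, Pi.star_apply, Rm_eq_RmM]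
    refine Finset.sum_congr rfl fun k _ => Finset.sum_congr rfl fun j _ => ?_
    ring
  rw [qf_eq_sum]
  congr 1
  simp only [Matrix.trace, Matrix.diag_apply, Matrix.mul_apply, hcur,
    ricF_eq_sum_Rm hh hΦ hp, Finset.sum_mul, Finset.mul_sum]
  rw [Finset.sum_congr rfl fun m _ => Finset.sum_comm, Finset.sum_comm]
  refine Finset.sum_congr rfl fun k _ => ?_
  rw [Finset.sum_congr rfl fun m _ => Finset.sum_comm, Finset.sum_comm]
  refine Finset.sum_congr rfl fun j _ => ?_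
  rw [Finset.sum_comm]
  refine Finset.sum_congr rfl fun l _ => Finset.sum_congr rfl fun m _ => ?_
  rw [Complex.star_def]
  ring

/-- `p(dd_Y N) = Ric(u, \bar u)`, `u` the metric dual of the covector. -/
theorem sympP_levi_nloc (hh : IsKahler 𝓜 h) (hΦ : 𝓜.IsHol Φ U) {p : CE (ι ⊕ ι)}
    (hp : p ∈ cotDom U) :
    sympP (levi (nloc h Φ) p) (Jstd ι) = qf (ricF h Φ (cBase p)) ((h Φ (cBase p))⁻¹ *ᵥ star (cFib p)) := by
  rw [s4e_levi_nloc hh.toIsMetric hΦ hp, sympP_block, ← s4e_trace_curR hh hΦ hp]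
  set R := conR (h Φ) p with hR
  set b := bmat h Φ (cBase p) with hb
  have hbH : b.IsHermitian := (hh.posDef hΦ _ hp).inv.isHermitian.transpose
  have hRs : Rᵀ = R := conR_symm hh hΦ hp
  have hbT : bᵀ = (h Φ (cBase p))⁻¹ := transpose_transpose _
  have e2 : ∑ i, ∑ j, (-(Rᴴ * b)) i j * star ((-(Rᴴ * b)) j i) = (Rᴴ * b * R * bᵀ).trace := by
    have e3 : (Rᴴ * b * R * bᵀ) = (-(Rᴴ * b)) * ((-(Rᴴ * b))ᴴ)ᵀ := by
      rw [conjTranspose_neg, conjTranspose_mul, conjTranspose_conjTranspose, hbH.eq,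
        transpose_neg, transpose_mul, hRs, Matrix.neg_mul, Matrix.mul_neg, neg_neg, Matrix.mul_assoc]
    rw [e3]
    simp only [Matrix.trace, Matrix.diag_apply, Matrix.mul_apply, transpose_apply,
      conjTranspose_apply]
  rw [e2, Matrix.add_mul, Matrix.trace_add, add_sub_cancel_left, hbT]

/-- the Levi matrix of a function of the base point. -/
theorem s4e_levi_base {e : CE ι → ℝ} {p : CE (ι ⊕ ι)} (he : ContDiffAt ℝ 2 e (cBase p)) :
    levi (fun q => e (cBase q)) p = fromBlocks (levi e (cBase p)) 0 0 0 := by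
  set L : CE (ι ⊕ ι) →L[ℂ] CE ι := LinearMap.toContinuousLinearMap
    { toFun := cBase
      map_add' := fun _ _ => rfl
      map_smul' := fun _ _ => rfl } with hL
  have hLc : ∀ q, L q = cBase q := fun q => rfl
  have hd : ∀ q, DifferentiableAt ℂ (cBase : CE (ι ⊕ ι) → CE ι) q := fun q => L.differentiableAt
  have hjac : jac (cBase : CE (ι ⊕ ι) → CE ι) p = fromCols 1 0 := by
    ext k a
    show fderiv ℂ (cBase : CE (ι ⊕ ι) → CE ι) p (eb a) k = _
    have : fderiv ℂ (cBase : CE (ι ⊕ ι) → CE ι) p = L := L.hasFDerivAt.fderiv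
    rw [this, hLc]
    rcases a with a | a
    · simp [cBase, eb_apply, Matrix.one_apply, eq_comm]
    · simp [cBase, eb_apply]
  rw [levi_comp_hol cBase e (Filter.Eventually.of_forall hd) he, hjac]
  ext a c
  rcases a with a | a <;> rcases c with c | c <;>
    simp [Matrix.mul_apply, conjTranspose_apply, Matrix.one_apply]

/-- adding a base function (chart form of (4.6)); `e` is only `C²` near the base point. -/
theorem sympP_levi_add_base (hh : IsMetric 𝓜 h) (hΦ : 𝓜.IsHol Φ U) {p : CE (ι ⊕ ι)}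
    (hp : p ∈ cotDom U) {e : CE ι → ℝ} (he : ContDiffAt ℝ 2 e (cBase p)) :
    sympP (levi (fun q => nloc h Φ q + e (cBase q)) p) (Jstd ι) =
      sympP (levi (nloc h Φ) p) (Jstd ι) + lapP (h Φ (cBase p)) e (cBase p) := by
  have h1 : ContDiffAt ℝ 2 (nloc h Φ) p :=
    griff_contDiffAt_dnorm (CMfd.isOpen_dom hΦ) (hh.smooth hΦ) (hh.posDef hΦ) hp
  have h2 : ContDiffAt ℝ 2 (fun q : CE (ι ⊕ ι) => e (cBase q)) p :=
    he.comp p (s6f_contDiff_cBase.contDiffAt.of_le lv_two_le_infty)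
  rw [levi_add h1 h2, s4e_levi_base he, s4e_levi_nloc hh hΦ hp, fromBlocks_add]
  simp only [add_zero]
  rw [sympP_add_horizontal]
  congr 1
  unfold lapP
  rw [Matrix.trace_mul_comm]
  rfl

end manifold

section flow

variable {V : Type} [NormedAddCommGroup V] [InnerProductSpace ℝ V] [FiniteDimensional ℝ V]
variable [MeasurableSpace V] [BorelSpace V]
variable {n : ℕ} {𝓜 : CMfd V (Fin n)} {g : HFam V (Fin n)} {o : V}
variable (D : FlowData 𝓜 g o) {Φ : CE (Fin n) → V} {U : Set (CE (Fin n))}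

theorem hasDerivAt_nloc (hg : IsMetric 𝓜 g) (hΦ : 𝓜.IsHol Φ U) {p : CE (Fin n ⊕ Fin n)}
    (hp : p ∈ cotDom U) {t : ℝ} (ht : 0 < t) :
    HasDerivAt (fun s => nloc (D.h s) Φ p)
      (qf (ricF (D.h t) Φ (cBase p)) ((D.h t Φ (cBase p))⁻¹ *ᵥ star (cFib p))) t := by
  have hm : IsMetric 𝓜 (D.h t) := (D.kahler t ht.le).toIsMetric
  have hpd := hm.posDef hΦ _ hp
  have hG : ((D.h t Φ (cBase p))⁻¹).IsHermitian := hpd.inv.isHermitian
  have h1 := hasDerivAt_matInv (H := fun s => D.h s Φ (cBase p))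
    (H' := - D.ric t Φ (cBase p)) (fun j k => fc_dt_h D hg hΦ ht hp j k) hpd.det_pos.ne'
  have h2 := griff_hasDerivAt_qf (M := fun s => (D.h s Φ (cBase p))⁻¹) (y := fun _ => star (cFib p))
    (y' := 0) h1 hG (fun j => hasDerivAt_const _ _)
  have e1 : (fun s => nloc (D.h s) Φ p) = fun s => qf (D.h s Φ (cBase p))⁻¹ (star (cFib p)) := by
    funext s
    exact qf_transpose _ _
  rw [e1]
  convert h2 using 1
  rw [Matrix.mulVec_zero, dotProduct_zero, Complex.zero_re, mul_zero, add_zero]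
  have e2 : -((D.h t Φ (cBase p))⁻¹ * -D.ric t Φ (cBase p) * (D.h t Φ (cBase p))⁻¹) =
      ((D.h t Φ (cBase p))⁻¹)ᴴ * ricF (D.h t) Φ (cBase p) * (D.h t Φ (cBase p))⁻¹ := by
    rw [hG.eq, Matrix.mul_neg, Matrix.neg_mul, neg_neg]
    rfl
  rw [e2, qf_conj]

/-- **Lemma 4.1**, (4.5): `∂_t N = p(dd_Y N)`, in the cotangent chart over `Φ`. -/
theorem hasDerivAt_nloc_sympP (hg : IsMetric 𝓜 g) (hΦ : 𝓜.IsHol Φ U) {p : CE (Fin n ⊕ Fin n)}
    (hp : p ∈ cotDom U) {t : ℝ} (ht : 0 < t) :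
    HasDerivAt (fun s => nloc (D.h s) Φ p) (sympP (levi (nloc (D.h t) Φ) p) (Jstd (Fin n))) t := by
  have hk : IsKahler 𝓜 (D.h t) := D.kahler t ht.le
  rw [sympP_levi_nloc hk hΦ hp]
  exact hasDerivAt_nloc D hg hΦ hp ht

/-- **Lemma 4.1** in the form of `S5/FromS4.lean`. -/
theorem symplectic_evolution (I : InitialData 𝓜 g) (hΦ : 𝓜.IsHol Φ U) {p : CE (Fin n ⊕ Fin n)}
    (hp : p ∈ cotDom U) {t : ℝ} (ht : 0 < t) {d : V → ℝ} (hd : ContDiffAt ℝ 2 (d ∘ Φ) (cBase p)) :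
    sympP (levi (fun p' => D.N (cotParam Φ p') t + d (cotParam Φ p').1) p) (Jstd (Fin n)) =
      deriv (fun s => D.N (cotParam Φ p) s) t + lap 𝓜 (D.h t) d (cotParam Φ p).1 := by
  have hg : IsMetric 𝓜 g := I.kahler.toIsMetric
  have hm : IsMetric 𝓜 (D.h t) := (D.kahler t ht.le).toIsMetric
  have hz : cBase p ∈ U := hp
  have hopen : IsOpen (cotDom U) := s6g_isOpen_cotDom (𝓜.isParam hΦ).isOpen
  -- the spatial function
  have e1 : (fun p' => D.N (cotParam Φ p') t + d (cotParam Φ p').1)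
      =ᶠ[𝓝 p] fun q => nloc (D.h t) Φ q + (d ∘ Φ) (cBase q) := by
    filter_upwards [hopen.mem_nhds hp] with q hq
    rw [s6g_N_chart D hΦ hq ht.le]
    rfl
  rw [levi_congr e1, sympP_levi_add_base hm hΦ hp hd]
  -- the time derivative
  have e2 : (fun s => D.N (cotParam Φ p) s) =ᶠ[𝓝 t] fun s => nloc (D.h s) Φ p := by
    filter_upwards [lt_mem_nhds ht] with s hs
    exact s6g_N_chart D hΦ hp hs.le
  rw [e2.deriv_eq, (hasDerivAt_nloc_sympP D hg hΦ hp ht).deriv]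
  -- the Laplacian
  have e3 : lap 𝓜 (D.h t) d (cotParam Φ p).1 = lapP (D.h t Φ (cBase p)) (d ∘ Φ) (cBase p) :=
    lap_eq_of_c2At hm hΦ hz ((CMfd.c2At_iff hΦ hz).2 hd)
  rw [e3]

end flow

end Claimed.Agent.R316.S4
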