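import Mathlib

/-!
# Row 316, Section 4, BP-S4-FR, part 1 (`FR1`): holomorphic frames of a constant rank matrix function near the closed unit disc

MATHLIB ONLY (no manifold, no paper).  `K = closedBall 0 1 ⊆ ℂ`; "holomorphic near `K`" is `AnalyticOnNhd ℂ h K`.

**`exists_hol_frame`**: `P : ℂ → Matrix α β ℂ` holomorphic near `K`, `rank P(z) = d` on `K`  ⟹  there are `E` (`α × d`) and a LEFT INVERSE `A` (`d × α`), holomorphic near `K`,
with `A E = 1` and `range E(z) = range P(z)` on `K`.  No `∂̄`, no Grauert: induction on `d` (glue PROVED below) from five leaves.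

## Leaves
* `S4-FR-1a` `fr1_poly_factor`: `h` holomorphic near `K`, `h ≢ 0` on `K` ⟹ `h = p u` on `K`, `p ≠ 0` a polynomial, `u` holomorphic near `K` without zeros in `K`.
  Plan: `K` is compact and preconnected, so `h` has finite order at every point of `K` (`AnalyticOnNhd.eqOn_zero_of_preconnected_of_frequently_eq_zero` / `analyticOrderAt_ne_top` propagation:
  `AnalyticOnNhd.exists_analyticOrderAt_ne_top_iff_forall`), and finitely many zeros in `K` (isolated zeros + compactness).  Either use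
  `MeromorphicOn.extract_zeros_poles` (`Mathlib/Analysis/Meromorphic/FactorizedRational.lean`; the divisor of an analytic function is `≥ 0`, finite support on the compact `K`), or a direct induction on
  `∑_{w ∈ Z} analyticOrderNatAt h w` dividing by `z - w` with `dslope` (`dslope h w` is analytic where `h` is: away from `w` it is `(h z - h w) / (z - w)`, at `w` use `AnalyticAt` of `dslope`, `AnalyticAt.analyticOrderAt…`).
* `S4-FR-1b` `fr1_unimodular`: a column `c` holomorphic near `K`, `c ≢ 0` ⟹ `c = g s` with `g ≠ 0` a polynomial and `e · s = 1`, `s`, `e` holomorphic near `K`.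
  Plan: `c_i = p_i u_i` (`fr1_poly_factor`; `p_i = 0`, `u_i = 1` if `c_i ≡ 0` on `K`).  `ℂ[X]` is a PID: `Ideal.span (Set.range p) = Ideal.span {g}` (`IsPrincipalIdealRing`, `Submodule.IsPrincipal.generator`), `g ≠ 0`,
  `p_i = g p̃_i`, `g = ∑ b_i p_i` (`Ideal.mem_span_range_iff_exists_fun` / `Finsupp`), hence `∑ b_i p̃_i = 1`.  `s_i = p̃_i u_i`, `e_i = b_i / u_i`.
* `S4-FR-1c` `fr1_mem_range_closure`: the range of a continuous matrix function of constant rank is closed: if `g(z) s(z) ∈ range P(z)` on `K` then `s(z) ∈ range P(z)` on `K`.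
  Plan: only the finitely many roots `z₀ ∈ K` of `g` matter.  Choose `d` columns `B(z) = (P z).submatrix id ι` independent at `z₀` (`Matrix.rank` = finrank of the span of the columns: `Matrix.rank_eq_finrank_span_cols`, `exists_linearIndependent`…).
  `det (B(z)ᴴ B(z)) ≠ 0` at `z₀`, hence for `z ∈ K` near `z₀` (continuity); there `range B(z) = range P(z)` (inclusion + equal finrank `d`), so `s(z) = B (BᴴB)⁻¹ Bᴴ s (z)` for `z ∈ K` near `z₀`, `z ≠ z₀`;
  both sides are continuous on `K` and `z₀` is an accumulation point of `K \ {z₀}` (`K` is a closed ball of positive radius), so the identity holds at `z₀`.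
* `S4-FR-1d` `fr1_rank_step`, `fr1_frame_step`: pointwise linear algebra.  `Q = 1 - s eᵀ` is a projection (`Q² = Q`, `Q s = 0`, `eᵀ Q = 0`) with kernel `ℂ s`; `Q` maps `range M` into itself (`Q v = v - (e·v) s`) with kernel `ℂ s ⊆ range M`: rank-nullity gives `rank (Q M) = d`.
  `E = [s | E₁]`, `A = [e ; A₁ Q]`: `Q E₁ = E₁` (columns of `E₁` are in `range Q M`), `e E₁ = e Q E₁ = 0`, `A₁ Q s = 0`, `A₁ Q E₁ = 1`.  `range E ⊆ range M`, `E` injective (left inverse), finrank `d + 1` on both sides.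
* `S4-FR-1e` `exists_hol_frame'`: reindexing `Fin (card κ) ≃ κ`.
-/

set_option autoImplicit false
set_option linter.unusedSectionVars false
open scoped Matrix Polynomial
open Metric

namespace Claimed.Agent.R316.S4

section scalar

theorem fr1_neBot {z : ℂ} (hz : z ∈ closedBall (0 : ℂ) 1) :
    (nhdsWithin z (closedBall (0 : ℂ) 1 \ {z})).NeBot := by
  rw [← accPt_principal_iff_nhdsWithin]
  refine IsPreconnected.preperfect_of_nontrivial ?_ (convex_closedBall (0 : ℂ) 1).isPreconnected z hz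
  exact ⟨0, by simp, 1, by simp, by simp⟩

theorem fr1_poly_factor {h : ℂ → ℂ} (hh : AnalyticOnNhd ℂ h (closedBall 0 1))
    (h0 : ∃ z ∈ closedBall (0 : ℂ) 1, h z ≠ 0) :
    ∃ (p : ℂ[X]) (u : ℂ → ℂ), p ≠ 0 ∧ AnalyticOnNhd ℂ u (closedBall 0 1) ∧
      (∀ z ∈ closedBall (0 : ℂ) 1, u z ≠ 0) ∧ ∀ z ∈ closedBall (0 : ℂ) 1, h z = p.eval z * u z := by
  set K : Set ℂ := closedBall (0 : ℂ) 1 with hK
  have hconn : IsConnected K := (convex_closedBall (0 : ℂ) 1).isConnected ⟨0, by simp⟩
  have hmer : MeromorphicOn h K := hh.meromorphicOn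
  have hord : ∀ u : K, meromorphicOrderAt h u ≠ ⊤ := by
    rw [← hmer.exists_meromorphicOrderAt_ne_top_iff_forall hconn]
    obtain ⟨z, hz, hne⟩ := h0
    refine ⟨⟨z, hz⟩, ?_⟩
    rw [(hh z hz).meromorphicOrderAt_eq, (hh z hz).analyticOrderAt_eq_zero.mpr hne]
    simp
  set D := MeromorphicOn.divisor h K with hD
  have hfin : D.support.Finite := D.finiteSupport (isCompact_closedBall 0 1)
  have hnn : ∀ u, 0 ≤ D u := fun u => MeromorphicOn.AnalyticOnNhd.divisor_nonneg hh u
  obtain ⟨g, hg, hg0, hEq⟩ := hmer.extract_zeros_poles hord hfin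
  refine ⟨∏ u ∈ hfin.toFinset, (Polynomial.X - Polynomial.C u) ^ (D u).toNat, g, ?_, hg,
    fun z hz => hg0 ⟨z, hz⟩, ?_⟩
  · exact Finset.prod_ne_zero_iff.mpr fun u _ => pow_ne_zero _ (Polynomial.X_sub_C_ne_zero u)
  · have hev : ∀ z, (∏ᶠ u, (· - u) ^ D u : ℂ → ℂ) z =
        (∏ u ∈ hfin.toFinset, (Polynomial.X - Polynomial.C u) ^ (D u).toNat : ℂ[X]).eval z := by
      intro z
      rw [Function.FactorizedRational.finprod_eq_fun hfin]
      show ∏ᶠ (u : ℂ), (z - u) ^ D u = _
      rw [finprod_eq_prod_of_mulSupport_subset (s := hfin.toFinset)]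
      · rw [Polynomial.eval_prod]
        refine Finset.prod_congr rfl fun u _ => ?_
        simp only [Polynomial.eval_pow, Polynomial.eval_sub, Polynomial.eval_X, Polynomial.eval_C]
        conv_lhs => rw [← Int.toNat_of_nonneg (hnn u)]
        rw [zpow_natCast]
      · intro u
        contrapose
        simp_all
    intro z hz
    have h1 : ∀ᶠ y in nhdsWithin z (K \ {z}), h y = ((∏ᶠ u, (· - u) ^ D u) • g : ℂ → ℂ) y := by
      have := hEq
      rw [Filter.EventuallyEq, Filter.codiscreteWithin, Filter.eventually_iSup] at this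
      have := this z
      rw [Filter.eventually_iSup] at this
      exact this hz
    have := fr1_neBot hz
    have h2 : Filter.Tendsto h (nhdsWithin z (K \ {z})) (nhds (h z)) :=
      ((hh z hz).continuousAt.tendsto).mono_left nhdsWithin_le_nhds
    set p : ℂ[X] := ∏ u ∈ hfin.toFinset, (Polynomial.X - Polynomial.C u) ^ (D u).toNat with hp
    have h3 : Filter.Tendsto (fun y => p.eval y * g y) (nhdsWithin z (K \ {z}))
        (nhds (p.eval z * g z)) :=
      ((p.continuous.continuousAt.mul (hg z hz).continuousAt).tendsto).mono_left nhdsWithin_le_nhds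
    refine tendsto_nhds_unique (h2.congr' ?_) h3
    filter_upwards [h1] with y hy
    rw [hy, Pi.smul_apply', hev, smul_eq_mul]

end scalar

variable {α β : Type} [Fintype α] [DecidableEq α] [Fintype β] [DecidableEq β]

theorem fr1_unimodular {c : ℂ → α → ℂ} (hc : ∀ i, AnalyticOnNhd ℂ (fun z => c z i) (closedBall 0 1))
    (h0 : ∃ z ∈ closedBall (0 : ℂ) 1, c z ≠ 0) :
    ∃ (g : ℂ[X]) (s e : ℂ → α → ℂ), g ≠ 0 ∧
      (∀ i, AnalyticOnNhd ℂ (fun z => s z i) (closedBall 0 1)) ∧
      (∀ i, AnalyticOnNhd ℂ (fun z => e z i) (closedBall 0 1)) ∧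
      ∀ z ∈ closedBall (0 : ℂ) 1, c z = g.eval z • s z ∧ e z ⬝ᵥ s z = 1 := by
  set K : Set ℂ := closedBall (0 : ℂ) 1 with hK
  have hfac : ∀ i, ∃ (p : ℂ[X]) (u : ℂ → ℂ), AnalyticOnNhd ℂ u K ∧ (∀ z ∈ K, u z ≠ 0) ∧
      (∀ z ∈ K, c z i = p.eval z * u z) ∧ ((∃ z ∈ K, c z i ≠ 0) → p ≠ 0) := by
    intro i
    by_cases h : ∃ z ∈ K, c z i ≠ 0
    · obtain ⟨p, u, hp, hu, hu0, hpu⟩ := fr1_poly_factor (hc i) h
      exact ⟨p, u, hu, hu0, hpu, fun _ => hp⟩
    · refine ⟨0, fun _ => 1, analyticOnNhd_const, by simp, ?_, fun h' => absurd h' h⟩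
      push Not at h
      simpa using h
  choose p u hu hu0 hcp hp0 using hfac
  obtain ⟨g, hg⟩ : ∃ g, Ideal.span (Set.range p) = Ideal.span {g} := by
    obtain ⟨g, hg⟩ := (IsPrincipalIdealRing.principal (Ideal.span (Set.range p))).principal
    exact ⟨g, hg⟩
  have hmem : ∀ i, p i ∈ Ideal.span {g} := fun i => hg ▸ Ideal.subset_span ⟨i, rfl⟩
  have hg0 : g ≠ 0 := by
    rintro rfl
    obtain ⟨z, hz, hne⟩ := h0
    obtain ⟨i, hi⟩ : ∃ i, c z i ≠ 0 := by
      by_contra hcon
      push Not at hcon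
      exact hne (funext hcon)
    have := hmem i
    simp only [Ideal.span_singleton_zero, Ideal.mem_bot] at this
    exact hp0 i ⟨z, hz, hi⟩ this
  have hdiv : ∀ i, ∃ q, q * g = p i := fun i => Ideal.mem_span_singleton'.mp (hmem i)
  choose q hq using hdiv
  obtain ⟨b, hb⟩ : ∃ b : α → ℂ[X], ∑ i, b i * p i = g := by
    have : g ∈ Ideal.span (Set.range p) := hg ▸ Ideal.mem_span_singleton_self g
    exact (Ideal.mem_span_range_iff_exists_fun).mp this
  have hone : ∑ i, b i * q i = 1 := by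
    apply mul_right_cancel₀ hg0
    rw [Finset.sum_mul, one_mul]
    conv_rhs => rw [← hb]
    refine Finset.sum_congr rfl fun i _ => ?_
    rw [← hq i, mul_assoc]
  have hpol : ∀ r : ℂ[X], AnalyticOnNhd ℂ (fun z => r.eval z) K :=
    fun r => (AnalyticOnNhd.eval_polynomial r).mono (Set.subset_univ _)
  refine ⟨g, fun z i => (q i).eval z * u i z, fun z i => (b i).eval z * (u i z)⁻¹, hg0,
    fun i => (hpol _).mul (hu i), fun i => (hpol _).mul ((hu i).inv (hu0 i)), fun z hz => ⟨?_, ?_⟩⟩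
  · ext i
    simp only [Pi.smul_apply, smul_eq_mul]
    rw [hcp i z hz, ← hq i, Polynomial.eval_mul]
    ring
  · have := congrArg (Polynomial.eval z) hone
    rw [Polynomial.eval_finsetSum, Polynomial.eval_one] at this
    rw [← this]
    simp only [dotProduct]
    refine Finset.sum_congr rfl fun i _ => ?_
    rw [Polynomial.eval_mul]
    have := hu0 i z hz
    field_simp

theorem fr1_mem_range_closure {P : ℂ → Matrix α β ℂ} {d : ℕ}
    (hP : ∀ i j, ContinuousOn (fun z => P z i j) (closedBall 0 1))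
    (hr : ∀ z ∈ closedBall (0 : ℂ) 1, (P z).rank = d) {s : ℂ → α → ℂ}
    (hs : ∀ i, ContinuousOn (fun z => s z i) (closedBall 0 1)) {g : ℂ[X]} (hg : g ≠ 0)
    (h : ∀ z ∈ closedBall (0 : ℂ) 1, g.eval z • s z ∈ LinearMap.range (P z).mulVecLin) :
    ∀ z ∈ closedBall (0 : ℂ) 1, s z ∈ LinearMap.range (P z).mulVecLin := by
  intro z₀ hz₀
  by_contra hcon
  set K : Set ℂ := closedBall (0 : ℂ) 1 with hK
  set R₀ := LinearMap.range (P z₀).mulVecLin with hR₀
  have hfr : Module.finrank ℂ R₀ = d := hr z₀ hz₀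
  let b := Module.finBasisOfFinrankEq ℂ R₀ hfr
  have hw : ∀ i, ∃ w : β → ℂ, P z₀ *ᵥ w = (b i : α → ℂ) := fun i => (b i).2
  choose w hw using hw
  let F : ℂ → Fin (d + 1) → (α → ℂ) := fun z => Fin.cons (s z) (fun i => P z *ᵥ w i)
  have hF0 : LinearIndependent ℂ (F z₀) := by
    rw [linearIndependent_finCons]
    constructor
    · have h1 : LinearIndependent ℂ (fun i => (b i : α → ℂ)) :=
        b.linearIndependent.map' R₀.subtype (Submodule.ker_subtype _)
      have h2 : (fun i => P z₀ *ᵥ w i) = fun i => (b i : α → ℂ) := funext hw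
      rw [h2]
      exact h1
    · intro hmem
      apply hcon
      have : Submodule.span ℂ (Set.range fun i => P z₀ *ᵥ w i) ≤ R₀ := by
        rw [Submodule.span_le]
        rintro _ ⟨i, rfl⟩
        exact ⟨w i, rfl⟩
      exact this hmem
  have hFc : ContinuousWithinAt F K z₀ := by
    rw [continuousWithinAt_pi]
    intro k
    rw [continuousWithinAt_pi]
    intro a
    refine Fin.cases ?_ (fun i => ?_) k
    · exact hs a z₀ hz₀
    · show ContinuousWithinAt (fun z => (P z *ᵥ w i) a) K z₀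
      simp only [Matrix.mulVec, dotProduct]
      exact tendsto_finsetSum _ fun j _ => (hP a j z₀ hz₀).mul continuousWithinAt_const
  have h1 : ∀ᶠ z in nhdsWithin z₀ (K \ {z₀}), LinearIndependent ℂ (F z) :=
    (hFc.eventually hF0.eventually).filter_mono (nhdsWithin_mono _ Set.sdiff_subset)
  have h2 : ∀ᶠ z in nhdsWithin z₀ (K \ {z₀}), g.eval z ≠ 0 := by
    have hfin : ((g.roots.toFinset : Set ℂ) \ {z₀}).Finite := (Finset.finite_toSet _).subset Set.sdiff_subset
    have hopen : ((g.roots.toFinset : Set ℂ) \ {z₀})ᶜ ∈ nhds z₀ :=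
      hfin.isClosed.isOpen_compl.mem_nhds (by simp)
    filter_upwards [nhdsWithin_le_nhds hopen, self_mem_nhdsWithin] with z hz1 hz2 hz3
    apply hz1
    refine ⟨?_, hz2.2⟩
    simp [hg, hz3]
  have := fr1_neBot hz₀
  obtain ⟨z, hli, hgz, hzK⟩ := (h1.and (h2.and self_mem_nhdsWithin)).exists
  have hsz : s z ∈ LinearMap.range (P z).mulVecLin := by
    have := Submodule.smul_mem _ (g.eval z)⁻¹ (h z hzK.1)
    rwa [smul_smul, inv_mul_cancel₀ hgz, one_smul] at this
  have hle : Submodule.span ℂ (Set.range (F z)) ≤ LinearMap.range (P z).mulVecLin := by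
    rw [Submodule.span_le]
    rintro _ ⟨k, rfl⟩
    refine Fin.cases ?_ (fun i => ?_) k
    · exact hsz
    · exact ⟨w i, rfl⟩
  have h3 := Submodule.finrank_mono hle
  rw [finrank_span_eq_card hli] at h3
  have h4 : Module.finrank ℂ (LinearMap.range (P z).mulVecLin) = d := hr z hzK.1
  rw [h4] at h3
  simp at h3

theorem fr1_proj_mulVec (s e v : α → ℂ) :
    (1 - Matrix.vecMulVec s e) *ᵥ v = v - (e ⬝ᵥ v) • s := by
  rw [Matrix.sub_mulVec, Matrix.one_mulVec, Matrix.vecMulVec_mulVec]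
  ext i
  simp [mul_comm]

theorem fr1_rank_step {M : Matrix α β ℂ} {d : ℕ} (hM : M.rank = d + 1) {s e : α → ℂ}
    (hs : s ∈ LinearMap.range M.mulVecLin) (hes : e ⬝ᵥ s = 1) :
    ((1 - Matrix.vecMulVec s e) * M).rank = d := by
  set Q : Matrix α α ℂ := 1 - Matrix.vecMulVec s e with hQ
  set R := LinearMap.range M.mulVecLin with hR
  have hs0 : s ≠ 0 := by
    rintro rfl
    simp at hes
  have h1 := LinearMap.finrank_range_add_finrank_ker (Q.mulVecLin.domRestrict R)
  have h2 : LinearMap.range (Q.mulVecLin.domRestrict R) = LinearMap.range (Q * M).mulVecLin := by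
    rw [LinearMap.range_domRestrict, Matrix.mulVecLin_mul, LinearMap.range_comp]
  have h3 : LinearMap.ker (Q.mulVecLin.domRestrict R) = Submodule.span ℂ {(⟨s, hs⟩ : R)} := by
    ext ⟨v, hv⟩
    rw [LinearMap.mem_ker, Submodule.mem_span_singleton]
    simp only [LinearMap.domRestrict_apply, Matrix.mulVecLin_apply]
    rw [hQ, fr1_proj_mulVec]
    constructor
    · intro h
      refine ⟨e ⬝ᵥ v, ?_⟩
      ext1
      simp only [Submodule.coe_smul]
      exact (sub_eq_zero.mp h).symm
    · rintro ⟨a, ha⟩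
      have : v = a • s := by
        have := congrArg Subtype.val ha
        simpa using this.symm
      rw [this, dotProduct_smul, hes]
      simp
  have h4 : Module.finrank ℂ (LinearMap.ker (Q.mulVecLin.domRestrict R)) = 1 := by
    rw [h3]
    apply finrank_span_singleton
    intro h
    exact hs0 (congrArg Subtype.val h)
  have h5 : Module.finrank ℂ R = d + 1 := hM
  rw [h2, h4, h5] at h1
  have : (Q * M).rank = Module.finrank ℂ (LinearMap.range (Q * M).mulVecLin) := rfl
  omega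

/-- `[s | E]`. -/
def consCol {d : ℕ} (s : α → ℂ) (E : Matrix α (Fin d) ℂ) : Matrix α (Fin (d + 1)) ℂ :=
  Matrix.of fun i => Matrix.vecCons (s i) (E i)

/-- `[e ; A]`. -/
def consRow {d : ℕ} (e : α → ℂ) (A : Matrix (Fin d) α ℂ) : Matrix (Fin (d + 1)) α ℂ :=
  Matrix.of (Matrix.vecCons e A)

theorem fr1_consRow_zero {d : ℕ} (e : α → ℂ) (A : Matrix (Fin d) α ℂ) (j : α) :
    consRow e A 0 j = e j := rfl

theorem fr1_consRow_succ {d : ℕ} (e : α → ℂ) (A : Matrix (Fin d) α ℂ) (i : Fin d) (j : α) :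
    consRow e A i.succ j = A i j := rfl

theorem fr1_consCol_zero {d : ℕ} (s : α → ℂ) (E : Matrix α (Fin d) ℂ) (i : α) :
    consCol s E i 0 = s i := rfl

theorem fr1_consCol_succ {d : ℕ} (s : α → ℂ) (E : Matrix α (Fin d) ℂ) (i : α) (k : Fin d) :
    consCol s E i k.succ = E i k := rfl

theorem fr1_consCol_mulVec {d : ℕ} (s : α → ℂ) (E : Matrix α (Fin d) ℂ) (w : Fin (d + 1) → ℂ) :
    consCol s E *ᵥ w = w 0 • s + E *ᵥ (fun k => w k.succ) := by
  ext i
  simp only [Matrix.mulVec, dotProduct, consCol, Matrix.of_apply, Fin.sum_univ_succ,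
    Matrix.cons_val_zero, Matrix.cons_val_succ, Pi.add_apply, Pi.smul_apply, smul_eq_mul]
  ring

theorem fr1_frame_step {M : Matrix α β ℂ} {d : ℕ} (hM : M.rank = d + 1) {s e : α → ℂ}
    (hs : s ∈ LinearMap.range M.mulVecLin) (hes : e ⬝ᵥ s = 1) {E₁ : Matrix α (Fin d) ℂ}
    {A₁ : Matrix (Fin d) α ℂ} (hAE : A₁ * E₁ = 1)
    (hrange : LinearMap.range E₁.mulVecLin =
      LinearMap.range ((1 - Matrix.vecMulVec s e) * M).mulVecLin) :
    consRow e (A₁ * (1 - Matrix.vecMulVec s e)) * consCol s E₁ = 1 ∧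
      LinearMap.range (consCol s E₁).mulVecLin = LinearMap.range M.mulVecLin := by
  set Q : Matrix α α ℂ := 1 - Matrix.vecMulVec s e with hQ
  have hQs : Q *ᵥ s = 0 := by
    rw [hQ, fr1_proj_mulVec, hes]; simp
  -- every vector in the range of `E₁` is killed by `e`
  have hcol : ∀ v ∈ LinearMap.range E₁.mulVecLin, e ⬝ᵥ v = 0 ∧ v ∈ LinearMap.range M.mulVecLin := by
    intro v hv
    rw [hrange] at hv
    obtain ⟨w, rfl⟩ := hv
    rw [Matrix.mulVecLin_apply, ← Matrix.mulVec_mulVec, hQ, fr1_proj_mulVec]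
    constructor
    · rw [dotProduct_sub, dotProduct_smul, hes]; simp
    · exact Submodule.sub_mem _ ⟨w, rfl⟩ (Submodule.smul_mem _ _ hs)
  have hE1 : ∀ k, (fun i => E₁ i k) ∈ LinearMap.range E₁.mulVecLin := by
    intro k
    refine ⟨Pi.single k 1, ?_⟩
    ext i
    simp
  have hmain : consRow e (A₁ * Q) * consCol s E₁ = 1 := by
    ext i j
    rw [Matrix.mul_apply]
    refine Fin.cases ?_ (fun i' => ?_) i <;> refine Fin.cases ?_ (fun j' => ?_) j
    · simp only [fr1_consRow_zero, fr1_consCol_zero]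
      simpa [dotProduct] using hes
    · have := (hcol _ (hE1 j')).1
      simp only [fr1_consRow_zero, fr1_consCol_succ]
      rw [Matrix.one_apply_ne (Fin.succ_ne_zero j').symm]
      simpa [dotProduct] using this
    · have h1 : (A₁ * Q) *ᵥ s = 0 := by rw [← Matrix.mulVec_mulVec, hQs]; simp
      have := congrFun h1 i'
      simp only [fr1_consRow_succ, fr1_consCol_zero]
      rw [Matrix.one_apply_ne (Fin.succ_ne_zero i')]
      simpa [Matrix.mulVec, dotProduct] using this
    · have h0 := (hcol _ (hE1 j')).1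
      have h1 : (A₁ * Q) *ᵥ (fun i => E₁ i j') = A₁ *ᵥ (fun i => E₁ i j') := by
        rw [← Matrix.mulVec_mulVec, hQ, fr1_proj_mulVec, h0]; simp
      have h2 := congrFun h1 i'
      have h3 : (A₁ * E₁) i' j' = (1 : Matrix (Fin d) (Fin d) ℂ) i' j' := by rw [hAE]
      rw [Matrix.mul_apply] at h3
      simp only [Matrix.mulVec, dotProduct] at h2
      simp only [fr1_consRow_succ, fr1_consCol_succ]
      rw [h2, h3]
      simp [Matrix.one_apply]
  refine ⟨hmain, ?_⟩
  apply Submodule.eq_of_le_of_finrank_eq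
  · rintro _ ⟨w, rfl⟩
    rw [Matrix.mulVecLin_apply, fr1_consCol_mulVec]
    exact Submodule.add_mem _ (Submodule.smul_mem _ _ hs) (hcol _ ⟨_, rfl⟩).2
  · have hinj : Function.Injective (consCol s E₁).mulVecLin := by
      intro v w hvw
      have := congrArg (fun x => consRow e (A₁ * Q) *ᵥ x) hvw
      simpa [Matrix.mulVec_mulVec, hmain] using this
    rw [LinearMap.finrank_range_of_inj hinj]
    have : Module.finrank ℂ (LinearMap.range M.mulVecLin) = d + 1 := hM
    rw [this]
    simp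

theorem fr1_analytic_mul {γ δ ε : Type} [Fintype δ] {A : ℂ → Matrix γ δ ℂ} {B : ℂ → Matrix δ ε ℂ}
    {S : Set ℂ} (hA : ∀ i j, AnalyticOnNhd ℂ (fun z => A z i j) S)
    (hB : ∀ i j, AnalyticOnNhd ℂ (fun z => B z i j) S) (i : γ) (j : ε) :
    AnalyticOnNhd ℂ (fun z => (A z * B z) i j) S := by
  simp only [Matrix.mul_apply]
  exact Finset.analyticOnNhd_fun_sum _ fun k _ => (hA i k).mul (hB k j)

theorem fr1_analytic_proj {s e : ℂ → α → ℂ} {S : Set ℂ}
    (hs : ∀ i, AnalyticOnNhd ℂ (fun z => s z i) S) (he : ∀ i, AnalyticOnNhd ℂ (fun z => e z i) S)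
    (i j : α) : AnalyticOnNhd ℂ (fun z => (1 - Matrix.vecMulVec (s z) (e z)) i j) S := by
  simp only [Matrix.sub_apply, Matrix.vecMulVec_apply]
  exact analyticOnNhd_const.sub ((hs i).mul (he j))

/-- **FR1.** -/
theorem exists_hol_frame (d : ℕ) : ∀ (P : ℂ → Matrix α β ℂ),
    (∀ i j, AnalyticOnNhd ℂ (fun z => P z i j) (closedBall 0 1)) →
    (∀ z ∈ closedBall (0 : ℂ) 1, (P z).rank = d) →
    ∃ (E : ℂ → Matrix α (Fin d) ℂ) (A : ℂ → Matrix (Fin d) α ℂ),
      (∀ i j, AnalyticOnNhd ℂ (fun z => E z i j) (closedBall 0 1)) ∧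
      (∀ i j, AnalyticOnNhd ℂ (fun z => A z i j) (closedBall 0 1)) ∧
      ∀ z ∈ closedBall (0 : ℂ) 1, A z * E z = 1 ∧
        LinearMap.range (E z).mulVecLin = LinearMap.range (P z).mulVecLin := by
  induction d with
  | zero =>
    intro P _ hr
    refine ⟨fun _ => 0, fun _ => 0, fun i j => analyticOnNhd_const,
      fun i j => analyticOnNhd_const, fun z hz => ⟨Subsingleton.elim _ _, ?_⟩⟩
    have h1 : Module.finrank ℂ (LinearMap.range (P z).mulVecLin) = 0 := hr z hz
    rw [Submodule.finrank_eq_zero] at h1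
    rw [h1]
    simp
  | succ d ih =>
    intro P hP hr
    have hmem : (0 : ℂ) ∈ closedBall (0 : ℂ) 1 := by simp
    have h0 : P 0 ≠ 0 := by
      intro h
      have := hr 0 hmem
      rw [h, Matrix.rank_zero] at this
      omega
    obtain ⟨i0, j0, hij⟩ : ∃ i j, P 0 i j ≠ 0 := by
      by_contra hcon
      push Not at hcon
      exact h0 (Matrix.ext hcon)
    obtain ⟨g, s, e, hg, hs, he, hse⟩ := fr1_unimodular (c := fun z i => P z i j0)
      (fun i => hP i j0) ⟨0, hmem, fun h => hij (congrFun h i0)⟩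
    have hsr : ∀ z ∈ closedBall (0 : ℂ) 1, s z ∈ LinearMap.range (P z).mulVecLin := by
      refine fr1_mem_range_closure (fun i j => (hP i j).continuousOn) hr
        (fun i => (hs i).continuousOn) hg fun z hz => ?_
      rw [← (hse z hz).1]
      refine ⟨Pi.single j0 1, ?_⟩
      ext i
      simp
    obtain ⟨E₁, A₁, hE₁, hA₁, h₁⟩ := ih (fun z => (1 - Matrix.vecMulVec (s z) (e z)) * P z)
      (fr1_analytic_mul (fr1_analytic_proj hs he) hP)
      (fun z hz => fr1_rank_step (hr z hz) (hsr z hz) (hse z hz).2)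
    refine ⟨fun z => consCol (s z) (E₁ z),
      fun z => consRow (e z) (A₁ z * (1 - Matrix.vecMulVec (s z) (e z))), ?_, ?_,
      fun z hz => fr1_frame_step (hr z hz) (hsr z hz) (hse z hz).2 (h₁ z hz).1 (h₁ z hz).2⟩
    · intro i j
      refine Fin.cases ?_ (fun k => ?_) j
      · exact hs i
      · exact hE₁ i k
    · intro i j
      refine Fin.cases ?_ (fun k => ?_) i
      · exact he j
      · exact fr1_analytic_mul hA₁ (fr1_analytic_proj hs he) k j

/-- the same with an arbitrary index type for the frame. -/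
theorem exists_hol_frame' {κ : Type} [Fintype κ] [DecidableEq κ] (P : ℂ → Matrix α β ℂ)
    (hP : ∀ i j, AnalyticOnNhd ℂ (fun z => P z i j) (closedBall 0 1))
    (hr : ∀ z ∈ closedBall (0 : ℂ) 1, (P z).rank = Fintype.card κ) :
    ∃ (E : ℂ → Matrix α κ ℂ) (A : ℂ → Matrix κ α ℂ),
      (∀ i j, AnalyticOnNhd ℂ (fun z => E z i j) (closedBall 0 1)) ∧
      (∀ i j, AnalyticOnNhd ℂ (fun z => A z i j) (closedBall 0 1)) ∧
      ∀ z ∈ closedBall (0 : ℂ) 1, A z * E z = 1 ∧
        LinearMap.range (E z).mulVecLin = LinearMap.range (P z).mulVecLin := by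
  obtain ⟨E, A, hE, hA, h⟩ := exists_hol_frame (Fintype.card κ) P hP hr
  let σ := Fintype.equivFin κ
  refine ⟨fun z => (E z).submatrix id σ, fun z => (A z).submatrix σ id,
    fun i j => hE i (σ j), fun i j => hA (σ i) j, fun z hz => ⟨?_, ?_⟩⟩
  · rw [← Matrix.submatrix_mul _ _ _ _ _ Function.bijective_id, (h z hz).1,
      Matrix.submatrix_one_equiv]
  · rw [← (h z hz).2]
    ext v
    constructor
    · rintro ⟨w, rfl⟩
      refine ⟨w ∘ σ.symm, ?_⟩
      simp only [Matrix.mulVecLin_apply]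
      rw [Matrix.submatrix_mulVec_equiv]
      rfl
    · rintro ⟨w, rfl⟩
      refine ⟨w ∘ σ, ?_⟩
      simp only [Matrix.mulVecLin_apply]
      rw [Matrix.submatrix_mulVec_equiv]
      ext i
      simp [Function.comp_assoc]

end Claimed.Agent.R316.S4
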