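import Claimed.Agent.R316.S4.Frame1
import Claimed.Agent.R316.S4.Pois
import Claimed.Agent.R316.S5.Amb

/-!
# Row 316, Section 4, BP-S4-FR, part 3: **Lemma 4.5** `S4.exists_frame` (statement of `S5/FromS4.lean` VERBATIM)

CHAIN (glue PROVED in this file):  `exists_frame ⟸ exists_norm_frame` (existence of a frame with `UᴴU = 1` on the circle) `+ frameBd_of_gram_one` (bounds depending only on the boundary compact).

* `exists_raw_frame` ⟸ `exists_hol_frame'` (`Frame1.lean`) for `P(ζ) = poisM 𝓜 G (f ζ)` (holomorphic past the circle, rank `2n`).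
* `exists_norm_frame`: `E, A` raw frame, `L = EᴴE` on the circle, `L = HᴴH` (`exists_factor`, `S5/Factor.lean`), `U = E H⁻¹`, `JE = H (A P Aᵀ) Hᵀ`.
* `frameBd_of_gram_one`: `JE = Uᴴ P(f) conj U`, `JE⁻¹ = Uᵀ P⁺(f) U` on the circle + maximum principle;
  `tr (P⁺(f) ∂_θ(P∘f)) = 2 tr (Uᴴ ∂_θ U) + tr (JE⁻¹ ∂_θ JE)` on the circle, `⟨tr (JE⁻¹ ∂_θ JE)⟩ = 0`, `D(U)² = ⟨-i tr (Uᴴ ∂_θ U)⟩`, pairing estimate, `G`-Lipschitz bounds of `P`, `P⁺` on `K`.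

## Leaves
* `S4-FR-3a` section `Circ1`: `holSm_of_analyticOnNhd`, `holSm_matMul`, `circSm_gram`, `holSm_matInv`, `frobSq_le_of_circle`, `specBd_gram`.
  `holSm_matInv`: `A⁻¹ = (det A)⁻¹ • adjugate A` (`Matrix.inv_def`, `Ring.inverse_eq_inv'`), `adjugate A i j = det (updateRow …)` (`Matrix.adjugate_apply`): `HolSm.det`, `HolSm.inv`, entries of the updated matrix are entries of `A` or constants.
  `frobSq_le_of_circle`: `HolSm.sum_normSq_le` for `l ζ (i, j) = M ζ i j` (`Fintype.sum_prod_type`).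
  `specBd_gram`: `M = sup frobSq E`, `m = (1 + sup frobSq A)⁻¹` on the compact circle (`IsCompact.exists_bound_of_continuousOn`); `|v|² = |A E v|² ≤ frobSq A |E v|²` (`normSq_mulVec_le`), `qf (EᴴE) v = ∑ ‖(E v) i‖²` (`B14.qf_conjTranspose_mul_self`).
* `S4-FR-3b` section `Circ2`: calculus of `dth`: `dth_congr`, `dthM_mul`, `cA_mul_dth_eq_zero`, `DsqM_eq_cA`, `DsqM_le_of_trace`.  Use the dictionary of `S5/Circle.lean` (`forall_uCirc_iff`, `dth_circleMap`, `cA_eq_pavg`, `circSm_iff`) and `B14/Four1A.lean` (`pavg_sum`, `pavg_const_mul`, …).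
  `cA_mul_dth_eq_zero`: `HolSm.exists_deriv`: `dth M = i ζ M₁` on the circle, `k = N · i ζ M₁` is `HolSm`, `cA k = k 0 = 0` (`HolSm.cA_eq`, `cA_congr`).
  `DsqM_le_of_trace`: `DsqM U = ⟨-i tr(Uᴴ ∂U)⟩ = -i/2 ⟨tr(Pi ∂Pf)⟩ + i/2 ⟨tr(N ∂JE)⟩`, second term `0`; `‖⟨Pi_ab ∂(Pf_ba)⟩‖ ≤ √D √D` (`norm_cA_mul_dth_le`).
* `S4-FR-3c` section `Alg`: `frame_tangent_alg`, `frame_JE_alg`, `frame_trace_alg` (pure matrix algebra; derivations at the statements).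
* `S4-FR-3d` `Dsq_comp_glip`, `frobSq_le_of_entries` (`pois_glip` is PROVED from `glip_of_smooth`, `S5-G2`, `S5/Amb.lean`).
* `S4-FR-3e` `frame_JE_le`, `frame_JEinv_le`;  `S4-FR-3f` `frame_trace_circle`, `frame_D_le`.
-/

set_option autoImplicit false
set_option maxSynthPendingDepth 3
set_option linter.unusedSectionVars false
open scoped ContDiff ComplexOrder Topology Matrix
open Filter

namespace Claimed.Agent.R316.S4

open Claimed.Agent.R316 Claimed.Agent.R316.S6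

/-! ### 1. circle lemmas -/

section Circ1

variable {α β γ κ : Type} [Fintype α] [Fintype β] [Fintype γ] [Fintype κ] [DecidableEq κ]

theorem holSm_of_analyticOnNhd {a : ℂ → ℂ} (ha : AnalyticOnNhd ℂ a (Metric.closedBall 0 1)) :
    HolSm a := by
  refine ⟨(ha.mono Metric.ball_subset_closedBall).differentiableOn, fun z hz => ?_⟩
  exact ((ha z hz).contDiffAt.restrict_scalars ℝ).contDiffWithinAt

theorem holSm_matMul {A : ℂ → Matrix α β ℂ} {B : ℂ → Matrix β γ ℂ}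
    (hA : ∀ i j, HolSm fun ζ => A ζ i j) (hB : ∀ i j, HolSm fun ζ => B ζ i j) (i : α) (j : γ) :
    HolSm fun ζ => (A ζ * B ζ) i j := by
  simp only [Matrix.mul_apply]
  exact HolSm.sum _ fun k _ => (hA i k).mul (hB k j)

theorem circSm_gram {E : ℂ → Matrix α κ ℂ} (hE : ∀ i j, HolSm fun ζ => E ζ i j) (i j : κ) :
    CircSm fun ζ => ((E ζ)ᴴ * E ζ) i j := by
  simp only [Matrix.mul_apply, Matrix.conjTranspose_apply]
  exact CircSm.sum _ fun k _ => ((hE k i).circSm.conj).mul (hE k j).circSm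

theorem holSm_matInv {A : ℂ → Matrix κ κ ℂ} (hA : ∀ i j, HolSm fun ζ => A ζ i j)
    (h : ∀ ζ ∈ uDiscC, IsUnit (A ζ).det) (i j : κ) : HolSm fun ζ => (A ζ)⁻¹ i j := by
  have hdet : HolSm fun ζ => (A ζ).det := HolSm.det hA
  have hinv : HolSm fun ζ => ((A ζ).det)⁻¹ := hdet.inv fun ζ hζ => (h ζ hζ).ne_zero
  have hadj : HolSm fun ζ => (A ζ).adjugate i j := by
    simp only [Matrix.adjugate_apply]
    refine HolSm.det fun k l => ?_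
    by_cases hk : k = j
    · subst hk
      simp only [Matrix.updateRow_self]
      exact holSm_const _
    · simp only [Matrix.updateRow_ne hk]
      exact hA k l
  have e : (fun ζ => (A ζ)⁻¹ i j) = fun ζ => ((A ζ).det)⁻¹ * (A ζ).adjugate i j := by
    funext ζ
    rw [Matrix.inv_def, Ring.inverse_eq_inv']
    rfl
  rw [e]
  exact hinv.mul hadj

/-- maximum principle for the Frobenius norm. -/
theorem frobSq_le_of_circle {M : ℂ → Matrix α β ℂ} (hM : ∀ i j, HolSm fun ζ => M ζ i j) {C : ℝ}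
    (h : ∀ ζ ∈ uCirc, frobSq (M ζ) ≤ C) : ∀ ζ ∈ uDiscC, frobSq (M ζ) ≤ C := by
  have h1 := HolSm.sum_normSq_le (l := fun ζ (x : α × β) => M ζ x.1 x.2)
    (fun x => hM x.1 x.2) (C := C) (fun ζ hζ => by
      rw [Fintype.sum_prod_type]
      exact h ζ hζ)
  intro ζ hζ
  have h2 := h1 ζ hζ
  rw [Fintype.sum_prod_type] at h2
  exact h2

theorem exists_frobSq_le_circ {M : ℂ → Matrix α β ℂ} (hM : ∀ i j, HolSm fun ζ => M ζ i j) :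
    ∃ C : ℝ, 0 ≤ C ∧ ∀ ζ ∈ uCirc, frobSq (M ζ) ≤ C := by
  have hc : ContinuousOn (fun ζ => frobSq (M ζ)) uCirc := by
    unfold frobSq
    refine continuousOn_finsetSum _ fun a _ => continuousOn_finsetSum _ fun b _ => ?_
    exact ((((hM a b).2.continuousOn).mono Metric.sphere_subset_closedBall).norm).pow 2
  obtain ⟨C, hC⟩ := (isCompact_sphere (0 : ℂ) 1).exists_bound_of_continuousOn hc
  exact ⟨|C|, abs_nonneg _, fun y hy =>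
    (le_abs_self _).trans ((hC y hy).trans (le_abs_self C))⟩

theorem specBd_gram {E : ℂ → Matrix α κ ℂ} {A : ℂ → Matrix κ α ℂ}
    (hE : ∀ i j, HolSm fun ζ => E ζ i j) (hA : ∀ i j, HolSm fun ζ => A ζ i j)
    (hAE : ∀ ζ ∈ uCirc, A ζ * E ζ = 1) :
    ∃ m M : ℝ, 0 < m ∧ SpecBd (fun ζ => (E ζ)ᴴ * E ζ) m M := by
  obtain ⟨CA, hCA0, hCA⟩ := exists_frobSq_le_circ hA
  obtain ⟨CE, _, hCE⟩ := exists_frobSq_le_circ hE
  refine ⟨(CA + 1)⁻¹, CE, by positivity, ⟨?_, ?_, ?_⟩⟩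
  · intro ζ _
    exact Matrix.isHermitian_conjTranspose_mul_self _
  · intro ζ hζ v
    rw [qf_gram, inv_mul_le_iff₀ (by positivity)]
    have h1 : v = A ζ *ᵥ (E ζ *ᵥ v) := by
      rw [Matrix.mulVec_mulVec, hAE ζ hζ, Matrix.one_mulVec]
    have h0 : 0 ≤ ∑ i, ‖(E ζ *ᵥ v) i‖ ^ 2 := Finset.sum_nonneg fun _ _ => by positivity
    calc ∑ i, ‖v i‖ ^ 2 = ∑ i, ‖(A ζ *ᵥ (E ζ *ᵥ v)) i‖ ^ 2 := by rw [← h1]
      _ ≤ frobSq (A ζ) * ∑ i, ‖(E ζ *ᵥ v) i‖ ^ 2 := normSq_mulVec_le _ _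
      _ ≤ (CA + 1) * ∑ i, ‖(E ζ *ᵥ v) i‖ ^ 2 :=
          mul_le_mul_of_nonneg_right ((hCA ζ hζ).trans (by linarith)) h0
  · intro ζ hζ v
    rw [qf_gram]
    exact (normSq_mulVec_le _ _).trans (mul_le_mul_of_nonneg_right (hCE ζ hζ)
      (Finset.sum_nonneg fun _ _ => by positivity))

end Circ1

section Circ2

variable {α β γ κ : Type} [Fintype α] [Fintype β] [Fintype γ] [Fintype κ] [DecidableEq κ]

/-- entrywise angular derivative. -/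
noncomputable def dthM (A : ℂ → Matrix α β ℂ) (ζ : ℂ) : Matrix α β ℂ :=
  fun i j => dth (fun ξ => A ξ i j) ζ

theorem mul_exp_mem_uCirc {ζ : ℂ} (hζ : ζ ∈ uCirc) (θ : ℝ) :
    ζ * Complex.exp (θ * Complex.I) ∈ uCirc := by
  have h1 : ‖ζ‖ = 1 := by simpa using hζ
  simp [h1, Complex.norm_exp_ofReal_mul_I]

theorem dth_congr {a b : ℂ → ℂ} (h : Set.EqOn a b uCirc) {ζ : ℂ} (hζ : ζ ∈ uCirc) :
    dth a ζ = dth b ζ := by
  unfold dth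
  congr 1
  funext θ
  exact h (mul_exp_mem_uCirc hζ θ)

theorem dthM_congr {A B : ℂ → Matrix α β ℂ} (h : Set.EqOn A B uCirc) {ζ : ℂ} (hζ : ζ ∈ uCirc) :
    dthM A ζ = dthM B ζ := by
  ext i j
  exact dth_congr (fun ξ hξ => by rw [h hξ]) hζ

theorem dthM_transpose (A : ℂ → Matrix α β ℂ) (ζ : ℂ) :
    dthM (fun ξ => (A ξ)ᵀ) ζ = (dthM A ζ)ᵀ := rfl

theorem hasDerivAt_dth {a : ℂ → ℂ} (ha : CircSm a) {ζ : ℂ} (hζ : ζ ∈ uCirc) :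
    HasDerivAt (fun θ : ℝ => a (ζ * Complex.exp (θ * Complex.I))) (dth a ζ) 0 := by
  obtain ⟨θ₀, rfl⟩ := mem_uCirc_iff.1 hζ
  have h : (fun θ : ℝ => a (circleMap 0 1 θ₀ * Complex.exp (θ * Complex.I))) =
      fun θ : ℝ => (fun t : ℝ => a (circleMap 0 1 t)) (θ₀ + θ) := by
    funext θ
    simp [circleMap, Complex.exp_add, add_mul]
  have hd : DifferentiableAt ℝ
      (fun θ : ℝ => a (circleMap 0 1 θ₀ * Complex.exp (θ * Complex.I))) 0 := by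
    rw [h]
    have h1 : Differentiable ℝ fun t : ℝ => a (circleMap 0 1 t) :=
      ContDiff.differentiable ha (by simp)
    exact (h1 _).comp 0 ((differentiableAt_const _).add differentiableAt_id)
  exact hd.hasDerivAt

theorem dth_mul {a b : ℂ → ℂ} (ha : CircSm a) (hb : CircSm b) {ζ : ℂ} (hζ : ζ ∈ uCirc) :
    dth (fun ξ => a ξ * b ξ) ζ = dth a ζ * b ζ + a ζ * dth b ζ := by
  have h := ((hasDerivAt_dth ha hζ).mul (hasDerivAt_dth hb hζ)).deriv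
  simp only [Complex.ofReal_zero, zero_mul, Complex.exp_zero, mul_one] at h
  exact h

theorem dth_sum {J : Type} (s : Finset J) {f : J → ℂ → ℂ} (h : ∀ j ∈ s, CircSm (f j)) {ζ : ℂ}
    (hζ : ζ ∈ uCirc) : dth (fun ξ => ∑ j ∈ s, f j ξ) ζ = ∑ j ∈ s, dth (f j) ζ :=
  (HasDerivAt.fun_sum fun j hj => hasDerivAt_dth (h j hj) hζ).deriv

theorem dthM_mul {A : ℂ → Matrix α β ℂ} {B : ℂ → Matrix β γ ℂ}
    (hA : ∀ i j, CircSm fun ζ => A ζ i j) (hB : ∀ i j, CircSm fun ζ => B ζ i j) {ζ : ℂ}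
    (hζ : ζ ∈ uCirc) : dthM (fun ξ => A ξ * B ξ) ζ = dthM A ζ * B ζ + A ζ * dthM B ζ := by
  ext i j
  simp only [dthM, Matrix.add_apply, Matrix.mul_apply]
  rw [dth_sum _ (fun k _ => (hA i k).mul (hB k j)) hζ, ← Finset.sum_add_distrib]
  exact Finset.sum_congr rfl fun k _ => dth_mul (hA i k) (hB k j) hζ

/-- `⟨N ∂_θ M⟩ = 0` for holomorphic `N`, `M`. -/
theorem cA_mul_dth_eq_zero {N M : ℂ → ℂ} (hN : HolSm N) (hM : HolSm M) :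
    cA (fun ζ => N ζ * dth M ζ) = 0 := by
  obtain ⟨M₁, hM₁, _, hd⟩ := hM.exists_deriv
  have hk : HolSm fun ζ => N ζ * (Complex.I * ζ * M₁ ζ) :=
    hN.mul (((holSm_const _).mul holSm_id).mul hM₁)
  rw [cA_congr (G := fun ζ => N ζ * (Complex.I * ζ * M₁ ζ))
    (fun ζ hζ => by simp only; rw [hd ζ hζ]), hk.cA_eq]
  simp

theorem cA_sum_of_cont {J : Type} (s : Finset J) {f : J → ℂ → ℂ}
    (h : ∀ j ∈ s, Continuous (B14.bd (f j))) :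
    cA (fun ζ => ∑ j ∈ s, f j ζ) = ∑ j ∈ s, cA (f j) :=
  B14.pavg_sum s (fun j => B14.bd (f j)) h

theorem cA_const_mul (c : ℂ) (a : ℂ → ℂ) : cA (fun ζ => c * a ζ) = c * cA a :=
  B14.pavg_const_mul c (B14.bd a)

theorem CircSm.cont_bd {a : ℂ → ℂ} (ha : CircSm a) : Continuous (B14.bd a) :=
  ContDiff.continuous ha

theorem CircLip.cont_bd {a : ℂ → ℂ} (ha : CircLip a) : Continuous (B14.bd a) :=
  (circLip_iff.1 ha).continuous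

theorem trace_mul_dthM (A : Matrix α β ℂ) (B : ℂ → Matrix β α ℂ) (ζ : ℂ) :
    (A * dthM B ζ).trace = ∑ a, ∑ b, A a b * dth (fun ξ => B ξ b a) ζ := by
  simp [Matrix.trace, Matrix.mul_apply, dthM]

theorem cA_trace_mul_dthM {A : ℂ → Matrix α β ℂ} {B : ℂ → Matrix β α ℂ}
    (hA : ∀ i j, Continuous (B14.bd fun ζ => A ζ i j)) (hB : ∀ i j, CircSm fun ζ => B ζ i j) :
    cA (fun ζ => (A ζ * dthM B ζ).trace) =
      ∑ a, ∑ b, cA fun ζ => A ζ a b * dth (fun ξ => B ξ b a) ζ := by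
  simp only [trace_mul_dthM]
  have hc : ∀ a b, Continuous (B14.bd fun ζ => A ζ a b * dth (fun ξ => B ξ b a) ζ) :=
    fun a b => (hA a b).mul (CircSm.cont_bd (hB b a).dth)
  rw [cA_sum_of_cont _ fun a _ => ?_]
  · exact Finset.sum_congr rfl fun a _ => cA_sum_of_cont _ fun b _ => hc a b
  · exact continuous_finsetSum _ fun b _ => hc a b

theorem DsqM_eq_cA {U : ℂ → Matrix α κ ℂ} (hU : ∀ i j, HolSm fun ζ => U ζ i j) :
    ((DsqM U : ℝ) : ℂ) = cA fun ζ => -Complex.I * ((U ζ)ᴴ * dthM U ζ).trace := by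
  have h1 : ∀ i j, ((Dsq (fun ζ => U ζ i j) : ℝ) : ℂ) =
      -Complex.I * cA fun ζ => (U ζ)ᴴ j i * dth (fun ξ => U ξ i j) ζ := by
    intro i j
    rw [(hU i j).Dsq_eq, ← cA_const_mul]
    congr 1
    funext ζ
    simp only [Matrix.conjTranspose_apply, Complex.star_def]
    ring
  rw [cA_const_mul, cA_trace_mul_dthM (A := fun ζ => (U ζ)ᴴ)
    (fun i j => CircSm.cont_bd (by
      simp only [Matrix.conjTranspose_apply, Complex.star_def]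
      exact (hU j i).circSm.conj)) fun i j => (hU i j).circSm]
  unfold DsqM
  push_cast
  rw [Finset.sum_comm, Finset.mul_sum]
  refine Finset.sum_congr rfl fun j _ => ?_
  rw [Finset.mul_sum]
  exact Finset.sum_congr rfl fun i _ => h1 i j

/-- the abstract estimate of `D(U)²`. -/
theorem DsqM_le_of_trace {U : ℂ → Matrix α κ ℂ} {JE N : ℂ → Matrix κ κ ℂ}
    {Pf Pi : ℂ → Matrix α α ℂ} (hU : ∀ i j, HolSm fun ζ => U ζ i j)
    (hJE : ∀ i j, HolSm fun ζ => JE ζ i j) (hN : ∀ i j, HolSm fun ζ => N ζ i j)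
    (hPf : ∀ a b, CircSm fun ζ => Pf ζ a b) (hPi : ∀ a b, CircLip fun ζ => Pi ζ a b)
    (h : ∀ ζ ∈ uCirc, (Pi ζ * dthM Pf ζ).trace =
      2 * ((U ζ)ᴴ * dthM U ζ).trace + (N ζ * dthM JE ζ).trace) :
    DsqM U ≤ (1 / 2 : ℝ) * ∑ a, ∑ b,
      Real.sqrt (Dsq fun ζ => Pi ζ a b) * Real.sqrt (Dsq fun ζ => Pf ζ b a) := by
  have hN0 : cA (fun ζ => (N ζ * dthM JE ζ).trace) = 0 := by
    rw [cA_trace_mul_dthM (fun i j => CircSm.cont_bd (hN i j).circSm)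
      fun i j => (hJE i j).circSm]
    exact Finset.sum_eq_zero fun a _ => Finset.sum_eq_zero fun b _ =>
      cA_mul_dth_eq_zero (hN a b) (hJE b a)
  have hP := cA_trace_mul_dthM (A := Pi) (B := Pf) (fun i j => CircLip.cont_bd (hPi i j)) hPf
  -- continuity of the two traces
  have hcN : Continuous (B14.bd fun ζ => (N ζ * dthM JE ζ).trace) := by
    simp only [trace_mul_dthM]
    exact continuous_finsetSum _ fun a _ => continuous_finsetSum _ fun b _ =>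
      (CircSm.cont_bd (hN a b).circSm).mul (CircSm.cont_bd (hJE b a).circSm.dth)
  have hcU : Continuous (B14.bd fun ζ => ((U ζ)ᴴ * dthM U ζ).trace) := by
    simp only [trace_mul_dthM]
    have hc : ∀ a b, CircSm fun ζ => (U ζ)ᴴ a b := fun a b => by
      simp only [Matrix.conjTranspose_apply, Complex.star_def]
      exact (hU b a).circSm.conj
    exact continuous_finsetSum _ fun a _ => continuous_finsetSum _ fun b _ =>
      (CircSm.cont_bd (hc a b)).mul (CircSm.cont_bd (hU b a).circSm.dth)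
  have h1 : cA (fun ζ => (Pi ζ * dthM Pf ζ).trace) =
      2 * cA (fun ζ => ((U ζ)ᴴ * dthM U ζ).trace) := by
    rw [cA_congr h]
    have h2 : cA (fun ζ => 2 * ((U ζ)ᴴ * dthM U ζ).trace + (N ζ * dthM JE ζ).trace) =
        cA (fun ζ => 2 * ((U ζ)ᴴ * dthM U ζ).trace) + cA (fun ζ => (N ζ * dthM JE ζ).trace) :=
      B14.pavg_add (continuous_const.mul hcU) hcN
    rw [h2, hN0, add_zero, cA_const_mul]
  have h3 : ((DsqM U : ℝ) : ℂ) = -Complex.I / 2 * ∑ a, ∑ b,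
      cA fun ζ => Pi ζ a b * dth (fun ξ => Pf ξ b a) ζ := by
    rw [DsqM_eq_cA hU, cA_const_mul, ← hP, h1]
    ring
  have h4 : DsqM U ≤ ‖((DsqM U : ℝ) : ℂ)‖ := by
    rw [Complex.norm_real]
    exact le_abs_self _
  refine h4.trans ?_
  rw [h3, norm_mul]
  have h5 : ‖-Complex.I / 2‖ = 1 / 2 := by simp
  rw [h5]
  refine mul_le_mul_of_nonneg_left ?_ (by norm_num)
  refine (norm_sum_le _ _).trans (Finset.sum_le_sum fun a _ => ?_)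
  refine (norm_sum_le _ _).trans (Finset.sum_le_sum fun b _ => ?_)
  exact norm_cA_mul_dth_le (hPi a b) (hPf b a)

end Circ2

/-! ### 2. frame algebra -/

section Alg

variable {α ι : Type} [Fintype α] [DecidableEq α] [Fintype ι] [DecidableEq ι]

/-- `S_E = linv J * E` satisfies `E = J S_E` (columns of `E` lie in `range J = range P`, `range_pmat`) and `S_E (A J) = 1` (from `(A J) S_E = A E = 1`, square matrices: `mul_eq_one_comm`).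
`S = S_E Hi`; `S (H (A P Aᵀ) Hᵀ) Sᵀ = S_E (A J) Jstd (S_E (A J))ᵀ = Jstd` (`Hi H = 1`). -/
theorem frame_tangent_alg {J E : Matrix α (ι ⊕ ι) ℂ} {A : Matrix (ι ⊕ ι) α ℂ}
    {H Hi : Matrix (ι ⊕ ι) (ι ⊕ ι) ℂ} (hJ : Function.Injective J.mulVec) (hAE : A * E = 1)
    (hr : LinearMap.range E.mulVecLin = LinearMap.range (J * Jstd ι * Jᵀ).mulVecLin)
    (hH : H * Hi = 1) :
    ∃ S : Matrix (ι ⊕ ι) (ι ⊕ ι) ℂ, IsUnit S.det ∧ E * Hi = J * S ∧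
      S * (H * (A * (J * Jstd ι * Jᵀ) * Aᵀ) * Hᵀ) * Sᵀ = Jstd ι := by
  rw [range_pmat hJ] at hr
  have hE : J * (linv J * E) = E := by
    apply Matrix.toLin'.injective
    apply LinearMap.ext
    intro v
    simp only [Matrix.toLin'_apply]
    have h1 : E *ᵥ v ∈ LinearMap.range J.mulVecLin := by
      rw [← hr]
      exact ⟨v, rfl⟩
    obtain ⟨w, hw⟩ := h1
    rw [Matrix.mulVecLin_apply] at hw
    rw [← Matrix.mulVec_mulVec, ← Matrix.mulVec_mulVec, ← hw, Matrix.mulVec_mulVec w (linv J) J,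
      linv_mul_self hJ, Matrix.one_mulVec]
  have h1 : (A * J) * (linv J * E) = 1 := by
    rw [Matrix.mul_assoc, hE, hAE]
  have h2 : (linv J * E) * (A * J) = 1 := mul_eq_one_comm.1 h1
  have h3 : Hi * H = 1 := mul_eq_one_comm.1 hH
  refine ⟨linv J * E * Hi, ?_, ?_, ?_⟩
  · rw [Matrix.det_mul]
    exact (Matrix.isUnit_det_of_right_inverse h2).mul (Matrix.isUnit_det_of_right_inverse h3)
  · rw [← Matrix.mul_assoc, hE]
  · have h4 : Hᵀ * Hiᵀ = 1 := by rw [← Matrix.transpose_mul, h3, Matrix.transpose_one]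
    have h5 : (Jᵀ * Aᵀ) * (linv J * E)ᵀ = 1 := by
      rw [← Matrix.transpose_mul, ← Matrix.transpose_mul, h2, Matrix.transpose_one]
    rw [Matrix.transpose_mul (linv J * E) Hi]
    calc linv J * E * Hi * (H * (A * (J * Jstd ι * Jᵀ) * Aᵀ) * Hᵀ) * (Hiᵀ * (linv J * E)ᵀ)
        = linv J * E * (Hi * H) * (A * J) * Jstd ι * (Jᵀ * Aᵀ) * (Hᵀ * Hiᵀ) * (linv J * E)ᵀ := by
          simp only [Matrix.mul_assoc]
      _ = (linv J * E * (A * J)) * Jstd ι * ((Jᵀ * Aᵀ) * (linv J * E)ᵀ) := by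
          rw [h3, h4, Matrix.mul_one, Matrix.mul_one]
          simp only [Matrix.mul_assoc]
      _ = Jstd ι := by rw [h2, h5, Matrix.one_mul, Matrix.mul_one]

/-- `Uᵀ (Uᴴ)ᵀ = (UᴴU)ᵀ = 1`. -/
theorem frame_JE_alg {U : Matrix α (ι ⊕ ι) ℂ} {JE : Matrix (ι ⊕ ι) (ι ⊕ ι) ℂ} {P : Matrix α α ℂ}
    (hP : P = U * JE * Uᵀ) (hU : Uᴴ * U = 1) : JE = Uᴴ * P * (Uᴴ)ᵀ := by
  have h1 : Uᵀ * (Uᴴ)ᵀ = 1 := by rw [← Matrix.transpose_mul, hU, Matrix.transpose_one]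
  rw [hP]
  calc JE = (Uᴴ * U) * JE * (Uᵀ * (Uᴴ)ᵀ) := by rw [hU, h1, Matrix.one_mul, Matrix.mul_one]
    _ = Uᴴ * (U * JE * Uᵀ) * (Uᴴ)ᵀ := by simp only [Matrix.mul_assoc]

/-- With `U = J S`, `UᴴU = 1`: `linv U = Uᴴ = S⁻¹ linv J` (`linv_of_gram_one`, `linv_mul_unit`), so `linv J = S Uᴴ`, `Uᵀ P⁺ = JE⁻¹ Uᴴ`, `P⁺ U = (Uᴴ)ᵀ JE⁻¹` (`JE⁻¹ = Sᵀ (-Jstd) S`).  Then
`tr(P⁺ U' JE Uᵀ) = tr(Uᵀ P⁺ U' JE) = tr(JE⁻¹ Uᴴ U' JE) = tr(Uᴴ U')`, `tr(P⁺ U JE' Uᵀ) = tr(Uᵀ P⁺ U JE') = tr(JE⁻¹ JE')`, `tr(P⁺ U JE U'ᵀ) = tr((Uᴴ)ᵀ U'ᵀ) = tr(U' Uᴴ) = tr(Uᴴ U')`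
(`Matrix.trace_mul_comm`, `Matrix.trace_transpose`). -/
theorem frame_trace_alg {J : Matrix α (ι ⊕ ι) ℂ} (hJ : Function.Injective J.mulVec)
    {S JE : Matrix (ι ⊕ ι) (ι ⊕ ι) ℂ} (hS : IsUnit S.det) (h : S * JE * Sᵀ = Jstd ι)
    (hU : (J * S)ᴴ * (J * S) = 1) (U' : Matrix α (ι ⊕ ι) ℂ) (JE' : Matrix (ι ⊕ ι) (ι ⊕ ι) ℂ) :
    (pinvP J * (U' * JE * (J * S)ᵀ + (J * S) * JE' * (J * S)ᵀ + (J * S) * JE * U'ᵀ)).trace =
      2 * ((J * S)ᴴ * U').trace + (JE⁻¹ * JE').trace := by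
  obtain ⟨hJEu, hJEinv, hSinv⟩ := frame_inv_alg hJ hS h
  set U := J * S with hUdef
  -- `linv J = S Uᴴ`
  have h1 : linv J = S * Uᴴ := by
    have h2 : Uᴴ = S⁻¹ * linv J := by
      rw [← linv_of_gram_one hU, hUdef, linv_mul_unit hJ hS]
    rw [h2, ← Matrix.mul_assoc, Matrix.mul_nonsing_inv _ hS, Matrix.one_mul]
  -- `JE⁻¹ = Sᵀ (-Jstd) S`
  have h3 : JE⁻¹ = Sᵀ * (-Jstd ι) * S := by
    refine Matrix.inv_eq_right_inv ?_
    calc JE * (Sᵀ * -Jstd ι * S) = (JE * Sᵀ * -Jstd ι) * S := by simp only [Matrix.mul_assoc]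
      _ = 1 := by rw [← hSinv, Matrix.nonsing_inv_mul _ hS]
  have hP : pinvP J = (Uᴴ)ᵀ * JE⁻¹ * Uᴴ := by
    unfold pinvP
    rw [h1, h3, Matrix.transpose_mul]
    simp only [Matrix.mul_assoc]
  have hUt : Uᵀ * (Uᴴ)ᵀ = 1 := by rw [← Matrix.transpose_mul, hU, Matrix.transpose_one]
  have hJJ : JE⁻¹ * JE = 1 := Matrix.nonsing_inv_mul _ hJEu
  have hJJ' : JE * JE⁻¹ = 1 := Matrix.mul_nonsing_inv _ hJEu
  rw [hP, Matrix.mul_add, Matrix.mul_add, Matrix.trace_add, Matrix.trace_add]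
  have t1 : ((Uᴴ)ᵀ * JE⁻¹ * Uᴴ * (U' * JE * Uᵀ)).trace = (Uᴴ * U').trace := by
    calc ((Uᴴ)ᵀ * JE⁻¹ * Uᴴ * (U' * JE * Uᵀ)).trace
        = ((Uᴴ)ᵀ * (JE⁻¹ * Uᴴ * U' * JE * Uᵀ)).trace := by simp only [Matrix.mul_assoc]
      _ = ((JE⁻¹ * Uᴴ * U' * JE * Uᵀ) * (Uᴴ)ᵀ).trace := Matrix.trace_mul_comm _ _
      _ = (JE⁻¹ * (Uᴴ * U' * JE)).trace := by
          rw [Matrix.mul_assoc _ Uᵀ, hUt, Matrix.mul_one]
          simp only [Matrix.mul_assoc]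
      _ = ((Uᴴ * U' * JE) * JE⁻¹).trace := Matrix.trace_mul_comm _ _
      _ = (Uᴴ * U').trace := by rw [Matrix.mul_assoc _ JE, hJJ', Matrix.mul_one]
  have t2 : ((Uᴴ)ᵀ * JE⁻¹ * Uᴴ * (U * JE' * Uᵀ)).trace = (JE⁻¹ * JE').trace := by
    calc ((Uᴴ)ᵀ * JE⁻¹ * Uᴴ * (U * JE' * Uᵀ)).trace
        = ((Uᴴ)ᵀ * (JE⁻¹ * (Uᴴ * U) * JE' * Uᵀ)).trace := by simp only [Matrix.mul_assoc]
      _ = ((JE⁻¹ * (Uᴴ * U) * JE' * Uᵀ) * (Uᴴ)ᵀ).trace := Matrix.trace_mul_comm _ _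
      _ = (JE⁻¹ * JE').trace := by
          rw [Matrix.mul_assoc _ Uᵀ, hUt, Matrix.mul_one, hU, Matrix.mul_one]
  have t3 : ((Uᴴ)ᵀ * JE⁻¹ * Uᴴ * (U * JE * U'ᵀ)).trace = (Uᴴ * U').trace := by
    calc ((Uᴴ)ᵀ * JE⁻¹ * Uᴴ * (U * JE * U'ᵀ)).trace
        = ((Uᴴ)ᵀ * (JE⁻¹ * ((Uᴴ * U) * JE)) * U'ᵀ).trace := by simp only [Matrix.mul_assoc]
      _ = ((Uᴴ)ᵀ * U'ᵀ).trace := by rw [hU, Matrix.one_mul, hJJ, Matrix.mul_one]
      _ = ((U' * Uᴴ)ᵀ).trace := by rw [Matrix.transpose_mul]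
      _ = (U' * Uᴴ).trace := Matrix.trace_transpose _
      _ = (Uᴴ * U').trace := Matrix.trace_mul_comm _ _
  rw [t1, t2, t3]
  ring

end Alg

/-! ### 3. existence -/

variable {V : Type} [NormedAddCommGroup V] [InnerProductSpace ℝ V] [FiniteDimensional ℝ V]
variable {n q : ℕ} {𝓜 : CMfd V (Fin n)} {𝒴 : CMfd (CotAmb V) (Fin n ⊕ Fin n)}
variable {G : CotAmb V → CE (Fin q)}
variable {f : ℂ → CotAmb V} {U : ℂ → Matrix (Fin q) (Fin n ⊕ Fin n) ℂ}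
variable {JE : ℂ → Matrix (Fin n ⊕ Fin n) (Fin n ⊕ Fin n) ℂ}

theorem disc_mem {r : ℝ} (hr : 1 < r) (hf : IsHolDisc 𝒴 f r) : ∀ ζ ∈ uDiscC, f ζ ∈ 𝒴.carrier :=
  fun ζ hζ => hf.1 ζ (Metric.closedBall_subset_ball hr hζ)

theorem poisM_disc_holSm (hY : IsCotangent 𝓜 𝒴) (hG : GImm 𝒴 G) {r : ℝ} (hr : 1 < r)
    (hf : IsHolDisc 𝒴 f r) (a b : Fin q) : HolSm fun ζ => poisM 𝓜 G (f ζ) a b :=
  holSm_of_differentiableOn hr (holFun_comp_disc (poisM_holFun hY hG a b) hf)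

theorem G_disc_holSm (hG : GImm 𝒴 G) {r : ℝ} (hr : 1 < r) (hf : IsHolDisc 𝒴 f r) (a : Fin q) :
    HolSm fun ζ => G (f ζ) a :=
  holSm_of_differentiableOn hr (G_comp_disc hG hf a)

theorem exists_raw_frame (hY : IsCotangent 𝓜 𝒴) (hG : GImm 𝒴 G) {r : ℝ} (hr : 1 < r)
    (hf : IsHolDisc 𝒴 f r) :
    ∃ (E : ℂ → Matrix (Fin q) (Fin n ⊕ Fin n) ℂ) (A : ℂ → Matrix (Fin n ⊕ Fin n) (Fin q) ℂ),
      (∀ i j, HolSm fun ζ => E ζ i j) ∧ (∀ i j, HolSm fun ζ => A ζ i j) ∧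
      ∀ ζ ∈ uDiscC, A ζ * E ζ = 1 ∧
        LinearMap.range (E ζ).mulVecLin = LinearMap.range (poisM 𝓜 G (f ζ)).mulVecLin := by
  obtain ⟨E, A, hE, hA, h⟩ := exists_hol_frame' (κ := Fin n ⊕ Fin n)
    (fun ζ => poisM 𝓜 G (f ζ))
    (fun a b => ((holFun_comp_disc (poisM_holFun hY hG a b) hf).analyticOnNhd
      Metric.isOpen_ball).mono (Metric.closedBall_subset_ball hr))
    (fun ζ hζ => rank_poisM hY hG (disc_mem hr hf ζ hζ))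
  exact ⟨E, A, fun i j => holSm_of_analyticOnNhd (hE i j),
    fun i j => holSm_of_analyticOnNhd (hA i j), h⟩

/-- existence of a frame which is unitary on the circle. -/
theorem exists_norm_frame (hY : IsCotangent 𝓜 𝒴) (hG : GImm 𝒴 G) {r : ℝ} (hr : 1 < r)
    (hf : IsHolDisc 𝒴 f r) :
    ∃ (U : ℂ → Matrix (Fin q) (Fin n ⊕ Fin n) ℂ)
      (JE : ℂ → Matrix (Fin n ⊕ Fin n) (Fin n ⊕ Fin n) ℂ),
      IsFrame 𝓜 G f U JE ∧ ∀ ζ ∈ uCirc, (U ζ)ᴴ * U ζ = 1 := by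
  obtain ⟨E, A, hE, hA, h⟩ := exists_raw_frame hY hG hr hf
  have hsub : uCirc ⊆ uDiscC := Metric.sphere_subset_closedBall
  obtain ⟨m, M, hm, hS⟩ := specBd_gram hE hA fun ζ hζ => (h ζ (hsub hζ)).1
  obtain ⟨H, Hi, hF⟩ := exists_factor hm (circSm_gram hE) hS
  have hP := poisM_disc_holSm hY hG hr hf
  refine ⟨fun ζ => E ζ * Hi ζ,
    fun ζ => H ζ * (A ζ * poisM 𝓜 G (f ζ) * (A ζ)ᵀ) * (H ζ)ᵀ, ⟨?_, ?_, ?_⟩, ?_⟩
  · exact holSm_matMul hE hF.Hi_hol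
  · exact holSm_matMul (holSm_matMul hF.H_hol (holSm_matMul (holSm_matMul hA hP)
      (fun i j => hA j i))) (fun i j => hF.H_hol j i)
  · intro ζ hζ Φ U₀ p hΦ hp hfp
    have h1 := h ζ hζ
    rw [hfp, poisM_chart hY hG hΦ hp] at h1
    have h2 := frame_tangent_alg (jac_cot_injective hY hG hΦ hp) h1.1 h1.2 (hF.inv ζ hζ)
    rw [hfp, poisM_chart hY hG hΦ hp]
    exact h2
  · intro ζ hζ
    have h1 := hF.eq ζ hζ
    have h2 := hF.inv ζ (hsub hζ)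
    calc (E ζ * Hi ζ)ᴴ * (E ζ * Hi ζ) = (Hi ζ)ᴴ * ((E ζ)ᴴ * E ζ) * Hi ζ := by
          rw [Matrix.conjTranspose_mul]
          simp only [Matrix.mul_assoc]
      _ = (H ζ * Hi ζ)ᴴ * (H ζ * Hi ζ) := by
          rw [h1, Matrix.conjTranspose_mul]
          simp only [Matrix.mul_assoc]
      _ = 1 := by rw [h2]; simp

/-! ### 4. bounds -/

/-- `P` and `P⁺` are bounded and `G`-Lipschitz on compact sets: `glip_of_smooth` (`S5-G2`) applied to the entries (`poisM_holFun` + `hol_contDiffOn_real`, `poisI_smooth`), time independent. -/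
theorem pois_glip (hY : IsCotangent 𝓜 𝒴) (hG : GImm 𝒴 G) {K : Set (CotAmb V)} (hK : IsCompact K)
    (hKY : K ⊆ 𝒴.carrier) :
    ∃ C : ℝ, 0 ≤ C ∧
      (∀ y ∈ K, ∀ a b, ‖poisM 𝓜 G y a b‖ ≤ C ∧ ‖poisI 𝓜 G y a b‖ ≤ C) ∧
      ∀ y ∈ K, ∀ y' ∈ K, ∀ a b,
        ‖poisM 𝓜 G y a b - poisM 𝓜 G y' a b‖ ≤ C * ‖G y - G y'‖ ∧
        ‖poisI 𝓜 G y a b - poisI 𝓜 G y' a b‖ ≤ C * ‖G y - G y'‖ := by
  classical
  have key : ∀ u : CotAmb V → ℂ,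
      (∀ (Ψ : CE (Fin n ⊕ Fin n) → CotAmb V) (W : Set (CE (Fin n ⊕ Fin n))), 𝒴.IsHol Ψ W →
        ContDiffOn ℝ ∞ (u ∘ Ψ) W) →
      ∃ C : ℝ, (∀ y ∈ K, ‖u y‖ ≤ C) ∧ ∀ y ∈ K, ∀ y' ∈ K, ‖u y - u y'‖ ≤ C * ‖G y - G y'‖ := by
    intro u hu
    obtain ⟨C, h1, h2⟩ := glip_of_smooth hG hK hKY (T := 0) (β := fun y _ => u y)
      (fun Ψ W hΨ => (hu Ψ W hΨ).comp contDiffOn_snd fun a ha => ha.2)
    have h0 : (0 : ℝ) ∈ Set.Icc (0 : ℝ) 0 := by simp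
    refine ⟨C, fun y hy => h1 y hy 0 h0, fun y hy y' hy' => ?_⟩
    simpa using h2 y hy y' hy' 0 h0 0 h0
  have hM : ∀ a b, ∃ C : ℝ, (∀ y ∈ K, ‖poisM 𝓜 G y a b‖ ≤ C) ∧
      ∀ y ∈ K, ∀ y' ∈ K, ‖poisM 𝓜 G y a b - poisM 𝓜 G y' a b‖ ≤ C * ‖G y - G y'‖ :=
    fun a b => key _ fun Ψ W hΨ =>
      hol_contDiffOn_real (CMfd.isOpen_dom hΨ) (poisM_holFun hY hG a b Ψ W hΨ)
  have hI : ∀ a b, ∃ C : ℝ, (∀ y ∈ K, ‖poisI 𝓜 G y a b‖ ≤ C) ∧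
      ∀ y ∈ K, ∀ y' ∈ K, ‖poisI 𝓜 G y a b - poisI 𝓜 G y' a b‖ ≤ C * ‖G y - G y'‖ :=
    fun a b => key _ (poisI_smooth hY hG a b)
  choose CM hM1 hM2 using hM
  choose CI hI1 hI2 using hI
  refine ⟨∑ a, ∑ b, (|CM a b| + |CI a b|), by positivity, ?_, ?_⟩
  all_goals
    have hle : ∀ a b, |CM a b| + |CI a b| ≤ ∑ a, ∑ b, (|CM a b| + |CI a b|) := fun a b =>
      (Finset.single_le_sum (f := fun b => |CM a b| + |CI a b|)
        (fun _ _ => by positivity) (Finset.mem_univ b)).trans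
      (Finset.single_le_sum (f := fun a => ∑ b, (|CM a b| + |CI a b|))
        (fun _ _ => by positivity) (Finset.mem_univ a))
  · intro y hy a b
    have h1 := hle a b
    have h2 := le_abs_self (CM a b)
    have h3 := le_abs_self (CI a b)
    have h4 := abs_nonneg (CM a b)
    have h5 := abs_nonneg (CI a b)
    exact ⟨by linarith [hM1 a b y hy], by linarith [hI1 a b y hy]⟩
  · intro y hy y' hy' a b
    have h1 := hle a b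
    have h2 := le_abs_self (CM a b)
    have h3 := le_abs_self (CI a b)
    have h4 := abs_nonneg (CM a b)
    have h5 := abs_nonneg (CI a b)
    have h6 := norm_nonneg (G y - G y')
    exact ⟨(hM2 a b y hy y' hy').trans (mul_le_mul_of_nonneg_right (by linarith) h6),
      (hI2 a b y hy y' hy').trans (mul_le_mul_of_nonneg_right (by linarith) h6)⟩

/-- `‖G y - G y'‖² = ∑_a ‖G y a - G y' a‖²` (`EuclideanSpace.norm_sq_eq`), `circLip_of_diff`, `Dsq_le_of_diff` with `c = C²`. -/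
theorem Dsq_comp_glip {β : CotAmb V → ℂ} {K : Set (CotAmb V)} {C : ℝ} (_hC : 0 ≤ C)
    (hβ : ∀ y ∈ K, ∀ y' ∈ K, ‖β y - β y'‖ ≤ C * ‖G y - G y'‖)
    (hX : ∀ a, CircLip fun ζ => G (f ζ) a) (hfK : ∀ ζ ∈ uCirc, f ζ ∈ K) :
    CircLip (fun ζ => β (f ζ)) ∧
      Dsq (fun ζ => β (f ζ)) ≤ C ^ 2 * DsqV fun ζ => (G (f ζ) : Fin q → ℂ) := by
  have hkey : ∀ ζ ∈ uCirc, ∀ ξ ∈ uCirc, ‖β (f ζ) - β (f ξ)‖ ^ 2 ≤
      ∑ a : Fin q, C ^ 2 * ‖G (f ζ) a - G (f ξ) a‖ ^ 2 := by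
    intro ζ hζ ξ hξ
    have h1 := hβ _ (hfK ζ hζ) _ (hfK ξ hξ)
    have h2 : ‖G (f ζ) - G (f ξ)‖ ^ 2 = ∑ a, ‖G (f ζ) a - G (f ξ) a‖ ^ 2 := by
      rw [EuclideanSpace.norm_sq_eq]
      rfl
    calc ‖β (f ζ) - β (f ξ)‖ ^ 2 ≤ (C * ‖G (f ζ) - G (f ξ)‖) ^ 2 := by gcongr
      _ = C ^ 2 * ‖G (f ζ) - G (f ξ)‖ ^ 2 := by ring
      _ = _ := by rw [h2, Finset.mul_sum]
  refine ⟨circLip_of_diff (f := fun a ζ => G (f ζ) a) (c := fun _ => C ^ 2) hX hkey, ?_⟩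
  have h3 := Dsq_le_of_diff (g := fun a ζ => G (f ζ) a) (c := fun _ => C ^ 2) hX
    (fun _ => by positivity) hkey
  rw [DsqV, Finset.mul_sum]
  exact h3

theorem frobSq_of_gram_one {α κ : Type} [Fintype α] [Fintype κ] [DecidableEq κ]
    {U : Matrix α κ ℂ} (h : Uᴴ * U = 1) : frobSq U = Fintype.card κ := by
  classical
  rw [frobSq_eq_trace, h]
  simp

/-- on the circle `JE = Uᴴ P (Uᴴ)ᵀ` (`poisM_frame`, `frame_JE_alg`), `frobSq U = card κ` (`frobSq_eq_trace`), `frobSq_mul_le`, `frobSq_le_of_circle`. -/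
theorem frame_JE_le (hY : IsCotangent 𝓜 𝒴) (hG : GImm 𝒴 G) (hf : ∀ ζ ∈ uDiscC, f ζ ∈ 𝒴.carrier)
    (hF : IsFrame 𝓜 G f U JE) (hU : ∀ ζ ∈ uCirc, (U ζ)ᴴ * U ζ = 1) {C : ℝ}
    (hC : ∀ ζ ∈ uCirc, frobSq (poisM 𝓜 G (f ζ)) ≤ C) :
    ∀ ζ ∈ uDiscC, frobSq (JE ζ) ≤ (Fintype.card (Fin n ⊕ Fin n) : ℝ) ^ 2 * C := by
  refine frobSq_le_of_circle hF.JE_hol fun ζ hζ => ?_
  have hζ' : ζ ∈ uDiscC := Metric.sphere_subset_closedBall hζ
  have h1 := frame_JE_alg (poisM_frame hY hG hf hF hζ') (hU ζ hζ)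
  have h2 := frobSq_of_gram_one (hU ζ hζ)
  rw [h1]
  calc frobSq ((U ζ)ᴴ * poisM 𝓜 G (f ζ) * ((U ζ)ᴴ)ᵀ)
      ≤ frobSq ((U ζ)ᴴ * poisM 𝓜 G (f ζ)) * frobSq ((U ζ)ᴴ)ᵀ := frobSq_mul_le _ _
    _ ≤ (frobSq (U ζ)ᴴ * frobSq (poisM 𝓜 G (f ζ))) * frobSq ((U ζ)ᴴ)ᵀ :=
        mul_le_mul_of_nonneg_right (frobSq_mul_le _ _) (frobSq_nonneg _)
    _ = (Fintype.card (Fin n ⊕ Fin n) : ℝ) ^ 2 * frobSq (poisM 𝓜 G (f ζ)) := by
        rw [frobSq_transpose, frobSq_conjTranspose, h2]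
        ring
    _ ≤ _ := by
        have := hC ζ hζ
        gcongr

/-- `JE⁻¹ = Uᵀ P⁺ U` (`poisI_frame`), entries of `JE⁻¹` are `HolSm` (`holSm_matInv`), `frobSq_le_of_circle`. -/
theorem frame_JEinv_le (hY : IsCotangent 𝓜 𝒴) (hG : GImm 𝒴 G)
    (hf : ∀ ζ ∈ uDiscC, f ζ ∈ 𝒴.carrier)
    (hF : IsFrame 𝓜 G f U JE) (hU : ∀ ζ ∈ uCirc, (U ζ)ᴴ * U ζ = 1) {C : ℝ}
    (hC : ∀ ζ ∈ uCirc, frobSq (poisI 𝓜 G (f ζ)) ≤ C) :
    ∀ ζ ∈ uDiscC, frobSq (JE ζ)⁻¹ ≤ (Fintype.card (Fin n ⊕ Fin n) : ℝ) ^ 2 * C := by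
  refine frobSq_le_of_circle (M := fun ζ => (JE ζ)⁻¹)
    (holSm_matInv hF.JE_hol fun ζ hζ => (poisI_frame hY hG hf hF hζ).1) fun ζ hζ => ?_
  have hζ' : ζ ∈ uDiscC := Metric.sphere_subset_closedBall hζ
  have h2 := frobSq_of_gram_one (hU ζ hζ)
  show frobSq (JE ζ)⁻¹ ≤ _
  rw [(poisI_frame hY hG hf hF hζ').2]
  calc frobSq ((U ζ)ᵀ * poisI 𝓜 G (f ζ) * U ζ)
      ≤ frobSq ((U ζ)ᵀ * poisI 𝓜 G (f ζ)) * frobSq (U ζ) := frobSq_mul_le _ _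
    _ ≤ (frobSq (U ζ)ᵀ * frobSq (poisI 𝓜 G (f ζ))) * frobSq (U ζ) :=
        mul_le_mul_of_nonneg_right (frobSq_mul_le _ _) (frobSq_nonneg _)
    _ = (Fintype.card (Fin n ⊕ Fin n) : ℝ) ^ 2 * frobSq (poisI 𝓜 G (f ζ)) := by
        rw [frobSq_transpose, h2]
        ring
    _ ≤ _ := by
        have := hC ζ hζ
        gcongr

theorem circSm_matMul {α β γ : Type} [Fintype β] {A : ℂ → Matrix α β ℂ} {B : ℂ → Matrix β γ ℂ}
    (hA : ∀ i j, CircSm fun ζ => A ζ i j) (hB : ∀ i j, CircSm fun ζ => B ζ i j) (i : α) (j : γ) :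
    CircSm fun ζ => (A ζ * B ζ) i j := by
  simp only [Matrix.mul_apply]
  exact CircSm.sum _ fun k _ => (hA i k).mul (hB k j)

/-- `P ∘ f = U JE Uᵀ` on the circle (`poisM_frame`), so `dthM (P ∘ f) = U' JE Uᵀ + U JE' Uᵀ + U JE U'ᵀ` (`dthM_congr`, `dthM_mul` twice, `dthM_transpose`); chart at `f ζ` (`cot_cover`), `hF.tangent`, `poisI_chart`, `frame_trace_alg`. -/
theorem frame_trace_circle (hY : IsCotangent 𝓜 𝒴) (hG : GImm 𝒴 G)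
    (hf : ∀ ζ ∈ uDiscC, f ζ ∈ 𝒴.carrier) (hF : IsFrame 𝓜 G f U JE)
    (hU : ∀ ζ ∈ uCirc, (U ζ)ᴴ * U ζ = 1) {ζ : ℂ} (hζ : ζ ∈ uCirc) :
    (poisI 𝓜 G (f ζ) * dthM (fun ξ => poisM 𝓜 G (f ξ)) ζ).trace =
      2 * ((U ζ)ᴴ * dthM U ζ).trace + ((JE ζ)⁻¹ * dthM JE ζ).trace := by
  have hsub : uCirc ⊆ uDiscC := Metric.sphere_subset_closedBall
  have hζ' : ζ ∈ uDiscC := hsub hζ
  have hUc : ∀ i j, CircSm fun ξ => U ξ i j := fun i j => (hF.U_hol i j).circSm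
  have hJc : ∀ i j, CircSm fun ξ => JE ξ i j := fun i j => (hF.JE_hol i j).circSm
  have h1 : dthM (fun ξ => poisM 𝓜 G (f ξ)) ζ = dthM (fun ξ => U ξ * JE ξ * (U ξ)ᵀ) ζ :=
    dthM_congr (fun ξ hξ => poisM_frame hY hG hf hF (hsub hξ)) hζ
  rw [h1, dthM_mul (B := fun ξ => (U ξ)ᵀ) (circSm_matMul hUc hJc) (fun i j => hUc j i) hζ,
    dthM_mul hUc hJc hζ, dthM_transpose]
  obtain ⟨Φ, U₀, p, hΦ, hp, hfp⟩ := cot_cover hY (hf ζ hζ')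
  obtain ⟨S, hSu, hUS, hS⟩ := hF.tangent ζ hζ' Φ U₀ p hΦ hp hfp
  have hU1 := hU ζ hζ
  rw [hfp, poisI_chart hY hG hΦ hp]
  rw [hUS] at hU1 ⊢
  rw [← frame_trace_alg (jac_cot_injective hY hG hΦ hp) hSu hS hU1 (dthM U ζ) (dthM JE ζ),
    Matrix.add_mul]

/-- `DsqM_le_of_trace` with `Pf = P ∘ f`, `Pi = P⁺ ∘ f`, `N = JE⁻¹`; `Dsq_comp_glip` for the entries; `√(C² D) √(C² D) = C² D`. -/
theorem frame_D_le (hY : IsCotangent 𝓜 𝒴) (hG : GImm 𝒴 G) {r : ℝ} (hr : 1 < r)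
    (hf : IsHolDisc 𝒴 f r) (hF : IsFrame 𝓜 G f U JE) (hU : ∀ ζ ∈ uCirc, (U ζ)ᴴ * U ζ = 1)
    {K : Set (CotAmb V)} (hfK : ∀ ζ ∈ uCirc, f ζ ∈ K) {C : ℝ} (hC : 0 ≤ C)
    (hL : ∀ y ∈ K, ∀ y' ∈ K, ∀ a b,
        ‖poisM 𝓜 G y a b - poisM 𝓜 G y' a b‖ ≤ C * ‖G y - G y'‖ ∧
        ‖poisI 𝓜 G y a b - poisI 𝓜 G y' a b‖ ≤ C * ‖G y - G y'‖) :
    DsqM U ≤ (1 / 2 : ℝ) * (q : ℝ) ^ 2 * C ^ 2 * DsqV fun ζ => (G (f ζ) : Fin q → ℂ) := by
  have hmem := disc_mem hr hf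
  have hX : ∀ a, CircLip fun ζ => G (f ζ) a := fun a => (G_disc_holSm hG hr hf a).circSm.circLip
  have hPi := fun a b => Dsq_comp_glip (G := G) (f := f) (β := fun y => poisI 𝓜 G y a b) hC
    (fun y hy y' hy' => (hL y hy y' hy' a b).2) hX hfK
  have hPf := fun a b => Dsq_comp_glip (G := G) (f := f) (β := fun y => poisM 𝓜 G y a b) hC
    (fun y hy y' hy' => (hL y hy y' hy' a b).1) hX hfK
  have h1 := DsqM_le_of_trace (U := U) (JE := JE) (N := fun ζ => (JE ζ)⁻¹)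
    (Pf := fun ζ => poisM 𝓜 G (f ζ)) (Pi := fun ζ => poisI 𝓜 G (f ζ)) hF.U_hol hF.JE_hol
    (holSm_matInv hF.JE_hol fun ζ hζ => (poisI_frame hY hG hmem hF hζ).1)
    (fun a b => (poisM_disc_holSm hY hG hr hf a b).circSm) (fun a b => (hPi a b).1)
    (fun ζ hζ => frame_trace_circle hY hG hmem hF hU hζ)
  set D := DsqV fun ζ => (G (f ζ) : Fin q → ℂ) with hD
  have hD0 : 0 ≤ D := Finset.sum_nonneg fun _ _ => Dsq_nonneg _
  have h2 : ∀ a b, Real.sqrt (Dsq fun ζ => poisI 𝓜 G (f ζ) a b) *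
      Real.sqrt (Dsq fun ζ => poisM 𝓜 G (f ζ) b a) ≤ C ^ 2 * D := by
    intro a b
    calc _ ≤ Real.sqrt (C ^ 2 * D) * Real.sqrt (C ^ 2 * D) :=
          mul_le_mul (Real.sqrt_le_sqrt (hPi a b).2) (Real.sqrt_le_sqrt (hPf b a).2)
            (Real.sqrt_nonneg _) (Real.sqrt_nonneg _)
      _ = C ^ 2 * D := Real.mul_self_sqrt (by positivity)
  calc DsqM U ≤ (1 / 2 : ℝ) * ∑ a : Fin q, ∑ b : Fin q,
        Real.sqrt (Dsq fun ζ => poisI 𝓜 G (f ζ) a b) *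
          Real.sqrt (Dsq fun ζ => poisM 𝓜 G (f ζ) b a) := h1
    _ ≤ (1 / 2 : ℝ) * ∑ _a : Fin q, ∑ _b : Fin q, C ^ 2 * D := by
        refine mul_le_mul_of_nonneg_left ?_ (by norm_num)
        exact Finset.sum_le_sum fun a _ => Finset.sum_le_sum fun b _ => h2 a b
    _ = (1 / 2 : ℝ) * (q : ℝ) ^ 2 * C ^ 2 * D := by
        simp
        ring

theorem frobSq_le_of_entries {α β : Type} [Fintype α] [Fintype β] {A : Matrix α β ℂ} {C : ℝ}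
    (h : ∀ a b, ‖A a b‖ ≤ C) : frobSq A ≤ Fintype.card α * Fintype.card β * C ^ 2 := by
  unfold frobSq
  calc ∑ a, ∑ b, ‖A a b‖ ^ 2 ≤ ∑ _a : α, ∑ _b : β, C ^ 2 :=
        Finset.sum_le_sum fun a _ => Finset.sum_le_sum fun b _ =>
          pow_le_pow_left₀ (norm_nonneg _) (h a b) 2
    _ = Fintype.card α * Fintype.card β * C ^ 2 := by
        simp
        ring

theorem DsqV_nonneg {ι : Type} [Fintype ι] (a : ℂ → ι → ℂ) : 0 ≤ DsqV a :=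
  Finset.sum_nonneg fun _ _ => Dsq_nonneg _

/-- the bounds of Lemma 4.5 for a frame which is unitary on the circle. -/
theorem frameBd_of_gram_one (hY : IsCotangent 𝓜 𝒴) (hG : GImm 𝒴 G) {K : Set (CotAmb V)}
    (hK : IsCompact K) (hKY : K ⊆ 𝒴.carrier) :
    ∃ C : ℝ, ∀ (f : ℂ → CotAmb V) (r : ℝ) (U : ℂ → Matrix (Fin q) (Fin n ⊕ Fin n) ℂ)
      (JE : ℂ → Matrix (Fin n ⊕ Fin n) (Fin n ⊕ Fin n) ℂ), 1 < r → IsHolDisc 𝒴 f r →
      (∀ ζ ∈ uCirc, f ζ ∈ K) → IsFrame 𝓜 G f U JE → (∀ ζ ∈ uCirc, (U ζ)ᴴ * U ζ = 1) →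
      FrameBd C G f U JE := by
  obtain ⟨C, hC0, hCb, hCl⟩ := pois_glip (𝓜 := 𝓜) hY hG hK hKY
  set C1 : ℝ := (Fintype.card (Fin n ⊕ Fin n) : ℝ) ^ 2 *
    (Fintype.card (Fin q) * Fintype.card (Fin q) * C ^ 2) with hC1
  set C2 : ℝ := (1 / 2 : ℝ) * (q : ℝ) ^ 2 * C ^ 2 with hC2
  have hC2' : 0 ≤ C2 := by positivity
  refine ⟨max C1 C2, fun f r U JE hr hf hfK hF hU => ?_⟩
  have hmem := disc_mem hr hf
  refine ⟨?_, ?_, ?_, ?_, ?_⟩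
  · intro ζ hζ v
    exact (gram_one_iff.1 (hU ζ hζ) v).le
  · intro ζ hζ v
    rw [gram_one_iff.1 (hU ζ hζ) v]
    have : 0 ≤ ∑ i, ‖v i‖ ^ 2 := Finset.sum_nonneg fun _ _ => by positivity
    linarith
  · have h1 := frame_D_le hY hG hr hf hF hU hfK hC0 hCl
    have h2 := DsqV_nonneg fun ζ => (G (f ζ) : Fin q → ℂ)
    calc DsqM U ≤ C2 * DsqV fun ζ => (G (f ζ) : Fin q → ℂ) := h1
      _ ≤ max C1 C2 * (1 + DsqV fun ζ => (G (f ζ) : Fin q → ℂ)) := by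
          have h3 : C2 ≤ max C1 C2 := le_max_right _ _
          nlinarith
  · intro ζ hζ
    exact (frame_JE_le hY hG hmem hF hU (fun ξ hξ =>
      frobSq_le_of_entries fun a b => (hCb _ (hfK ξ hξ) a b).1) ζ hζ).trans (le_max_left _ _)
  · intro ζ hζ
    exact (frame_JEinv_le hY hG hmem hF hU (fun ξ hξ =>
      frobSq_le_of_entries fun a b => (hCb _ (hfK ξ hξ) a b).2) ζ hζ).trans (le_max_left _ _)

/-- **Lemma 4.5** (`S5/FromS4.lean`, verbatim). -/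
theorem exists_frame (hY : IsCotangent 𝓜 𝒴) (hG : GImm 𝒴 G)
    {K : Set (CotAmb V)} (hK : IsCompact K) (hKY : K ⊆ 𝒴.carrier) :
    ∃ C : ℝ, ∀ (f : ℂ → CotAmb V) (r : ℝ), 1 < r → IsHolDisc 𝒴 f r → (∀ ζ ∈ uCirc, f ζ ∈ K) →
      ∃ (U : ℂ → Matrix (Fin q) (Fin n ⊕ Fin n) ℂ)
        (JE : ℂ → Matrix (Fin n ⊕ Fin n) (Fin n ⊕ Fin n) ℂ),
        IsFrame 𝓜 G f U JE ∧ FrameBd C G f U JE := by
  obtain ⟨C, hC⟩ := frameBd_of_gram_one (𝓜 := 𝓜) hY hG hK hKY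
  refine ⟨C, fun f r hr hf hfK => ?_⟩
  obtain ⟨U, JE, hF, hU⟩ := exists_norm_frame hY hG hr hf
  exact ⟨U, JE, hF, hC f r U JE hr hf hfK hF hU⟩

end Claimed.Agent.R316.S4
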