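import Claimed.Agent.R316.S4.Defs
import Claimed.Agent.R316.Pack016

/-!
# Row 316, Section 4, BP-S4-CPT part 1: potential theory on the unit disc (design: helper58)

FRAMEWORK-FREE (Mathlib + `CW/LeviSub.lean`): no manifold occurs in this file.  It replaces Lemma 4.4 (`L¹_loc` compactness of psh functions), Riesz measures, `L^{3/2}`/`L³`/Morrey of `discs.tex` by explicit inequalities for ONE `C²` subharmonic function `u` on a neighbourhood of the closed unit disc.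
Consumer: `S4/Cpt1.lean` with `u = ψ ∘ f`, `σ = |f'|_g`.

Notation: `Δ = Laplacian.laplacian`, `mob a ζ = (ζ + a)/(1 + \bar a ζ)`, `gker a ζ = log (|1 - \bar a ζ| / |ζ - a|) = - log |mob (-a) ζ|` (Green kernel of the disc), `rmass u E = (2π)⁻¹ ∫_E Δu`, `wmass u = (2π)⁻¹ ∫_Δ (1 - |ζ|) Δu`, `seg σ z y = |y - z| ∫₀¹ σ(z + t(y - z)) dt` (the `σ`-length of the segment).

## LEAVES (one subtask each; auxiliary lemmas with prefix `pot_` in this file, next to the leaf)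

* **S4-P-MOB** `mob_*`, `hasDerivAt_mob`, `exists_mob_mapsTo`, `integral_mob`, `laplacian_comp_hol1`.  Algebra: `1 - |mob a ζ|² = (1-|a|²)(1-|ζ|²)/|1+\bar a ζ|²`.  `integral_mob`: `MeasureTheory.integral_image_eq_integral_abs_det_fderiv_smul` on `ball 0 1` with `f' = (deriv (mob a) ζ) •` as a real linear map of `ℂ`, whose determinant is `|deriv|²` (`Complex.det_…`/ compute in the basis `1, I`: `LinearMap.det` of multiplication by `c` is `normSq c`: Mathlib `Algebra.norm`/`Complex.…`; or write the 2×2 matrix).  `laplacian_comp_hol1`: from `s6g_laplacian_comp_hol`-type computation or directly with `ls_laplacian_eq`, `ls_bilin` (`D²(u∘φ)(v,v) = D²u(φ'v, φ'v) + Du(φ''v²)`, and `φ''·1² + φ''·I² = 0`).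
* **S4-P-JEN0** `jensen_center`.  Extend the proof of `ls_submean_global` (`CW/LeviSub.lean`): `M r` circle mean, `N r = r M' r`, `r N' r = r² m(r)`, `m(r) = (2π)⁻¹ ∫ Δu(r e^{iθ}) dθ`; so `M 1 - u 0 = ∫₀¹ N(r)/r dr = ∫₀¹ s m(s) log(1/s) ds` (Fubini on the triangle or integration by parts) `= (2π)⁻¹ ∫_Δ log(1/|ζ|) Δu` (polar coordinates `Complex.polarCoord`, `integral_comp_polarCoord_symm`).  First extend `u` from `closedBall 0 1` to a global `C²` function by a cutoff as in `submean_of_laplacian_nonneg`.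
* **S4-P-JEN** `jensen_mob`, `max_principle`: apply `jensen_center` to `u ∘ mob a` (`exists_mob_mapsTo`, `laplacian_comp_hol1`), then `integral_mob` with `h = gker a · Δu`, as `log (1/|ζ|) = gker a (mob a ζ)`.
* **S4-P-KER** `gker_nonneg`, `gker_lower`, `gker_far`, `gker_near`: with `φ = mob (-a) ζ`: `1 - |φ|² = (1-|a|²)(1-|ζ|²)/|1-\bar a ζ|²`, `-log|φ| = -½ log(1 - (1-|φ|²)) ≥ ½ (1-|φ|²)`, `-log |φ| ≤ ½ (|φ|⁻² - 1) = (1-|a|²)(1-|ζ|²)/(2|ζ-a|²)`, `|1 - \bar a ζ| ≤ 2`.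
* **S4-P-MASS** `wmass_le`, `rmass_mono`, `rmass_nonneg`, `rmass_le_wmass`.
* **S4-P-INT** `integrableOn_norm_sub_rpow`, `integral_norm_sub_rpow_le`: `∫_{B(c,R)} |x - c|^{-α} = 2π R^{2-α}/(2-α)` for `α < 2` (polar coordinates; only `≤` is needed), and for a ball not centred at the pole `∫_{B(z,R)} |x - c|^{-α} ≤ ∫_{B(c,R)} |x-c|^{-α}` (rearrangement: on `B(z,R) \ B(c,R)` the integrand is `≤ R^{-α}`, on `B(c,R) \ B(z,R)` it is `≥ R^{-α}`, and the two sets have the same measure).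
* **S4-P-BM1** `lower_bound_near`: `jensen_mob` at `x`, `u ≥ -B` on the circle, split `Δ = B(z,2s) ∪ rest`, `gker_far` (`|ζ - x| ≥ s`), `gker_near`.
* **S4-P-BM2** `exp_potential_bound` (Brezis-Merle by Jensen + Tonelli): `ν ≥ 0` continuous, `m = (2π)⁻¹ ∫_{B(z,2s)} ν ≤ 1`.  If `m = 0` the potential vanishes.  Otherwise Jensen for `exp` and the probability measure `ν dζ / (2π m)`: `exp (½ (2π)⁻¹ ∫ log(2/|ζ-x|) ν) = exp (∫ (m/2) log(2/|ζ-x|) dP(ζ)) ≤ ∫ (2/|ζ-x|)^{m/2} dP ≤ ∫ (2/|ζ-x|)^{1/2} dP` (`|ζ - x| < 2`).  Tonelli and `a^{-1/2} b^{-1} ≤ a^{-3/2} + b^{-3/2}`; `S4-P-INT` with `α = 3/2`.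
* **S4-P-BM** `bm_bound` = BM1 + BM2.
* **S4-P-SEG** `seg_average`, `seg_common`: `∫_{y ∈ B(z,R)} seg σ z y dy ≤ (R²/2) ∫_{B(z,R)} σ(x)/|x-z| dx` (Tonelli; for fixed `t` substitute `x = z + t(y-z)`, `dy = t⁻² dx`, `|y-z| = |x-z|/t`; `∫_{|x-z|/R}^1 t⁻³ dt ≤ R²/(2|x-z|²)`; or polar coordinates).  Then Markov: the sets `{y ∈ B(z₀,s/4) : seg σ z y > 3C}`, `{… w …}` have measure `≤ s² C/(8·3C) < π s²/32` each.
* **S4-P-LEMM** `lemmaM0` = `bm_bound` (centres `z`, `w`, radius `s/2`) + `seg_common`.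
* **S4-P-POL** `exists_ray_le`, `exists_ray_integrable` (polar coordinates + mean value/Fubini + Cauchy-Schwarz resp. AM-GM `√(φ) = √(φ ρ^{1-σ}) ρ^{(σ-1)/2} ≤ (φ ρ^{1-σ} + ρ^{σ-1})/2`).
-/

set_option autoImplicit false
set_option linter.unusedSectionVars false
open scoped ContDiff ComplexOrder Topology
open MeasureTheory Metric Set

namespace Claimed.Agent.R316.S4

open Claimed.Agent.R316

local notation "conj" => starRingEnd ℂ
local notation "Δ" => Laplacian.laplacian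

/-- Green kernel of the unit disc with pole `a`. -/
noncomputable def gker (a ζ : ℂ) : ℝ := Real.log (‖1 - conj a * ζ‖ / ‖ζ - a‖)

/-- Riesz mass of `u` on `E`. -/
noncomputable def rmass (u : ℂ → ℝ) (E : Set ℂ) : ℝ := (2 * Real.pi)⁻¹ * ∫ ζ in E, Δ u ζ

/-- weighted Riesz mass of `u` on the unit disc. -/
noncomputable def wmass (u : ℂ → ℝ) : ℝ :=
  (2 * Real.pi)⁻¹ * ∫ ζ in ball (0 : ℂ) 1, (1 - ‖ζ‖) * Δ u ζ

/-- the `σ`-length of the segment `[z, y]`. -/
noncomputable def seg (σ : ℂ → ℝ) (z y : ℂ) : ℝ := ‖y - z‖ * ∫ t in (0 : ℝ)..1, σ (z + t • (y - z))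

/-! ### S4-P-MOB -/

theorem mob_zero (a : ℂ) : mob a 0 = a := by
  simp [mob]

theorem mob_den_ne_zero {a ζ : ℂ} (ha : ‖a‖ < 1) (hζ : ‖ζ‖ ≤ 1) : 1 + conj a * ζ ≠ 0 := by
  intro h
  have h1 : conj a * ζ = -1 := by linear_combination h
  have h2 : ‖a‖ * ‖ζ‖ = 1 := by
    have := congrArg norm h1
    rwa [norm_mul, RCLike.norm_conj, norm_neg, norm_one] at this
  nlinarith [norm_nonneg a, norm_nonneg ζ]

theorem pot_key (a ζ : ℂ) :
    ‖1 + conj a * ζ‖ ^ 2 - ‖ζ + a‖ ^ 2 = (1 - ‖a‖ ^ 2) * (1 - ‖ζ‖ ^ 2) := by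
  simp only [Complex.sq_norm, Complex.normSq_apply, Complex.add_re, Complex.add_im, Complex.mul_re,
    Complex.mul_im, Complex.conj_re, Complex.conj_im, Complex.one_re, Complex.one_im]
  ring

theorem one_sub_normSq_mob {a ζ : ℂ} (h : 1 + conj a * ζ ≠ 0) :
    1 - ‖mob a ζ‖ ^ 2 = (1 - ‖a‖ ^ 2) * (1 - ‖ζ‖ ^ 2) / ‖1 + conj a * ζ‖ ^ 2 := by
  have h0 : ‖1 + conj a * ζ‖ ^ 2 ≠ 0 := pow_ne_zero 2 (norm_ne_zero_iff.2 h)
  rw [← pot_key, mob, norm_div, div_pow, sub_div, div_self h0]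

theorem pot_one_sub_ne {a : ℂ} (ha : ‖a‖ < 1) : (1 : ℂ) - conj a * a ≠ 0 := by
  intro h0
  have h1 : conj a * a = ((‖a‖ ^ 2 : ℝ) : ℂ) := by
    rw [mul_comm, Complex.mul_conj, Complex.normSq_eq_norm_sq]
  rw [h1] at h0
  have h2 : ((1 - ‖a‖ ^ 2 : ℝ) : ℂ) = 0 := by
    push_cast
    push_cast at h0
    exact h0
  have h3 : 1 - ‖a‖ ^ 2 = 0 := by exact_mod_cast h2
  nlinarith [norm_nonneg a]

theorem mob_neg_mob {a ζ : ℂ} (ha : ‖a‖ < 1) (h : 1 + conj a * ζ ≠ 0) : mob (-a) (mob a ζ) = ζ := by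
  have h1 := pot_one_sub_ne ha
  unfold mob
  rw [map_neg]
  have h2 : 1 + -conj a * ((ζ + a) / (1 + conj a * ζ)) = (1 - conj a * a) / (1 + conj a * ζ) := by
    rw [eq_div_iff h, add_mul, one_mul, mul_assoc, div_mul_cancel₀ _ h]
    ring
  have h3 : (ζ + a) / (1 + conj a * ζ) + -a = ζ * (1 - conj a * a) / (1 + conj a * ζ) := by
    rw [eq_div_iff h, add_mul, div_mul_cancel₀ _ h]
    ring
  rw [h2, h3, div_div_div_cancel_right₀ h, mul_div_assoc, div_self h1, mul_one]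

theorem pot_mob_mob_neg {a w : ℂ} (ha : ‖a‖ < 1) (h : 1 + conj (-a) * w ≠ 0) :
    mob a (mob (-a) w) = w := by
  have h1 := mob_neg_mob (a := -a) (ζ := w) (by rwa [norm_neg]) h
  rwa [neg_neg] at h1

theorem pot_norm_mob_lt {a ζ : ℂ} (ha : ‖a‖ < 1) (hζ : ‖ζ‖ < 1) : ‖mob a ζ‖ < 1 := by
  have h := mob_den_ne_zero ha hζ.le
  have h1 := one_sub_normSq_mob h
  have h2 : 0 < (1 - ‖a‖ ^ 2) * (1 - ‖ζ‖ ^ 2) / ‖1 + conj a * ζ‖ ^ 2 := by
    have h3 : 0 < 1 - ‖a‖ ^ 2 := by nlinarith [norm_nonneg a]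
    have h4 : 0 < 1 - ‖ζ‖ ^ 2 := by nlinarith [norm_nonneg ζ]
    have h5 : 0 < ‖1 + conj a * ζ‖ := norm_pos_iff.2 h
    positivity
  rw [← h1] at h2
  nlinarith [norm_nonneg (mob a ζ)]

theorem pot_norm_mob_eq {a ζ : ℂ} (ha : ‖a‖ < 1) (hζ : ‖ζ‖ = 1) : ‖mob a ζ‖ = 1 := by
  have h := mob_den_ne_zero ha hζ.le
  have h1 := one_sub_normSq_mob h
  rw [hζ] at h1
  have h2 : ‖mob a ζ‖ ^ 2 = 1 := by
    have : (1 - ‖a‖ ^ 2) * (1 - (1 : ℝ) ^ 2) / ‖1 + conj a * ζ‖ ^ 2 = 0 := by simp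
    linarith
  have h3 : (‖mob a ζ‖ - 1) * (‖mob a ζ‖ + 1) = 0 := by ring_nf; linarith
  rcases mul_eq_zero.1 h3 with h4 | h4
  · linarith
  · linarith [norm_nonneg (mob a ζ)]

theorem mob_bijOn_ball {a : ℂ} (ha : ‖a‖ < 1) : BijOn (mob a) (ball 0 1) (ball 0 1) := by
  have ha' : ‖-a‖ < 1 := by rwa [norm_neg]
  refine InvOn.bijOn (f' := mob (-a)) ⟨?_, ?_⟩ ?_ ?_
  · intro ζ hζ
    rw [mem_ball_zero_iff] at hζ
    exact mob_neg_mob ha (mob_den_ne_zero ha hζ.le)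
  · intro w hw
    rw [mem_ball_zero_iff] at hw
    exact pot_mob_mob_neg ha (mob_den_ne_zero ha' hw.le)
  · intro ζ hζ
    rw [mem_ball_zero_iff] at hζ ⊢
    exact pot_norm_mob_lt ha hζ
  · intro ζ hζ
    rw [mem_ball_zero_iff] at hζ ⊢
    exact pot_norm_mob_lt ha' hζ

theorem mob_bijOn_sphere {a : ℂ} (ha : ‖a‖ < 1) : BijOn (mob a) (sphere 0 1) (sphere 0 1) := by
  have ha' : ‖-a‖ < 1 := by rwa [norm_neg]
  refine InvOn.bijOn (f' := mob (-a)) ⟨?_, ?_⟩ ?_ ?_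
  · intro ζ hζ
    rw [mem_sphere_zero_iff_norm] at hζ
    exact mob_neg_mob ha (mob_den_ne_zero ha hζ.le)
  · intro w hw
    rw [mem_sphere_zero_iff_norm] at hw
    exact pot_mob_mob_neg ha (mob_den_ne_zero ha' hw.le)
  · intro ζ hζ
    rw [mem_sphere_zero_iff_norm] at hζ ⊢
    exact pot_norm_mob_eq ha hζ
  · intro ζ hζ
    rw [mem_sphere_zero_iff_norm] at hζ ⊢
    exact pot_norm_mob_eq ha' hζ

theorem hasDerivAt_mob {a ζ : ℂ} (h : 1 + conj a * ζ ≠ 0) :
    HasDerivAt (mob a) ((1 - (‖a‖ : ℂ) ^ 2) / (1 + conj a * ζ) ^ 2) ζ := by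
  have h1 : HasDerivAt (fun ζ : ℂ => ζ + a) 1 ζ := (hasDerivAt_id ζ).add_const a
  have h2 : HasDerivAt (fun ζ : ℂ => 1 + conj a * ζ) (conj a) ζ := by
    simpa using ((hasDerivAt_id ζ).const_mul (conj a)).const_add 1
  have h3 := h1.div h2 h
  have h4 : (‖a‖ : ℂ) ^ 2 = a * conj a := by
    rw [Complex.mul_conj, Complex.normSq_eq_norm_sq]
    push_cast
    rfl
  show HasDerivAt (fun ζ => (ζ + a) / (1 + conj a * ζ)) _ ζ
  refine h3.congr_deriv ?_
  rw [h4]
  congr 1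
  ring

/-- `mob a` is holomorphic past the circle and maps a slightly larger disc into any given larger disc. -/
theorem exists_mob_mapsTo {a : ℂ} (ha : ‖a‖ < 1) {r : ℝ} (hr : 1 < r) :
    ∃ r' : ℝ, 1 < r' ∧ DifferentiableOn ℂ (mob a) (ball 0 r') ∧ MapsTo (mob a) (ball 0 r') (ball 0 r) := by
  set V : Set ℂ := {ζ | 1 + conj a * ζ ≠ 0} with hV
  have hVo : IsOpen V := by
    have hc : Continuous fun ζ : ℂ => 1 + conj a * ζ := by fun_prop
    exact isOpen_ne_fun hc continuous_const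
  have hd : DifferentiableOn ℂ (mob a) V := fun ζ hζ =>
    (hasDerivAt_mob hζ).differentiableAt.differentiableWithinAt
  have hUo : IsOpen (V ∩ mob a ⁻¹' ball 0 r) := hd.continuousOn.isOpen_inter_preimage hVo isOpen_ball
  have hK : closedBall (0 : ℂ) 1 ⊆ V ∩ mob a ⁻¹' ball 0 r := by
    intro ζ hζ
    rw [mem_closedBall_zero_iff] at hζ
    refine ⟨mob_den_ne_zero ha hζ, ?_⟩
    rw [mem_preimage, mem_ball_zero_iff]
    rcases lt_or_eq_of_le hζ with h | h
    · exact (pot_norm_mob_lt ha h).trans hr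
    · rw [pot_norm_mob_eq ha h]
      exact hr
  obtain ⟨δ, hδ, hsub⟩ := (isCompact_closedBall (0 : ℂ) 1).exists_thickening_subset_open hUo hK
  rw [thickening_closedBall hδ zero_le_one] at hsub
  refine ⟨δ + 1, by linarith, hd.mono fun ζ hζ => (hsub hζ).1, fun ζ hζ => (hsub hζ).2⟩

theorem pot_det (c : ℂ) :
    ((ContinuousLinearMap.toSpanSingleton ℂ c).restrictScalars ℝ).det = ‖c‖ ^ 2 := by
  have h := LinearMap.det_restrictScalars (R := ℝ)
    (f := ((ContinuousLinearMap.toSpanSingleton ℂ c : ℂ →L[ℂ] ℂ) : ℂ →ₗ[ℂ] ℂ))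
  rw [Algebra.norm_complex_apply, Complex.normSq_eq_norm_sq] at h
  have h2 : LinearMap.det ((ContinuousLinearMap.toSpanSingleton ℂ c : ℂ →L[ℂ] ℂ) : ℂ →ₗ[ℂ] ℂ) = c := by
    have : ((ContinuousLinearMap.toSpanSingleton ℂ c : ℂ →L[ℂ] ℂ) : ℂ →ₗ[ℂ] ℂ)
        = c • LinearMap.id := by
      ext
      simp
    rw [this, LinearMap.det_smul]
    simp
  rw [h2] at h
  exact h

theorem pot_hasFDerivWithinAt_mob {a : ℂ} (ha : ‖a‖ < 1) : ∀ ζ ∈ ball (0 : ℂ) 1,
    HasFDerivWithinAt (mob a)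
      ((ContinuousLinearMap.toSpanSingleton ℂ (deriv (mob a) ζ)).restrictScalars ℝ) (ball 0 1) ζ := by
  intro ζ hζ
  rw [mem_ball_zero_iff] at hζ
  have h1 := hasDerivAt_mob (mob_den_ne_zero ha hζ.le)
  have h2 : HasDerivAt (mob a) (deriv (mob a) ζ) ζ := h1.differentiableAt.hasDerivAt
  exact (h2.hasFDerivAt.restrictScalars ℝ).hasFDerivWithinAt

/-- change of variables under a disc automorphism. -/
theorem integral_mob {a : ℂ} (ha : ‖a‖ < 1) (h : ℂ → ℝ) :
    ∫ ζ in ball (0 : ℂ) 1, ‖deriv (mob a) ζ‖ ^ 2 * h (mob a ζ) = ∫ w in ball (0 : ℂ) 1, h w := by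
  have hbij := mob_bijOn_ball ha
  have key := integral_image_eq_integral_abs_det_fderiv_smul volume measurableSet_ball
    (pot_hasFDerivWithinAt_mob ha) hbij.injOn h
  rw [hbij.image_eq] at key
  rw [key]
  refine setIntegral_congr_fun measurableSet_ball fun ζ _ => ?_
  simp only [pot_det, smul_eq_mul]
  rw [abs_of_nonneg (by positivity)]

theorem integrableOn_mob {a : ℂ} (ha : ‖a‖ < 1) (h : ℂ → ℝ) :
    IntegrableOn (fun ζ => ‖deriv (mob a) ζ‖ ^ 2 * h (mob a ζ)) (ball (0 : ℂ) 1) ↔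
      IntegrableOn h (ball (0 : ℂ) 1) := by
  have hbij := mob_bijOn_ball ha
  have key := integrableOn_image_iff_integrableOn_abs_det_fderiv_smul volume measurableSet_ball
    (pot_hasFDerivWithinAt_mob ha) hbij.injOn h
  rw [hbij.image_eq] at key
  rw [key]
  refine integrableOn_congr_fun (fun ζ _ => ?_) measurableSet_ball
  simp only [pot_det, smul_eq_mul]
  rw [abs_of_nonneg (by positivity)]

theorem pot_hasFDerivAt_real {φ : ℂ → ℂ} {w : ℂ} (h : DifferentiableAt ℂ φ w) :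
    HasFDerivAt φ (ContinuousLinearMap.mul ℝ ℂ (deriv φ w)) w := by
  have h2 := h.hasDerivAt.hasFDerivAt.restrictScalars ℝ
  have e : (ContinuousLinearMap.toSpanSingleton ℂ (deriv φ w)).restrictScalars ℝ
      = ContinuousLinearMap.mul ℝ ℂ (deriv φ w) := by
    ext v
    simp [mul_comm]
  rwa [e] at h2

theorem laplacian_comp_hol1 {u : ℂ → ℝ} {φ : ℂ → ℂ} {ζ : ℂ}
    (hφ : ∀ᶠ w in 𝓝 ζ, DifferentiableAt ℂ φ w) (hu : ContDiffAt ℝ 2 u (φ ζ)) :
    Δ (fun w => u (φ w)) ζ = ‖deriv φ ζ‖ ^ 2 * Δ u (φ ζ) := by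
  obtain ⟨V, hV, hVo, hζV⟩ := _root_.eventually_nhds_iff.1 hφ
  have hφd : DifferentiableOn ℂ φ V := fun w hw => (hV w hw).differentiableWithinAt
  have hψd : DifferentiableAt ℂ (deriv φ) ζ := (hφd.deriv hVo).differentiableAt (hVo.mem_nhds hζV)
  have hu1 : ∀ᶠ y in 𝓝 (φ ζ), DifferentiableAt ℝ u y := by
    filter_upwards [hu.eventually (by simp)] with y hy
    exact hy.differentiableAt (by norm_num)
  have hφc : ContinuousAt φ ζ := (hV ζ hζV).continuousAt
  have hev : (fderiv ℝ fun w => u (φ w)) =ᶠ[𝓝 ζ]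
      fun w => (fderiv ℝ u (φ w)).comp (ContinuousLinearMap.mul ℝ ℂ (deriv φ w)) := by
    filter_upwards [hφc.eventually hu1, hVo.mem_nhds hζV] with w h1 h2
    exact (h1.hasFDerivAt.comp w (pot_hasFDerivAt_real (hV w h2))).fderiv
  have hU : HasFDerivAt (fderiv ℝ u) (fderiv ℝ (fderiv ℝ u) (φ ζ)) (φ ζ) := by
    have h1 : ContDiffAt ℝ 1 (fderiv ℝ u) (φ ζ) := hu.fderiv_right (by norm_num)
    exact (h1.differentiableAt (by norm_num)).hasFDerivAt
  have hc := hU.comp ζ (pot_hasFDerivAt_real (hV ζ hζV))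
  have hd := (ContinuousLinearMap.mul ℝ ℂ).hasFDerivAt.comp ζ (pot_hasFDerivAt_real hψd)
  have hG := (hc.clm_comp hd).congr_of_eventuallyEq hev
  rw [ls_laplacian_eq, ls_laplacian_eq, hG.fderiv]
  have hb := ls_bilin (fderiv ℝ (fderiv ℝ u) (φ ζ)) (deriv φ ζ)
  rw [← hb]
  simp only [_root_.add_apply, ContinuousLinearMap.comp_apply, ContinuousLinearMap.compL_apply,
    ContinuousLinearMap.flip_apply, ContinuousLinearMap.mul_apply', mul_one, Function.comp_apply]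
  have e1 : deriv (deriv φ) ζ * Complex.I * Complex.I = -(deriv (deriv φ) ζ) := by
    rw [mul_assoc, Complex.I_mul_I]
    ring
  rw [e1, map_neg, mul_comm (deriv φ ζ) Complex.I]
  ring

/-! ### S4-P-JEN0, S4-P-JEN -/

/-- the circle-mean calculus of `ls_submean_global`, as a statement. -/
theorem pot_jc_calc {g : ℂ → ℝ} (hg : ContDiff ℝ 2 g) :
    ∃ P N N' : ℝ → ℝ, Continuous P ∧ Continuous (fun ζ => Δ g ζ) ∧
      (∀ r, HasDerivAt (fun x : ℝ => ∫ θ in (0 : ℝ)..(2 * Real.pi), g (x • lsE θ)) (P r) r) ∧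
      (∀ r, r * P r = N r) ∧ (∀ r, HasDerivAt N (N' r) r) ∧
      (∀ r, r * N' r = r ^ 2 * ∫ θ in (0 : ℝ)..(2 * Real.pi), Δ g (r • lsE θ)) := by
  set D : ℂ → ℂ →L[ℝ] ℝ := fderiv ℝ g with hD
  set H : ℂ → ℂ →L[ℝ] ℂ →L[ℝ] ℝ := fderiv ℝ D with hH
  have hD1 : ContDiff ℝ 1 D := hg.fderiv_right (m := 1) (by norm_num)
  have hgd : ∀ ζ, HasFDerivAt g (D ζ) ζ := fun ζ =>
    (hg.differentiable (by norm_num) ζ).hasFDerivAt
  have hDd : ∀ ζ, HasFDerivAt D (H ζ) ζ := fun ζ =>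
    (hD1.differentiable (by norm_num) ζ).hasFDerivAt
  have hgc : Continuous g := hg.continuous
  have hDc : Continuous D := hD1.continuous
  have hHc : Continuous H := hD1.continuous_fderiv (by norm_num)
  have hEc := lsE_continuous
  have hray : ∀ (θ r : ℝ), HasDerivAt (fun x : ℝ => x • lsE θ) (lsE θ) r := fun θ r => by
    simpa using (hasDerivAt_id r).smul_const (lsE θ)
  have hcirc : ∀ (r θ : ℝ), HasDerivAt (fun t : ℝ => r • lsE t) (r • (Complex.I * lsE θ)) θ :=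
    fun r θ => (lsE_hasDerivAt θ).const_smul r
  set F0 : ℝ → ℝ → ℝ := fun r θ => g (r • lsE θ) with hF0
  set F1 : ℝ → ℝ → ℝ := fun r θ => D (r • lsE θ) (lsE θ) with hF1
  set F2 : ℝ → ℝ → ℝ := fun r θ => D (r • lsE θ) (r • lsE θ) with hF2
  set F3 : ℝ → ℝ → ℝ := fun r θ => H (r • lsE θ) (lsE θ) (r • lsE θ) + D (r • lsE θ) (lsE θ)
    with hF3
  have hpt : Continuous fun p : ℝ × ℝ => p.1 • lsE p.2 :=
    continuous_fst.smul (hEc.comp continuous_snd)
  have hE2 : Continuous fun p : ℝ × ℝ => lsE p.2 := hEc.comp continuous_snd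
  have hc0 : Continuous (Function.uncurry F0) := hgc.comp hpt
  have hc1 : Continuous (Function.uncurry F1) := (hDc.comp hpt).clm_apply hE2
  have hc2 : Continuous (Function.uncurry F2) := (hDc.comp hpt).clm_apply hpt
  have hc3 : Continuous (Function.uncurry F3) :=
    (((hHc.comp hpt).clm_apply hE2).clm_apply hpt).add ((hDc.comp hpt).clm_apply hE2)
  have hd01 : ∀ r θ, HasDerivAt (fun x => F0 x θ) (F1 r θ) r := fun r θ =>
    (hgd (r • lsE θ)).comp_hasDerivAt r (hray θ r)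
  have hd23 : ∀ r θ, HasDerivAt (fun x => F2 x θ) (F3 r θ) r := fun r θ => by
    have h1 : HasDerivAt (fun x : ℝ => D (x • lsE θ)) (H (r • lsE θ) (lsE θ)) r :=
      (hDd (r • lsE θ)).comp_hasDerivAt r (hray θ r)
    exact h1.clm_apply (hray θ r)
  set M : ℝ → ℝ := fun r => ∫ θ in (0 : ℝ)..(2 * Real.pi), F0 r θ with hM
  set N : ℝ → ℝ := fun r => ∫ θ in (0 : ℝ)..(2 * Real.pi), F2 r θ with hN
  have hMd : ∀ r, HasDerivAt M (∫ θ in (0 : ℝ)..(2 * Real.pi), F1 r θ) r :=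
    ls_hasDerivAt_integral hc0 hc1 hd01
  have hNd : ∀ r, HasDerivAt N (∫ θ in (0 : ℝ)..(2 * Real.pi), F3 r θ) r :=
    ls_hasDerivAt_integral hc2 hc3 hd23
  have hsec : ∀ {F : ℝ → ℝ → ℝ}, Continuous (Function.uncurry F) → ∀ r, Continuous (F r) :=
    fun {F} hF r => hF.comp (by fun_prop : Continuous fun θ => (r, θ))
  have hMN : ∀ r, r * ∫ θ in (0 : ℝ)..(2 * Real.pi), F1 r θ = N r := by
    intro r
    rw [← intervalIntegral.integral_const_mul]
    refine intervalIntegral.integral_congr fun θ _ => ?_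
    simp only [hF1, hF2, map_smul, smul_eq_mul]
  have hLc : Continuous fun ζ => Laplacian.laplacian g ζ := by
    have : (fun ζ => Laplacian.laplacian g ζ) = fun ζ => H ζ 1 1 + H ζ Complex.I Complex.I := by
      funext ζ; exact ls_laplacian_eq g ζ
    rw [this]
    exact ((hHc.clm_apply continuous_const).clm_apply continuous_const).add
      ((hHc.clm_apply continuous_const).clm_apply continuous_const)
  have hNL : ∀ r, r * ∫ θ in (0 : ℝ)..(2 * Real.pi), F3 r θ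
      = r ^ 2 * ∫ θ in (0 : ℝ)..(2 * Real.pi), Laplacian.laplacian g (r • lsE θ) := by
    intro r
    set q : ℝ → ℝ := fun θ => D (r • lsE θ) (Complex.I * (r • lsE θ)) with hq
    set q' : ℝ → ℝ := fun θ => H (r • lsE θ) (Complex.I * (r • lsE θ)) (Complex.I * (r • lsE θ))
      - D (r • lsE θ) (r • lsE θ) with hq'
    have hptr : Continuous fun θ : ℝ => r • lsE θ := hEc.const_smul r
    have hIptr : Continuous fun θ : ℝ => Complex.I * (r • lsE θ) := continuous_const.mul hptr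
    have hq'c : Continuous q' :=
      (((hHc.comp hptr).clm_apply hIptr).clm_apply hIptr).sub ((hDc.comp hptr).clm_apply hptr)
    have hqd : ∀ θ, HasDerivAt q (q' θ) θ := by
      intro θ
      have e1 : r • (Complex.I * lsE θ) = Complex.I * (r • lsE θ) := by
        rw [mul_smul_comm]
      have h1 : HasDerivAt (fun t : ℝ => D (r • lsE t)) (H (r • lsE θ) (Complex.I * (r • lsE θ))) θ := by
        have := (hDd (r • lsE θ)).comp_hasDerivAt θ (hcirc r θ)
        rwa [e1] at this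
      have h2 : HasDerivAt (fun t : ℝ => Complex.I * (r • lsE t)) (-(r • lsE θ)) θ := by
        have := (hcirc r θ).const_mul Complex.I
        have e2 : Complex.I * r • (Complex.I * lsE θ) = -(r • lsE θ) := by
          rw [e1, ← mul_assoc, Complex.I_mul_I]; ring
        rwa [e2] at this
      have h3 := h1.clm_apply h2
      have e3 : q' θ = H (r • lsE θ) (Complex.I * (r • lsE θ)) (Complex.I * (r • lsE θ))
          + D (r • lsE θ) (-(r • lsE θ)) := by
        simp only [hq', map_neg]; ring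
      rw [e3]
      exact h3
    have hint : ∫ θ in (0 : ℝ)..(2 * Real.pi), q' θ = 0 := by
      rw [intervalIntegral.integral_eq_sub_of_hasDerivAt (fun θ _ => hqd θ)
        (hq'c.intervalIntegrable _ _)]
      simp only [hq, lsE_zero, lsE_two_pi, sub_self]
    have hLr : Continuous fun θ : ℝ => Laplacian.laplacian g (r • lsE θ) := hLc.comp hptr
    have hpoint : ∀ θ, r * F3 r θ + q' θ = r ^ 2 * Laplacian.laplacian g (r • lsE θ) := by
      intro θ
      have h1 := ls_bilin (H (r • lsE θ)) (r • lsE θ)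
      have h2 : ‖r • lsE θ‖ ^ 2 = r ^ 2 := by
        rw [norm_smul, lsE_norm, mul_one, Real.norm_eq_abs, sq_abs]
      rw [h2, ← ls_laplacian_eq] at h1
      rw [← h1]
      simp only [hF3, hq']
      have h3 : H (r • lsE θ) (r • lsE θ) (r • lsE θ) = r * H (r • lsE θ) (lsE θ) (r • lsE θ) := by
        conv_lhs => rw [map_smul (H (r • lsE θ)) r (lsE θ)]
        rfl
      have h4 : D (r • lsE θ) (r • lsE θ) = r * D (r • lsE θ) (lsE θ) := by
        conv_lhs => rw [map_smul (D (r • lsE θ)) r (lsE θ)]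
        rfl
      rw [h3, h4]
      ring
    calc r * ∫ θ in (0 : ℝ)..(2 * Real.pi), F3 r θ
        = (∫ θ in (0 : ℝ)..(2 * Real.pi), r * F3 r θ) + ∫ θ in (0 : ℝ)..(2 * Real.pi), q' θ := by
          rw [hint, add_zero, intervalIntegral.integral_const_mul]
      _ = ∫ θ in (0 : ℝ)..(2 * Real.pi), (r * F3 r θ + q' θ) := by
          have hi1 : IntervalIntegrable (fun θ => r * F3 r θ) volume 0 (2 * Real.pi) :=
            (continuous_const.mul (hsec hc3 r)).intervalIntegrable _ _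
          exact (intervalIntegral.integral_add hi1 (hq'c.intervalIntegrable _ _)).symm
      _ = ∫ θ in (0 : ℝ)..(2 * Real.pi), r ^ 2 * Laplacian.laplacian g (r • lsE θ) :=
          intervalIntegral.integral_congr fun θ _ => hpoint θ
      _ = r ^ 2 * ∫ θ in (0 : ℝ)..(2 * Real.pi), Laplacian.laplacian g (r • lsE θ) :=
          intervalIntegral.integral_const_mul _ _
  refine ⟨fun r => ∫ θ in (0 : ℝ)..(2 * Real.pi), F1 r θ, N, fun r => ∫ θ in (0 : ℝ)..(2 * Real.pi), F3 r θ,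
    ?_, hLc, hMd, hMN, hNd, hNL⟩
  exact intervalIntegral.continuous_parametric_intervalIntegral_of_continuous' hc1 _ _

/-- radial form of Jensen's formula. -/
theorem pot_jc_radial {g : ℂ → ℝ} (hg : ContDiff ℝ 2 g) :
    ∫ r in (0 : ℝ)..1, (-(r * Real.log r)) * ∫ θ in (0 : ℝ)..(2 * Real.pi), Δ g (r • lsE θ)
      = (∫ θ in (0 : ℝ)..(2 * Real.pi), g (lsE θ)) - 2 * Real.pi * g 0 := by
  obtain ⟨P, N, N', hPc, hLc, hMd, hMN, hNd, hNL⟩ := pot_jc_calc hg
  set M : ℝ → ℝ := fun x : ℝ => ∫ θ in (0 : ℝ)..(2 * Real.pi), g (x • lsE θ) with hM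
  set m : ℝ → ℝ := fun r => ∫ θ in (0 : ℝ)..(2 * Real.pi), Δ g (r • lsE θ) with hm
  have hmc : Continuous m := by
    refine intervalIntegral.continuous_parametric_intervalIntegral_of_continuous'
      (f := fun r θ => Δ g (r • lsE θ)) ?_ _ _
    exact hLc.comp (continuous_fst.smul (lsE_continuous.comp continuous_snd))
  set Ψ : ℝ → ℝ := fun r => M r - N r * Real.log r with hΨ
  have hΨe : ∀ r, Ψ r = M r - (r * Real.log r) * P r := by
    intro r
    simp only [hΨ, ← hMN r]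
    ring
  have hMc : Continuous M := continuous_iff_continuousAt.2 fun r => (hMd r).continuousAt
  have hΨc : Continuous Ψ := by
    have : Ψ = fun r => M r - (r * Real.log r) * P r := funext hΨe
    rw [this]
    exact hMc.sub (Real.continuous_mul_log.mul hPc)
  have hder : ∀ x ∈ Ioo (0 : ℝ) 1, HasDerivAt Ψ ((-(x * Real.log x)) * m x) x := by
    intro x hx
    have hx0 : x ≠ 0 := hx.1.ne'
    have h1 := (hMd x).sub ((hNd x).mul (Real.hasDerivAt_log hx0))
    have e : P x - (N' x * Real.log x + N x * x⁻¹) = (-(x * Real.log x)) * m x := by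
      have h2 : N' x = x * m x := by
        apply mul_left_cancel₀ hx0
        rw [hNL x]; ring
      rw [h2, ← hMN x]
      field_simp
      ring
    rw [e] at h1
    exact h1
  have hint : IntervalIntegrable (fun x => (-(x * Real.log x)) * m x) volume 0 1 :=
    ((Real.continuous_mul_log.neg).mul hmc).intervalIntegrable _ _
  rw [intervalIntegral.integral_eq_sub_of_hasDerivAt_of_le zero_le_one hΨc.continuousOn hder hint]
  simp only [hΨ, hM, Real.log_one, mul_zero, sub_zero, one_smul, Real.log_zero, zero_smul,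
    intervalIntegral.integral_const, smul_eq_mul]

theorem pot_lsE_periodic : Function.Periodic lsE (2 * Real.pi) := by
  intro θ
  unfold lsE
  push_cast
  rw [add_mul, Complex.exp_add, Complex.exp_two_pi_mul_I, mul_one]

theorem pot_polar_symm (p : ℝ × ℝ) : Complex.polarCoord.symm p = p.1 • lsE p.2 := by
  rw [Complex.polarCoord_symm_apply, Complex.real_smul, lsE, Complex.exp_mul_I]
  push_cast
  rfl

/-- polar coordinates for `log (1/|ζ|) L(ζ)` on the unit disc. -/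
theorem pot_jc_polar {L : ℂ → ℝ} (hL : Continuous L) :
    IntegrableOn (fun ζ => Real.log (1 / ‖ζ‖) * L ζ) (ball (0 : ℂ) 1) ∧
    ∫ ζ in ball (0 : ℂ) 1, Real.log (1 / ‖ζ‖) * L ζ
      = ∫ r in (0 : ℝ)..1, (-(r * Real.log r)) * ∫ θ in (0 : ℝ)..(2 * Real.pi), L (r • lsE θ) := by
  have hπ := Real.pi_pos
  set k : ℝ × ℝ → ℝ := fun p => (-(p.1 * Real.log p.1)) * L (p.1 • lsE p.2) with hk
  have hkc : Continuous k :=
    ((Real.continuous_mul_log.comp continuous_fst).neg).mul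
      (hL.comp (continuous_fst.smul (lsE_continuous.comp continuous_snd)))
  set f : ℂ → ℝ := (ball (0 : ℂ) 1).indicator (fun ζ => Real.log (1 / ‖ζ‖) * L ζ) with hf
  set S : Set (ℝ × ℝ) := Ioo (0 : ℝ) 1 ×ˢ Ioo (-Real.pi) Real.pi with hS
  have hSm : MeasurableSet S := measurableSet_Ioo.prod measurableSet_Ioo
  have hST : S ⊆ polarCoord.target := by
    rw [polarCoord_target]
    exact prod_mono (fun x hx => hx.1) subset_rfl
  have hkS : IntegrableOn k S := by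
    have h1 : IntegrableOn k (Icc (0 : ℝ) 1 ×ˢ Icc (-Real.pi) Real.pi) :=
      hkc.continuousOn.integrableOn_compact (isCompact_Icc.prod isCompact_Icc)
    exact h1.mono_set (prod_mono Ioo_subset_Icc_self Ioo_subset_Icc_self)
  have hG : ∀ p ∈ polarCoord.target, p.1 • f (Complex.polarCoord.symm p) = S.indicator k p := by
    intro p hp
    rw [polarCoord_target] at hp
    have hp1 : 0 < p.1 := hp.1
    have hn : ‖p.1 • lsE p.2‖ = p.1 := by
      rw [norm_smul, lsE_norm, mul_one, Real.norm_of_nonneg hp1.le]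
    rw [pot_polar_symm, hf]
    by_cases h1 : p.1 < 1
    · have hb : p.1 • lsE p.2 ∈ ball (0 : ℂ) 1 := by rwa [mem_ball_zero_iff, hn]
      have hpS : p ∈ S := ⟨⟨hp1, h1⟩, hp.2⟩
      rw [indicator_of_mem hb, indicator_of_mem hpS, hn, hk, one_div, Real.log_inv, smul_eq_mul]
      ring
    · have hb : p.1 • lsE p.2 ∉ ball (0 : ℂ) 1 := by rwa [mem_ball_zero_iff, hn]
      have hpS : p ∉ S := fun h => h1 h.1.2
      rw [indicator_of_notMem hb, indicator_of_notMem hpS, smul_zero]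
  have hTm : MeasurableSet polarCoord.target := polarCoord.open_target.measurableSet
  have hfm : Measurable f := by
    refine Measurable.indicator ?_ measurableSet_ball
    exact (Real.measurable_log.comp (measurable_const.div measurable_norm)).mul hL.measurable
  have hfi : Integrable f := by
    refine ⟨hfm.aestronglyMeasurable, ?_⟩
    rw [HasFiniteIntegral, ← Complex.lintegral_comp_polarCoord_symm]
    have e : ∫⁻ p in polarCoord.target, ENNReal.ofReal p.1 • ‖f (Complex.polarCoord.symm p)‖ₑ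
        = ∫⁻ p in polarCoord.target, ‖S.indicator k p‖ₑ := by
      refine setLIntegral_congr_fun hTm fun p hp => ?_
      rw [← hG p hp, enorm_smul, smul_eq_mul]
      congr 1
      have hp1 : 0 < p.1 := by
        rw [polarCoord_target] at hp
        exact hp.1
      rw [Real.enorm_eq_ofReal hp1.le]
    rw [e]
    refine lt_of_le_of_lt (setLIntegral_le_lintegral _ _) ?_
    exact ((integrable_indicator_iff hSm).2 hkS).2
  refine ⟨(integrable_indicator_iff measurableSet_ball).1 hfi, ?_⟩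
  rw [← integral_indicator measurableSet_ball, ← Complex.integral_comp_polarCoord_symm,
    setIntegral_congr_fun hTm hG, setIntegral_indicator hSm, inter_eq_right.mpr hST, hS,
    Measure.volume_eq_prod, setIntegral_prod k (by rwa [hS, Measure.volume_eq_prod] at hkS),
    intervalIntegral.integral_of_le zero_le_one, integral_Ioc_eq_integral_Ioo]
  refine setIntegral_congr_fun measurableSet_Ioo fun r _ => ?_
  simp only [hk]
  rw [integral_const_mul]
  congr 1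
  rw [← integral_Ioc_eq_integral_Ioo, ← intervalIntegral.integral_of_le (by linarith)]
  have hper : Function.Periodic (fun θ => L (r • lsE θ)) (2 * Real.pi) := by
    intro θ
    simp only [pot_lsE_periodic θ]
  have := hper.intervalIntegral_add_eq (-Real.pi) 0
  rw [zero_add] at this
  rw [← this]
  congr 1
  ring

theorem pot_cavg_eq (u : ℂ → ℝ) :
    cavg u = (2 * Real.pi)⁻¹ * ∫ θ in (0 : ℝ)..(2 * Real.pi), u (lsE θ) := by
  unfold cavg
  rw [Real.circleAverage_def, smul_eq_mul]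
  congr 1
  refine intervalIntegral.integral_congr fun θ _ => ?_
  simp [circleMap, lsE]

theorem pot_jc_global {g : ℂ → ℝ} (hg : ContDiff ℝ 2 g) :
    IntegrableOn (fun ζ => Real.log (1 / ‖ζ‖) * Δ g ζ) (ball (0 : ℂ) 1) ∧
    g 0 = cavg g - (2 * Real.pi)⁻¹ * ∫ ζ in ball (0 : ℂ) 1, Real.log (1 / ‖ζ‖) * Δ g ζ := by
  obtain ⟨_, _, _, _, hLc, _⟩ := pot_jc_calc hg
  obtain ⟨h1, h2⟩ := pot_jc_polar hLc
  refine ⟨h1, ?_⟩
  have hπ := Real.pi_pos
  rw [h2, pot_jc_radial hg, pot_cavg_eq]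
  field_simp
  ring

/-- Jensen's formula at the centre. -/
theorem jensen_center {u : ℂ → ℝ} {r : ℝ} (hr : 1 < r) (hu : ContDiffOn ℝ 2 u (ball 0 r)) :
    IntegrableOn (fun ζ => Real.log (1 / ‖ζ‖) * Δ u ζ) (ball (0 : ℂ) 1) ∧
    u 0 = cavg u - (2 * Real.pi)⁻¹ * ∫ ζ in ball (0 : ℂ) 1, Real.log (1 / ‖ζ‖) * Δ u ζ := by
  let χ : ContDiffBump (0 : ℂ) :=
    { rIn := (1 + r) / 2
      rOut := (1 + 3 * r) / 4
      rIn_pos := by linarith
      rIn_lt_rOut := by linarith }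
  set G : ℂ → ℝ := fun ζ => χ ζ * u ζ with hG
  have hGc : ContDiff ℝ 2 G := by
    rw [contDiff_iff_contDiffAt]
    intro ζ
    by_cases hζ : ζ ∈ ball (0 : ℂ) r
    · exact χ.contDiffAt.mul (hu.contDiffAt (isOpen_ball.mem_nhds hζ))
    · have h1 : ζ ∉ tsupport χ := by
        rw [χ.tsupport_eq]
        refine fun h => hζ (closedBall_subset_ball ?_ h)
        show (1 + 3 * r) / 4 < r
        linarith
      have h2 : (χ : ℂ → ℝ) =ᶠ[𝓝 ζ] 0 := notMem_tsupport_iff_eventuallyEq.1 h1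
      have h3 : G =ᶠ[𝓝 ζ] fun _ => 0 := by
        filter_upwards [h2] with y hy
        simp [hG, hy]
      exact contDiffAt_const.congr_of_eventuallyEq h3
  have hin : ∀ ζ ∈ closedBall (0 : ℂ) 1, ζ ∈ ball (0 : ℂ) χ.rIn := by
    intro ζ hζ
    refine closedBall_subset_ball ?_ hζ
    show 1 < (1 + r) / 2
    linarith
  have hev : ∀ ζ ∈ closedBall (0 : ℂ) 1, G =ᶠ[𝓝 ζ] u := by
    intro ζ hζ
    filter_upwards [χ.eventuallyEq_one_of_mem_ball (hin ζ hζ)] with y hy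
    simp [hG, hy]
  have hΔG : ∀ ζ ∈ closedBall (0 : ℂ) 1, Δ G ζ = Δ u ζ := fun ζ hζ =>
    (InnerProductSpace.laplacian_congr_nhds (hev ζ hζ)).eq_of_nhds
  obtain ⟨h1, h2⟩ := pot_jc_global hGc
  have hpt : ∀ ζ ∈ ball (0 : ℂ) 1, Real.log (1 / ‖ζ‖) * Δ G ζ = Real.log (1 / ‖ζ‖) * Δ u ζ :=
    fun ζ hζ => by rw [hΔG ζ (ball_subset_closedBall hζ)]
  refine ⟨h1.congr_fun hpt measurableSet_ball, ?_⟩
  have h0 : G 0 = u 0 := (hev 0 (mem_closedBall_self zero_le_one)).eq_of_nhds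
  have hc : cavg G = cavg u := by
    rw [pot_cavg_eq, pot_cavg_eq]
    congr 1
    refine intervalIntegral.integral_congr fun θ _ => ?_
    exact (hev _ (by rw [mem_closedBall, dist_zero_right, lsE_norm])).eq_of_nhds
  rw [h0, hc, setIntegral_congr_fun measurableSet_ball hpt] at h2
  exact h2

theorem pot_mob_continuousOn_sphere {a : ℂ} (ha : ‖a‖ < 1) : ContinuousOn (mob a) (sphere (0 : ℂ) 1) := by
  intro ζ hζ
  rw [mem_sphere_zero_iff_norm] at hζ
  exact (hasDerivAt_mob (mob_den_ne_zero ha hζ.le)).continuousAt.continuousWithinAt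

theorem pot_circleIntegrable_mob {u : ℂ → ℝ} (hu : ContinuousOn u (sphere 0 1)) {a : ℂ} (ha : ‖a‖ < 1) :
    CircleIntegrable (fun ζ => u (mob a ζ)) 0 1 :=
  ContinuousOn.circleIntegrable zero_le_one
    (hu.comp (pot_mob_continuousOn_sphere ha) (mob_bijOn_sphere ha).mapsTo)

/-- bounds of the circle average. -/
theorem cavg_mob_le {u : ℂ → ℝ} (hu : ContinuousOn u (sphere 0 1)) {a : ℂ} (ha : ‖a‖ < 1) {B : ℝ}
    (hB : ∀ ζ ∈ sphere (0 : ℂ) 1, u ζ ≤ B) : cavg (fun ζ => u (mob a ζ)) ≤ B := by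
  unfold cavg
  refine Real.circleAverage_mono_on_of_le_circle (pot_circleIntegrable_mob hu ha) ?_
  intro x hx
  rw [abs_one] at hx
  exact hB _ ((mob_bijOn_sphere ha).mapsTo hx)

theorem le_cavg_mob {u : ℂ → ℝ} (hu : ContinuousOn u (sphere 0 1)) {a : ℂ} (ha : ‖a‖ < 1) {B : ℝ}
    (hB : ∀ ζ ∈ sphere (0 : ℂ) 1, B ≤ u ζ) : B ≤ cavg (fun ζ => u (mob a ζ)) := by
  unfold cavg
  rw [← Real.circleAverage_const B 0 1]
  refine Real.circleAverage_mono (continuousOn_const.circleIntegrable zero_le_one)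
    (pot_circleIntegrable_mob hu ha) ?_
  intro x hx
  rw [abs_one] at hx
  exact hB _ ((mob_bijOn_sphere ha).mapsTo hx)

/-! ### S4-P-KER -/

theorem gker_mob (a : ℂ) {ζ : ℂ} (ha : ‖a‖ < 1) (hζ : ‖ζ‖ < 1) :
    gker a (mob a ζ) = Real.log (1 / ‖ζ‖) := by
  have hd : 1 + conj a * ζ ≠ 0 := mob_den_ne_zero ha hζ.le
  have haa : conj a * a = ((‖a‖ ^ 2 : ℝ) : ℂ) := by
    rw [mul_comm, Complex.mul_conj, Complex.normSq_eq_norm_sq]
  set c : ℂ := (1 - ((‖a‖ ^ 2 : ℝ) : ℂ)) / (1 + conj a * ζ) with hc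
  have h1 : 1 - conj a * mob a ζ = c := by
    unfold mob
    rw [hc, ← haa]
    field_simp
    ring
  have h2 : mob a ζ - a = ζ * c := by
    unfold mob
    rw [hc, ← haa, div_sub' hd, mul_div_assoc']
    congr 1
    ring
  have hc0 : c ≠ 0 := by
    rw [hc]
    refine div_ne_zero ?_ hd
    rw [← Complex.ofReal_one, ← Complex.ofReal_sub, Complex.ofReal_ne_zero]
    have : ‖a‖ ^ 2 < 1 := by
      have := norm_nonneg a
      nlinarith
    linarith
  unfold gker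
  rw [h1, h2, norm_mul]
  congr 1
  have : ‖c‖ ≠ 0 := norm_ne_zero_iff.mpr hc0
  rcases eq_or_ne ‖ζ‖ 0 with h | h
  · simp [h]
  · field_simp

theorem pot_key' (a ζ : ℂ) :
    ‖1 - conj a * ζ‖ ^ 2 - ‖ζ - a‖ ^ 2 = (1 - ‖a‖ ^ 2) * (1 - ‖ζ‖ ^ 2) := by
  have h := pot_key (-a) ζ
  simpa [sub_eq_add_neg] using h

theorem pot_num_pos {a ζ : ℂ} (ha : ‖a‖ < 1) (hζ : ‖ζ‖ < 1) : 0 < ‖1 - conj a * ζ‖ := by
  have h := mob_den_ne_zero (a := -a) (ζ := ζ) (by rwa [norm_neg]) hζ.le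
  rw [norm_pos_iff]
  simpa [sub_eq_add_neg] using h

theorem pot_num_le {a ζ : ℂ} (ha : ‖a‖ < 1) (hζ : ‖ζ‖ < 1) : ‖1 - conj a * ζ‖ ≤ 2 := by
  have h1 : ‖1 - conj a * ζ‖ ≤ ‖(1 : ℂ)‖ + ‖conj a * ζ‖ := norm_sub_le _ _
  rw [norm_one, norm_mul, RCLike.norm_conj] at h1
  nlinarith [norm_nonneg a, norm_nonneg ζ]

theorem pot_two_gker {a ζ : ℂ} :
    2 * gker a ζ = Real.log (‖1 - conj a * ζ‖ ^ 2 / ‖ζ - a‖ ^ 2) := by
  rw [gker, ← div_pow, Real.log_pow]
  norm_num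

theorem gker_nonneg {a ζ : ℂ} (ha : ‖a‖ < 1) (hζ : ‖ζ‖ < 1) : 0 ≤ gker a ζ := by
  by_cases hne : ζ = a
  · subst hne
    simp [gker]
  have hP : 0 < ‖ζ - a‖ := norm_pos_iff.2 (sub_ne_zero.2 hne)
  have hk := pot_key' a ζ
  have h1 : 0 ≤ (1 - ‖a‖ ^ 2) * (1 - ‖ζ‖ ^ 2) := by
    have h3 : 0 ≤ 1 - ‖a‖ ^ 2 := by nlinarith [norm_nonneg a]
    have h4 : 0 ≤ 1 - ‖ζ‖ ^ 2 := by nlinarith [norm_nonneg ζ]
    positivity
  have h2 : ‖ζ - a‖ ≤ ‖1 - conj a * ζ‖ := by
    refine (pow_le_pow_iff_left₀ hP.le (norm_nonneg _) two_ne_zero).1 ?_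
    linarith
  exact Real.log_nonneg ((one_le_div hP).2 h2)

theorem gker_lower {a ζ : ℂ} (ha : ‖a‖ < 1) (hζ : ‖ζ‖ < 1) (hne : ζ ≠ a) :
    (1 - ‖a‖) * (1 - ‖ζ‖) / 8 ≤ gker a ζ := by
  have hP : 0 < ‖ζ - a‖ := norm_pos_iff.2 (sub_ne_zero.2 hne)
  have hN := pot_num_pos ha hζ
  have hN2 := pot_num_le ha hζ
  have hk := pot_key' a ζ
  have h1 := Real.one_sub_inv_le_log_of_pos
    (show 0 < ‖1 - conj a * ζ‖ ^ 2 / ‖ζ - a‖ ^ 2 by positivity)
  rw [← pot_two_gker, inv_div] at h1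
  have h2 : 1 - ‖ζ - a‖ ^ 2 / ‖1 - conj a * ζ‖ ^ 2
      = (1 - ‖a‖ ^ 2) * (1 - ‖ζ‖ ^ 2) / ‖1 - conj a * ζ‖ ^ 2 := by
    rw [← hk, sub_div, div_self (by positivity)]
  have h3 : (1 - ‖a‖) * (1 - ‖ζ‖) / 4 ≤ (1 - ‖a‖ ^ 2) * (1 - ‖ζ‖ ^ 2) / ‖1 - conj a * ζ‖ ^ 2 := by
    have h4 : ‖1 - conj a * ζ‖ ^ 2 ≤ 4 := by nlinarith
    have h5 : (1 - ‖a‖) * (1 - ‖ζ‖) ≤ (1 - ‖a‖ ^ 2) * (1 - ‖ζ‖ ^ 2) := by
      have h6 : 1 - ‖a‖ ≤ 1 - ‖a‖ ^ 2 := by nlinarith [norm_nonneg a]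
      have h7 : 1 - ‖ζ‖ ≤ 1 - ‖ζ‖ ^ 2 := by nlinarith [norm_nonneg ζ]
      have h8 : 0 ≤ 1 - ‖a‖ := by linarith
      have h9 : 0 ≤ 1 - ‖ζ‖ := by linarith
      exact mul_le_mul h6 h7 h9 (h8.trans h6)
    have h10 : 0 ≤ (1 - ‖a‖) * (1 - ‖ζ‖) :=
      mul_nonneg (by linarith) (by linarith)
    exact div_le_div₀ (h10.trans h5) h5 (by positivity) h4
  linarith

theorem gker_far {a ζ : ℂ} (ha : ‖a‖ < 1) (hζ : ‖ζ‖ < 1) {s : ℝ} (hs : 0 < s) (h : s ≤ ‖ζ - a‖) :
    gker a ζ ≤ (1 - ‖ζ‖) / s ^ 2 := by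
  have hP : 0 < ‖ζ - a‖ := lt_of_lt_of_le hs h
  have hN := pot_num_pos ha hζ
  have hk := pot_key' a ζ
  have h1 := Real.log_le_sub_one_of_pos
    (show 0 < ‖1 - conj a * ζ‖ ^ 2 / ‖ζ - a‖ ^ 2 by positivity)
  rw [← pot_two_gker] at h1
  have h2 : ‖1 - conj a * ζ‖ ^ 2 / ‖ζ - a‖ ^ 2 - 1
      = (1 - ‖a‖ ^ 2) * (1 - ‖ζ‖ ^ 2) / ‖ζ - a‖ ^ 2 := by
    rw [← hk, sub_div, div_self (by positivity)]
  have h3 : (1 - ‖a‖ ^ 2) * (1 - ‖ζ‖ ^ 2) / ‖ζ - a‖ ^ 2 ≤ 2 * (1 - ‖ζ‖) / s ^ 2 := by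
    have h4 : s ^ 2 ≤ ‖ζ - a‖ ^ 2 := by gcongr
    have h5 : (1 - ‖a‖ ^ 2) * (1 - ‖ζ‖ ^ 2) ≤ 2 * (1 - ‖ζ‖) := by
      have h6 : 1 - ‖a‖ ^ 2 ≤ 1 := by nlinarith [norm_nonneg a]
      have h7 : 1 - ‖ζ‖ ^ 2 ≤ 2 * (1 - ‖ζ‖) := by nlinarith [norm_nonneg ζ]
      have h8 : 0 ≤ 1 - ‖ζ‖ ^ 2 := by nlinarith [norm_nonneg ζ]
      nlinarith
    have h9 : 0 ≤ 2 * (1 - ‖ζ‖) := by linarith
    exact div_le_div₀ h9 h5 (by positivity) h4
  have h10 : 2 * (1 - ‖ζ‖) / s ^ 2 = 2 * ((1 - ‖ζ‖) / s ^ 2) := by ring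
  linarith

theorem gker_near {a ζ : ℂ} (ha : ‖a‖ < 1) (hζ : ‖ζ‖ < 1) : gker a ζ ≤ Real.log (2 / ‖ζ - a‖) := by
  by_cases hne : ζ = a
  · subst hne
    simp [gker]
  have hP : 0 < ‖ζ - a‖ := norm_pos_iff.2 (sub_ne_zero.2 hne)
  have hN := pot_num_pos ha hζ
  have hN2 := pot_num_le ha hζ
  refine Real.log_le_log (by positivity) ?_
  gcongr

/-! ### S4-P-MASS -/

theorem pot_lap_continuousOn {u : ℂ → ℝ} {r : ℝ} (hu : ContDiffOn ℝ 2 u (ball 0 r)) :
    ContinuousOn (Δ u) (ball (0 : ℂ) r) := by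
  intro ζ hζ
  have h2 : ContDiffAt ℝ 2 u ζ := hu.contDiffAt (isOpen_ball.mem_nhds hζ)
  have h1 : ContDiffAt ℝ 1 (fderiv ℝ u) ζ := h2.fderiv_right (m := 1) (by norm_num)
  have h0 : ContDiffAt ℝ 0 (fderiv ℝ (fderiv ℝ u)) ζ := h1.fderiv_right (m := 0) (by norm_num)
  have hc : ContinuousAt (fderiv ℝ (fderiv ℝ u)) ζ := h0.continuousAt
  have e : Δ u = fun ζ => fderiv ℝ (fderiv ℝ u) ζ 1 1 + fderiv ℝ (fderiv ℝ u) ζ Complex.I Complex.I := by
    funext ζ; exact ls_laplacian_eq u ζ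
  rw [e]
  refine ContinuousAt.continuousWithinAt ?_
  exact ((hc.clm_apply continuousAt_const).clm_apply continuousAt_const).add
    ((hc.clm_apply continuousAt_const).clm_apply continuousAt_const)

theorem pot_lap_integrableOn {u : ℂ → ℝ} {r : ℝ} (hr : 1 < r) (hu : ContDiffOn ℝ 2 u (ball 0 r)) :
    IntegrableOn (Δ u) (ball (0 : ℂ) 1) := by
  have h1 : ContinuousOn (Δ u) (closedBall (0 : ℂ) 1) :=
    (pot_lap_continuousOn hu).mono (closedBall_subset_ball hr)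
  exact (h1.integrableOn_compact (isCompact_closedBall _ _)).mono_set ball_subset_closedBall

theorem rmass_nonneg {u : ℂ → ℝ} {E : Set ℂ} (hE : MeasurableSet E) (hΔ : ∀ ζ ∈ E, 0 ≤ Δ u ζ) :
    0 ≤ rmass u E := by
  unfold rmass
  have := Real.pi_pos
  exact mul_nonneg (by positivity) (setIntegral_nonneg hE hΔ)

theorem rmass_mono {u : ℂ → ℝ} {r : ℝ} (hr : 1 < r) (hu : ContDiffOn ℝ 2 u (ball 0 r))
    (hΔ : ∀ ζ ∈ ball (0 : ℂ) 1, 0 ≤ Δ u ζ) {E E' : Set ℂ} (hE : MeasurableSet E)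
    (hE' : MeasurableSet E') (h : E ⊆ E') (h' : E' ⊆ ball 0 1) : rmass u E ≤ rmass u E' := by
  unfold rmass
  have := Real.pi_pos
  refine mul_le_mul_of_nonneg_left ?_ (by positivity)
  refine setIntegral_mono_set ((pot_lap_integrableOn hr hu).mono_set h') ?_ (Filter.Eventually.of_forall h)
  rw [Filter.EventuallyLE, ae_restrict_iff' hE']
  exact Filter.Eventually.of_forall fun ζ hζ => hΔ ζ (h' hζ)

/-- finite superadditivity of the mass. -/
theorem sum_rmass_le {u : ℂ → ℝ} {r : ℝ} (hr : 1 < r) (hu : ContDiffOn ℝ 2 u (ball 0 r))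
    (hΔ : ∀ ζ ∈ ball (0 : ℂ) 1, 0 ≤ Δ u ζ) {ι : Type} (T : Finset ι) (E : ι → Set ℂ) {E' : Set ℂ}
    (hE : ∀ i ∈ T, MeasurableSet (E i)) (hE' : MeasurableSet E') (hd : (T : Set ι).PairwiseDisjoint E)
    (h : ∀ i ∈ T, E i ⊆ E') (h' : E' ⊆ ball 0 1) : ∑ i ∈ T, rmass u (E i) ≤ rmass u E' := by
  have hU : MeasurableSet (⋃ i ∈ T, E i) := Finset.measurableSet_biUnion T hE
  have hsub : (⋃ i ∈ T, E i) ⊆ E' := iUnion₂_subset h
  refine le_trans (le_of_eq ?_) (rmass_mono hr hu hΔ hU hE' hsub h')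
  unfold rmass
  rw [integral_biUnion_finset T hE hd
    (fun i hi => (pot_lap_integrableOn hr hu).mono_set ((h i hi).trans h')), Finset.mul_sum]

theorem rmass_le_wmass {u : ℂ → ℝ} {r : ℝ} (hr : 1 < r) (hu : ContDiffOn ℝ 2 u (ball 0 r))
    (hΔ : ∀ ζ ∈ ball (0 : ℂ) 1, 0 ≤ Δ u ζ) {ρ : ℝ} (hρ : ρ < 1) :
    (1 - ρ) * rmass u (ball 0 ρ) ≤ wmass u := by
  unfold rmass wmass
  have := Real.pi_pos
  rw [mul_left_comm]
  refine mul_le_mul_of_nonneg_left ?_ (by positivity)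
  have hsub : ball (0 : ℂ) ρ ⊆ ball 0 1 := ball_subset_ball hρ.le
  have hI := pot_lap_integrableOn hr hu
  have hw : IntegrableOn (fun ζ => (1 - ‖ζ‖) * Δ u ζ) (ball (0 : ℂ) 1) := by
    refine Integrable.bdd_mul (c := 1) hI (by fun_prop) ?_
    rw [ae_restrict_iff' measurableSet_ball]
    refine Filter.Eventually.of_forall fun ζ hζ => ?_
    rw [mem_ball_zero_iff] at hζ
    rw [Real.norm_eq_abs, abs_le]
    constructor <;> linarith [norm_nonneg ζ]
  rw [← integral_const_mul]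
  calc ∫ ζ in ball (0 : ℂ) ρ, (1 - ρ) * Δ u ζ ≤ ∫ ζ in ball (0 : ℂ) ρ, (1 - ‖ζ‖) * Δ u ζ := by
        refine setIntegral_mono_on ((hI.mono_set hsub).const_mul _) (hw.mono_set hsub) measurableSet_ball ?_
        intro ζ hζ
        have h1 := hΔ ζ (hsub hζ)
        rw [mem_ball_zero_iff] at hζ
        exact mul_le_mul_of_nonneg_right (by linarith) h1
    _ ≤ ∫ ζ in ball (0 : ℂ) 1, (1 - ‖ζ‖) * Δ u ζ := by
        refine setIntegral_mono_set hw ?_ (Filter.Eventually.of_forall hsub)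
        rw [Filter.EventuallyLE, ae_restrict_iff' measurableSet_ball]
        refine Filter.Eventually.of_forall fun ζ hζ => ?_
        have h1 := hΔ ζ hζ
        rw [mem_ball_zero_iff] at hζ
        exact mul_nonneg (by linarith) h1

/-- Poisson-Jensen formula (the Poisson integral is written as a circle average of `u ∘ mob a`). -/
theorem jensen_mob {u : ℂ → ℝ} {r : ℝ} (hr : 1 < r) (hu : ContDiffOn ℝ 2 u (ball 0 r)) {a : ℂ}
    (ha : ‖a‖ < 1) :
    IntegrableOn (fun ζ => gker a ζ * Δ u ζ) (ball (0 : ℂ) 1) ∧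
    u a = cavg (fun ζ => u (mob a ζ)) - (2 * Real.pi)⁻¹ * ∫ ζ in ball (0 : ℂ) 1, gker a ζ * Δ u ζ := by
  obtain ⟨r', hr', hd, hm⟩ := exists_mob_mapsTo ha hr
  have hmob : ContDiffOn ℝ 2 (mob a) (ball 0 r') :=
    (hd.contDiffOn (n := 2) isOpen_ball).restrict_scalars ℝ
  have hv : ContDiffOn ℝ 2 (fun ζ => u (mob a ζ)) (ball 0 r') := hu.comp hmob hm
  obtain ⟨hi, he⟩ := jensen_center hr' hv
  set h : ℂ → ℝ := fun w => gker a w * Δ u w with hh
  have hpt : ∀ ζ ∈ ball (0 : ℂ) 1, Real.log (1 / ‖ζ‖) * Δ (fun ζ => u (mob a ζ)) ζ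
      = ‖deriv (mob a) ζ‖ ^ 2 * h (mob a ζ) := by
    intro ζ hζ
    have hζ' : ζ ∈ ball (0 : ℂ) r' := ball_subset_ball hr'.le hζ
    have h1 : ∀ᶠ w in 𝓝 ζ, DifferentiableAt ℂ (mob a) w := by
      filter_upwards [isOpen_ball.mem_nhds hζ'] with w hw
      exact hd.differentiableAt (isOpen_ball.mem_nhds hw)
    have h2 : ContDiffAt ℝ 2 u (mob a ζ) := hu.contDiffAt (isOpen_ball.mem_nhds (hm hζ'))
    rw [laplacian_comp_hol1 h1 h2, hh]
    rw [mem_ball_zero_iff] at hζ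
    simp only
    rw [gker_mob a ha hζ]
    ring
  have hi' : IntegrableOn (fun ζ => ‖deriv (mob a) ζ‖ ^ 2 * h (mob a ζ)) (ball (0 : ℂ) 1) :=
    hi.congr_fun hpt measurableSet_ball
  refine ⟨(integrableOn_mob ha h).1 hi', ?_⟩
  rw [setIntegral_congr_fun measurableSet_ball hpt, integral_mob ha h, mob_zero] at he
  exact he

/-- maximum principle for `C²` subharmonic functions on the closed disc. -/
theorem max_principle {u : ℂ → ℝ} {r : ℝ} (hr : 1 < r) (hu : ContDiffOn ℝ 2 u (ball 0 r))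
    (hΔ : ∀ ζ ∈ ball (0 : ℂ) 1, 0 ≤ Δ u ζ) {B : ℝ} (hB : ∀ ζ ∈ sphere (0 : ℂ) 1, u ζ ≤ B) :
    ∀ ζ ∈ closedBall (0 : ℂ) 1, u ζ ≤ B := by
  intro ζ hζ
  rw [mem_closedBall_zero_iff] at hζ
  rcases hζ.eq_or_lt with h1 | h1
  · exact hB ζ (by rwa [mem_sphere_zero_iff_norm])
  obtain ⟨-, he⟩ := jensen_mob hr hu h1
  have hus : ContinuousOn u (sphere (0 : ℂ) 1) :=
    hu.continuousOn.mono (sphere_subset_closedBall.trans (closedBall_subset_ball hr))
  have hc := cavg_mob_le hus h1 hB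
  have hπ := Real.pi_pos
  have h0 : 0 ≤ ∫ w in ball (0 : ℂ) 1, gker ζ w * Δ u w := by
    refine setIntegral_nonneg measurableSet_ball fun w hw => ?_
    have h2 := hΔ w hw
    rw [mem_ball_zero_iff] at hw
    exact mul_nonneg (gker_nonneg h1 hw) h2
  have : 0 ≤ (2 * Real.pi)⁻¹ * ∫ w in ball (0 : ℂ) 1, gker ζ w * Δ u w := by positivity
  linarith

/-- one interior lower anchor bounds the weighted mass. -/
theorem wmass_le {u : ℂ → ℝ} {r : ℝ} (hr : 1 < r) (hu : ContDiffOn ℝ 2 u (ball 0 r))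
    (hΔ : ∀ ζ ∈ ball (0 : ℂ) 1, 0 ≤ Δ u ζ) {B B' : ℝ} (hB : ∀ ζ ∈ sphere (0 : ℂ) 1, u ζ ≤ B) {a : ℂ}
    (ha : ‖a‖ < 1) (hB' : -B' ≤ u a) : wmass u ≤ 8 * (B + B') / (1 - ‖a‖) := by
  obtain ⟨hi, he⟩ := jensen_mob hr hu ha
  have hπ := Real.pi_pos
  have hus : ContinuousOn u (sphere (0 : ℂ) 1) :=
    hu.continuousOn.mono (sphere_subset_closedBall.trans (closedBall_subset_ball hr))
  have hc := cavg_mob_le hus ha hB
  have h1 : (2 * Real.pi)⁻¹ * ∫ ζ in ball (0 : ℂ) 1, gker a ζ * Δ u ζ ≤ B + B' := by linarith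
  have hI := pot_lap_integrableOn hr hu
  have hw : IntegrableOn (fun ζ => (1 - ‖ζ‖) * Δ u ζ) (ball (0 : ℂ) 1) := by
    refine Integrable.bdd_mul (c := 1) hI (by fun_prop) ?_
    rw [ae_restrict_iff' measurableSet_ball]
    refine Filter.Eventually.of_forall fun ζ hζ => ?_
    rw [mem_ball_zero_iff] at hζ
    rw [Real.norm_eq_abs, abs_le]
    constructor <;> linarith [norm_nonneg ζ]
  have h2 : ∫ ζ in ball (0 : ℂ) 1, ((1 - ‖a‖) / 8) * ((1 - ‖ζ‖) * Δ u ζ)
      ≤ ∫ ζ in ball (0 : ℂ) 1, gker a ζ * Δ u ζ := by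
    refine setIntegral_mono_on_ae (hw.const_mul _) hi measurableSet_ball ?_
    have hne : ∀ᵐ ζ : ℂ, ζ ≠ a := by
      rw [ae_iff]
      simp
    filter_upwards [hne] with ζ hζa hζ
    have h3 := hΔ ζ hζ
    rw [mem_ball_zero_iff] at hζ
    have h4 := gker_lower ha hζ hζa
    calc (1 - ‖a‖) / 8 * ((1 - ‖ζ‖) * Δ u ζ) = ((1 - ‖a‖) * (1 - ‖ζ‖) / 8) * Δ u ζ := by ring
      _ ≤ _ := mul_le_mul_of_nonneg_right h4 h3
  rw [integral_const_mul] at h2
  unfold wmass
  have h5 : 0 < 1 - ‖a‖ := by linarith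
  rw [le_div_iff₀ h5]
  have h6 : (2 * Real.pi)⁻¹ * ((1 - ‖a‖) / 8 * ∫ ζ in ball (0 : ℂ) 1, (1 - ‖ζ‖) * Δ u ζ) ≤ B + B' :=
    le_trans (mul_le_mul_of_nonneg_left h2 (by positivity)) h1
  linarith

/-! ### S4-P-INT -/

/-- integrability on the centred ball at the origin -/
theorem pot_integrableOn_rpow_zero (R : ℝ) {α : ℝ} (hα : α < 2) :
    IntegrableOn (fun x : ℂ => ‖x‖ ^ (-α)) (ball 0 R) := by
  rw [integrableOn_fun_norm_addHaar (μ := (volume : Measure ℂ)) (f := fun y : ℝ => y ^ (-α))]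
  have hfr : Module.finrank ℝ ℂ = 2 := Complex.finrank_real_complex
  rw [hfr]
  have h1 : IntegrableOn (fun y : ℝ => y ^ (1 - α)) (Ioo 0 R) := by
    rcases le_or_gt R 0 with hR | hR
    · rw [Ioo_eq_empty (by linarith)]
      exact integrableOn_empty
    · have := (intervalIntegral.intervalIntegrable_rpow' (a := 0) (b := R) (r := 1 - α) (by linarith))
      rw [intervalIntegrable_iff_integrableOn_Ioo_of_le hR.le] at this
      exact this
  refine h1.congr_fun (fun y hy => ?_) measurableSet_Ioo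
  simp only [smul_eq_mul]
  have hy0 : 0 < y := hy.1
  rw [show (2 - 1 : ℕ) = 1 from rfl, pow_one, show (1 - α) = 1 + -α by ring, Real.rpow_add hy0, Real.rpow_one]

theorem pot_integral_rpow_zero {R : ℝ} (hR : 0 < R) {α : ℝ} (hα : α < 2) :
    ∫ x in ball (0 : ℂ) R, ‖x‖ ^ (-α) = 2 * Real.pi * R ^ (2 - α) / (2 - α) := by
  have h := integral_fun_norm_addHaar (μ := (volume : Measure ℂ)) (fun y : ℝ => (Iio R).indicator (fun y : ℝ => y ^ (-α)) y)
  have hfr : Module.finrank ℝ ℂ = 2 := Complex.finrank_real_complex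
  rw [hfr] at h
  have e1 : ∫ x in ball (0 : ℂ) R, ‖x‖ ^ (-α) = ∫ x : ℂ, (Iio R).indicator (fun y : ℝ => y ^ (-α)) ‖x‖ := by
    rw [← integral_indicator measurableSet_ball]
    refine integral_congr_ae (Filter.Eventually.of_forall fun x => ?_)
    simp only [indicator, mem_ball_zero_iff, mem_Iio]
  have e2 : ∫ y in Ioi (0 : ℝ), y ^ (2 - 1) • (Iio R).indicator (fun y : ℝ => y ^ (-α)) y = R ^ (2 - α) / (2 - α) := by
    have : ∀ y ∈ Ioi (0 : ℝ), y ^ (2 - 1) • (Iio R).indicator (fun y : ℝ => y ^ (-α)) y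
        = (Iio R).indicator (fun y : ℝ => y ^ (1 - α)) y := by
      intro y hy
      have hy0 : 0 < y := hy
      by_cases hyR : y ∈ Iio R
      · rw [indicator_of_mem hyR, indicator_of_mem hyR, smul_eq_mul, show (2 - 1 : ℕ) = 1 from rfl, pow_one,
          show (1 - α) = 1 + -α by ring, Real.rpow_add hy0, Real.rpow_one]
      · rw [indicator_of_notMem hyR, indicator_of_notMem hyR, smul_zero]
    rw [setIntegral_congr_fun measurableSet_Ioi this, setIntegral_indicator measurableSet_Iio,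
      show Ioi (0 : ℝ) ∩ Iio R = Ioo 0 R from rfl, ← integral_Ioc_eq_integral_Ioo,
      ← intervalIntegral.integral_of_le hR.le, integral_rpow (Or.inl (by linarith))]
    rw [Real.zero_rpow (by linarith), sub_zero]
    congr 1 <;> ring_nf
  rw [e1, h, e2]
  have hv : (volume : Measure ℂ).real (ball 0 1) = Real.pi := by
    rw [Measure.real, Complex.volume_ball]
    simp
  rw [hv]
  simp only [nsmul_eq_mul, smul_eq_mul]
  push_cast
  ring

theorem pot_integrableOn_rpow_center (c : ℂ) (R : ℝ) {α : ℝ} (hα : α < 2) :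
    IntegrableOn (fun x : ℂ => ‖x - c‖ ^ (-α)) (ball c R) := by
  have h := pot_integrableOn_rpow_zero R hα
  have hmp : MeasurePreserving (fun x : ℂ => x - c) volume volume := measurePreserving_sub_right volume c
  have := (hmp.integrableOn_comp_preimage (MeasurableEquiv.subRight c).measurableEmbedding
    (f := fun x : ℂ => ‖x‖ ^ (-α)) (s := ball 0 R)).mpr h
  have e : (fun x : ℂ => x - c) ⁻¹' ball 0 R = ball c R := by
    ext x
    simp [dist_eq_norm]
  rw [e] at this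
  exact this

theorem pot_integral_rpow_center (c : ℂ) {R : ℝ} (hR : 0 < R) {α : ℝ} (hα : α < 2) :
    ∫ x in ball c R, ‖x - c‖ ^ (-α) = 2 * Real.pi * R ^ (2 - α) / (2 - α) := by
  rw [← pot_integral_rpow_zero hR hα]
  have hmp : MeasurePreserving (fun x : ℂ => x - c) volume volume := measurePreserving_sub_right volume c
  have := hmp.setIntegral_preimage_emb (MeasurableEquiv.subRight c).measurableEmbedding
    (fun x : ℂ => ‖x‖ ^ (-α)) (ball 0 R)
  have e : (fun x : ℂ => x - c) ⁻¹' ball 0 R = ball c R := by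
    ext x
    simp [dist_eq_norm]
  rw [e] at this
  exact this

theorem integrableOn_norm_sub_rpow (c z : ℂ) (R : ℝ) {α : ℝ} (h0 : 0 ≤ α) (hα : α < 2) :
    IntegrableOn (fun x : ℂ => ‖x - c‖ ^ (-α)) (ball z R) := by
  refine (pot_integrableOn_rpow_center c (R + ‖z - c‖) hα).mono_set ?_
  intro x hx
  rw [mem_ball_iff_norm] at hx ⊢
  have : x - c = (x - z) + (z - c) := by ring
  rw [this]
  exact (norm_add_le _ _).trans_lt (by linarith)

theorem integral_norm_sub_rpow_le (c z : ℂ) {R : ℝ} (hR : 0 < R) {α : ℝ} (h0 : 0 ≤ α) (hα : α < 2) :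
    ∫ x in ball z R, ‖x - c‖ ^ (-α) ≤ 2 * Real.pi * R ^ (2 - α) / (2 - α) := by
  rw [← pot_integral_rpow_center c hR hα]
  set g : ℂ → ℝ := fun x => ‖x - c‖ ^ (-α) with hg
  have hiz : IntegrableOn g (ball z R) := integrableOn_norm_sub_rpow c z R h0 hα
  have hic : IntegrableOn g (ball c R) := integrableOn_norm_sub_rpow c c R h0 hα
  have mz : MeasurableSet (ball z R) := measurableSet_ball
  have mc : MeasurableSet (ball c R) := measurableSet_ball
  -- split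
  have sz : ∫ x in ball z R, g x = (∫ x in ball z R ∩ ball c R, g x) + ∫ x in ball z R \ ball c R, g x :=
    (integral_inter_add_sdiff mc hiz).symm
  have sc : ∫ x in ball c R, g x = (∫ x in ball c R ∩ ball z R, g x) + ∫ x in ball c R \ ball z R, g x :=
    (integral_inter_add_sdiff mz hic).symm
  rw [sz, sc, inter_comm (ball c R)]
  refine add_le_add le_rfl ?_
  have hvol : volume.real (ball z R \ ball c R) = volume.real (ball c R \ ball z R) := by
    have h1 : volume.real (ball z R ∩ ball c R) + volume.real (ball z R \ ball c R) = volume.real (ball z R) :=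
      measureReal_inter_add_sdiff mc measure_ball_lt_top.ne
    have h2 : volume.real (ball c R ∩ ball z R) + volume.real (ball c R \ ball z R) = volume.real (ball c R) :=
      measureReal_inter_add_sdiff mz measure_ball_lt_top.ne
    have h3 : volume.real (ball z R) = volume.real (ball c R) := by
      simp only [Measure.real, Complex.volume_ball]
    rw [inter_comm (ball c R)] at h2
    linarith
  have fz : volume (ball z R \ ball c R) ≠ ⊤ := (measure_mono sdiff_subset).trans_lt measure_ball_lt_top |>.ne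
  have fc : volume (ball c R \ ball z R) ≠ ⊤ := (measure_mono sdiff_subset).trans_lt measure_ball_lt_top |>.ne
  calc ∫ x in ball z R \ ball c R, g x ≤ ∫ _x in ball z R \ ball c R, R ^ (-α) := by
        refine setIntegral_mono_on (hiz.mono_set sdiff_subset) (integrableOn_const fz) (mz.diff mc) fun x hx => ?_
        have hx2 : R ≤ ‖x - c‖ := by
          have := hx.2
          rw [mem_ball_iff_norm, not_lt] at this
          exact this
        exact Real.rpow_le_rpow_of_nonpos hR hx2 (by linarith)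
    _ = ∫ _x in ball c R \ ball z R, R ^ (-α) := by
        rw [setIntegral_const, setIntegral_const, hvol]
    _ ≤ ∫ x in ball c R \ ball z R, g x := by
        refine setIntegral_mono_on_ae (integrableOn_const fc) (hic.mono_set sdiff_subset) (mc.diff mz) ?_
        have hne : ∀ᵐ x : ℂ, x ≠ c := compl_mem_ae_iff.mpr (measure_singleton c)
        filter_upwards [hne] with x hxc hx
        have hx1 : ‖x - c‖ < R := by
          have := hx.1
          rwa [mem_ball_iff_norm] at this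
        have h : 0 < ‖x - c‖ := norm_pos_iff.mpr (sub_ne_zero.mpr hxc)
        exact Real.rpow_le_rpow_of_nonpos h hx1.le (by linarith)

/-! ### S4-P-BM1, S4-P-BM2, S4-P-BM -/

theorem pot_bm_measurable_indicator {X : Type*} [TopologicalSpace X] [MeasurableSpace X] [BorelSpace X] {f : X → ℝ} {s : Set X}
    (hf : ContinuousOn f s) (hs : MeasurableSet s) : Measurable (s.indicator f) := by
  classical
  rw [← Set.piecewise_eq_indicator]
  exact hf.measurable_piecewise continuousOn_const hs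

theorem pot_young (a b : ℝ) (ha : 0 ≤ a) (hb : 0 ≤ b) :
    a ^ (-(1 / 2) : ℝ) * b⁻¹ ≤ a ^ (-(3 / 2) : ℝ) + b ^ (-(3 / 2) : ℝ) := by
  have hA : 0 ≤ a ^ (-(3 / 2) : ℝ) := Real.rpow_nonneg ha _
  have hB : 0 ≤ b ^ (-(3 / 2) : ℝ) := Real.rpow_nonneg hb _
  rcases ha.eq_or_lt with rfl | ha'
  · rw [Real.zero_rpow (by norm_num), zero_mul]
    positivity
  rcases hb.eq_or_lt with rfl | hb'
  · rw [inv_zero, mul_zero]
    positivity
  have key : ∀ t : ℝ, 0 < t → t ^ (-(1 / 2) : ℝ) * t⁻¹ = t ^ (-(3 / 2) : ℝ) := by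
    intro t ht
    rw [← Real.rpow_neg_one t, ← Real.rpow_add ht]
    norm_num
  rcases le_total a b with h | h
  · have : b⁻¹ ≤ a⁻¹ := inv_anti₀ ha' h
    calc a ^ (-(1 / 2) : ℝ) * b⁻¹ ≤ a ^ (-(1 / 2) : ℝ) * a⁻¹ := mul_le_mul_of_nonneg_left this (Real.rpow_nonneg ha _)
      _ = a ^ (-(3 / 2) : ℝ) := key a ha'
      _ ≤ _ := by linarith
  · have : a ^ (-(1 / 2) : ℝ) ≤ b ^ (-(1 / 2) : ℝ) := Real.rpow_le_rpow_of_nonpos hb' h (by norm_num)
    calc a ^ (-(1 / 2) : ℝ) * b⁻¹ ≤ b ^ (-(1 / 2) : ℝ) * b⁻¹ := mul_le_mul_of_nonneg_right this (by positivity)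
      _ = b ^ (-(3 / 2) : ℝ) := key b hb'
      _ ≤ _ := by linarith

theorem pot_rpow_half {t : ℝ} (ht : 0 < t) : (2 / t) ^ (1 / 2 : ℝ) = Real.sqrt 2 * t ^ (-(1 / 2) : ℝ) := by
  rw [Real.div_rpow (by norm_num) ht.le, Real.rpow_neg ht.le, Real.sqrt_eq_rpow, div_eq_mul_inv]

theorem pot_exp_log_le {t c : ℝ} (ht : 0 < t) (ht2 : t ≤ 2) (hc : c ≤ 1 / 2) :
    Real.exp (c * Real.log (2 / t)) ≤ Real.sqrt 2 * t ^ (-(1 / 2) : ℝ) := by
  have hy : 1 ≤ 2 / t := by rw [le_div_iff₀ ht]; linarith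
  have hl : 0 ≤ Real.log (2 / t) := Real.log_nonneg hy
  rw [← pot_rpow_half ht, Real.rpow_def_of_pos (by positivity)]
  refine Real.exp_le_exp.mpr ?_
  nlinarith

theorem pot_log_le {t : ℝ} (ht : 0 < t) (ht2 : t ≤ 2) :
    0 ≤ Real.log (2 / t) ∧ Real.log (2 / t) ≤ 2 * (Real.sqrt 2 * t ^ (-(1 / 2) : ℝ)) := by
  have hy : 1 ≤ 2 / t := by rw [le_div_iff₀ ht]; linarith
  refine ⟨Real.log_nonneg hy, ?_⟩
  have := Real.log_le_rpow_div (x := 2 / t) (by positivity) (ε := 1 / 2) (by norm_num)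
  rw [pot_rpow_half ht] at this
  linarith

theorem pot_int_mul {ν : ℂ → ℝ} {z : ℂ} {r : ℝ} (hν : ContinuousOn ν (closedBall z r)) (x : ℂ) (g : ℂ → ℝ)
    (hg : Measurable g) (A : ℝ) (hA : ∀ ζ ∈ ball z r, ζ ≠ x → |g ζ| ≤ A * ‖ζ - x‖ ^ (-(1 / 2) : ℝ)) :
    IntegrableOn (fun ζ => g ζ * ν ζ) (ball z r) := by
  obtain ⟨M, hM⟩ := (isCompact_closedBall z r).exists_bound_of_continuousOn hν
  have hI := (integrableOn_norm_sub_rpow x z r (α := 1 / 2) (by norm_num) (by norm_num)).const_mul (A * M)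
  refine Integrable.mono' hI (hg.aestronglyMeasurable.mul
    ((hν.mono ball_subset_closedBall).aestronglyMeasurable measurableSet_ball)) ?_
  rw [ae_restrict_iff' measurableSet_ball]
  have hne : ∀ᵐ ζ : ℂ, ζ ≠ x := compl_mem_ae_iff.mpr (measure_singleton x)
  filter_upwards [hne] with ζ hζx hζ
  rw [norm_mul, Real.norm_eq_abs]
  have h1 := hA ζ hζ hζx
  have h2 := hM ζ (ball_subset_closedBall hζ)
  calc |g ζ| * ‖ν ζ‖ ≤ (A * ‖ζ - x‖ ^ (-(1 / 2) : ℝ)) * M :=
        mul_le_mul h1 h2 (norm_nonneg _) ((abs_nonneg _).trans h1)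
    _ = _ := by ring

theorem pot_dist_lt {z x ζ : ℂ} {s : ℝ} (hs1 : s ≤ 1 / 2) (hx : x ∈ ball z s) (hζ : ζ ∈ ball z (2 * s)) : ‖ζ - x‖ ≤ 2 := by
  rw [mem_ball_iff_norm] at hx hζ
  have : ζ - x = (ζ - z) - (x - z) := by ring
  rw [this]
  refine (norm_sub_le _ _).trans ?_
  linarith

theorem pot_log_measurable (x : ℂ) : Measurable fun ζ : ℂ => Real.log (2 / ‖ζ - x‖) :=
  Real.measurable_log.comp (measurable_const.div (continuous_norm.comp (continuous_id.sub continuous_const)).measurable)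

theorem pot_rpow_measurable (x : ℂ) (β : ℝ) : Measurable fun ζ : ℂ => ‖ζ - x‖ ^ β :=
  (continuous_norm.comp (continuous_id.sub continuous_const)).measurable.pow_const β

/-- Jensen's inequality in tangent form -/
theorem pot_jensen {s : ℝ} (hs1 : s ≤ 1 / 2) {ν : ℂ → ℝ} {z : ℂ} (hν : ContinuousOn ν (closedBall z (2 * s)))
    (h0 : ∀ ζ ∈ ball z (2 * s), 0 ≤ ν ζ) (hm : (2 * Real.pi)⁻¹ * ∫ ζ in ball z (2 * s), ν ζ ≤ 1) {x : ℂ} (hx : x ∈ ball z s) :
    Real.exp (2⁻¹ * ((2 * Real.pi)⁻¹ * ∫ ζ in ball z (2 * s), Real.log (2 / ‖ζ - x‖) * ν ζ)) * ∫ ζ in ball z (2 * s), ν ζ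
      ≤ ∫ ζ in ball z (2 * s), (Real.sqrt 2 * ‖ζ - x‖ ^ (-(1 / 2) : ℝ)) * ν ζ := by
  have hπ := Real.pi_pos
  set D := ball z (2 * s) with hD
  set T := ∫ ζ in D, ν ζ with hT
  set IL := ∫ ζ in D, Real.log (2 / ‖ζ - x‖) * ν ζ with hIL
  set t0 := 2⁻¹ * ((2 * Real.pi)⁻¹ * IL) with ht0
  set c := T / (4 * Real.pi) with hc
  have hc2 : c ≤ 1 / 2 := by
    rw [hc, div_le_iff₀ (by positivity)]
    have : T ≤ 2 * Real.pi := by
      rwa [inv_mul_le_iff₀ (by positivity), mul_one] at hm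
    linarith
  have hνI : IntegrableOn ν D :=
    (hν.integrableOn_compact (isCompact_closedBall z (2 * s))).mono_set ball_subset_closedBall
  have hpos : ∀ ζ ∈ D, ζ ≠ x → 0 < ‖ζ - x‖ := fun ζ _ h => norm_pos_iff.mpr (sub_ne_zero.mpr h)
  have hLI : IntegrableOn (fun ζ => Real.log (2 / ‖ζ - x‖) * ν ζ) D := by
    refine pot_int_mul hν x _ (pot_log_measurable x) (2 * Real.sqrt 2) fun ζ hζ hne => ?_
    obtain ⟨h1, h2⟩ := pot_log_le (hpos ζ hζ hne) (pot_dist_lt hs1 hx hζ)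
    rw [abs_of_nonneg h1]
    linarith
  have hKI : IntegrableOn (fun ζ => (Real.sqrt 2 * ‖ζ - x‖ ^ (-(1 / 2) : ℝ)) * ν ζ) D := by
    refine pot_int_mul hν x _ ((pot_rpow_measurable x _).const_mul _) (Real.sqrt 2) fun ζ hζ hne => ?_
    rw [abs_of_nonneg (by positivity)]
  have hlin : IntegrableOn (fun ζ => Real.exp t0 * ((1 - t0) * ν ζ + c * (Real.log (2 / ‖ζ - x‖) * ν ζ))) D :=
    ((hνI.const_mul _).add (hLI.const_mul _)).const_mul _
  have e1 : ∫ ζ in D, Real.exp t0 * ((1 - t0) * ν ζ + c * (Real.log (2 / ‖ζ - x‖) * ν ζ)) = Real.exp t0 * T := by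
    rw [integral_const_mul, integral_add (hνI.const_mul _) (hLI.const_mul _), integral_const_mul, integral_const_mul]
    congr 1
    have : c * IL = t0 * T := by
      rw [hc, ht0]
      field_simp
      ring
    rw [← hT, ← hIL, this]
    ring
  rw [← e1]
  refine setIntegral_mono_on_ae hlin hKI measurableSet_ball ?_
  have hne : ∀ᵐ ζ : ℂ, ζ ≠ x := compl_mem_ae_iff.mpr (measure_singleton x)
  filter_upwards [hne] with ζ hζx hζ
  have hν0 := h0 ζ hζ
  set L := Real.log (2 / ‖ζ - x‖) with hL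
  have h1 : Real.exp t0 * (1 - t0 + c * L) ≤ Real.exp (c * L) := by
    have h2 := Real.add_one_le_exp (c * L - t0)
    have h3 : Real.exp (c * L) = Real.exp t0 * Real.exp (c * L - t0) := by
      rw [← Real.exp_add]
      congr 1
      ring
    rw [h3]
    refine mul_le_mul_of_nonneg_left ?_ (Real.exp_pos _).le
    linarith
  have h4 := pot_exp_log_le (hpos ζ hζ hζx) (pot_dist_lt hs1 hx hζ) hc2
  calc Real.exp t0 * ((1 - t0) * ν ζ + c * (L * ν ζ)) = (Real.exp t0 * (1 - t0 + c * L)) * ν ζ := by ring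
    _ ≤ _ := mul_le_mul_of_nonneg_right (h1.trans h4) hν0

theorem pot_of_lintegral_le {f : ℂ → ℝ} {S : Set ℂ} (hS : MeasurableSet S)
    (hm : AEStronglyMeasurable f (volume.restrict S)) (h0 : ∀ x ∈ S, 0 ≤ f x) {C : ℝ} (hC : 0 ≤ C)
    (h : ∫⁻ x in S, ENNReal.ofReal (f x) ≤ ENNReal.ofReal C) : IntegrableOn f S ∧ ∫ x in S, f x ≤ C := by
  have hnn : 0 ≤ᵐ[volume.restrict S] f := by
    rw [Filter.EventuallyLE, ae_restrict_iff' hS]
    exact Filter.Eventually.of_forall h0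
  constructor
  · refine ⟨hm, ?_⟩
    rw [hasFiniteIntegral_iff_ofReal hnn]
    exact lt_of_le_of_lt h ENNReal.ofReal_lt_top
  · rw [integral_eq_lintegral_of_nonneg_ae hnn hm]
    exact ENNReal.toReal_le_of_le_ofReal hC h

/-- the inner integral of the Tonelli argument -/
theorem pot_inner_le {s : ℝ} (hs : 0 < s) (z ζ : ℂ) :
    ∫⁻ x in ball z s, ENNReal.ofReal (Real.sqrt 2 * ‖ζ - x‖ ^ (-(1 / 2) : ℝ) * ‖x - z‖⁻¹)
      ≤ ENNReal.ofReal (Real.sqrt 2 * (8 * Real.pi * Real.sqrt s)) := by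
  have hI1 := integrableOn_norm_sub_rpow ζ z s (α := 3 / 2) (by norm_num) (by norm_num)
  have hI2 := integrableOn_norm_sub_rpow z z s (α := 3 / 2) (by norm_num) (by norm_num)
  have hb1 := integral_norm_sub_rpow_le ζ z hs (α := 3 / 2) (by norm_num) (by norm_num)
  have hb2 := integral_norm_sub_rpow_le z z hs (α := 3 / 2) (by norm_num) (by norm_num)
  have e : 2 * Real.pi * s ^ (2 - 3 / 2 : ℝ) / (2 - 3 / 2) = 4 * Real.pi * Real.sqrt s := by
    rw [Real.sqrt_eq_rpow]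
    norm_num
    ring
  rw [e] at hb1 hb2
  have hI : IntegrableOn (fun x : ℂ => Real.sqrt 2 * (‖x - ζ‖ ^ (-(3 / 2) : ℝ) + ‖x - z‖ ^ (-(3 / 2) : ℝ))) (ball z s) :=
    (hI1.add hI2).const_mul _
  calc ∫⁻ x in ball z s, ENNReal.ofReal (Real.sqrt 2 * ‖ζ - x‖ ^ (-(1 / 2) : ℝ) * ‖x - z‖⁻¹)
      ≤ ∫⁻ x in ball z s, ENNReal.ofReal (Real.sqrt 2 * (‖x - ζ‖ ^ (-(3 / 2) : ℝ) + ‖x - z‖ ^ (-(3 / 2) : ℝ))) := by
        refine lintegral_mono fun x => ENNReal.ofReal_le_ofReal ?_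
        rw [mul_assoc, norm_sub_rev ζ x]
        exact mul_le_mul_of_nonneg_left (pot_young _ _ (norm_nonneg _) (norm_nonneg _)) (Real.sqrt_nonneg _)
    _ = ENNReal.ofReal (∫ x in ball z s, Real.sqrt 2 * (‖x - ζ‖ ^ (-(3 / 2) : ℝ) + ‖x - z‖ ^ (-(3 / 2) : ℝ))) := by
        rw [ofReal_integral_eq_lintegral_ofReal hI]
        exact Filter.Eventually.of_forall fun x => by positivity
    _ ≤ _ := by
        refine ENNReal.ofReal_le_ofReal ?_
        rw [integral_const_mul, integral_add hI1 hI2]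
        refine mul_le_mul_of_nonneg_left ?_ (Real.sqrt_nonneg _)
        linarith

/-- Tonelli -/
theorem pot_tonelli {s : ℝ} (hs : 0 < s) {ν : ℂ → ℝ} {z : ℂ} (hν : ContinuousOn ν (closedBall z (2 * s)))
    (h0 : ∀ ζ ∈ ball z (2 * s), 0 ≤ ν ζ) :
    ∫⁻ x in ball z s, ENNReal.ofReal ((∫ ζ in ball z (2 * s), (Real.sqrt 2 * ‖ζ - x‖ ^ (-(1 / 2) : ℝ)) * ν ζ) / ‖x - z‖)
      ≤ ENNReal.ofReal (Real.sqrt 2 * (8 * Real.pi * Real.sqrt s)) * ENNReal.ofReal (∫ ζ in ball z (2 * s), ν ζ) := by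
  set D := ball z (2 * s) with hD
  have hDm : MeasurableSet D := measurableSet_ball
  set νt : ℂ → ℝ := D.indicator ν with hνt
  have hνm : Measurable νt := pot_bm_measurable_indicator (hν.mono ball_subset_closedBall) hDm
  have hνI : IntegrableOn ν D :=
    (hν.integrableOn_compact (isCompact_closedBall z (2 * s))).mono_set ball_subset_closedBall
  have hνt0 : ∀ ζ, 0 ≤ νt ζ := fun ζ => indicator_nonneg h0 ζ
  set H : ℂ → ℂ → ENNReal := fun x ζ =>
    ENNReal.ofReal (Real.sqrt 2 * ‖ζ - x‖ ^ (-(1 / 2) : ℝ) * ‖x - z‖⁻¹) * ENNReal.ofReal (νt ζ) with hH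
  have hHm : Measurable (Function.uncurry H) := by
    refine (ENNReal.measurable_ofReal.comp ?_).mul (ENNReal.measurable_ofReal.comp (hνm.comp measurable_snd))
    refine (((continuous_norm.comp (continuous_snd.sub continuous_fst)).measurable.pow_const _).const_mul _).mul ?_
    exact (continuous_norm.comp (continuous_fst.sub continuous_const)).measurable.inv
  have e1 : ∀ x : ℂ, ENNReal.ofReal ((∫ ζ in D, (Real.sqrt 2 * ‖ζ - x‖ ^ (-(1 / 2) : ℝ)) * ν ζ) / ‖x - z‖)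
      = ∫⁻ ζ, H x ζ := by
    intro x
    have hKI : IntegrableOn (fun ζ => (Real.sqrt 2 * ‖ζ - x‖ ^ (-(1 / 2) : ℝ)) * ν ζ) D := by
      refine pot_int_mul hν x _ ((pot_rpow_measurable x _).const_mul _) (Real.sqrt 2) fun ζ hζ hne => ?_
      rw [abs_of_nonneg (by positivity)]
    have hnn : 0 ≤ᵐ[volume.restrict D] fun ζ => (Real.sqrt 2 * ‖ζ - x‖ ^ (-(1 / 2) : ℝ)) * ν ζ := by
      rw [Filter.EventuallyLE, ae_restrict_iff' hDm]
      exact Filter.Eventually.of_forall fun ζ hζ => mul_nonneg (by positivity) (h0 ζ hζ)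
    rw [div_eq_mul_inv, ENNReal.ofReal_mul (integral_nonneg_of_ae hnn), ofReal_integral_eq_lintegral_ofReal hKI hnn,
      ← lintegral_mul_const' _ _ ENNReal.ofReal_ne_top, ← lintegral_indicator hDm]
    refine lintegral_congr fun ζ => ?_
    simp only [hH, hνt]
    by_cases hζ : ζ ∈ D
    · rw [indicator_of_mem hζ, indicator_of_mem hζ, ← ENNReal.ofReal_mul (mul_nonneg (by positivity) (h0 ζ hζ)),
        ← ENNReal.ofReal_mul (by positivity)]
      congr 1
      ring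
    · rw [indicator_of_notMem hζ, indicator_of_notMem hζ]
      simp
  simp_rw [e1]
  rw [lintegral_lintegral_swap hHm.aemeasurable]
  have e2 : ∫⁻ ζ, ENNReal.ofReal (νt ζ) = ENNReal.ofReal (∫ ζ in D, ν ζ) := by
    rw [← integral_indicator hDm, ofReal_integral_eq_lintegral_ofReal ((integrable_indicator_iff hDm).mpr hνI)
      (Filter.Eventually.of_forall hνt0)]
  rw [← e2, ← lintegral_const_mul' _ _ ENNReal.ofReal_ne_top]
  refine lintegral_mono fun ζ => ?_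
  simp only [hH]
  rw [lintegral_mul_const' _ _ ENNReal.ofReal_ne_top]
  exact mul_le_mul_left (pot_inner_le hs z ζ) _

/-- Brezis-Merle type bound: exponential integrability of a logarithmic potential of mass `≤ 1`. -/
theorem exp_potential_bound {s : ℝ} (hs : 0 < s) (hs1 : s ≤ 1 / 2) :
    ∃ C : ℝ, 0 < C ∧ ∀ (ν : ℂ → ℝ) (z : ℂ), ContinuousOn ν (closedBall z (2 * s)) →
      (∀ ζ ∈ ball z (2 * s), 0 ≤ ν ζ) → (2 * Real.pi)⁻¹ * ∫ ζ in ball z (2 * s), ν ζ ≤ 1 →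
      IntegrableOn (fun x => Real.exp (2⁻¹ * ((2 * Real.pi)⁻¹ *
          ∫ ζ in ball z (2 * s), Real.log (2 / ‖ζ - x‖) * ν ζ)) / ‖x - z‖) (ball z s) ∧
      ∫ x in ball z s, Real.exp (2⁻¹ * ((2 * Real.pi)⁻¹ *
          ∫ ζ in ball z (2 * s), Real.log (2 / ‖ζ - x‖) * ν ζ)) / ‖x - z‖ ≤ C := by
  have hπ := Real.pi_pos
  set C' := Real.sqrt 2 * (8 * Real.pi * Real.sqrt s) with hC'
  have hC'0 : 0 < C' := by
    have : 0 < Real.sqrt s := Real.sqrt_pos.mpr hs
    positivity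
  refine ⟨C' + 2 * Real.pi * s, by positivity, ?_⟩
  intro ν z hν h0 hm
  set D := ball z (2 * s) with hD
  have hDm : MeasurableSet D := measurableSet_ball
  set T := ∫ ζ in D, ν ζ with hT
  have hνI : IntegrableOn ν D :=
    (hν.integrableOn_compact (isCompact_closedBall z (2 * s))).mono_set ball_subset_closedBall
  have hT0 : 0 ≤ T := setIntegral_nonneg hDm h0
  rcases hT0.eq_or_lt with hTz | hTpos
  · -- zero mass
    have hae : ν =ᵐ[volume.restrict D] 0 := by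
      have hnn : 0 ≤ᵐ[volume.restrict D] ν := by
        rw [Filter.EventuallyLE, ae_restrict_iff' hDm]
        exact Filter.Eventually.of_forall h0
      exact (integral_eq_zero_iff_of_nonneg_ae hnn hνI).mp hTz.symm
    have hz : ∀ x : ℂ, ∫ ζ in D, Real.log (2 / ‖ζ - x‖) * ν ζ = 0 := by
      intro x
      rw [← integral_zero ℂ ℝ (μ := volume.restrict D)]
      refine integral_congr_ae ?_
      filter_upwards [hae] with ζ hζ
      rw [hζ]
      simp
    have e : ∀ x : ℂ, Real.exp (2⁻¹ * ((2 * Real.pi)⁻¹ * ∫ ζ in D, Real.log (2 / ‖ζ - x‖) * ν ζ)) / ‖x - z‖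
        = ‖x - z‖ ^ (-1 : ℝ) := by
      intro x
      rw [hz x, Real.rpow_neg_one]
      simp
    simp_rw [e]
    refine ⟨integrableOn_norm_sub_rpow z z s (α := 1) (by norm_num) (by norm_num), ?_⟩
    have := integral_norm_sub_rpow_le z z hs (α := 1) (by norm_num) (by norm_num)
    have e2 : 2 * Real.pi * s ^ (2 - 1 : ℝ) / (2 - 1) = 2 * Real.pi * s := by
      norm_num
    rw [e2] at this
    linarith
  · -- positive mass
    set νt : ℂ → ℝ := D.indicator ν with hνt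
    have hνm : Measurable νt := pot_bm_measurable_indicator (hν.mono ball_subset_closedBall) hDm
    have hmeas : Measurable fun x : ℂ => Real.exp (2⁻¹ * ((2 * Real.pi)⁻¹ *
        ∫ ζ in D, Real.log (2 / ‖ζ - x‖) * ν ζ)) / ‖x - z‖ := by
      have e : ∀ x : ℂ, ∫ ζ in D, Real.log (2 / ‖ζ - x‖) * ν ζ = ∫ ζ, Real.log (2 / ‖ζ - x‖) * νt ζ := by
        intro x
        rw [← integral_indicator hDm]
        refine integral_congr_ae (Filter.Eventually.of_forall fun ζ => ?_)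
        simp only [hνt]
        by_cases hζ : ζ ∈ D
        · rw [indicator_of_mem hζ, indicator_of_mem hζ]
        · rw [indicator_of_notMem hζ, indicator_of_notMem hζ, mul_zero]
      simp_rw [e]
      have h1 : StronglyMeasurable (Function.uncurry fun (x ζ : ℂ) => Real.log (2 / ‖ζ - x‖) * νt ζ) := by
        refine Measurable.stronglyMeasurable ?_
        refine (Real.measurable_log.comp (measurable_const.div
          (continuous_norm.comp (continuous_snd.sub continuous_fst)).measurable)).mul (hνm.comp measurable_snd)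
      have h2 := (h1.integral_prod_right (ν := (volume : Measure ℂ))).measurable
      exact (Real.measurable_exp.comp ((h2.const_mul _).const_mul _)).div
        (continuous_norm.comp (continuous_id.sub continuous_const)).measurable
    have hres := pot_of_lintegral_le (S := ball z s) measurableSet_ball hmeas.aestronglyMeasurable
      (fun x _ => div_nonneg (Real.exp_pos _).le (norm_nonneg _)) hC'0.le ?_
    · exact ⟨hres.1, hres.2.trans (by nlinarith)⟩
    · calc ∫⁻ x in ball z s, ENNReal.ofReal (Real.exp (2⁻¹ * ((2 * Real.pi)⁻¹ *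
            ∫ ζ in D, Real.log (2 / ‖ζ - x‖) * ν ζ)) / ‖x - z‖)
          ≤ ∫⁻ x in ball z s, ENNReal.ofReal T⁻¹ *
              ENNReal.ofReal ((∫ ζ in D, (Real.sqrt 2 * ‖ζ - x‖ ^ (-(1 / 2) : ℝ)) * ν ζ) / ‖x - z‖) := by
            refine setLIntegral_mono' measurableSet_ball fun x hx => ?_
            rw [← ENNReal.ofReal_mul (by positivity)]
            refine ENNReal.ofReal_le_ofReal ?_
            have hj := pot_jensen hs1 hν h0 hm hx
            rw [← mul_div_assoc]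
            refine div_le_div_of_nonneg_right ?_ (norm_nonneg _)
            rw [le_inv_mul_iff₀ hTpos, mul_comm]
            exact hj
        _ = ENNReal.ofReal T⁻¹ * ∫⁻ x in ball z s,
              ENNReal.ofReal ((∫ ζ in D, (Real.sqrt 2 * ‖ζ - x‖ ^ (-(1 / 2) : ℝ)) * ν ζ) / ‖x - z‖) :=
            lintegral_const_mul' _ _ ENNReal.ofReal_ne_top
        _ ≤ ENNReal.ofReal T⁻¹ * (ENNReal.ofReal C' * ENNReal.ofReal T) := mul_le_mul_right (pot_tonelli hs hν h0) _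
        _ = ENNReal.ofReal C' := by
            rw [← ENNReal.ofReal_mul hC'0.le, ← ENNReal.ofReal_mul (by positivity)]
            congr 1
            field_simp

/-- lower bound of `u` near `z` by the local logarithmic potential. -/
theorem lower_bound_near {u : ℂ → ℝ} {r : ℝ} (hr : 1 < r) (hu : ContDiffOn ℝ 2 u (ball 0 r))
    (hΔ : ∀ ζ ∈ ball (0 : ℂ) 1, 0 ≤ Δ u ζ) {B : ℝ} (hB : ∀ ζ ∈ sphere (0 : ℂ) 1, -B ≤ u ζ)
    {z : ℂ} {s : ℝ} (hs : 0 < s) (hz : ‖z‖ + 2 * s < 1) {x : ℂ} (hx : x ∈ ball z s) :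
    -B - wmass u / s ^ 2 - (2 * Real.pi)⁻¹ * ∫ ζ in ball z (2 * s), Real.log (2 / ‖ζ - x‖) * Δ u ζ
      ≤ u x := by
  have hπ := Real.pi_pos
  have hxz : ‖x - z‖ < s := by rwa [mem_ball_iff_norm] at hx
  have hx1 : ‖x‖ < 1 := by
    have := norm_sub_norm_le x z
    have := norm_nonneg z
    linarith
  obtain ⟨hi, he⟩ := jensen_mob hr hu hx1
  have hus : ContinuousOn u (sphere (0 : ℂ) 1) :=
    hu.continuousOn.mono (sphere_subset_closedBall.trans (closedBall_subset_ball hr))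
  have hc := le_cavg_mob hus hx1 hB
  set D := ball z (2 * s) with hDdef
  have hD : D ⊆ ball 0 1 := by
    intro ζ hζ
    rw [hDdef, mem_ball_iff_norm] at hζ
    rw [mem_ball_zero_iff]
    have := norm_sub_norm_le ζ z
    linarith
  have hDm : MeasurableSet D := measurableSet_ball
  have hs1 : s ≤ 1 / 2 := by
    have := norm_nonneg z
    linarith
  have hν : ContinuousOn (Δ u) (closedBall z (2 * s)) := by
    refine (pot_lap_continuousOn hu).mono ?_
    intro ζ hζ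
    rw [mem_closedBall_iff_norm] at hζ
    rw [mem_ball_zero_iff]
    have := norm_sub_norm_le ζ z
    linarith
  have hlogint : IntegrableOn (fun ζ => Real.log (2 / ‖ζ - x‖) * Δ u ζ) D := by
    refine pot_int_mul hν x _ (pot_log_measurable x) (2 * Real.sqrt 2) ?_
    intro ζ hζ hne
    have h1 : 0 < ‖ζ - x‖ := norm_pos_iff.mpr (sub_ne_zero.mpr hne)
    obtain ⟨a1, a2⟩ := pot_log_le h1 (pot_dist_lt hs1 hx hζ)
    rw [abs_of_nonneg a1]
    linarith
  have hI := pot_lap_integrableOn hr hu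
  have hw : IntegrableOn (fun ζ => (1 - ‖ζ‖) * Δ u ζ) (ball (0 : ℂ) 1) := by
    refine Integrable.bdd_mul (c := 1) hI (by fun_prop) ?_
    rw [ae_restrict_iff' measurableSet_ball]
    refine Filter.Eventually.of_forall fun ζ hζ => ?_
    rw [mem_ball_zero_iff] at hζ
    rw [Real.norm_eq_abs, abs_le]
    constructor <;> linarith [norm_nonneg ζ]
  have hsplit := integral_inter_add_sdiff hDm hi
  rw [inter_eq_right.mpr hD] at hsplit
  have h1 : ∫ ζ in D, gker x ζ * Δ u ζ ≤ ∫ ζ in D, Real.log (2 / ‖ζ - x‖) * Δ u ζ := by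
    refine setIntegral_mono_on (hi.mono_set hD) hlogint hDm ?_
    intro ζ hζ
    have h3 := hΔ ζ (hD hζ)
    have h4 := hD hζ
    rw [mem_ball_zero_iff] at h4
    exact mul_le_mul_of_nonneg_right (gker_near hx1 h4) h3
  have h2 : ∫ ζ in ball (0 : ℂ) 1 \ D, gker x ζ * Δ u ζ
      ≤ (s ^ 2)⁻¹ * ∫ ζ in ball (0 : ℂ) 1, (1 - ‖ζ‖) * Δ u ζ := by
    rw [← integral_const_mul]
    calc ∫ ζ in ball (0 : ℂ) 1 \ D, gker x ζ * Δ u ζ
        ≤ ∫ ζ in ball (0 : ℂ) 1 \ D, (s ^ 2)⁻¹ * ((1 - ‖ζ‖) * Δ u ζ) := by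
          refine setIntegral_mono_on (hi.mono_set sdiff_subset) (IntegrableOn.mono_set (hw.const_mul _) sdiff_subset)
            (measurableSet_ball.diff hDm) ?_
          intro ζ hζ
          have h3 := hΔ ζ hζ.1
          have h4 := hζ.1
          rw [mem_ball_zero_iff] at h4
          have h5 : 2 * s ≤ ‖ζ - z‖ := by
            have := hζ.2
            rw [hDdef, mem_ball_iff_norm, not_lt] at this
            exact this
          have h6 : s ≤ ‖ζ - x‖ := by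
            have : ‖ζ - z‖ ≤ ‖ζ - x‖ + ‖x - z‖ := by
              have := norm_add_le (ζ - x) (x - z)
              simpa using this
            linarith
          have h7 := gker_far hx1 h4 hs h6
          calc gker x ζ * Δ u ζ ≤ ((1 - ‖ζ‖) / s ^ 2) * Δ u ζ := mul_le_mul_of_nonneg_right h7 h3
            _ = _ := by ring
      _ ≤ ∫ ζ in ball (0 : ℂ) 1, (s ^ 2)⁻¹ * ((1 - ‖ζ‖) * Δ u ζ) := by
          refine setIntegral_mono_set (hw.const_mul _) ?_ (Filter.Eventually.of_forall sdiff_subset)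
          rw [Filter.EventuallyLE, ae_restrict_iff' measurableSet_ball]
          refine Filter.Eventually.of_forall fun ζ hζ => ?_
          have h1 := hΔ ζ hζ
          rw [mem_ball_zero_iff] at hζ
          have : 0 ≤ (1 - ‖ζ‖) * Δ u ζ := mul_nonneg (by linarith) h1
          show (0 : ℝ) ≤ (s ^ 2)⁻¹ * ((1 - ‖ζ‖) * Δ u ζ)
          positivity
  have h3 : (2 * Real.pi)⁻¹ * ∫ ζ in ball (0 : ℂ) 1, gker x ζ * Δ u ζ
      ≤ (2 * Real.pi)⁻¹ * (∫ ζ in D, Real.log (2 / ‖ζ - x‖) * Δ u ζ) + wmass u / s ^ 2 := by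
    unfold wmass
    rw [← hsplit, mul_add]
    have e : (2 * Real.pi)⁻¹ * (∫ ζ in ball (0 : ℂ) 1, (1 - ‖ζ‖) * Δ u ζ) / s ^ 2
        = (2 * Real.pi)⁻¹ * ((s ^ 2)⁻¹ * ∫ ζ in ball (0 : ℂ) 1, (1 - ‖ζ‖) * Δ u ζ) := by
      field_simp
    rw [e]
    exact add_le_add (mul_le_mul_of_nonneg_left h1 (by positivity))
      (mul_le_mul_of_nonneg_left h2 (by positivity))
  linarith

theorem bm_bound (B M₁ : ℝ) {s : ℝ} (hs : 0 < s) :
    ∃ C : ℝ, 0 < C ∧ ∀ (u : ℂ → ℝ) (r : ℝ), 1 < r → ContDiffOn ℝ 2 u (ball 0 r) →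
      (∀ ζ ∈ ball (0 : ℂ) 1, 0 ≤ Δ u ζ) → (∀ ζ ∈ sphere (0 : ℂ) 1, -B ≤ u ζ) → wmass u ≤ M₁ →
      ∀ z : ℂ, ‖z‖ + 2 * s < 1 → rmass u (ball z (2 * s)) ≤ 1 →
      IntegrableOn (fun x => Real.exp (-u x / 2) / ‖x - z‖) (ball z s) ∧
      ∫ x in ball z s, Real.exp (-u x / 2) / ‖x - z‖ ≤ C := by
  by_cases hs1 : s ≤ 1 / 2
  swap
  · refine ⟨1, one_pos, ?_⟩
    intro u r _ _ _ _ _ z hz
    exfalso
    have := norm_nonneg z
    push Not at hs1
    linarith
  obtain ⟨C₀, hC₀, hex⟩ := exp_potential_bound hs hs1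
  set K := Real.exp ((B + M₁ / s ^ 2) / 2) with hK
  have hK0 : 0 < K := Real.exp_pos _
  refine ⟨K * C₀, by positivity, ?_⟩
  intro u r hr hu hΔ hB hM z hz hm
  have hsubr : closedBall z (2 * s) ⊆ ball (0 : ℂ) r := by
    intro ζ hζ
    rw [mem_closedBall_iff_norm] at hζ
    rw [mem_ball_zero_iff]
    have := norm_sub_norm_le ζ z
    linarith
  have hD : ball z (2 * s) ⊆ ball (0 : ℂ) 1 := by
    intro ζ hζ
    rw [mem_ball_iff_norm] at hζ
    rw [mem_ball_zero_iff]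
    have := norm_sub_norm_le ζ z
    linarith
  have hν : ContinuousOn (Δ u) (closedBall z (2 * s)) := (pot_lap_continuousOn hu).mono hsubr
  obtain ⟨I1, I2⟩ := hex (Δ u) z hν (fun ζ hζ => hΔ ζ (hD hζ)) hm
  set P : ℂ → ℝ := fun x => (2 * Real.pi)⁻¹ * ∫ ζ in ball z (2 * s), Real.log (2 / ‖ζ - x‖) * Δ u ζ with hP
  have hpt : ∀ x ∈ ball z s, Real.exp (-u x / 2) / ‖x - z‖ ≤ K * (Real.exp (2⁻¹ * P x) / ‖x - z‖) := by
    intro x hx
    have h1 := lower_bound_near hr hu hΔ hB hs hz hx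
    have h2 : wmass u / s ^ 2 ≤ M₁ / s ^ 2 := div_le_div_of_nonneg_right hM (by positivity)
    have h3 : Real.exp (-u x / 2) ≤ K * Real.exp (2⁻¹ * P x) := by
      rw [hK, ← Real.exp_add]
      apply Real.exp_le_exp.mpr
      simp only [hP]
      linarith
    calc Real.exp (-u x / 2) / ‖x - z‖ ≤ (K * Real.exp (2⁻¹ * P x)) / ‖x - z‖ :=
          div_le_div_of_nonneg_right h3 (norm_nonneg _)
      _ = _ := by ring
  have hmeas : AEStronglyMeasurable (fun x => Real.exp (-u x / 2) / ‖x - z‖) (volume.restrict (ball z s)) := by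
    have hc : ContinuousOn (fun x => Real.exp (-u x / 2)) (ball z s) := by
      have hu' : ContinuousOn u (ball z s) :=
        hu.continuousOn.mono ((ball_subset_closedBall.trans (closedBall_subset_closedBall (by linarith))).trans hsubr)
      fun_prop
    have h1 : AEMeasurable (fun x => Real.exp (-u x / 2)) (volume.restrict (ball z s)) :=
      (hc.aestronglyMeasurable measurableSet_ball).aemeasurable
    have h2 : AEMeasurable (fun x : ℂ => ‖x - z‖) (volume.restrict (ball z s)) := by fun_prop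
    exact (h1.div h2).aestronglyMeasurable
  have hint : IntegrableOn (fun x => Real.exp (-u x / 2) / ‖x - z‖) (ball z s) := by
    refine Integrable.mono' (I1.const_mul K) hmeas ?_
    rw [ae_restrict_iff' measurableSet_ball]
    refine Filter.Eventually.of_forall fun x hx => ?_
    rw [Real.norm_of_nonneg (by positivity)]
    exact hpt x hx
  refine ⟨hint, ?_⟩
  calc ∫ x in ball z s, Real.exp (-u x / 2) / ‖x - z‖
      ≤ ∫ x in ball z s, K * (Real.exp (2⁻¹ * P x) / ‖x - z‖) :=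
        setIntegral_mono_on hint (I1.const_mul K) measurableSet_ball hpt
    _ = K * ∫ x in ball z s, Real.exp (2⁻¹ * P x) / ‖x - z‖ := integral_const_mul _ _
    _ ≤ K * C₀ := mul_le_mul_of_nonneg_left I2 hK0.le

/-! ### S4-P-SEG -/

/-- the unit vector of argument `θ` -/
noncomputable def pot_e (θ : ℝ) : ℂ := (Real.cos θ : ℂ) + (Real.sin θ : ℂ) * Complex.I

theorem pot_norm_e (θ : ℝ) : ‖pot_e θ‖ = 1 := by
  have : pot_e θ = Complex.exp (θ * Complex.I) := by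
    unfold pot_e
    rw [Complex.exp_mul_I]
    push_cast
    ring
  rw [this, Complex.norm_exp_ofReal_mul_I]

theorem pot_e_continuous : Continuous pot_e := by
  unfold pot_e
  fun_prop

theorem pot_norm_smul_e {ρ : ℝ} (hρ : 0 ≤ ρ) (θ : ℝ) : ‖ρ • pot_e θ‖ = ρ := by
  rw [norm_smul, pot_norm_e, mul_one, Real.norm_of_nonneg hρ]

/-- polar coordinates + Tonelli -/
theorem pot_polar (F : ℂ → ENNReal) (hF : Measurable F) :
    ∫⁻ ζ, F ζ = ∫⁻ θ in Ioo (-Real.pi) Real.pi, ∫⁻ ρ in Ioi (0 : ℝ), ENNReal.ofReal ρ * F (ρ • pot_e θ) := by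
  have hm : Measurable fun p : ℝ × ℝ => ENNReal.ofReal p.1 * F (p.1 • pot_e p.2) := by
    refine (ENNReal.measurable_ofReal.comp measurable_fst).mul (hF.comp ?_)
    exact (continuous_fst.smul (pot_e_continuous.comp continuous_snd)).measurable
  rw [← Complex.lintegral_comp_polarCoord_symm F, polarCoord_target, Measure.volume_eq_prod, ← Measure.prod_restrict]
  have e : ∀ p : ℝ × ℝ, ENNReal.ofReal p.1 • F (Complex.polarCoord.symm p) = ENNReal.ofReal p.1 * F (p.1 • pot_e p.2) := by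
    intro p
    rw [Complex.polarCoord_symm_apply, smul_eq_mul, Complex.real_smul]
    rfl
  simp_rw [e]
  rw [lintegral_prod_symm _ hm.aemeasurable]

/-- polar coordinates centred at `z` -/
theorem pot_polar_at (z : ℂ) (F : ℂ → ENNReal) (hF : Measurable F) :
    ∫⁻ y, F y = ∫⁻ θ in Ioo (-Real.pi) Real.pi, ∫⁻ ρ in Ioi (0 : ℝ), ENNReal.ofReal ρ * F (z + ρ • pot_e θ) := by
  rw [← lintegral_add_left_eq_self F z]
  exact pot_polar (fun ζ => F (z + ζ)) (hF.comp (measurable_const_add z))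

theorem pot_measurable_indicator {X : Type*} [TopologicalSpace X] [MeasurableSpace X] [BorelSpace X] {f : X → ℝ} {s : Set X}
    (hf : ContinuousOn f s) (hs : MeasurableSet s) : Measurable (s.indicator f) := by
  classical
  rw [← Set.piecewise_eq_indicator]
  exact hf.measurable_piecewise continuousOn_const hs

theorem pot_polar_meas (z : ℂ) (F : ℂ → ENNReal) (hF : Measurable F) :
    Measurable fun θ : ℝ => ∫⁻ ρ in Ioi (0 : ℝ), ENNReal.ofReal ρ * F (z + ρ • pot_e θ) := by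
  have hm : Measurable fun p : ℝ × ℝ => ENNReal.ofReal p.2 * F (z + p.2 • pot_e p.1) := by
    refine (ENNReal.measurable_ofReal.comp measurable_snd).mul (hF.comp ?_)
    exact (continuous_const.add (continuous_snd.smul (pot_e_continuous.comp continuous_fst))).measurable
  exact hm.lintegral_prod_right'

theorem pot_cs {s : Set ℝ} {μ : ℝ} (hs : volume s = ENNReal.ofReal μ) (hμ : 0 < μ) {h : ℝ → ℝ}
    (h1 : IntegrableOn h s) (h2 : IntegrableOn (fun y => h y ^ 2) s) :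
    (∫ y in s, h y) ^ 2 ≤ μ * ∫ y in s, h y ^ 2 := by
  set A := ∫ y in s, h y with hA
  set t := A / μ with ht
  have hc : ∫ _y in s, (t ^ 2 : ℝ) = μ * t ^ 2 := by
    rw [setIntegral_const, Measure.real, hs, ENNReal.toReal_ofReal hμ.le, smul_eq_mul]
  have hfin : volume s ≠ ⊤ := by rw [hs]; exact ENNReal.ofReal_ne_top
  have hi1 : IntegrableOn (fun y => 2 * t * h y) s := h1.const_mul _
  have hi2 : IntegrableOn (fun _ : ℝ => t ^ 2) s := integrableOn_const hfin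
  have key : 0 ≤ ∫ y in s, (h y - t) ^ 2 := integral_nonneg fun y => sq_nonneg _
  have e : ∫ y in s, (h y - t) ^ 2 = (∫ y in s, h y ^ 2) - 2 * t * A + μ * t ^ 2 := by
    have e1 : ∀ y, (h y - t) ^ 2 = h y ^ 2 - 2 * t * h y + t ^ 2 := fun y => by ring
    simp only [e1]
    have hi3 : IntegrableOn (fun y => h y ^ 2 - 2 * t * h y) s := h2.sub hi1
    rw [integral_add hi3 hi2, integral_sub h2 hi1, integral_const_mul, hc]
  rw [e] at key
  have e2 : 2 * t * A = 2 * (A ^ 2 / μ) := by rw [ht]; ring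
  have e3 : μ * t ^ 2 = A ^ 2 / μ := by rw [ht]; field_simp
  rw [e2, e3] at key
  have : A ^ 2 / μ ≤ ∫ y in s, h y ^ 2 := by linarith
  rwa [div_le_iff₀ hμ, mul_comm] at this

theorem pot_seg_mem {z y : ℂ} {R : ℝ} (hy : y ∈ ball z R) {t : ℝ} (ht : t ∈ Icc (0 : ℝ) 1) : z + t • (y - z) ∈ ball z R := by
  rw [mem_ball_iff_norm] at hy ⊢
  rw [add_sub_cancel_left, norm_smul, Real.norm_of_nonneg ht.1]
  calc t * ‖y - z‖ ≤ 1 * ‖y - z‖ := mul_le_mul_of_nonneg_right ht.2 (norm_nonneg _)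
    _ < R := by rwa [one_mul]

theorem pot_seg_nonneg {σ : ℂ → ℝ} {z y : ℂ} {R : ℝ} (h0 : ∀ x ∈ ball z R, 0 ≤ σ x) (hy : y ∈ ball z R) :
    0 ≤ seg σ z y := by
  unfold seg
  refine mul_nonneg (norm_nonneg _) (intervalIntegral.integral_nonneg zero_le_one fun t ht => ?_)
  exact h0 _ (pot_seg_mem hy ht)

/-- the segment length along a ray -/
theorem pot_seg_ray {σ : ℂ → ℝ} {z : ℂ} {ρ : ℝ} (hρ : 0 ≤ ρ) (θ : ℝ) :
    seg σ z (z + ρ • pot_e θ) = ∫ τ in (0 : ℝ)..ρ, σ (z + τ • pot_e θ) := by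
  unfold seg
  rw [add_sub_cancel_left, pot_norm_smul_e hρ]
  have h := intervalIntegral.mul_integral_comp_mul_left (a := 0) (b := 1) (f := fun τ : ℝ => σ (z + τ • pot_e θ)) (c := ρ)
  rw [mul_zero, mul_one] at h
  rw [← h]
  congr 1
  refine intervalIntegral.integral_congr fun t _ => ?_
  rw [smul_smul, mul_comm]

theorem seg_average {σ : ℂ → ℝ} {z : ℂ} {R : ℝ} (hR : 0 < R) (hσ : ContinuousOn σ (ball z R))
    (h0 : ∀ x ∈ ball z R, 0 ≤ σ x) (hi : IntegrableOn (fun x => σ x / ‖x - z‖) (ball z R)) :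
    IntegrableOn (fun y => seg σ z y) (ball z R) ∧
    ∫ y in ball z R, seg σ z y ≤ R ^ 2 / 2 * ∫ x in ball z R, σ x / ‖x - z‖ := by
  set B : Set ℂ := ball z R with hB
  have hBm : MeasurableSet B := measurableSet_ball
  set σt : ℂ → ℝ := B.indicator σ with hσt
  have hσm : Measurable σt := pot_measurable_indicator hσ hBm
  have hσ0 : ∀ x, 0 ≤ σt x := fun x => indicator_nonneg h0 x
  -- measurable version of `seg`
  set segt : ℂ → ℝ := fun y => ‖y - z‖ * ∫ t in Ioc (0 : ℝ) 1, σt (z + t • (y - z)) with hsegt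
  have hsegm : Measurable segt := by
    refine (continuous_norm.comp (continuous_id.sub continuous_const)).measurable.mul ?_
    have h1 : StronglyMeasurable (Function.uncurry fun (y : ℂ) (t : ℝ) => σt (z + t • (y - z))) := by
      refine (hσm.comp ?_).stronglyMeasurable
      exact (continuous_const.add (continuous_snd.smul (continuous_fst.sub continuous_const))).measurable
    exact (h1.integral_prod_right (ν := volume.restrict (Ioc (0 : ℝ) 1))).measurable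
  have hseq : ∀ y ∈ B, segt y = seg σ z y := by
    intro y hy
    simp only [hsegt, seg]
    rw [intervalIntegral.integral_of_le zero_le_one]
    congr 1
    refine setIntegral_congr_fun measurableSet_Ioc fun t ht => ?_
    simp only [hσt]
    rw [indicator_of_mem (pot_seg_mem hy ⟨ht.1.le, ht.2⟩)]
  set F : ℂ → ENNReal := fun y => ENNReal.ofReal (B.indicator segt y) with hF
  have hFm : Measurable F := ENNReal.measurable_ofReal.comp (hsegm.indicator hBm)
  set S : ℝ → ENNReal := fun θ => ∫⁻ τ in Ioi (0 : ℝ), ENNReal.ofReal (σt (z + τ • pot_e θ)) with hS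
  have hmemB : ∀ (θ : ℝ) (τ : ℝ), 0 ≤ τ → τ < R → z + τ • pot_e θ ∈ B := by
    intro θ τ h1 h2
    rw [hB, mem_ball_iff_norm, add_sub_cancel_left, pot_norm_smul_e h1]
    exact h2
  -- pointwise bound
  have hpt : ∀ (θ ρ : ℝ), 0 < ρ → F (z + ρ • pot_e θ) ≤ (Ioo (0 : ℝ) R).indicator (fun _ => S θ) ρ := by
    intro θ ρ hρ
    by_cases hρR : ρ < R
    · have hmem1 : ρ ∈ Ioo (0 : ℝ) R := ⟨hρ, hρR⟩
      rw [indicator_of_mem hmem1]
      simp only [hF]
      rw [indicator_of_mem (hmemB θ ρ hρ.le hρR), hseq _ (hmemB θ ρ hρ.le hρR), pot_seg_ray hρ.le,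
        intervalIntegral.integral_of_le hρ.le]
      have hc : ContinuousOn (fun τ : ℝ => σ (z + τ • pot_e θ)) (Icc 0 ρ) :=
        hσ.comp (by fun_prop) fun τ hτ => hmemB θ τ hτ.1 (lt_of_le_of_lt hτ.2 hρR)
      have hI : IntegrableOn (fun τ : ℝ => σ (z + τ • pot_e θ)) (Ioc 0 ρ) :=
        (hc.integrableOn_compact isCompact_Icc).mono_set Ioc_subset_Icc_self
      rw [ofReal_integral_eq_lintegral_ofReal hI ?_]
      · refine le_trans (le_of_eq ?_) (lintegral_mono_set (s := Ioc (0 : ℝ) ρ) Ioc_subset_Ioi_self)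
        refine setLIntegral_congr_fun measurableSet_Ioc fun τ hτ => ?_
        simp only [hσt]
        rw [indicator_of_mem (hmemB θ τ hτ.1.le (lt_of_le_of_lt hτ.2 hρR))]
      · rw [Filter.EventuallyLE, ae_restrict_iff' measurableSet_Ioc]
        exact Filter.Eventually.of_forall fun τ hτ => h0 _ (hmemB θ τ hτ.1.le (lt_of_le_of_lt hτ.2 hρR))
    · have hnot : z + ρ • pot_e θ ∉ B := by
        rw [hB, mem_ball_iff_norm, add_sub_cancel_left, pot_norm_smul_e hρ.le]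
        exact hρR
      simp only [hF]
      rw [indicator_of_notMem hnot]
      simp
  have hρint : ∫⁻ ρ in Ioo (0 : ℝ) R, ENNReal.ofReal ρ = ENNReal.ofReal (R ^ 2 / 2) := by
    have hI : IntegrableOn (fun ρ : ℝ => ρ) (Ioo 0 R) :=
      (continuousOn_id.integrableOn_compact isCompact_Icc).mono_set Ioo_subset_Icc_self
    rw [← ofReal_integral_eq_lintegral_ofReal hI ?_]
    · congr 1
      rw [← integral_Ioc_eq_integral_Ioo, ← intervalIntegral.integral_of_le hR.le, integral_id]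
      ring
    · rw [Filter.EventuallyLE, ae_restrict_iff' measurableSet_Ioo]
      exact Filter.Eventually.of_forall fun ρ hρ => hρ.1.le
  have hinner : ∀ θ : ℝ, ∫⁻ ρ in Ioi (0 : ℝ), ENNReal.ofReal ρ * F (z + ρ • pot_e θ) ≤ ENNReal.ofReal (R ^ 2 / 2) * S θ := by
    intro θ
    calc ∫⁻ ρ in Ioi (0 : ℝ), ENNReal.ofReal ρ * F (z + ρ • pot_e θ)
        ≤ ∫⁻ ρ in Ioi (0 : ℝ), (Ioo (0 : ℝ) R).indicator (fun ρ => ENNReal.ofReal ρ * S θ) ρ := by
          refine setLIntegral_mono' measurableSet_Ioi fun ρ hρ => ?_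
          refine (mul_le_mul_right (hpt θ ρ hρ) _).trans (le_of_eq ?_)
          by_cases h : ρ ∈ Ioo (0 : ℝ) R
          · rw [indicator_of_mem h, indicator_of_mem h]
          · rw [indicator_of_notMem h, indicator_of_notMem h, mul_zero]
      _ = ∫⁻ ρ in Ioo (0 : ℝ) R, ENNReal.ofReal ρ * S θ := by
          rw [setLIntegral_indicator measurableSet_Ioo, inter_eq_left.mpr Ioo_subset_Ioi_self]
      _ = ENNReal.ofReal (R ^ 2 / 2) * S θ := by
          rw [lintegral_mul_const _ ENNReal.measurable_ofReal, hρint]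
  -- the integral of `S`
  set G : ℂ → ENNReal := fun x => ENNReal.ofReal (σt x / ‖x - z‖) with hG
  have hGm : Measurable G :=
    ENNReal.measurable_ofReal.comp (hσm.div (continuous_norm.comp (continuous_id.sub continuous_const)).measurable)
  have hSG : ∫⁻ θ in Ioo (-Real.pi) Real.pi, S θ = ∫⁻ x, G x := by
    rw [pot_polar_at z G hGm]
    refine lintegral_congr fun θ => ?_
    refine setLIntegral_congr_fun measurableSet_Ioi fun τ hτ => ?_
    have hτ0 : (0 : ℝ) < τ := hτ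
    simp only [hG]
    rw [add_sub_cancel_left, pot_norm_smul_e hτ0.le, ← ENNReal.ofReal_mul hτ0.le, mul_div_cancel₀ _ hτ0.ne']
  have hGI : ∫⁻ x, G x = ENNReal.ofReal (∫ x in B, σ x / ‖x - z‖) := by
    have e : ∀ x, σt x / ‖x - z‖ = B.indicator (fun x => σ x / ‖x - z‖) x := by
      intro x
      by_cases hx : x ∈ B
      · simp only [hσt]
        rw [indicator_of_mem hx, indicator_of_mem hx]
      · simp only [hσt]
        rw [indicator_of_notMem hx, indicator_of_notMem hx, zero_div]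
    simp only [hG, e]
    rw [← ofReal_integral_eq_lintegral_ofReal ((integrable_indicator_iff hBm).mpr hi) ?_, integral_indicator hBm]
    exact Filter.Eventually.of_forall fun x => indicator_nonneg (fun x hx => div_nonneg (h0 x hx) (norm_nonneg _)) x
  have hmain : ∫⁻ y, F y ≤ ENNReal.ofReal (R ^ 2 / 2 * ∫ x in B, σ x / ‖x - z‖) := by
    rw [pot_polar_at z F hFm, ENNReal.ofReal_mul (by positivity), ← hGI, ← hSG, ← lintegral_const_mul' _ _ ENNReal.ofReal_ne_top]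
    exact lintegral_mono hinner
  have hnn : ∀ y, 0 ≤ B.indicator segt y := by
    intro y
    refine indicator_nonneg (fun y hy => ?_) y
    rw [hseq y hy]
    exact pot_seg_nonneg h0 hy
  have hInt : Integrable (B.indicator segt) := by
    refine ⟨(hsegm.indicator hBm).aestronglyMeasurable, ?_⟩
    rw [hasFiniteIntegral_iff_ofReal (Filter.Eventually.of_forall hnn)]
    exact lt_of_le_of_lt hmain ENNReal.ofReal_lt_top
  have hIntOn : IntegrableOn segt B := (integrable_indicator_iff hBm).mp hInt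
  constructor
  · exact hIntOn.congr_fun hseq hBm
  · rw [← setIntegral_congr_fun hBm hseq, ← integral_indicator hBm,
      integral_eq_lintegral_of_nonneg_ae (Filter.Eventually.of_forall hnn) hInt.1]
    have hrhs : 0 ≤ R ^ 2 / 2 * ∫ x in B, σ x / ‖x - z‖ :=
      mul_nonneg (by positivity) (setIntegral_nonneg hBm fun x hx => div_nonneg (h0 x hx) (norm_nonneg _))
    exact ENNReal.toReal_le_of_le_ofReal hrhs hmain

theorem pot_seg_part {σ : ℂ → ℝ} {z₀ : ℂ} {s C : ℝ} (hs : 0 < s)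
    (hσ : ContinuousOn σ (ball z₀ s)) (h0 : ∀ x ∈ ball z₀ s, 0 ≤ σ x) {z : ℂ}
    (hz : z ∈ ball z₀ (s / 4))
    (hiz : IntegrableOn (fun x => σ x / ‖x - z‖) (ball z (s / 2)))
    (hCz : ∫ x in ball z (s / 2), σ x / ‖x - z‖ ≤ C) :
    IntegrableOn (fun y => seg σ z y) (ball z₀ (s / 4)) ∧ (∀ y ∈ ball z₀ (s / 4), 0 ≤ seg σ z y) ∧
      ∫ y in ball z₀ (s / 4), seg σ z y ≤ s ^ 2 * C / 8 := by
  have hsub1 : ball z (s / 2) ⊆ ball z₀ s := by
    intro x hx
    rw [mem_ball] at hx hz ⊢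
    calc dist x z₀ ≤ dist x z + dist z z₀ := dist_triangle _ _ _
      _ < s / 2 + s / 4 := add_lt_add hx hz
      _ ≤ s := by linarith
  have hsub2 : ball z₀ (s / 4) ⊆ ball z (s / 2) := by
    intro x hx
    rw [mem_ball] at hx hz ⊢
    calc dist x z ≤ dist x z₀ + dist z₀ z := dist_triangle _ _ _
      _ < s / 4 + s / 4 := add_lt_add hx (by rwa [dist_comm])
      _ = s / 2 := by ring
  have h0' : ∀ x ∈ ball z (s / 2), 0 ≤ σ x := fun x hx => h0 x (hsub1 hx)
  obtain ⟨h1, h2⟩ := seg_average (by positivity : 0 < s / 2) (hσ.mono hsub1) h0' hiz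
  refine ⟨h1.mono_set hsub2, fun y hy => pot_seg_nonneg h0' (hsub2 hy), ?_⟩
  have h3 : ∫ y in ball z₀ (s / 4), seg σ z y ≤ ∫ y in ball z (s / 2), seg σ z y := by
    refine setIntegral_mono_set h1 ?_ (Filter.Eventually.of_forall hsub2)
    rw [Filter.EventuallyLE, ae_restrict_iff' measurableSet_ball]
    exact Filter.Eventually.of_forall fun y hy => pot_seg_nonneg h0' hy
  refine h3.trans (h2.trans ?_)
  calc (s / 2) ^ 2 / 2 * ∫ x in ball z (s / 2), σ x / ‖x - z‖ ≤ (s / 2) ^ 2 / 2 * C :=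
        mul_le_mul_of_nonneg_left hCz (by positivity)
    _ = s ^ 2 * C / 8 := by ring

/-- two points of `B(z₀, s/4)` are joined to a common point by segments of bounded `σ`-length. -/
theorem seg_common {σ : ℂ → ℝ} {z₀ : ℂ} {s C : ℝ} (hs : 0 < s) (hC : 0 < C)
    (hσ : ContinuousOn σ (ball z₀ s)) (h0 : ∀ x ∈ ball z₀ s, 0 ≤ σ x) {z w : ℂ}
    (hz : z ∈ ball z₀ (s / 4)) (hw : w ∈ ball z₀ (s / 4))
    (hiz : IntegrableOn (fun x => σ x / ‖x - z‖) (ball z (s / 2)))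
    (hiw : IntegrableOn (fun x => σ x / ‖x - w‖) (ball w (s / 2)))
    (hCz : ∫ x in ball z (s / 2), σ x / ‖x - z‖ ≤ C) (hCw : ∫ x in ball w (s / 2), σ x / ‖x - w‖ ≤ C) :
    ∃ y ∈ ball z₀ (s / 4), seg σ z y ≤ 3 * C ∧ seg σ w y ≤ 3 * C := by
  obtain ⟨a1, a2, a3⟩ := pot_seg_part hs hσ h0 hz hiz hCz
  obtain ⟨b1, b2, b3⟩ := pot_seg_part hs hσ h0 hw hiw hCw
  have hπ := Real.pi_gt_three
  have hvol : volume (ball z₀ (s / 4)) = ENNReal.ofReal (Real.pi * (s / 4) ^ 2) := by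
    rw [Complex.volume_ball, ENNReal.ofReal_mul Real.pi_pos.le, ENNReal.ofReal_pow (by positivity), mul_comm]
    congr 1
    rw [ENNReal.ofReal, Real.toNNReal_of_nonneg Real.pi_pos.le]
    rfl
  have hpos : 0 < Real.pi * (s / 4) ^ 2 := by positivity
  obtain ⟨y, hy, hle⟩ := exists_le_setAverage (μ := volume) (s := ball z₀ (s / 4))
    (f := fun y => seg σ z y + seg σ w y) (by rw [hvol]; simpa using hpos) (by rw [hvol]; exact ENNReal.ofReal_ne_top)
    (a1.add b1)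
  rw [setAverage_eq, Measure.real, hvol, ENNReal.toReal_ofReal hpos.le, integral_add a1 b1, smul_eq_mul] at hle
  have hbound : (Real.pi * (s / 4) ^ 2)⁻¹ * ((∫ y in ball z₀ (s / 4), seg σ z y) + ∫ y in ball z₀ (s / 4), seg σ w y)
      ≤ 3 * C := by
    rw [inv_mul_le_iff₀ hpos]
    have : s ^ 2 * C / 8 + s ^ 2 * C / 8 ≤ Real.pi * (s / 4) ^ 2 * (3 * C) := by
      have h1 : 0 < s ^ 2 * C := by positivity
      nlinarith
    linarith
  refine ⟨y, hy, ?_, ?_⟩
  · linarith [b2 y hy]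
  · linarith [a2 y hy]

/-! ### S4-P-LEMM -/

theorem pot_lemm_part {C₁ Cb : ℝ} {s : ℝ} (hs : 0 < s) {u σ : ℂ → ℝ} {r : ℝ} (hr : 1 < r)
    (hu : ContDiffOn ℝ 2 u (ball 0 r)) (hΔ : ∀ ζ ∈ ball (0 : ℂ) 1, 0 ≤ Δ u ζ)
    (hσc : ContinuousOn σ (ball 0 1)) (hσ0 : ∀ x ∈ ball (0 : ℂ) 1, 0 ≤ σ x)
    (hσ : ∀ x ∈ ball (0 : ℂ) 1, σ x * (1 - ‖x‖) ≤ C₁ * Real.exp (-u x / 2))
    {z₀ : ℂ} (hz₀ : ‖z₀‖ + 2 * s < 1) (hm : rmass u (ball z₀ (2 * s)) ≤ 1)
    (hb : ∀ z : ℂ, ‖z‖ + 2 * (s / 2) < 1 → rmass u (ball z (2 * (s / 2))) ≤ 1 →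
      IntegrableOn (fun x => Real.exp (-u x / 2) / ‖x - z‖) (ball z (s / 2)) ∧
      ∫ x in ball z (s / 2), Real.exp (-u x / 2) / ‖x - z‖ ≤ Cb)
    {z : ℂ} (hz : z ∈ ball z₀ (s / 4)) :
    IntegrableOn (fun x => σ x / ‖x - z‖) (ball z (s / 2)) ∧
      ∫ x in ball z (s / 2), σ x / ‖x - z‖ ≤ |C₁| / s * Cb := by
  have hzz : ‖z - z₀‖ < s / 4 := by rwa [mem_ball_iff_norm] at hz
  have hz1 : ‖z‖ ≤ ‖z₀‖ + s / 4 := by
    have := norm_sub_norm_le z z₀
    linarith
  have hD : ball z₀ (2 * s) ⊆ ball (0 : ℂ) 1 := by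
    intro ζ hζ
    rw [mem_ball_iff_norm] at hζ
    rw [mem_ball_zero_iff]
    have := norm_sub_norm_le ζ z₀
    linarith
  have hsub : ball z (2 * (s / 2)) ⊆ ball z₀ (2 * s) := by
    intro ζ hζ
    rw [mem_ball_iff_norm] at hζ ⊢
    have : ‖ζ - z₀‖ ≤ ‖ζ - z‖ + ‖z - z₀‖ := by
      have := norm_add_le (ζ - z) (z - z₀)
      simpa using this
    linarith
  obtain ⟨I1, I2⟩ := hb z (by linarith)
    ((rmass_mono hr hu hΔ measurableSet_ball measurableSet_ball hsub hD).trans hm)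
  have hin : ∀ x ∈ ball z (s / 2), ‖x‖ + s < 1 := by
    intro x hx
    rw [mem_ball_iff_norm] at hx
    have := norm_sub_norm_le x z
    linarith
  have hsub1 : ball z (s / 2) ⊆ ball (0 : ℂ) 1 := by
    intro x hx
    rw [mem_ball_zero_iff]
    linarith [hin x hx]
  have hpt : ∀ x ∈ ball z (s / 2), σ x / ‖x - z‖ ≤ |C₁| / s * (Real.exp (-u x / 2) / ‖x - z‖) := by
    intro x hx
    have h1 := hσ x (hsub1 hx)
    have h2 := hin x hx
    have h3 := hσ0 x (hsub1 hx)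
    have h4 : σ x * s ≤ |C₁| * Real.exp (-u x / 2) := by
      calc σ x * s ≤ σ x * (1 - ‖x‖) := mul_le_mul_of_nonneg_left (by linarith) h3
        _ ≤ C₁ * Real.exp (-u x / 2) := h1
        _ ≤ |C₁| * Real.exp (-u x / 2) := mul_le_mul_of_nonneg_right (le_abs_self _) (Real.exp_pos _).le
    have h5 : σ x ≤ |C₁| / s * Real.exp (-u x / 2) := by
      rw [div_mul_eq_mul_div, le_div_iff₀ hs]
      exact h4
    calc σ x / ‖x - z‖ ≤ (|C₁| / s * Real.exp (-u x / 2)) / ‖x - z‖ :=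
          div_le_div_of_nonneg_right h5 (norm_nonneg _)
      _ = _ := by ring
  have hmeas : AEStronglyMeasurable (fun x => σ x / ‖x - z‖) (volume.restrict (ball z (s / 2))) := by
    have h1 : AEMeasurable σ (volume.restrict (ball z (s / 2))) :=
      ((hσc.mono hsub1).aestronglyMeasurable measurableSet_ball).aemeasurable
    have h2 : AEMeasurable (fun x : ℂ => ‖x - z‖) (volume.restrict (ball z (s / 2))) := by fun_prop
    exact (h1.div h2).aestronglyMeasurable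
  have hint : IntegrableOn (fun x => σ x / ‖x - z‖) (ball z (s / 2)) := by
    refine Integrable.mono' (I1.const_mul (|C₁| / s)) hmeas ?_
    rw [ae_restrict_iff' measurableSet_ball]
    refine Filter.Eventually.of_forall fun x hx => ?_
    rw [Real.norm_of_nonneg (div_nonneg (hσ0 x (hsub1 hx)) (norm_nonneg _))]
    exact hpt x hx
  refine ⟨hint, ?_⟩
  calc ∫ x in ball z (s / 2), σ x / ‖x - z‖
      ≤ ∫ x in ball z (s / 2), |C₁| / s * (Real.exp (-u x / 2) / ‖x - z‖) :=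
        setIntegral_mono_on hint (I1.const_mul _) measurableSet_ball hpt
    _ = |C₁| / s * ∫ x in ball z (s / 2), Real.exp (-u x / 2) / ‖x - z‖ := integral_const_mul _ _
    _ ≤ |C₁| / s * Cb := mul_le_mul_of_nonneg_left I2 (by positivity)

/-- **Lemma M₀**: where the Riesz mass of `u` is `≤ 1`, a conformal factor `σ ≤ C₁ e^{-u/2}/(1-|x|)` has bounded segment lengths. -/
theorem lemmaM0 (B M₁ C₁ : ℝ) {s : ℝ} (hs : 0 < s) :
    ∃ C : ℝ, 0 < C ∧ ∀ (u σ : ℂ → ℝ) (r : ℝ), 1 < r → ContDiffOn ℝ 2 u (ball 0 r) →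
      (∀ ζ ∈ ball (0 : ℂ) 1, 0 ≤ Δ u ζ) → (∀ ζ ∈ sphere (0 : ℂ) 1, -B ≤ u ζ) → wmass u ≤ M₁ →
      ContinuousOn σ (ball 0 1) → (∀ x ∈ ball (0 : ℂ) 1, 0 ≤ σ x) →
      (∀ x ∈ ball (0 : ℂ) 1, σ x * (1 - ‖x‖) ≤ C₁ * Real.exp (-u x / 2)) →
      ∀ z₀ : ℂ, ‖z₀‖ + 2 * s < 1 → rmass u (ball z₀ (2 * s)) ≤ 1 →
      ∀ z ∈ ball z₀ (s / 4), ∀ w ∈ ball z₀ (s / 4),
        ∃ y ∈ ball z₀ (s / 4), seg σ z y ≤ C ∧ seg σ w y ≤ C := by
  obtain ⟨Cb, hCb, hb⟩ := bm_bound B M₁ (s := s / 2) (by positivity)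
  set C₂ := |C₁| / s * Cb + 1 with hC₂
  have hC₂0 : 0 < C₂ := by positivity
  refine ⟨3 * C₂, by positivity, ?_⟩
  intro u σ r hr hu hΔ hB hM hσc hσ0 hσ z₀ hz₀ hm z hz w hw
  have hb' := hb u r hr hu hΔ hB hM
  obtain ⟨a1, a2⟩ := pot_lemm_part hs hr hu hΔ hσc hσ0 hσ hz₀ hm hb' hz
  obtain ⟨b1, b2⟩ := pot_lemm_part hs hr hu hΔ hσc hσ0 hσ hz₀ hm hb' hw
  have hsub : ball z₀ s ⊆ ball (0 : ℂ) 1 := by
    intro ζ hζ
    rw [mem_ball_iff_norm] at hζ
    rw [mem_ball_zero_iff]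
    have := norm_sub_norm_le ζ z₀
    linarith
  exact seg_common hs hC₂0 (hσc.mono hsub) (fun x hx => hσ0 x (hsub hx)) hz hw a1 b1
    (by linarith) (by linarith)

/-! ### S4-P-POL -/

/-- a ray on which the outer half of the disc has bounded `√φ`-length. -/
theorem exists_ray_le {φ : ℂ → ℝ} {A₀ : ℝ} (hφ : ContinuousOn φ (closedBall 0 1))
    (h0 : ∀ ζ ∈ closedBall (0 : ℂ) 1, 0 ≤ φ ζ) (hA : ∫ ζ in ball (0 : ℂ) 1, φ ζ ≤ A₀) :
    ∃ e : ℂ, ‖e‖ = 1 ∧ ∫ ρ in (1 / 2 : ℝ)..1, Real.sqrt (φ (ρ • e)) ≤ Real.sqrt A₀ := by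
  have hπ := Real.pi_pos
  set φt : ℂ → ℝ := (ball (0 : ℂ) 1).indicator φ with hφt
  have hm : Measurable φt := pot_measurable_indicator (hφ.mono ball_subset_closedBall) measurableSet_ball
  have hnn : ∀ ζ, 0 ≤ φt ζ := fun ζ => indicator_nonneg (fun x hx => h0 x (ball_subset_closedBall hx)) ζ
  have hint : IntegrableOn φ (ball (0 : ℂ) 1) :=
    (hφ.integrableOn_compact (isCompact_closedBall 0 1)).mono_set ball_subset_closedBall
  have hint' : Integrable φt := (integrable_indicator_iff measurableSet_ball).mpr hint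
  have hL : ∫⁻ ζ, ENNReal.ofReal (φt ζ) = ENNReal.ofReal (∫ ζ in ball (0 : ℂ) 1, φ ζ) := by
    rw [← ofReal_integral_eq_lintegral_ofReal hint' (Filter.Eventually.of_forall hnn), integral_indicator measurableSet_ball]
  have hF : Measurable fun ζ => ENNReal.ofReal (φt ζ) := ENNReal.measurable_ofReal.comp hm
  have hpol := pot_polar_at 0 _ hF
  have hgm := pot_polar_meas 0 _ hF
  have hvol : volume (Ioo (-Real.pi) Real.pi) = ENNReal.ofReal (2 * Real.pi) := by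
    rw [Real.volume_Ioo]
    congr 1
    ring
  obtain ⟨θ, -, hθ⟩ := exists_le_setLAverage (μ := volume) (s := Ioo (-Real.pi) Real.pi)
    (by rw [hvol]; simpa using hπ) (by rw [hvol]; exact ENNReal.ofReal_ne_top) hgm.aemeasurable
  rw [setLAverage_eq, ← hpol, hL, hvol, ← ENNReal.ofReal_div_of_pos (by positivity)] at hθ
  refine ⟨pot_e θ, pot_norm_e θ, ?_⟩
  set e := pot_e θ with he
  -- the restriction to the ray
  have hmem : ∀ ρ ∈ Icc (0 : ℝ) 1, ρ • e ∈ closedBall (0 : ℂ) 1 := by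
    intro ρ hρ
    rw [mem_closedBall_zero_iff, pot_norm_smul_e hρ.1]
    exact hρ.2
  have hc : ContinuousOn (fun ρ : ℝ => φ (ρ • e)) (Icc 0 1) :=
    hφ.comp (by fun_prop) hmem
  have hsub : Ioo (1 / 2 : ℝ) 1 ⊆ Icc 0 1 := fun ρ hρ => ⟨by linarith [hρ.1], hρ.2.le⟩
  have hcI : IntegrableOn (fun ρ : ℝ => φ (ρ • e)) (Ioo (1 / 2) 1) :=
    (hc.integrableOn_compact isCompact_Icc).mono_set hsub
  have hcI2 : IntegrableOn (fun ρ : ℝ => ρ * φ (ρ • e)) (Ioo (1 / 2) 1) :=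
    ((continuousOn_id.mul hc).integrableOn_compact isCompact_Icc).mono_set hsub
  have hcS : IntegrableOn (fun ρ : ℝ => Real.sqrt (φ (ρ • e))) (Ioo (1 / 2) 1) :=
    ((Real.continuous_sqrt.comp_continuousOn hc).integrableOn_compact isCompact_Icc).mono_set hsub
  have hI1 : ∫ ρ in Ioo (1 / 2 : ℝ) 1, ρ * φ (ρ • e) ≤ (∫ ζ in ball (0 : ℂ) 1, φ ζ) / (2 * Real.pi) := by
    have hnn2 : 0 ≤ (∫ ζ in ball (0 : ℂ) 1, φ ζ) / (2 * Real.pi) :=
      div_nonneg (setIntegral_nonneg measurableSet_ball fun x hx => h0 x (ball_subset_closedBall hx)) (by positivity)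
    rw [← ENNReal.ofReal_le_ofReal_iff hnn2]
    refine le_trans ?_ hθ
    rw [ofReal_integral_eq_lintegral_ofReal hcI2 ?_]
    · have hsub2 : Ioo (1 / 2 : ℝ) 1 ⊆ Ioi 0 := fun ρ hρ => by
        have : (0 : ℝ) < ρ := by linarith [hρ.1]
        exact this
      refine le_trans (le_of_eq ?_) (lintegral_mono_set hsub2)
      refine setLIntegral_congr_fun measurableSet_Ioo fun ρ hρ => ?_
      have hρ0 : (0 : ℝ) ≤ ρ := by linarith [hρ.1]
      have hb : (0 : ℂ) + ρ • e ∈ ball (0 : ℂ) 1 := by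
        rw [zero_add, mem_ball_zero_iff, pot_norm_smul_e hρ0]
        exact hρ.2
      simp only [hφt]
      rw [indicator_of_mem hb, zero_add, ENNReal.ofReal_mul hρ0]
    · rw [Filter.EventuallyLE, ae_restrict_iff' measurableSet_Ioo]
      refine Filter.Eventually.of_forall fun ρ hρ => ?_
      exact mul_nonneg (by linarith [hρ.1]) (h0 _ (hmem ρ (hsub hρ)))
  have hv : volume (Ioo (1 / 2 : ℝ) 1) = ENNReal.ofReal (1 / 2) := by
    rw [Real.volume_Ioo]
    congr 1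
    norm_num
  have hcs := pot_cs hv (by norm_num) hcS (by
    refine hcI.congr_fun (fun ρ hρ => ?_) measurableSet_Ioo
    simp only
    rw [Real.sq_sqrt (h0 _ (hmem ρ (hsub hρ)))])
  have h2 : ∫ ρ in Ioo (1 / 2 : ℝ) 1, Real.sqrt (φ (ρ • e)) ^ 2 ≤ 2 * ∫ ρ in Ioo (1 / 2 : ℝ) 1, ρ * φ (ρ • e) := by
    rw [← integral_const_mul]
    refine setIntegral_mono_on ?_ (hcI2.const_mul 2) measurableSet_Ioo fun ρ hρ => ?_
    · refine hcI.congr_fun (fun ρ hρ => ?_) measurableSet_Ioo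
      simp only
      rw [Real.sq_sqrt (h0 _ (hmem ρ (hsub hρ)))]
    · rw [Real.sq_sqrt (h0 _ (hmem ρ (hsub hρ)))]
      have := h0 _ (hmem ρ (hsub hρ))
      nlinarith [hρ.1]
  rw [intervalIntegral.integral_of_le (by norm_num), integral_Ioc_eq_integral_Ioo]
  refine Real.le_sqrt_of_sq_le ?_
  have h3 : (∫ ζ in ball (0 : ℂ) 1, φ ζ) / (2 * Real.pi) ≤ A₀ := by
    have hI0 : 0 ≤ ∫ ζ in ball (0 : ℂ) 1, φ ζ :=
      setIntegral_nonneg measurableSet_ball fun x hx => h0 x (ball_subset_closedBall hx)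
    refine le_trans (div_le_self hI0 ?_) hA
    linarith [Real.pi_gt_three]
  linarith

/-- extra integrability gives a ray of finite `√φ`-length into the puncture. -/
theorem exists_ray_integrable {φ : ℂ → ℝ} {r₀ σ : ℝ} (hr₀ : 0 < r₀) (hσ : 0 < σ)
    (hφ : ContinuousOn φ (ball 0 r₀ \ {0})) (h0 : ∀ ζ ∈ ball (0 : ℂ) r₀ \ {0}, 0 ≤ φ ζ)
    (hi : IntegrableOn (fun ζ => φ ζ * ‖ζ‖ ^ (-σ)) (ball 0 r₀ \ {0})) :
    ∃ e : ℂ, ‖e‖ = 1 ∧ IntegrableOn (fun ρ : ℝ => Real.sqrt (φ (ρ • e))) (Ioo 0 r₀) := by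
  have hπ := Real.pi_pos
  set U : Set ℂ := ball 0 r₀ \ {0} with hU
  have hUm : MeasurableSet U := measurableSet_ball.diff (measurableSet_singleton 0)
  set ψ : ℂ → ℝ := fun ζ => φ ζ * ‖ζ‖ ^ (-σ) with hψ
  have hψc : ContinuousOn ψ U := by
    refine hφ.mul (ContinuousOn.rpow_const continuous_norm.continuousOn fun ζ hζ => Or.inl ?_)
    exact norm_ne_zero_iff.mpr hζ.2
  have hm : Measurable (U.indicator ψ) := pot_measurable_indicator hψc hUm
  have hint' : Integrable (U.indicator ψ) := (integrable_indicator_iff hUm).mpr hi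
  have hF : Measurable fun ζ => ENNReal.ofReal (U.indicator ψ ζ) := ENNReal.measurable_ofReal.comp hm
  have hpol := pot_polar_at 0 _ hF
  have hgm := pot_polar_meas 0 _ hF
  have hfin : ∫⁻ θ in Ioo (-Real.pi) Real.pi, ∫⁻ ρ in Ioi (0 : ℝ),
      ENNReal.ofReal ρ * ENNReal.ofReal (U.indicator ψ (0 + ρ • pot_e θ)) ≠ ⊤ := by
    rw [← hpol]
    exact hint'.lintegral_lt_top.ne
  have hae := ae_lt_top hgm hfin
  have hvol : volume (Ioo (-Real.pi) Real.pi) ≠ 0 := by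
    rw [Real.volume_Ioo]
    simp only [ne_eq, ENNReal.ofReal_eq_zero, not_le]
    linarith
  have : (ae (volume.restrict (Ioo (-Real.pi) Real.pi))).NeBot := by
    rw [ae_neBot]
    intro h
    apply hvol
    rw [← Measure.restrict_apply_univ, h]
    simp
  obtain ⟨θ, hθ⟩ := hae.exists
  refine ⟨pot_e θ, pot_norm_e θ, ?_⟩
  set e := pot_e θ with he
  have hmem : ∀ ρ ∈ Ioo (0 : ℝ) r₀, ρ • e ∈ U := by
    intro ρ hρ
    refine ⟨?_, ?_⟩
    · rw [mem_ball_zero_iff, pot_norm_smul_e hρ.1.le]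
      exact hρ.2
    · intro h
      have h1 : ‖ρ • e‖ = 0 := by rw [h]; simp
      rw [pot_norm_smul_e hρ.1.le] at h1
      linarith [hρ.1]
  have hc : ContinuousOn (fun ρ : ℝ => φ (ρ • e)) (Ioo 0 r₀) := hφ.comp (by fun_prop) hmem
  set k : ℝ → ℝ := fun ρ => ρ * (φ (ρ • e) * ρ ^ (-σ)) with hk
  have hkc : ContinuousOn k (Ioo 0 r₀) := by
    refine continuousOn_id.mul (hc.mul (ContinuousOn.rpow_const continuousOn_id fun ρ hρ => Or.inl ?_))
    exact hρ.1.ne'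
  have hk0 : ∀ ρ ∈ Ioo (0 : ℝ) r₀, 0 ≤ k ρ := by
    intro ρ hρ
    have h1 := h0 _ (hmem ρ hρ)
    have h2 : 0 ≤ ρ ^ (-σ) := Real.rpow_nonneg hρ.1.le _
    have h3 := hρ.1.le
    simp only [hk]
    positivity
  have hkI : IntegrableOn k (Ioo 0 r₀) := by
    refine ⟨hkc.aestronglyMeasurable measurableSet_Ioo, ?_⟩
    rw [hasFiniteIntegral_iff_enorm]
    refine lt_of_le_of_lt ?_ hθ
    refine le_trans (le_of_eq ?_) (lintegral_mono_set (s := Ioo (0 : ℝ) r₀) Ioo_subset_Ioi_self)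
    refine setLIntegral_congr_fun measurableSet_Ioo fun ρ hρ => ?_
    rw [zero_add, indicator_of_mem (hmem ρ hρ), Real.enorm_eq_ofReal (hk0 ρ hρ), ← ENNReal.ofReal_mul hρ.1.le]
    simp only [hk, hψ]
    rw [pot_norm_smul_e hρ.1.le]
  have hpI : IntegrableOn (fun ρ : ℝ => ρ ^ (σ - 1)) (Ioo 0 r₀) := by
    have := (intervalIntegral.intervalIntegrable_rpow' (a := 0) (b := r₀) (r := σ - 1) (by linarith))
    rwa [intervalIntegrable_iff_integrableOn_Ioo_of_le hr₀.le] at this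
  refine Integrable.mono' ((hkI.add hpI).div_const 2)
    ((Real.continuous_sqrt.comp_continuousOn hc).aestronglyMeasurable measurableSet_Ioo) ?_
  rw [ae_restrict_iff' measurableSet_Ioo]
  refine Filter.Eventually.of_forall fun ρ hρ => ?_
  rw [Real.norm_of_nonneg (Real.sqrt_nonneg _)]
  have ha := hk0 ρ hρ
  have hb : 0 ≤ ρ ^ (σ - 1) := Real.rpow_nonneg hρ.1.le _
  have hab : φ (ρ • e) = k ρ * ρ ^ (σ - 1) := by
    simp only [hk]
    have : ρ * ρ ^ (-σ) * ρ ^ (σ - 1) = 1 := by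
      have h1 : ρ = ρ ^ (1 : ℝ) := (Real.rpow_one ρ).symm
      conv_lhs => rw [h1]
      rw [← Real.rpow_mul hρ.1.le, ← Real.rpow_mul hρ.1.le, ← Real.rpow_add hρ.1, ← Real.rpow_add hρ.1]
      have : (1 : ℝ) + 1 * -σ + 1 * (σ - 1) = 0 := by ring
      rw [this, Real.rpow_zero]
    calc φ (ρ • e) = φ (ρ • e) * (ρ * ρ ^ (-σ) * ρ ^ (σ - 1)) := by rw [this, mul_one]
      _ = _ := by ring
  rw [hab, Real.sqrt_le_iff]
  simp only [Pi.add_apply]
  constructor
  · positivity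
  · nlinarith [sq_nonneg (k ρ - ρ ^ (σ - 1))]

end Claimed.Agent.R316.S4
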