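import Claimed.Agent.R316.CW.MatAlg

/-!
# Row 316, Section 4, BP-S4-X (sub-captain helper199): Lemma 4.3, the CLOSURE half (H5, H6, H7 of `S4/Extra.lean`)

FRAMEWORK-FREE: Mathlib + `qf` (`CW/MatAlg.lean`: `qf_nonneg`, `qf_smul_vec`, `qf_add_vec`, `qf_cauchy_schwarz`, `qf_eq_sum`).  No paper.  Everything lives on `ℂ`.
RULES FOR PROVERS: replace the `sorry` of YOUR theorems IN PLACE, statements verbatim, auxiliary lemmas directly above with prefix `xi_`; several owners per file: touch only your theorems.  Defects of statements: msg helper199 at once.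

NOTATION.  `xiPd ρ = {0 < |z| < ρ}`;  `XiInt H ρ σ s : ∫_{xiPd ρ} |s|²_H |z|^{-σ} < ∞`;  `XiMet r c H`: standing hypotheses (`r ≤ 1`, `H` continuous, `≥ 0`, `≥ c` on `xiPd r`);
`XiGerm H r s`: `s` analytic at `0` and `∫_{xiPd ρ} |s|²_H < ∞` for some `0 < ρ ≤ r` (the module `𝓗` of germs);  `XiLead H r k v`: `v` is the `k`-th Taylor coefficient of a germ `z^k g ∈ 𝓗`.

## Leaves and routes
* **S4-X-D0** (`xi_qf_add_le` … `xi_l2_of_int`).  All integrands are continuous on the open set `xiPd ρ` (`xi_cont_qf`: `qf_eq_sum`, finite sums/products of continuous functions, `‖z‖ ^ (-σ)` continuous for `z ≠ 0`: `ContinuousOn.rpow_const`/`Real.continuousAt_rpow_const`),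
  hence a.e. strongly measurable (`ContinuousOn.aestronglyMeasurable`, `xiPd_measurableSet`); integrability by domination `Integrable.mono'`.
  `xi_qf_add_le`: `qf A (u+v) + qf A (u-v) = 2 qf A u + 2 qf A v` (`qf_add_vec`, `qf_neg_vec`) and `qf_nonneg`.   `mono_exp`: `‖z‖ ^ (-σ') ≤ ‖z‖ ^ (-σ)` for `0 < ‖z‖ ≤ 1`, `σ' ≤ σ` (`Real.rpow_le_rpow_of_exponent_ge`).   `smul`: `qf_smul_vec`.
* **S4-X-D0g** (`XiGerm.*`).  `AnalyticAt` gives continuity on a small ball (`AnalyticAt.eventually_analyticAt`, `Metric.eventually_nhds_iff_ball`); shrink `ρ` (`XiInt.mono_rad`) so that everything is continuous / bounded (`ContinuousAt` ⇒ bounded near `0`) / equal on `ball 0 ρ`, then D0.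
* **S4-X-D1** (`xi_submean`, `xi_removable`).  `xi_submean`: area mean value `f z₀ = (π δ²)⁻¹ ∫_{ball} f` (polar coordinates + circle mean value; a sorry-free model: `R269/Lib/LogSub1Pf.lean` `norm_le_area_mean`, copy it under a new name, on `ball z₀ δ'`, `δ' < δ`, then `δ' → δ`; or directly), then Cauchy-Schwarz (`integral_mul_le_Lp_mul_Lq` / `inner_mul_le_norm_mul_norm` / Jensen `ConvexOn.map_average_le`).
  `xi_removable`: componentwise; for `0 < |z| < ρ/2`, `xi_submean` on `ball z (|z|/2) ⊆ xiPd (2|z|)`: `|z|² |s_j z|² ≤ (4/π) ∫_{xiPd (2|z|)} |s_j|² → 0` (`tendsto_setIntegral_of_antitone` or absolute continuity `Integrable.tendsto_setIntegral_nhds_zero`), so `s_j - s_j 0 = o(1/z)`;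
  `Complex.differentiableOn_update_limUnder_of_isLittleO` (works for the vector valued `s` directly as well), `t = Function.update s 0 _`.
* **S4-X-D2** (`xi_jet_bound`).  `Complex.norm_iteratedDeriv_le_of_forall_mem_sphere_norm_le k` on `ball 0 (ρ/2)`; on `sphere 0 (ρ/2)`: `‖s z‖² ≤ ∑_j |s_j z|² ≤ (π (ρ/2)²)⁻¹ ∫_{ball z (ρ/2)} ∑ ≤ (π(ρ/2)²)⁻¹ ∫_{xiPd ρ} ∑` (`{0}` is null: `Measure.restrict` / `setIntegral_mono_set`, `ae`), sup norm on `Fin d → ℂ` (`pi_norm_le_iff_of_nonneg`).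
* **S4-X-D4a** (`xi_lead_stab`).  `L k = {v | XiLead H r k v}` is a submodule (`XiGerm.add`, `XiGerm.smul` with constants, `z^k • (g₁ + g₂)`), monotone in `k` (`z^(k+1) • g = z • (z^k • g)`, `XiGerm.smul` with `f = id`); `monotone_stabilizes_iff_noetherian`.
* **S4-X-D4b** (`xi_span_analytic`), pure linear algebra + analyticity.  `T₀ : (Fin p → ℂ) →ₗ (Fin d → ℂ)`, `y ↦ ∑ y_i G_i(0)` is injective; `π` a left inverse (`LinearMap.exists_leftInverse_of_injective`).  `M z = (π (G_i z) j)_{j i}` is an analytic `p × p` matrix, `M 0 = 1`, so `det (M z) ≠ 0` near `0`;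
  `c z = (M z)⁻¹ *ᵥ π (g z)` (entries `= adjugate / det`: analytic: `AnalyticAt.div`, finite sums and products; or `Ring.inverse` in `(Fin p → ℂ) →L[ℂ] (Fin p → ℂ)`, `analyticAt_inverse`).  `π (g z - ∑ c_i G_i z) = π (g z) - M z *ᵥ c z = 0`.
* **S4-X-D4c** (`xi_artin_rees`).  `κ, L` from D4a; `e = Module.finBasis ℂ L`; `G_i` analytic with `G_i 0 = e_i`, `z^κ G_i ∈ 𝓗`; for `g` with `z^(κ+1) g ∈ 𝓗` take `π, c` from D4b, `w = g - ∑ c_i G_i`.  If `w = 0` near `0`: `z^κ g = ∑ c_i (z^κ G_i) ∈ 𝓗`.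
  Otherwise (`AnalyticAt.exists_eventuallyEq_pow_smul_nonzero_iff`) `w = z^n h`, `h 0 ≠ 0`; `z^(κ+1+n) h = z^(κ+1) g - ∑ (z c_i) (z^κ G_i) ∈ 𝓗`, so `h 0 ∈ L`; `π (h z) = 0` for small `z ≠ 0`, hence `π (h 0) = 0` (continuity, `𝓝[≠] 0` is `NeBot`); `h 0 = ∑ y_i e_i`, `π (h 0) = y`, so `h 0 = 0`: contradiction.
* **S4-X-D5a** (`xi_jets_closed`).  The set is the carrier of a submodule of the finite dimensional space `Fin n → Fin d → ℂ` (sum: exponent `min σ₁ σ₂`, `XiInt.mono_exp`, `XiInt.add`; `iteratedDeriv_add`/`iteratedDeriv_const_smul` need `ContDiffAt`: `DifferentiableOn.analyticAt`, `AnalyticAt.contDiffAt`); `Submodule.closed_of_finiteDimensional`.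
* **S4-X-D5b** (`xi_closure`) = H7.  (1) `xi_l2_of_int`, `xi_removable`: `ã`, and `ã_η` for the approximants; all statements only see `xiPd r` (`XiInt.congr`).  (2) `κ` from `xi_artin_rees`, `n = κ + 1`.  (3) `J s = fun k : Fin n => iteratedDeriv k s 0`; `‖J_k ã - J_k ã_η‖² ≤ C_k c⁻¹ η` (`xi_jet_bound`, `xi_l2_of_int`), so `J ã` is in the closure of the set of `xi_jets_closed`, hence in the set: `s`, `σ`.
  (4) `ã - s` is analytic at `0` with vanishing derivatives of order `< κ+1`: `natCast_le_analyticOrderAt_iff_iteratedDeriv_eq_zero`, `natCast_le_analyticOrderAt`: `ã - s = z^(κ+1) g` near `0`; `ã - s ∈ 𝓗`; `xi_artin_rees`: `XiInt H ρ 0 (z^κ g)`.  (5) on a small `xiPd r₀`: `qf H (ã - s) ‖z‖^(-2) = qf H (z^κ g)` (`qf_smul_vec`), so `XiInt H r₀ 2 (ã - s)`; exponent `min σ 2`, `XiInt.mono_exp`, `XiInt.add`.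
-/

set_option autoImplicit false
set_option linter.unusedSectionVars false
open scoped ContDiff ComplexOrder Topology Matrix
open MeasureTheory Filter

namespace Claimed.Agent.R316.S4

open Claimed.Agent.R316

/-- the punctured disc `{0 < |z| < ρ}`. -/
def xiPd (ρ : ℝ) : Set ℂ := Metric.ball 0 ρ \ {0}

/-- `∫_{0 < |z| < ρ} |s|²_H |z|^{-σ} < ∞`. -/
def XiInt {d : ℕ} (H : ℂ → Matrix (Fin d) (Fin d) ℂ) (ρ σ : ℝ) (s : ℂ → Fin d → ℂ) : Prop :=
  IntegrableOn (fun z => qf (H z) (s z) * ‖z‖ ^ (-σ)) (xiPd ρ)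

/-- standing hypotheses on the metric for the closure half. -/
structure XiMet {d : ℕ} (r c : ℝ) (H : ℂ → Matrix (Fin d) (Fin d) ℂ) : Prop where
  r_pos : 0 < r
  r_le : r ≤ 1
  c_pos : 0 < c
  cont : ∀ j k, ContinuousOn (fun z => H z j k) (xiPd r)
  psd : ∀ z ∈ xiPd r, (H z).PosSemidef
  low : ∀ z ∈ xiPd r, ∀ v : Fin d → ℂ, c * ∑ j, ‖v j‖ ^ 2 ≤ qf (H z) v

/-- the module `𝓗` of germs of holomorphic `L²(H)` sections. -/
def XiGerm {d : ℕ} (H : ℂ → Matrix (Fin d) (Fin d) ℂ) (r : ℝ) (s : ℂ → Fin d → ℂ) : Prop :=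
  AnalyticAt ℂ s 0 ∧ ∃ ρ, 0 < ρ ∧ ρ ≤ r ∧ XiInt H ρ 0 s

/-- `v` is the leading coefficient of a germ `z^k g ∈ 𝓗`. -/
def XiLead {d : ℕ} (H : ℂ → Matrix (Fin d) (Fin d) ℂ) (r : ℝ) (k : ℕ) (v : Fin d → ℂ) : Prop :=
  ∃ g : ℂ → Fin d → ℂ, AnalyticAt ℂ g 0 ∧ g 0 = v ∧ XiGerm H r (fun z => z ^ k • g z)

variable {d : ℕ} {r c ρ ρ' σ σ' : ℝ} {H : ℂ → Matrix (Fin d) (Fin d) ℂ} {s t : ℂ → Fin d → ℂ}

/-! ### S4-X-D0: elementary properties of `XiInt` -/

theorem xiPd_isOpen (ρ : ℝ) : IsOpen (xiPd ρ) :=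
  Metric.isOpen_ball.sdiff isClosed_singleton

theorem xiPd_measurableSet (ρ : ℝ) : MeasurableSet (xiPd ρ) := (xiPd_isOpen ρ).measurableSet

theorem xiPd_mono (h : ρ' ≤ ρ) : xiPd ρ' ⊆ xiPd ρ :=
  Set.sdiff_subset_sdiff_left (Metric.ball_subset_ball h)

theorem xi_qf_add_le {A : Matrix (Fin d) (Fin d) ℂ} (hA : A.PosSemidef) (u v : Fin d → ℂ) :
    qf A (u + v) ≤ 2 * qf A u + 2 * qf A v := by
  have h1 := qf_add_vec u v hA.isHermitian
  have h2 := qf_add_vec u (-v) hA.isHermitian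
  have h3 := qf_nonneg hA (u + -v)
  rw [qf_neg_vec, Matrix.mulVec_neg, dotProduct_neg, Complex.neg_re] at h2
  linarith

theorem xi_cont_qf (M : XiMet r c H) (hρ : ρ ≤ r) (hs : ContinuousOn s (xiPd ρ)) (σ : ℝ) :
    ContinuousOn (fun z => qf (H z) (s z) * ‖z‖ ^ (-σ)) (xiPd ρ) := by
  refine ContinuousOn.mul ?_ ?_
  · simp only [qf_eq_sum]
    refine Complex.continuous_re.comp_continuousOn ?_
    refine continuousOn_finsetSum _ fun j _ => continuousOn_finsetSum _ fun k _ => ?_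
    have hj : ∀ j, ContinuousOn (fun z => s z j) (xiPd ρ) := fun j =>
      (continuous_apply j).comp_continuousOn hs
    exact ((Complex.continuous_conj.comp_continuousOn (hj j)).mul ((M.cont j k).mono (xiPd_mono hρ))).mul (hj k)
  · exact continuous_norm.continuousOn.rpow_const fun z hz => Or.inl (norm_ne_zero_iff.2 hz.2)

theorem XiInt.mono_rad (h : ρ' ≤ ρ) (hs : XiInt H ρ σ s) : XiInt H ρ' σ s :=
  IntegrableOn.mono_set hs (xiPd_mono h)

theorem XiInt.congr (h : Set.EqOn s t (xiPd ρ)) (hs : XiInt H ρ σ s) : XiInt H ρ σ t :=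
  IntegrableOn.congr_fun hs (fun z hz => by simp only [h hz]) (xiPd_measurableSet ρ)

theorem XiInt.mono_exp (M : XiMet r c H) (hρ : ρ ≤ r) (hc : ContinuousOn s (xiPd ρ)) (h : σ' ≤ σ)
    (hs : XiInt H ρ σ s) : XiInt H ρ σ' s := by
  refine Integrable.mono' hs ((xi_cont_qf M hρ hc σ').aestronglyMeasurable (xiPd_measurableSet ρ)) ?_
  refine (ae_restrict_iff' (xiPd_measurableSet ρ)).2 (Eventually.of_forall fun z hz => ?_)
  have hq := qf_nonneg (M.psd z (xiPd_mono hρ hz)) (s z)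
  have hz0 : 0 < ‖z‖ := norm_pos_iff.2 hz.2
  have hz1 : ‖z‖ ≤ 1 := by
    have : ‖z‖ < ρ := by simpa using hz.1
    linarith [M.r_le]
  have h1 : ‖z‖ ^ (-σ') ≤ ‖z‖ ^ (-σ) := Real.rpow_le_rpow_of_exponent_ge hz0 hz1 (by linarith)
  have h2 : 0 ≤ ‖z‖ ^ (-σ') := Real.rpow_nonneg hz0.le _
  rw [Real.norm_of_nonneg (mul_nonneg hq h2)]
  exact mul_le_mul_of_nonneg_left h1 hq

theorem XiInt.add (M : XiMet r c H) (hρ : ρ ≤ r) (hcs : ContinuousOn s (xiPd ρ))
    (hct : ContinuousOn t (xiPd ρ)) (hs : XiInt H ρ σ s) (ht : XiInt H ρ σ t) :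
    XiInt H ρ σ (fun z => s z + t z) := by
  have hdom : IntegrableOn (fun z => 2 * (qf (H z) (s z) * ‖z‖ ^ (-σ)) + 2 * (qf (H z) (t z) * ‖z‖ ^ (-σ)))
      (xiPd ρ) := (Integrable.const_mul hs 2).add (Integrable.const_mul ht 2)
  refine Integrable.mono' hdom ((xi_cont_qf M hρ (hcs.add hct) σ).aestronglyMeasurable (xiPd_measurableSet ρ)) ?_
  refine (ae_restrict_iff' (xiPd_measurableSet ρ)).2 (Eventually.of_forall fun z hz => ?_)
  have hP := M.psd z (xiPd_mono hρ hz)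
  have hq := qf_nonneg hP (s z + t z)
  have h2 : 0 ≤ ‖z‖ ^ (-σ) := Real.rpow_nonneg (norm_nonneg z) _
  rw [Real.norm_of_nonneg (mul_nonneg hq h2)]
  have := mul_le_mul_of_nonneg_right (xi_qf_add_le hP (s z) (t z)) h2
  linarith

theorem XiInt.smul (M : XiMet r c H) (hρ : ρ ≤ r) (hcs : ContinuousOn s (xiPd ρ)) {f : ℂ → ℂ}
    (hf : ContinuousOn f (xiPd ρ)) {B : ℝ} (hB : ∀ z ∈ xiPd ρ, ‖f z‖ ≤ B) (hs : XiInt H ρ σ s) :
    XiInt H ρ σ (fun z => f z • s z) := by
  have hdom : IntegrableOn (fun z => B ^ 2 * (qf (H z) (s z) * ‖z‖ ^ (-σ))) (xiPd ρ) :=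
    Integrable.const_mul hs (B ^ 2)
  refine Integrable.mono' hdom ((xi_cont_qf M hρ (hf.smul hcs) σ).aestronglyMeasurable (xiPd_measurableSet ρ)) ?_
  refine (ae_restrict_iff' (xiPd_measurableSet ρ)).2 (Eventually.of_forall fun z hz => ?_)
  have hP := M.psd z (xiPd_mono hρ hz)
  have hq := qf_nonneg hP (s z)
  have h2 : 0 ≤ ‖z‖ ^ (-σ) := Real.rpow_nonneg (norm_nonneg z) _
  rw [qf_smul_vec, Real.norm_of_nonneg (mul_nonneg (mul_nonneg (by positivity) hq) h2), mul_assoc]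
  have h3 : ‖f z‖ ^ 2 ≤ B ^ 2 := pow_le_pow_left₀ (norm_nonneg _) (hB z hz) 2
  exact mul_le_mul_of_nonneg_right h3 (mul_nonneg hq h2)

/-- `H ≥ c`: weighted `L²` controls plain `L²`. -/
theorem xi_l2_of_int (M : XiMet r c H) (hρ : ρ ≤ r) (hcs : ContinuousOn s (xiPd ρ))
    (hs : IntegrableOn (fun z => qf (H z) (s z)) (xiPd ρ)) :
    IntegrableOn (fun z => ∑ j, ‖s z j‖ ^ 2) (xiPd ρ) ∧
      ∫ z in xiPd ρ, ∑ j, ‖s z j‖ ^ 2 ≤ c⁻¹ * ∫ z in xiPd ρ, qf (H z) (s z) := by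
  have hc := M.c_pos
  have hcont : ContinuousOn (fun z => ∑ j, ‖s z j‖ ^ 2) (xiPd ρ) :=
    continuousOn_finsetSum _ fun j _ => (((continuous_apply j).comp_continuousOn hcs).norm).pow 2
  have hle : ∀ z ∈ xiPd ρ, ∑ j, ‖s z j‖ ^ 2 ≤ c⁻¹ * qf (H z) (s z) := by
    intro z hz
    have := M.low z (xiPd_mono hρ hz) (s z)
    rw [inv_mul_eq_div, le_div_iff₀ hc]
    linarith
  have hdom : IntegrableOn (fun z => c⁻¹ * qf (H z) (s z)) (xiPd ρ) := Integrable.const_mul hs c⁻¹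
  have hint : IntegrableOn (fun z => ∑ j, ‖s z j‖ ^ 2) (xiPd ρ) := by
    refine Integrable.mono' hdom (hcont.aestronglyMeasurable (xiPd_measurableSet ρ)) ?_
    refine (ae_restrict_iff' (xiPd_measurableSet ρ)).2 (Eventually.of_forall fun z hz => ?_)
    rw [Real.norm_of_nonneg (Finset.sum_nonneg fun j _ => by positivity)]
    exact hle z hz
  refine ⟨hint, ?_⟩
  rw [← integral_const_mul]
  exact setIntegral_mono_on hint hdom (xiPd_measurableSet ρ) hle

theorem xiInt_zero_iff : XiInt H ρ 0 s ↔ IntegrableOn (fun z => qf (H z) (s z)) (xiPd ρ) := by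
  simp only [XiInt, neg_zero, Real.rpow_zero, mul_one]

/-! ### S4-X-D0g: the module of germs -/

theorem xi_exists_contOn {X : Type*} [NormedAddCommGroup X] [NormedSpace ℂ X] [CompleteSpace X] {f : ℂ → X}
    (hf : AnalyticAt ℂ f 0) : ∃ ε : ℝ, 0 < ε ∧ ContinuousOn f (Metric.ball 0 ε) ∧
      ∀ z ∈ Metric.ball (0 : ℂ) ε, ‖f z‖ ≤ ‖f 0‖ + 1 := by
  have h1 : ∀ᶠ z in 𝓝 (0 : ℂ), AnalyticAt ℂ f z := hf.eventually_analyticAt
  have h2 : ∀ᶠ z in 𝓝 (0 : ℂ), ‖f z‖ < ‖f 0‖ + 1 :=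
    hf.continuousAt.norm.eventually (gt_mem_nhds (by linarith))
  obtain ⟨ε, hε, h⟩ := Metric.eventually_nhds_iff_ball.1 (h1.and h2)
  exact ⟨ε, hε, fun z hz => (h z hz).1.continuousAt.continuousWithinAt, fun z hz => (h z hz).2.le⟩

theorem xi_contOn_pd {X : Type*} [TopologicalSpace X] {f : ℂ → X} {ε : ℝ}
    (hf : ContinuousOn f (Metric.ball 0 ε)) (h : ρ ≤ ε) : ContinuousOn f (xiPd ρ) :=
  hf.mono (Set.sdiff_subset.trans (Metric.ball_subset_ball h))

theorem XiGerm.congr (h : s =ᶠ[𝓝 0] t) (hs : XiGerm H r s) : XiGerm H r t := by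
  obtain ⟨ha, ρ, hρ, hρr, hi⟩ := hs
  obtain ⟨ε, hε, he⟩ := Metric.eventually_nhds_iff_ball.1 h
  refine ⟨ha.congr h, min ρ ε, lt_min hρ hε, (min_le_left _ _).trans hρr, ?_⟩
  refine (hi.mono_rad (min_le_left _ _)).congr fun z hz => ?_
  exact he z (Metric.ball_subset_ball (min_le_right _ _) hz.1)

theorem XiGerm.zero (M : XiMet r c H) : XiGerm H r (fun _ => 0) := by
  refine ⟨analyticAt_const, r, M.r_pos, le_rfl, ?_⟩
  simp only [XiInt, qf_zero_vec, zero_mul]
  exact integrableOn_zero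

theorem XiGerm.add (M : XiMet r c H) (hs : XiGerm H r s) (ht : XiGerm H r t) :
    XiGerm H r (fun z => s z + t z) := by
  obtain ⟨ha, ρ₁, hρ₁, hρ₁r, hi₁⟩ := hs
  obtain ⟨hb, ρ₂, hρ₂, hρ₂r, hi₂⟩ := ht
  obtain ⟨ε₁, hε₁, hc₁, -⟩ := xi_exists_contOn ha
  obtain ⟨ε₂, hε₂, hc₂, -⟩ := xi_exists_contOn hb
  set ρ := min (min ρ₁ ρ₂) (min ε₁ ε₂) with hρ
  have h1 : ρ ≤ ρ₁ := (min_le_left _ _).trans (min_le_left _ _)
  have h2 : ρ ≤ ρ₂ := (min_le_left _ _).trans (min_le_right _ _)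
  have h3 : ρ ≤ ε₁ := (min_le_right _ _).trans (min_le_left _ _)
  have h4 : ρ ≤ ε₂ := (min_le_right _ _).trans (min_le_right _ _)
  refine ⟨ha.add hb, ρ, lt_min (lt_min hρ₁ hρ₂) (lt_min hε₁ hε₂), h1.trans hρ₁r, ?_⟩
  exact XiInt.add M (h1.trans hρ₁r) (xi_contOn_pd hc₁ h3) (xi_contOn_pd hc₂ h4) (hi₁.mono_rad h1)
    (hi₂.mono_rad h2)

theorem XiGerm.smul (M : XiMet r c H) {f : ℂ → ℂ} (hf : AnalyticAt ℂ f 0) (hs : XiGerm H r s) :
    XiGerm H r (fun z => f z • s z) := by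
  obtain ⟨ha, ρ₁, hρ₁, hρ₁r, hi₁⟩ := hs
  obtain ⟨ε₁, hε₁, hc₁, -⟩ := xi_exists_contOn ha
  obtain ⟨ε₂, hε₂, hc₂, hB⟩ := xi_exists_contOn hf
  set ρ := min ρ₁ (min ε₁ ε₂) with hρ
  have h1 : ρ ≤ ρ₁ := min_le_left _ _
  have h3 : ρ ≤ ε₁ := (min_le_right _ _).trans (min_le_left _ _)
  have h4 : ρ ≤ ε₂ := (min_le_right _ _).trans (min_le_right _ _)
  refine ⟨hf.smul ha, ρ, lt_min hρ₁ (lt_min hε₁ hε₂), h1.trans hρ₁r, ?_⟩
  exact XiInt.smul M (h1.trans hρ₁r) (xi_contOn_pd hc₁ h3) (xi_contOn_pd hc₂ h4)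
    (fun z hz => hB z (Metric.ball_subset_ball h4 hz.1)) (hi₁.mono_rad h1)

theorem XiGerm.sub (M : XiMet r c H) (hs : XiGerm H r s) (ht : XiGerm H r t) :
    XiGerm H r (fun z => s z - t z) := by
  have h1 := hs.add M (ht.smul M (f := fun _ => (-1 : ℂ)) analyticAt_const)
  refine h1.congr (Eventually.of_forall fun z => ?_)
  simp only [neg_smul, one_smul, sub_eq_add_neg]

theorem XiGerm.sum (M : XiMet r c H) {p : ℕ} {S : Fin p → ℂ → Fin d → ℂ}
    (hS : ∀ i, XiGerm H r (S i)) : XiGerm H r (fun z => ∑ i, S i z) := by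
  classical
  have key : ∀ T : Finset (Fin p), XiGerm H r (fun z => ∑ i ∈ T, S i z) := by
    intro T
    induction T using Finset.induction_on with
    | empty => simpa using XiGerm.zero M
    | insert i T hi ih =>
      simp only [Finset.sum_insert hi]
      exact (hS i).add M ih
  exact key Finset.univ

/-! ### S4-X-D1, D2: removable singularity, jets are continuous in `L²` -/

section areaMean

open Complex Metric Set
open scoped Real ENNReal

/-- polar coordinates on a disc. -/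
theorem xi_am_lintegral_ball_polar (F : ℂ → ℝ≥0∞) (hF : Measurable F) (c : ℂ) (R : ℝ) :
    ∫⁻ z in ball c R, F z
      = ∫⁻ r in Ioo 0 R, ENNReal.ofReal r * ∫⁻ θ in Ioo (-π) π, F (circleMap c r θ) := by
  have hG : Measurable (fun w : ℂ => (ball c R).indicator F (w + c)) :=
    (hF.indicator measurableSet_ball).comp (measurable_id.add_const c)
  have h1 : ∫⁻ z in ball c R, F z = ∫⁻ w : ℂ, (ball c R).indicator F (w + c) := by
    rw [← lintegral_indicator measurableSet_ball]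
    exact (lintegral_add_right_eq_self (fun z => (ball c R).indicator F z) c).symm
  rw [h1, ← Complex.lintegral_comp_polarCoord_symm, polarCoord_target, Measure.volume_eq_prod,
    ← Measure.prod_restrict, lintegral_prod]
  swap
  · refine Measurable.aemeasurable ?_
    refine (ENNReal.measurable_ofReal.comp measurable_fst).smul (hG.comp ?_)
    have e : (fun p : ℝ × ℝ => Complex.polarCoord.symm p)
        = fun p => (p.1 : ℂ) * (Real.cos p.2 + Real.sin p.2 * I) :=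
      funext Complex.polarCoord_symm_apply
    have hc : Continuous (fun p : ℝ × ℝ => Complex.polarCoord.symm p) := by
      rw [e]; fun_prop
    exact hc.measurable
  have h2 : ∀ r ∈ Ioi (0 : ℝ), (∫⁻ θ in Ioo (-π) π, ENNReal.ofReal r •
      (ball c R).indicator F (Complex.polarCoord.symm (r, θ) + c))
      = (Ioo 0 R).indicator
        (fun r => ENNReal.ofReal r * ∫⁻ θ in Ioo (-π) π, F (circleMap c r θ)) r := by
    intro r hr
    have hr0 : (0 : ℝ) < r := hr
    have e : ∀ θ : ℝ, Complex.polarCoord.symm (r, θ) + c = circleMap c r θ := by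
      intro θ
      rw [Complex.polarCoord_symm_apply, circleMap, Complex.exp_mul_I]
      push_cast
      ring
    simp only [e, smul_eq_mul]
    by_cases hrR : r < R
    · rw [indicator_of_mem (show r ∈ Ioo 0 R from ⟨hr0, hrR⟩), lintegral_const_mul' _ _ ENNReal.ofReal_ne_top]
      congr 1
      refine lintegral_congr fun θ => ?_
      rw [indicator_of_mem]
      rw [mem_ball, dist_eq_norm, circleMap_sub_center, norm_circleMap_zero, abs_of_pos hr0]
      exact hrR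
    · rw [indicator_of_notMem (fun h : r ∈ Ioo 0 R => hrR h.2)]
      have : ∀ θ : ℝ, (ball c R).indicator F (circleMap c r θ) = 0 := by
        intro θ
        rw [indicator_of_notMem]
        rw [mem_ball, dist_eq_norm, circleMap_sub_center, norm_circleMap_zero, abs_of_pos hr0]
        exact hrR
      simp [this]
  rw [setLIntegral_congr_fun measurableSet_Ioi h2, lintegral_indicator measurableSet_Ioo,
    Measure.restrict_restrict measurableSet_Ioo]
  congr 2
  ext x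
  simp only [mem_inter_iff, mem_Ioo, mem_Ioi]
  tauto

/-- the angular integral over `(-π, π)` in terms of the circle average. -/
theorem xi_am_integral_Ioo_circle (u : ℂ → ℝ) (c : ℂ) (r : ℝ) (hci : CircleIntegrable u c r) :
    IntegrableOn (fun θ => u (circleMap c r θ)) (Ioo (-π) π) ∧
      ∫ θ in Ioo (-π) π, u (circleMap c r θ) = 2 * π * Real.circleAverage u c r := by
  have hper : Function.Periodic (fun θ => u (circleMap c r θ)) (2 * π) :=
    fun x => by simp [periodic_circleMap c r x]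
  have hii : IntervalIntegrable (fun θ => u (circleMap c r θ)) volume (-π) π :=
    hper.intervalIntegrable₀ Real.two_pi_pos.ne' hci _ _
  have hle : -π ≤ π := by linarith [Real.pi_pos]
  refine ⟨(intervalIntegrable_iff_integrableOn_Ioo_of_le hle).1 hii, ?_⟩
  rw [← integral_Ioc_eq_integral_Ioo, ← intervalIntegral.integral_of_le hle]
  have h1 := hper.intervalIntegral_add_eq (-π) 0
  have e1 : -π + 2 * π = π := by ring
  rw [e1, zero_add] at h1
  rw [h1, Real.circleAverage_def, smul_eq_mul]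
  field_simp

/-- **Sub-mean value lemma**: if `u ≤ M` on the disc and all circle averages about the centre are `≥ m`, then `u` is
integrable on the disc and its area mean is `≥ m`. -/
theorem xi_am_submean (u : ℂ → ℝ) (c : ℂ) (R M m : ℝ) (hR : 0 < R)
    (hu : Measurable ((ball c R).indicator u)) (hM : ∀ z ∈ ball c R, u z ≤ M)
    (hci : ∀ r ∈ Ioo 0 R, CircleIntegrable u c r)
    (hm : ∀ r ∈ Ioo 0 R, m ≤ Real.circleAverage u c r) :
    IntegrableOn u (ball c R) ∧ π * R ^ 2 * m ≤ ∫ z in ball c R, u z := by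
  have hmemc : ∀ r ∈ Ioo 0 R, ∀ θ : ℝ, circleMap c r θ ∈ ball c R := by
    intro r hr θ
    rw [mem_ball, dist_eq_norm, circleMap_sub_center, norm_circleMap_zero, abs_of_pos hr.1]
    exact hr.2
  -- the nonnegative function `M - u`
  have hFm : Measurable (fun z => ENNReal.ofReal (M - (ball c R).indicator u z)) :=
    ENNReal.measurable_ofReal.comp (measurable_const.sub hu)
  have h1 := xi_am_lintegral_ball_polar _ hFm c R
  have h2 : ∀ r ∈ Ioo 0 R, ENNReal.ofReal r * ∫⁻ θ in Ioo (-π) π,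
      ENNReal.ofReal (M - (ball c R).indicator u (circleMap c r θ))
      ≤ ENNReal.ofReal r * ENNReal.ofReal (2 * π * (M - m)) := by
    intro r hr
    gcongr
    have e : ∀ θ : ℝ, (ball c R).indicator u (circleMap c r θ) = u (circleMap c r θ) :=
      fun θ => indicator_of_mem (hmemc r hr θ) u
    simp only [e]
    obtain ⟨i1, i2⟩ := xi_am_integral_Ioo_circle u c r (hci r hr)
    have i0 : IntegrableOn (fun _ : ℝ => M) (Ioo (-π) π) := integrableOn_const (by simp)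
    have i3 : IntegrableOn (fun θ => M - u (circleMap c r θ)) (Ioo (-π) π) := i0.sub i1
    rw [← ofReal_integral_eq_lintegral_ofReal i3
      (Eventually.of_forall fun θ => sub_nonneg.2 (hM _ (hmemc r hr θ)))]
    apply ENNReal.ofReal_le_ofReal
    rw [integral_sub i0 i1, i2, setIntegral_const]
    have := hm r hr
    have e2 : volume.real (Ioo (-π) π) = 2 * π := by
      rw [Measure.real, Real.volume_Ioo, ENNReal.toReal_ofReal (by linarith [Real.pi_pos])]
      ring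
    rw [e2, smul_eq_mul]
    nlinarith [Real.pi_pos]
  have h3 : ∫⁻ r in Ioo 0 R, ENNReal.ofReal r = ENNReal.ofReal (R ^ 2 / 2) := by
    have i4 : IntegrableOn (fun r : ℝ => r) (Ioo 0 R) :=
      (intervalIntegrable_iff_integrableOn_Ioo_of_le hR.le).1 (continuous_id.intervalIntegrable _ _)
    rw [← ofReal_integral_eq_lintegral_ofReal i4
      ((ae_restrict_iff' measurableSet_Ioo).2 (Eventually.of_forall fun r hr => hr.1.le))]
    rw [← integral_Ioc_eq_integral_Ioo, ← intervalIntegral.integral_of_le hR.le, integral_id]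
    congr 1
    ring
  have h4 : ∫⁻ z in ball c R, ENNReal.ofReal (M - (ball c R).indicator u z)
      ≤ ENNReal.ofReal (π * R ^ 2 * (M - m)) := by
    rw [h1]
    refine (setLIntegral_mono (by fun_prop) h2).trans ?_
    rw [lintegral_mul_const _ ENNReal.measurable_ofReal, h3,
      ← ENNReal.ofReal_mul (by positivity)]
    apply ENNReal.ofReal_le_ofReal
    apply le_of_eq
    ring
  have e5 : ∀ z ∈ ball c R, (ball c R).indicator u z = u z := fun z hz => indicator_of_mem hz u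
  have h5 : ∫⁻ z in ball c R, ENNReal.ofReal (M - u z) ≤ ENNReal.ofReal (π * R ^ 2 * (M - m)) := by
    refine le_trans (le_of_eq ?_) h4
    refine setLIntegral_congr_fun measurableSet_ball fun z hz => ?_
    simp only [e5 z hz]
  have hnn : 0 ≤ᵐ[volume.restrict (ball c R)] fun z => M - u z :=
    (ae_restrict_iff' measurableSet_ball).2 (Eventually.of_forall fun z hz => sub_nonneg.2 (hM z hz))
  have hmeas : AEStronglyMeasurable u (volume.restrict (ball c R)) := by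
    refine hu.aestronglyMeasurable.congr ?_
    exact (ae_restrict_iff' measurableSet_ball).2 (Eventually.of_forall e5)
  have hint : IntegrableOn (fun z => M - u z) (ball c R) := by
    refine ⟨aestronglyMeasurable_const.sub hmeas, ?_⟩
    rw [hasFiniteIntegral_iff_ofReal hnn]
    exact h5.trans_lt ENNReal.ofReal_lt_top
  have hconst : IntegrableOn (fun _ : ℂ => M) (ball c R) :=
    integrableOn_const (by rw [Complex.volume_ball]; exact ENNReal.mul_ne_top (by simp) (by simp))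
  have hintu : IntegrableOn u (ball c R) := by
    have := hconst.sub hint
    refine this.congr (Eventually.of_forall fun z => ?_)
    simp
  refine ⟨hintu, ?_⟩
  have h6 : ∫ z in ball c R, (M - u z) ≤ π * R ^ 2 * (M - m) := by
    rw [integral_eq_lintegral_of_nonneg_ae hnn hint.aestronglyMeasurable]
    have hMm : 0 ≤ π * R ^ 2 * (M - m) := by
      have hr : R / 2 ∈ Ioo 0 R := ⟨by linarith, by linarith⟩
      have h7 : Real.circleAverage u c (R / 2) ≤ M := by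
        apply Real.circleAverage_mono_on_of_le_circle (hci _ hr)
        intro z hz
        apply hM
        rw [abs_of_pos hr.1] at hz
        exact sphere_subset_closedBall.trans (closedBall_subset_ball hr.2) hz
      have := hm _ hr
      have : 0 ≤ M - m := by linarith
      positivity
    exact ENNReal.toReal_le_of_le_ofReal hMm h5
  rw [integral_sub hconst hintu, setIntegral_const] at h6
  have e7 : volume.real (ball c R) = π * R ^ 2 := by
    rw [Measure.real, Complex.volume_ball, ENNReal.toReal_mul, ENNReal.toReal_pow,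
      ENNReal.toReal_ofReal hR.le]
    simp [mul_comm]
  rw [e7, smul_eq_mul] at h6
  linarith

/-- `|g(c)| ≤` area mean of `|g|`. -/
theorem xi_am_norm_le_area_mean (g : ℂ → ℂ) (c : ℂ) (R : ℝ) (hR : 0 < R)
    (hg : DiffContOnCl ℂ g (ball c R)) :
    π * R ^ 2 * ‖g c‖ ≤ ∫ z in ball c R, ‖g z‖ := by
  classical
  have hcb : ContinuousOn g (closedBall c R) := hg.continuousOn_ball
  obtain ⟨M, hM⟩ := (isCompact_closedBall c R).exists_bound_of_continuousOn hcb
  refine (xi_am_submean (fun z => ‖g z‖) c R M ‖g c‖ hR ?_ (fun z hz => hM z (ball_subset_closedBall hz))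
    ?_ ?_).2
  · rw [← Set.piecewise_eq_indicator]
    exact (hcb.mono ball_subset_closedBall).norm.measurable_piecewise continuousOn_const
      measurableSet_ball
  · intro r hr
    refine ContinuousOn.circleIntegrable hr.1.le ?_
    exact (hcb.mono (sphere_subset_closedBall.trans (closedBall_subset_closedBall hr.2.le))).norm
  · intro r hr
    have h1 : Real.circleAverage g c r = g c := by
      apply DiffContOnCl.circleAverage
      rw [abs_of_pos hr.1]
      exact hg.mono (ball_subset_ball hr.2.le)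
    rw [← h1, Real.circleAverage_def, Real.circleAverage_def, norm_smul, smul_eq_mul,
      Real.norm_of_nonneg (by positivity)]
    gcongr
    exact intervalIntegral.norm_integral_le_integral_norm Real.two_pi_pos.le

end areaMean

theorem xi_submean {f : ℂ → ℂ} {z₀ : ℂ} {δ : ℝ} (hδ : 0 < δ)
    (hf : DifferentiableOn ℂ f (Metric.ball z₀ δ))
    (hi : IntegrableOn (fun z => ‖f z‖ ^ 2) (Metric.ball z₀ δ)) :
    ‖f z₀‖ ^ 2 ≤ (Real.pi * δ ^ 2)⁻¹ * ∫ z in Metric.ball z₀ δ, ‖f z‖ ^ 2 := by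
  have hpi := Real.pi_pos
  have key : ∀ δ' ∈ Set.Ioo 0 δ, Real.pi * δ' ^ 2 * ‖f z₀‖ ^ 2 ≤ ∫ z in Metric.ball z₀ δ, ‖f z‖ ^ 2 := by
    intro δ' hδ'
    have hsub : Metric.closedBall z₀ δ' ⊆ Metric.ball z₀ δ := Metric.closedBall_subset_ball hδ'.2
    have hd : DiffContOnCl ℂ (fun z => f z ^ 2) (Metric.ball z₀ δ') :=
      ((hf.mono hsub).pow 2).diffContOnCl_ball subset_rfl
    have h1 := xi_am_norm_le_area_mean (fun z => f z ^ 2) z₀ δ' hδ'.1 hd
    simp only [norm_pow] at h1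
    refine h1.trans ?_
    exact setIntegral_mono_set hi (Eventually.of_forall fun z => by positivity)
      (Metric.ball_subset_ball hδ'.2.le).eventuallyLE
  have hlim : Tendsto (fun δ' : ℝ => Real.pi * δ' ^ 2 * ‖f z₀‖ ^ 2) (𝓝[<] δ)
      (𝓝 (Real.pi * δ ^ 2 * ‖f z₀‖ ^ 2)) := by
    have hc : Continuous fun δ' : ℝ => Real.pi * δ' ^ 2 * ‖f z₀‖ ^ 2 := by fun_prop
    exact hc.continuousWithinAt.tendsto
  have h2 : Real.pi * δ ^ 2 * ‖f z₀‖ ^ 2 ≤ ∫ z in Metric.ball z₀ δ, ‖f z‖ ^ 2 :=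
    le_of_tendsto hlim (by filter_upwards [Ioo_mem_nhdsLT hδ] with δ' h using key δ' h)
  rw [inv_mul_eq_div, le_div_iff₀ (by positivity)]
  linarith

theorem xi_removable (hρ : 0 < ρ) (hs : DifferentiableOn ℂ s (xiPd ρ))
    (hi : IntegrableOn (fun z => ∑ j, ‖s z j‖ ^ 2) (xiPd ρ)) :
    ∃ t : ℂ → Fin d → ℂ, DifferentiableOn ℂ t (Metric.ball 0 ρ) ∧ Set.EqOn t s (xiPd ρ) := by
  have hpi := Real.pi_pos
  set g : ℂ → ℝ := fun z => ∑ j, ‖s z j‖ ^ 2 with hg
  have hg0 : ∀ z, 0 ≤ g z := fun z => Finset.sum_nonneg fun j _ => by positivity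
  set Φ : ℝ → ℝ := fun ε => ∫ z in Metric.ball (0 : ℂ) ε, g z ∂(volume.restrict (xiPd ρ)) with hΦdef
  have hΦ : Tendsto Φ (𝓝[>] 0) (𝓝 0) := by
    refine Integrable.tendsto_setIntegral_nhds_zero hi ?_
    have h1 : Tendsto (fun ε : ℝ => ENNReal.ofReal ε ^ 2 * (NNReal.pi : ENNReal)) (𝓝[>] 0) (𝓝 0) := by
      have h2 : Tendsto (fun ε : ℝ => ENNReal.ofReal ε) (𝓝[>] 0) (𝓝 (ENNReal.ofReal 0)) :=
        (ENNReal.continuous_ofReal.tendsto 0).mono_left nhdsWithin_le_nhds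
      have h2' : Tendsto (fun ε : ℝ => ENNReal.ofReal ε ^ 2) (𝓝[>] 0) (𝓝 (ENNReal.ofReal 0 ^ 2)) :=
        ((ENNReal.continuous_pow 2).tendsto _).comp h2
      have h3 := ENNReal.Tendsto.mul_const h2' (b := (NNReal.pi : ENNReal))
        (Or.inr ENNReal.coe_ne_top)
      simpa using h3
    refine tendsto_of_tendsto_of_tendsto_of_le_of_le tendsto_const_nhds h1 (fun _ => zero_le) fun ε => ?_
    simp only [Function.comp]
    rw [← Complex.volume_ball (0 : ℂ) ε]
    exact Measure.restrict_apply_le _ _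
  have hbound : ∀ z : ℂ, 0 < ‖z‖ → ‖z‖ < ρ / 2 → (‖z‖ * ‖s z‖) ^ 2 ≤ 4 / Real.pi * Φ (2 * ‖z‖) := by
    intro z hz0 hz1
    have hsub : Metric.ball z (‖z‖ / 2) ⊆ Metric.ball (0 : ℂ) (2 * ‖z‖) ∩ xiPd ρ := by
      intro w hw
      have hw' : ‖w - z‖ < ‖z‖ / 2 := by simpa [dist_eq_norm] using hw
      have h1 : ‖w‖ ≤ ‖w - z‖ + ‖z‖ := by
        have := norm_add_le (w - z) z
        simpa using this
      have h2 : ‖z‖ ≤ ‖w - z‖ + ‖w‖ := by
        have := norm_sub_le w (w - z)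
        simp only [sub_sub_cancel] at this
        linarith
      refine ⟨by simp only [Metric.mem_ball, dist_zero_right]; linarith, ?_, ?_⟩
      · simp only [Metric.mem_ball, dist_zero_right]; linarith
      · intro h0
        have h0' : w = 0 := h0
        rw [h0'] at hw'
        simp only [zero_sub, norm_neg] at hw'
        linarith
    have hsub' : Metric.ball z (‖z‖ / 2) ⊆ xiPd ρ := fun w hw => (hsub hw).2
    have hgi : IntegrableOn g (Metric.ball z (‖z‖ / 2)) := hi.mono_set hsub'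
    have hI : ∫ w in Metric.ball z (‖z‖ / 2), g w ≤ Φ (2 * ‖z‖) := by
      simp only [hΦdef]
      rw [Measure.restrict_restrict Metric.isOpen_ball.measurableSet]
      exact setIntegral_mono_set (hi.mono_set Set.inter_subset_right)
        (Eventually.of_forall fun w => hg0 w) hsub.eventuallyLE
    have hΦ0 : 0 ≤ Φ (2 * ‖z‖) := (setIntegral_nonneg Metric.isOpen_ball.measurableSet fun w _ => hg0 w).trans hI
    have hj : ∀ j, ‖s z j‖ ^ 2 ≤ (Real.pi * (‖z‖ / 2) ^ 2)⁻¹ * Φ (2 * ‖z‖) := by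
      intro j
      have hd : DifferentiableOn ℂ (fun w => s w j) (Metric.ball z (‖z‖ / 2)) :=
        (differentiableOn_pi.1 hs j).mono hsub'
      have hle : ∀ w, ‖s w j‖ ^ 2 ≤ g w := fun w =>
        Finset.single_le_sum (f := fun j => ‖s w j‖ ^ 2) (fun i _ => by positivity) (Finset.mem_univ j)
      have hij : IntegrableOn (fun w => ‖s w j‖ ^ 2) (Metric.ball z (‖z‖ / 2)) := by
        refine Integrable.mono' hgi ((hd.continuousOn.norm.pow 2).aestronglyMeasurable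
          Metric.isOpen_ball.measurableSet) (Eventually.of_forall fun w => ?_)
        rw [Real.norm_of_nonneg (by positivity)]
        exact hle w
      have h1 := xi_submean (f := fun w => s w j) (z₀ := z) (δ := ‖z‖ / 2) (by positivity) hd hij
      refine h1.trans (mul_le_mul_of_nonneg_left ?_ (by positivity))
      exact (setIntegral_mono hij hgi hle).trans hI
    have hn : ‖s z‖ ^ 2 ≤ (Real.pi * (‖z‖ / 2) ^ 2)⁻¹ * Φ (2 * ‖z‖) := by
      have hB : 0 ≤ (Real.pi * (‖z‖ / 2) ^ 2)⁻¹ * Φ (2 * ‖z‖) := by positivity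
      have h2 : ‖s z‖ ≤ √((Real.pi * (‖z‖ / 2) ^ 2)⁻¹ * Φ (2 * ‖z‖)) := by
        rw [pi_norm_le_iff_of_nonneg (Real.sqrt_nonneg _)]
        intro j
        exact Real.le_sqrt_of_sq_le (hj j)
      calc ‖s z‖ ^ 2 ≤ √((Real.pi * (‖z‖ / 2) ^ 2)⁻¹ * Φ (2 * ‖z‖)) ^ 2 :=
            pow_le_pow_left₀ (norm_nonneg _) h2 2
        _ = _ := Real.sq_sqrt hB
    rw [mul_pow]
    calc ‖z‖ ^ 2 * ‖s z‖ ^ 2 ≤ ‖z‖ ^ 2 * ((Real.pi * (‖z‖ / 2) ^ 2)⁻¹ * Φ (2 * ‖z‖)) :=
          mul_le_mul_of_nonneg_left hn (by positivity)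
      _ = 4 / Real.pi * Φ (2 * ‖z‖) := by
          field_simp
          ring
  have hnorm : Tendsto (fun z : ℂ => 2 * ‖z‖) (𝓝[≠] 0) (𝓝[>] 0) := by
    rw [tendsto_nhdsWithin_iff]
    constructor
    · have hc : Continuous fun z : ℂ => 2 * ‖z‖ := by fun_prop
      have := (hc.tendsto 0).mono_left (nhdsWithin_le_nhds (s := {(0 : ℂ)}ᶜ))
      simpa using this
    · filter_upwards [self_mem_nhdsWithin] with z hz
      have : 0 < ‖z‖ := norm_pos_iff.2 hz
      simp only [Set.mem_Ioi]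
      linarith
  have hlim1 : Tendsto (fun z : ℂ => 4 / Real.pi * Φ (2 * ‖z‖)) (𝓝[≠] 0) (𝓝 0) := by
    have := (hΦ.comp hnorm).const_mul (4 / Real.pi)
    simpa using this
  have hlim2 : Tendsto (fun z : ℂ => ‖z‖ * ‖s 0‖) (𝓝[≠] 0) (𝓝 0) := by
    have hc : Continuous fun z : ℂ => ‖z‖ * ‖s 0‖ := by fun_prop
    have := (hc.tendsto 0).mono_left (nhdsWithin_le_nhds (s := {(0 : ℂ)}ᶜ))
    simpa using this
  have hsmall : ∀ᶠ z : ℂ in 𝓝[≠] 0, ‖z‖ < ρ / 2 := by
    have : ∀ᶠ z : ℂ in 𝓝 0, ‖z‖ < ρ / 2 := by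
      have hc : Continuous fun z : ℂ => ‖z‖ := continuous_norm
      exact (hc.tendsto 0).eventually (by simpa using gt_mem_nhds (by positivity : (0 : ℝ) < ρ / 2))
    exact this.filter_mono nhdsWithin_le_nhds
  have ho : (fun z => s z - s 0) =o[𝓝[≠] 0] fun z : ℂ => (z - 0)⁻¹ := by
    rw [Asymptotics.isLittleO_iff]
    intro C hC
    have e1 : ∀ᶠ z : ℂ in 𝓝[≠] 0, 4 / Real.pi * Φ (2 * ‖z‖) < (C / 2) ^ 2 :=
      hlim1.eventually (gt_mem_nhds (by positivity))
    have e2 : ∀ᶠ z : ℂ in 𝓝[≠] 0, ‖z‖ * ‖s 0‖ < C / 2 := hlim2.eventually (gt_mem_nhds (by positivity))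
    filter_upwards [e1, e2, hsmall, self_mem_nhdsWithin] with z h1 h2 h3 h4
    have hz0 : 0 < ‖z‖ := norm_pos_iff.2 h4
    have h5 : ‖z‖ * ‖s z‖ < C / 2 :=
      lt_of_pow_lt_pow_left₀ 2 (by positivity) ((hbound z hz0 h3).trans_lt h1)
    rw [sub_zero, norm_inv, ← div_eq_mul_inv, le_div_iff₀ hz0]
    have h6 := norm_sub_le (s z) (s 0)
    nlinarith
  refine ⟨Function.update s 0 (limUnder (𝓝[≠] 0) s),
    Complex.differentiableOn_update_limUnder_of_isLittleO (Metric.ball_mem_nhds 0 hρ) hs ho, ?_⟩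
  intro z hz
  exact Function.update_of_ne hz.2 _ _

theorem xi_jet_bound (d k : ℕ) (hρ : 0 < ρ) : ∃ C : ℝ, 0 ≤ C ∧ ∀ s : ℂ → Fin d → ℂ,
    DifferentiableOn ℂ s (Metric.ball 0 ρ) → IntegrableOn (fun z => ∑ j, ‖s z j‖ ^ 2) (xiPd ρ) →
    ‖iteratedDeriv k s 0‖ ^ 2 ≤ C * ∫ z in xiPd ρ, ∑ j, ‖s z j‖ ^ 2 := by
  have hpi := Real.pi_pos
  refine ⟨((k.factorial : ℝ) / (ρ / 2) ^ k) ^ 2 * (Real.pi * (ρ / 2) ^ 2)⁻¹, by positivity, fun s hs hi => ?_⟩
  set g : ℂ → ℝ := fun z => ∑ j, ‖s z j‖ ^ 2 with hg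
  have hg0 : ∀ z, 0 ≤ g z := fun z => Finset.sum_nonneg fun j _ => by positivity
  have hae : (xiPd ρ : Set ℂ) =ᵐ[volume] Metric.ball (0 : ℂ) ρ :=
    sdiff_null_ae_eq_self (measure_singleton 0)
  have hib : IntegrableOn g (Metric.ball 0 ρ) := hi.congr_set_ae hae.symm
  have hIb : ∫ z in Metric.ball 0 ρ, g z = ∫ z in xiPd ρ, g z := setIntegral_congr_set hae.symm
  set I : ℝ := ∫ z in xiPd ρ, g z with hI
  have hI0 : 0 ≤ I := setIntegral_nonneg (xiPd_measurableSet ρ) fun z _ => hg0 z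
  have hsph : ∀ z ∈ Metric.sphere (0 : ℂ) (ρ / 2), ‖s z‖ ≤ √((Real.pi * (ρ / 2) ^ 2)⁻¹ * I) := by
    intro z hz
    have hz' : ‖z‖ = ρ / 2 := by simpa using hz
    have hsub : Metric.ball z (ρ / 2) ⊆ Metric.ball (0 : ℂ) ρ := by
      intro w hw
      have hw' : ‖w - z‖ < ρ / 2 := by simpa [dist_eq_norm] using hw
      have h1 : ‖w‖ ≤ ‖w - z‖ + ‖z‖ := by
        have := norm_add_le (w - z) z
        simpa using this
      simp only [Metric.mem_ball, dist_zero_right]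
      linarith
    have hgi : IntegrableOn g (Metric.ball z (ρ / 2)) := hib.mono_set hsub
    rw [pi_norm_le_iff_of_nonneg (Real.sqrt_nonneg _)]
    intro j
    refine Real.le_sqrt_of_sq_le ?_
    have hd : DifferentiableOn ℂ (fun w => s w j) (Metric.ball z (ρ / 2)) :=
      (differentiableOn_pi.1 hs j).mono hsub
    have hle : ∀ w, ‖s w j‖ ^ 2 ≤ g w := fun w =>
      Finset.single_le_sum (f := fun j => ‖s w j‖ ^ 2) (fun i _ => by positivity) (Finset.mem_univ j)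
    have hij : IntegrableOn (fun w => ‖s w j‖ ^ 2) (Metric.ball z (ρ / 2)) := by
      refine Integrable.mono' hgi ((hd.continuousOn.norm.pow 2).aestronglyMeasurable
        Metric.isOpen_ball.measurableSet) (Eventually.of_forall fun w => ?_)
      rw [Real.norm_of_nonneg (by positivity)]
      exact hle w
    have h1 := xi_submean (f := fun w => s w j) (z₀ := z) (δ := ρ / 2) (by positivity) hd hij
    refine h1.trans (mul_le_mul_of_nonneg_left ?_ (by positivity))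
    refine (setIntegral_mono hij hgi hle).trans ?_
    rw [← hIb]
    exact setIntegral_mono_set hib (Eventually.of_forall fun w => hg0 w) hsub.eventuallyLE
  have hd : DiffContOnCl ℂ s (Metric.ball 0 (ρ / 2)) :=
    (hs.mono (Metric.closedBall_subset_ball (by linarith))).diffContOnCl_ball subset_rfl
  have h2 := Complex.norm_iteratedDeriv_le_of_forall_mem_sphere_norm_le k (by positivity : 0 < ρ / 2) hd hsph
  have hB : 0 ≤ (Real.pi * (ρ / 2) ^ 2)⁻¹ * I := by positivity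
  calc ‖iteratedDeriv k s 0‖ ^ 2
      ≤ ((k.factorial : ℝ) * √((Real.pi * (ρ / 2) ^ 2)⁻¹ * I) / (ρ / 2) ^ k) ^ 2 :=
        pow_le_pow_left₀ (norm_nonneg _) h2 2
    _ = ((k.factorial : ℝ) / (ρ / 2) ^ k) ^ 2 * √((Real.pi * (ρ / 2) ^ 2)⁻¹ * I) ^ 2 := by ring
    _ = ((k.factorial : ℝ) / (ρ / 2) ^ k) ^ 2 * (Real.pi * (ρ / 2) ^ 2)⁻¹ * I := by
        rw [Real.sq_sqrt hB]; ring

/-! ### S4-X-D4: Artin-Rees by leading coefficients -/

/-- the space of leading coefficients of order `k`. -/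
def xiLeadSub (M : XiMet r c H) (k : ℕ) : Submodule ℂ (Fin d → ℂ) where
  carrier := {v | XiLead H r k v}
  zero_mem' := ⟨fun _ => 0, analyticAt_const, rfl, by
    simp only [smul_zero]
    exact XiGerm.zero M⟩
  add_mem' := by
    rintro u v ⟨g₁, ha₁, rfl, hg₁⟩ ⟨g₂, ha₂, rfl, hg₂⟩
    refine ⟨fun z => g₁ z + g₂ z, ha₁.add ha₂, rfl, ?_⟩
    simp only [smul_add]
    exact hg₁.add M hg₂
  smul_mem' := by
    rintro a v ⟨g, ha, rfl, hg⟩
    refine ⟨fun z => a • g z, (analyticAt_const (v := a)).smul ha, rfl, ?_⟩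
    have h1 := hg.smul M (f := fun _ => a) analyticAt_const
    refine h1.congr (Eventually.of_forall fun z => ?_)
    exact smul_comm _ _ _

theorem xi_mem_leadSub (M : XiMet r c H) (k : ℕ) (v : Fin d → ℂ) :
    v ∈ xiLeadSub M k ↔ XiLead H r k v := Iff.rfl

theorem xi_leadSub_mono (M : XiMet r c H) : Monotone (xiLeadSub M) := by
  refine monotone_nat_of_le_succ fun k v hv => ?_
  obtain ⟨g, ha, h0, hg⟩ := hv
  refine ⟨g, ha, h0, ?_⟩
  have h1 := hg.smul M (f := fun z => z) analyticAt_id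
  refine h1.congr (Eventually.of_forall fun z => ?_)
  simp only [pow_succ', mul_smul]

theorem xi_lead_stab (M : XiMet r c H) : ∃ (κ : ℕ) (L : Submodule ℂ (Fin d → ℂ)),
    ∀ k, κ ≤ k → ∀ v, XiLead H r k v ↔ v ∈ L := by
  obtain ⟨n, hn⟩ := (monotone_stabilizes_iff_noetherian (R := ℂ) (M := Fin d → ℂ)).2 inferInstance
    ⟨xiLeadSub M, xi_leadSub_mono M⟩
  refine ⟨n, xiLeadSub M n, fun k hk v => ?_⟩
  have h1 : xiLeadSub M n = xiLeadSub M k := hn k hk
  rw [h1]
  exact (xi_mem_leadSub M k v).symm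

theorem xi_analyticAt_det {n : ℕ} (N : ℂ → Matrix (Fin n) (Fin n) ℂ)
    (h : ∀ i j, AnalyticAt ℂ (fun z => N z i j) 0) : AnalyticAt ℂ (fun z => (N z).det) 0 := by
  simp only [Matrix.det_apply']
  refine Finset.analyticAt_fun_sum _ fun τ _ => ?_
  refine analyticAt_const.mul ?_
  exact Finset.analyticAt_fun_prod _ fun i _ => h _ _

theorem xi_span_analytic {p : ℕ} (G : Fin p → ℂ → Fin d → ℂ) (hG : ∀ i, AnalyticAt ℂ (G i) 0)
    (hli : LinearIndependent ℂ (fun i => G i 0)) (g : ℂ → Fin d → ℂ) (hg : AnalyticAt ℂ g 0) :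
    ∃ (π : (Fin d → ℂ) →ₗ[ℂ] (Fin p → ℂ)) (c : Fin p → ℂ → ℂ),
      (∀ i, π (G i 0) = Pi.single i 1) ∧ (∀ i, AnalyticAt ℂ (c i) 0) ∧
      ∀ᶠ z in 𝓝 (0 : ℂ), π (g z - ∑ i, c i z • G i z) = 0 := by
  classical
  obtain ⟨π, hπ⟩ := LinearMap.exists_leftInverse_of_injective
    (Fintype.linearCombination ℂ (fun i => G i 0))
    (LinearMap.ker_eq_bot.2 hli.fintypeLinearCombination_injective)
  have hπ0 : ∀ i, π (G i 0) = Pi.single i 1 := by
    intro i
    have h1 := LinearMap.congr_fun hπ (Pi.single i 1)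
    simp only [LinearMap.comp_apply, LinearMap.id_apply] at h1
    rw [← h1]
    congr 1
    simp [Fintype.linearCombination_apply, Pi.single_apply]
  have hlin : ∀ (j : Fin p) (f : ℂ → Fin d → ℂ), AnalyticAt ℂ f 0 → AnalyticAt ℂ (fun z => π (f z) j) 0 := by
    intro j f hf
    have h1 := ((LinearMap.toContinuousLinearMap ((LinearMap.proj j : (Fin p → ℂ) →ₗ[ℂ] ℂ) ∘ₗ π)).analyticAt
      (f 0)).comp hf
    exact h1
  set Mz : ℂ → Matrix (Fin p) (Fin p) ℂ := fun z => Matrix.of fun j i => π (G i z) j with hMz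
  have hM0 : Mz 0 = 1 := by
    ext j i
    simp only [hMz, Matrix.of_apply, hπ0, Matrix.one_apply, Pi.single_apply]
  have hdet : AnalyticAt ℂ (fun z => (Mz z).det) 0 :=
    xi_analyticAt_det Mz fun j i => hlin j (G i) (hG i)
  have hdet0 : (Mz 0).det ≠ 0 := by rw [hM0, Matrix.det_one]; exact one_ne_zero
  have hev : ∀ᶠ z in 𝓝 (0 : ℂ), (Mz z).det ≠ 0 := hdet.continuousAt.eventually_ne hdet0
  refine ⟨π, fun i z => ((Mz z).det)⁻¹ * Matrix.cramer (Mz z) (π (g z)) i, hπ0, fun i => ?_, ?_⟩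
  · refine (hdet.inv hdet0).mul ?_
    simp only [Matrix.cramer_apply]
    refine xi_analyticAt_det _ fun j k => ?_
    simp only [Matrix.updateCol_apply]
    by_cases hk : k = i
    · simp only [hk, if_true]
      exact hlin j g hg
    · simp only [hk, if_false]
      exact hlin j (G k) (hG k)
  · filter_upwards [hev] with z hz
    rw [map_sub, map_sum, sub_eq_zero]
    simp only [map_smul]
    have h1 := Matrix.mulVec_cramer (Mz z) (π (g z))
    ext j
    have h2 := congrFun h1 j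
    simp only [Matrix.mulVec, dotProduct, hMz, Matrix.of_apply, Pi.smul_apply, smul_eq_mul] at h2
    simp only [Finset.sum_apply, Pi.smul_apply, smul_eq_mul]
    have h3 : ∑ i, (Mz z).det⁻¹ * (Mz z).cramer (π (g z)) i * π (G i z) j
        = (Mz z).det⁻¹ * ∑ i, π (G i z) j * (Mz z).cramer (π (g z)) i := by
      rw [Finset.mul_sum]
      exact Finset.sum_congr rfl fun i _ => by ring
    rw [h3, h2, ← mul_assoc, inv_mul_cancel₀ hz, one_mul]

/-- **H6**: `s ∈ 𝓗`, `ord₀ s ≥ κ + 1` ⟹ `s / z ∈ 𝓗`. -/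
theorem xi_artin_rees (M : XiMet r c H) : ∃ κ : ℕ, ∀ g : ℂ → Fin d → ℂ, AnalyticAt ℂ g 0 →
    XiGerm H r (fun z => z ^ (κ + 1) • g z) → XiGerm H r (fun z => z ^ κ • g z) := by
  classical
  obtain ⟨κ, L, hL⟩ := xi_lead_stab M
  refine ⟨κ, fun g hg hgerm => ?_⟩
  set e := Module.finBasis ℂ L with he
  have hex : ∀ i, ∃ G : ℂ → Fin d → ℂ, AnalyticAt ℂ G 0 ∧ G 0 = (e i : Fin d → ℂ) ∧
      XiGerm H r (fun z => z ^ κ • G z) := fun i => (hL κ le_rfl _).2 (e i).2
  choose G hGa hG0 hGg using hex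
  have hli : LinearIndependent ℂ (fun i => G i 0) := by
    have h1 := e.linearIndependent.map' L.subtype (Submodule.ker_subtype L)
    have h2 : (fun i => G i 0) = L.subtype ∘ e := funext fun i => hG0 i
    rw [h2]
    exact h1
  obtain ⟨π, cc, hπ, hca, hev⟩ := xi_span_analytic G hGa hli g hg
  set w : ℂ → Fin d → ℂ := fun z => g z - ∑ i, cc i z • G i z with hw
  have hwa : AnalyticAt ℂ w 0 :=
    hg.sub (Finset.analyticAt_fun_sum _ fun i _ => (hca i).smul (hGa i))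
  by_cases hzero : ∀ᶠ z in 𝓝 (0 : ℂ), w z = 0
  · have h1 : XiGerm H r (fun z => ∑ i, cc i z • (z ^ κ • G i z)) :=
      XiGerm.sum M fun i => (hGg i).smul M (hca i)
    refine h1.congr ?_
    filter_upwards [hzero] with z hz
    have h2 : g z = ∑ i, cc i z • G i z := sub_eq_zero.1 hz
    rw [h2, Finset.smul_sum]
    exact Finset.sum_congr rfl fun i _ => smul_comm _ _ _
  · exfalso
    obtain ⟨n, h, hha, hh0, hwh⟩ := hwa.exists_eventuallyEq_pow_smul_nonzero_iff.2 hzero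
    simp only [sub_zero] at hwh
    -- `h 0 ∈ L`
    have hgerm2 : XiGerm H r (fun z => z ^ (κ + 1 + n) • h z) := by
      have h1 : XiGerm H r (fun z => ∑ i, (z * cc i z) • (z ^ κ • G i z)) :=
        XiGerm.sum M fun i => (hGg i).smul M (analyticAt_id.mul (hca i))
      refine (hgerm.sub M h1).congr ?_
      filter_upwards [hwh] with z hz
      have e1 : z ^ (κ + 1 + n) • h z = z ^ (κ + 1) • w z := by
        rw [hz, smul_smul, pow_add]
      rw [e1, hw]
      simp only [smul_sub, Finset.smul_sum]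
      congr 1
      refine Finset.sum_congr rfl fun i _ => ?_
      simp only [smul_smul]
      congr 1
      ring
    have hmem : h 0 ∈ L := (hL (κ + 1 + n) (by omega) _).1 ⟨h, hha, rfl, hgerm2⟩
    -- `π (h 0) = 0`
    have hπc : ContinuousAt (fun z => π (h z)) 0 :=
      (LinearMap.continuous_of_finiteDimensional π).continuousAt.comp hha.continuousAt
    have hπz : ∀ᶠ z in 𝓝[≠] (0 : ℂ), π (h z) = 0 := by
      have h1 : ∀ᶠ z in 𝓝[≠] (0 : ℂ), π (w z) = 0 ∧ w z = z ^ n • h z :=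
        (hev.and hwh).filter_mono nhdsWithin_le_nhds
      filter_upwards [h1, self_mem_nhdsWithin] with z hz hz0
      have h2 : z ^ n • π (h z) = 0 := by rw [← map_smul, ← hz.2, hz.1]
      exact (smul_eq_zero.1 h2).resolve_left (pow_ne_zero n hz0)
    have hπ0 : π (h 0) = 0 := by
      have t1 : Tendsto (fun z => π (h z)) (𝓝[≠] 0) (𝓝 (π (h 0))) := hπc.tendsto.mono_left nhdsWithin_le_nhds
      have t2 : Tendsto (fun z => π (h z)) (𝓝[≠] 0) (𝓝 0) :=
        tendsto_const_nhds.congr' (hπz.mono fun z hz => hz.symm)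
      exact tendsto_nhds_unique t1 t2
    have hrep := e.sum_repr ⟨h 0, hmem⟩
    have hrep' : ∑ i, e.repr ⟨h 0, hmem⟩ i • G i 0 = h 0 := by
      have h1 := congrArg L.subtype hrep
      simp only [map_sum, map_smul, Submodule.subtype_apply] at h1
      simpa only [hG0] using h1
    have hy : ∀ j, e.repr ⟨h 0, hmem⟩ j = 0 := by
      intro j
      have h1 : π (∑ i, e.repr ⟨h 0, hmem⟩ i • G i 0) j = 0 := by rw [hrep', hπ0]; rfl
      simpa [map_sum, map_smul, hπ, Finset.sum_apply, Pi.single_apply] using h1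
    apply hh0
    rw [← hrep']
    simp only [hy, zero_smul, Finset.sum_const_zero]

/-! ### S4-X-D5: the closure argument -/

theorem xi_contDiffAt_of_diffOn {X : Type*} [NormedAddCommGroup X] [NormedSpace ℂ X] [CompleteSpace X]
    {f : ℂ → X} (hρ : 0 < ρ) (hf : DifferentiableOn ℂ f (Metric.ball 0 ρ)) (n : ℕ) : ContDiffAt ℂ n f 0 :=
  (hf.analyticAt (Metric.ball_mem_nhds 0 hρ)).contDiffAt

theorem xi_contOn_of_diffOn {X : Type*} [NormedAddCommGroup X] [NormedSpace ℂ X]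
    {f : ℂ → X} (hf : DifferentiableOn ℂ f (Metric.ball 0 ρ)) : ContinuousOn f (xiPd ρ) :=
  hf.continuousOn.mono Set.sdiff_subset

/-- the jets of sections with extra integrability. -/
def xiJetSub (M : XiMet r c H) (n : ℕ) : Submodule ℂ (Fin n → Fin d → ℂ) where
  carrier := {e | ∃ s : ℂ → Fin d → ℂ, DifferentiableOn ℂ s (Metric.ball 0 r) ∧
      (∃ σ, 0 < σ ∧ XiInt H r σ s) ∧ ∀ k : Fin n, iteratedDeriv k s 0 = e k}
  zero_mem' := by
    refine ⟨fun _ => 0, differentiableOn_const _, ⟨1, one_pos, ?_⟩, fun k => ?_⟩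
    · simp only [XiInt, qf_zero_vec, zero_mul]
      exact integrableOn_zero
    · rw [iteratedDeriv_const]
      simp
  add_mem' := by
    rintro e₁ e₂ ⟨s₁, hd₁, ⟨σ₁, hσ₁, hi₁⟩, hj₁⟩ ⟨s₂, hd₂, ⟨σ₂, hσ₂, hi₂⟩, hj₂⟩
    refine ⟨fun z => s₁ z + s₂ z, hd₁.add hd₂, ⟨min σ₁ σ₂, lt_min hσ₁ hσ₂, ?_⟩, fun k => ?_⟩
    · exact XiInt.add M le_rfl (xi_contOn_of_diffOn hd₁) (xi_contOn_of_diffOn hd₂)
        (hi₁.mono_exp M le_rfl (xi_contOn_of_diffOn hd₁) (min_le_left _ _))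
        (hi₂.mono_exp M le_rfl (xi_contOn_of_diffOn hd₂) (min_le_right _ _))
    · rw [iteratedDeriv_fun_add (xi_contDiffAt_of_diffOn M.r_pos hd₁ _)
        (xi_contDiffAt_of_diffOn M.r_pos hd₂ _), hj₁, hj₂]
      rfl
  smul_mem' := by
    rintro a e ⟨s, hd, ⟨σ, hσ, hi⟩, hj⟩
    refine ⟨fun z => a • s z, hd.const_smul a, ⟨σ, hσ, ?_⟩, fun k => ?_⟩
    · exact XiInt.smul M le_rfl (xi_contOn_of_diffOn hd) (f := fun _ => a) continuousOn_const
        (B := ‖a‖) (fun _ _ => le_rfl) hi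
    · rw [iteratedDeriv_fun_const_smul_field, hj]
      rfl

theorem xi_jets_closed (M : XiMet r c H) (n : ℕ) :
    IsClosed {e : Fin n → Fin d → ℂ | ∃ s : ℂ → Fin d → ℂ, DifferentiableOn ℂ s (Metric.ball 0 r) ∧
      (∃ σ, 0 < σ ∧ XiInt H r σ s) ∧ ∀ k : Fin n, iteratedDeriv k s 0 = e k} :=
  Submodule.closed_of_finiteDimensional (xiJetSub M n)

/-- **H7**: a holomorphic `L²(H)` section which is an `L²(H)` limit of sections with extra integrability has extra integrability. -/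
theorem xi_closure (M : XiMet r c H) {a : ℂ → Fin d → ℂ} (ha : DifferentiableOn ℂ a (xiPd r))
    (hint : IntegrableOn (fun z => qf (H z) (a z)) (xiPd r))
    (happ : ∀ η : ℝ, 0 < η → ∃ a' : ℂ → Fin d → ℂ, DifferentiableOn ℂ a' (xiPd r) ∧
      (∃ σ, 0 < σ ∧ XiInt H r σ a') ∧ IntegrableOn (fun z => qf (H z) (a z - a' z)) (xiPd r) ∧
      ∫ z in xiPd r, qf (H z) (a z - a' z) ≤ η) :
    ∃ σ : ℝ, 0 < σ ∧ ∃ r₀ : ℝ, 0 < r₀ ∧ r₀ ≤ r ∧ XiInt H r₀ σ a := by
  have hr := M.r_pos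
  have hc := M.c_pos
  -- (1) removable singularities
  obtain ⟨at', hatd, hateq⟩ := xi_removable hr ha (xi_l2_of_int M le_rfl ha.continuousOn hint).1
  have hrem : ∀ η : ℝ, 0 < η → ∃ b : ℂ → Fin d → ℂ, DifferentiableOn ℂ b (Metric.ball 0 r) ∧
      (∃ σ, 0 < σ ∧ XiInt H r σ b) ∧ IntegrableOn (fun z => qf (H z) (at' z - b z)) (xiPd r) ∧
      ∫ z in xiPd r, qf (H z) (at' z - b z) ≤ η := by
    intro η hη
    obtain ⟨a', hd', ⟨σ, hσ, hi'⟩, hi2, hle⟩ := happ η hη
    have h0 : IntegrableOn (fun z => qf (H z) (a' z)) (xiPd r) :=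
      xiInt_zero_iff.1 (hi'.mono_exp M le_rfl hd'.continuousOn hσ.le)
    obtain ⟨b, hbd, hbeq⟩ := xi_removable hr hd' (xi_l2_of_int M le_rfl hd'.continuousOn h0).1
    have hcongr : Set.EqOn (fun z => qf (H z) (a z - a' z)) (fun z => qf (H z) (at' z - b z)) (xiPd r) :=
      fun z hz => by simp only [hateq hz, hbeq hz]
    refine ⟨b, hbd, ⟨σ, hσ, hi'.congr hbeq.symm⟩, hi2.congr_fun hcongr (xiPd_measurableSet r), ?_⟩
    rw [← setIntegral_congr_fun (xiPd_measurableSet r) hcongr]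
    exact hle
  -- (2)
  obtain ⟨κ, hκ⟩ := xi_artin_rees M
  -- (3) the jet of `at'` is in the closed set
  have hjb : ∀ k : ℕ, ∃ C : ℝ, 0 ≤ C ∧ ∀ s : ℂ → Fin d → ℂ,
      DifferentiableOn ℂ s (Metric.ball 0 r) → IntegrableOn (fun z => ∑ j, ‖s z j‖ ^ 2) (xiPd r) →
      ‖iteratedDeriv k s 0‖ ^ 2 ≤ C * ∫ z in xiPd r, ∑ j, ‖s z j‖ ^ 2 := fun k => xi_jet_bound d k hr
  choose C hC0 hC using hjb
  set Cs : ℝ := ∑ k : Fin (κ + 1), C k with hCs
  have hCs0 : 0 ≤ Cs := Finset.sum_nonneg fun k _ => hC0 k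
  have hCk : ∀ k : Fin (κ + 1), C k ≤ Cs := fun k =>
    Finset.single_le_sum (f := fun k : Fin (κ + 1) => C k) (fun i _ => hC0 i) (Finset.mem_univ k)
  have hmem : (fun k : Fin (κ + 1) => iteratedDeriv k at' 0) ∈
      {e : Fin (κ + 1) → Fin d → ℂ | ∃ s : ℂ → Fin d → ℂ, DifferentiableOn ℂ s (Metric.ball 0 r) ∧
      (∃ σ, 0 < σ ∧ XiInt H r σ s) ∧ ∀ k : Fin (κ + 1), iteratedDeriv k s 0 = e k} := by
    rw [← (xi_jets_closed M (κ + 1)).closure_eq, Metric.mem_closure_iff]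
    intro ε hε
    set η : ℝ := (ε / 2) ^ 2 / (Cs * c⁻¹ + 1) with hη
    have hden : 0 < Cs * c⁻¹ + 1 := by positivity
    have hη0 : 0 < η := by positivity
    obtain ⟨b, hbd, hbσ, hbi, hble⟩ := hrem η hη0
    refine ⟨fun k => iteratedDeriv k b 0, ⟨b, hbd, hbσ, fun k => rfl⟩, ?_⟩
    have hdd : DifferentiableOn ℂ (fun z => at' z - b z) (Metric.ball 0 r) := hatd.sub hbd
    obtain ⟨l1, l2⟩ := xi_l2_of_int M le_rfl (xi_contOn_of_diffOn hdd) hbi
    have hI0 : 0 ≤ ∫ z in xiPd r, ∑ j, ‖(at' z - b z) j‖ ^ 2 :=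
      setIntegral_nonneg (xiPd_measurableSet r) fun z _ => Finset.sum_nonneg fun j _ => by positivity
    have hk : ∀ k : Fin (κ + 1), ‖iteratedDeriv k at' 0 - iteratedDeriv k b 0‖ ≤ ε / 2 := by
      intro k
      have h1 := hC k _ hdd l1
      rw [iteratedDeriv_fun_sub (xi_contDiffAt_of_diffOn hr hatd _) (xi_contDiffAt_of_diffOn hr hbd _)] at h1
      have h2 : C k * ∫ z in xiPd r, ∑ j, ‖(at' z - b z) j‖ ^ 2 ≤ Cs * (c⁻¹ * η) := by
        refine mul_le_mul (hCk k) (l2.trans ?_) hI0 hCs0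
        exact mul_le_mul_of_nonneg_left hble (by positivity)
      have h3 : Cs * (c⁻¹ * η) ≤ (ε / 2) ^ 2 := by
        rw [hη, ← mul_assoc, mul_div_assoc', div_le_iff₀ hden]
        have : 0 ≤ (ε / 2) ^ 2 := by positivity
        nlinarith
      exact (pow_le_pow_iff_left₀ (norm_nonneg _) (by positivity) two_ne_zero).1 ((h1.trans h2).trans h3)
    rw [dist_eq_norm]
    refine lt_of_le_of_lt ?_ (by linarith : ε / 2 < ε)
    rw [pi_norm_le_iff_of_nonneg (by positivity)]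
    intro k
    exact hk k
  obtain ⟨s, hsd, ⟨σ, hσ, hsi⟩, hsj⟩ := hmem
  -- (4) `at' - s` vanishes to order `κ + 1`
  have hata : AnalyticAt ℂ at' 0 := hatd.analyticAt (Metric.ball_mem_nhds 0 hr)
  have hsa : AnalyticAt ℂ s 0 := hsd.analyticAt (Metric.ball_mem_nhds 0 hr)
  have hda : AnalyticAt ℂ (fun z => at' z - s z) 0 := hata.sub hsa
  have hord : ((κ + 1 : ℕ) : ℕ∞) ≤ analyticOrderAt (fun z => at' z - s z) 0 := by
    rw [natCast_le_analyticOrderAt_iff_iteratedDeriv_eq_zero hda]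
    intro i hi
    rw [iteratedDeriv_fun_sub (xi_contDiffAt_of_diffOn hr hatd _) (xi_contDiffAt_of_diffOn hr hsd _)]
    have := hsj ⟨i, hi⟩
    simp only at this
    rw [this, sub_self]
  obtain ⟨g, hga, hgeq⟩ := (natCast_le_analyticOrderAt hda).1 hord
  simp only [sub_zero] at hgeq
  have hG1 : XiGerm H r at' := ⟨hata, r, hr, le_rfl, (xiInt_zero_iff.2 hint).congr hateq.symm⟩
  have hG2 : XiGerm H r s := ⟨hsa, r, hr, le_rfl, hsi.mono_exp M le_rfl (xi_contOn_of_diffOn hsd) hσ.le⟩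
  have hG3 : XiGerm H r (fun z => z ^ (κ + 1) • g z) := (hG1.sub M hG2).congr hgeq
  obtain ⟨-, ρ₁, hρ₁, hρ₁r, hi₁⟩ := hκ g hga hG3
  -- (5)
  obtain ⟨ε, hε, heq⟩ := Metric.eventually_nhds_iff_ball.1 hgeq
  set r₀ : ℝ := min ρ₁ ε with hr₀
  have hr₀pos : 0 < r₀ := lt_min hρ₁ hε
  have hr₀r : r₀ ≤ r := (min_le_left _ _).trans hρ₁r
  have hsub0 : Metric.ball (0 : ℂ) r₀ ⊆ Metric.ball 0 r := Metric.ball_subset_ball hr₀r
  have h2 : XiInt H r₀ 2 (fun z => at' z - s z) := by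
    have h3 := hi₁.mono_rad (min_le_left ρ₁ ε)
    refine IntegrableOn.congr_fun h3 (fun z hz => ?_) (xiPd_measurableSet r₀)
    have hz0 : 0 < ‖z‖ := norm_pos_iff.2 hz.2
    have e1 : at' z - s z = z • (z ^ κ • g z) := by
      rw [heq z (Metric.ball_subset_ball (min_le_right _ _) hz.1), pow_succ', mul_smul]
    simp only [e1]
    rw [qf_smul_vec (H z) (z ^ κ • g z) z, neg_zero, Real.rpow_zero, mul_one, Real.rpow_neg hz0.le,
      Real.rpow_two]
    field_simp
  have hc1 : ContinuousOn (fun z => at' z - s z) (xiPd r₀) :=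
    xi_contOn_of_diffOn ((hatd.sub hsd).mono hsub0)
  have hc2 : ContinuousOn s (xiPd r₀) := xi_contOn_of_diffOn (hsd.mono hsub0)
  refine ⟨min σ 2, lt_min hσ two_pos, r₀, hr₀pos, hr₀r, ?_⟩
  have h4 := XiInt.add M hr₀r hc1 hc2 (h2.mono_exp M hr₀r hc1 (min_le_right σ 2))
    ((hsi.mono_rad hr₀r).mono_exp M hr₀r hc2 (min_le_left σ 2))
  refine h4.congr fun z hz => ?_
  simp only [sub_add_cancel]
  exact hateq (xiPd_mono hr₀r hz)

end Claimed.Agent.R316.S4
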