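import Claimed.Agent.R316.S4.XHor
import Claimed.Agent.R316.S4.XGerm

/-!
# Row 316, Section 4, BP-S4-X (sub-captain helper199): Lemma 4.3, the APPROXIMATION half (H4 of `S4/Extra.lean`)

FRAMEWORK-FREE: Mathlib + `CW/*` + `xi_hormander` (`S4/XHor.lean`).  No paper.
RULES FOR PROVERS: replace the `sorry` of YOUR theorems IN PLACE, statements verbatim, auxiliary lemmas directly above with prefix `xi_`; several owners per file: touch only your theorems.  Defects of statements: msg helper199 at once.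

EVERYTHING IS A FUNCTION OF THE HARMONIC FUNCTION `s = xiS m w = log ‖w‖ / m` on `CE Unit \ {0}`:  `|∂s|² = |∂̄s|² = 1 / (4 m² ‖w‖²)`, `∂̄∂ s = 0`, so for `f : ℝ → ℝ` smooth
   `|∂̄ (f ∘ s)|² = f'(s)² / (4 m² ‖w‖²)`,    `∂̄∂ (f ∘ s) = f''(s) / (4 m² ‖w‖²)`.
Weight `φ = 2 s + e^s` (`e^{-φ} = ‖w‖^{-2/m} e^{-‖w‖^{1/m}}`), `q = ∂̄∂φ = e^s / (4 m² ‖w‖²)`, cutoff `χ ∘ s` (`χ = 0` on `(-∞,-2]`, `= 1` on `[-1,∞)`, `|χ'| ≤ C₀`), `K = e^{-φ} H`, `b = a ∂̄(χ ∘ s)`:
   `|b|²_K / q = χ'(s)² e^{-3 s - e^s} |a|²_H ≤ C₀² e⁶ |a|²_H 1_{‖w‖ ≤ e^{-m}}`      (`χ'(s) ≠ 0 ⇒ -2 ≤ s ≤ -1`; `s ≤ -1 ⇔ ‖w‖ ≤ e^{-m}`).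
On `Ω = {0 < ‖w‖ < r}`, `r ≤ 1`: `s < 0`, `e^{-φ} ≥ e^{-1} e^{-2 s} = e^{-1} ‖w‖^{-2/m} ≥ e^{-1}`.

## Leaves and routes
* **S4-X-B1** `xi_contDiffAt_S`, `xi_normSq_dzb_comp_S`, `xi_levi_comp_S`, `xi_exp_S`.  `‖w‖² = w () * conj (w ())` (`EuclideanSpace.norm_eq`, `Fintype.sum_unique`), `xiS m w = log (‖w‖²) / (2 m)`; `levi_log_norm_hol`/`levi_log_normSq_hol` (`CW/Levi.lean`) with `F w = w ()` give `levi (log ‖·‖) = 0`; `grad10`: `dz_log_real`, `dz_coord`, `dz_conj_coord`: `∂ log ‖w‖² = 1 / w ()`;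
  then `levi_comp_real`, `dzb_comp_real`, `levi_const_mul`.   `xi_exp_S`: `exp (-2 s) = ‖w‖ ^ (-(2/m))` (`Real.rpow_def_of_pos`).
* **S4-X-B2** `xi_griff_twist`.  `e = e^{-φ}`; `dzM_smul`, `dzbM_smul`, `dzbM_add`: `K_z = e_z H + e H_z`, …; `(e H)⁻¹ = e⁻¹ H⁻¹`; `- K_{z z̄} + K_z̄ K⁻¹ K_z = (- e_{z z̄} + e_z e_z̄ / e) H + e (- H_{z z̄} + H_z̄ H⁻¹ H_z)`; `e_z = - φ_z e`, `e_{z z̄} = (- φ_{z z̄} + φ_z φ_z̄) e` (`dz_exp_real`, `dzb_exp_real`, `dzb_mul`).
* **S4-X-B3** `xi_cutoff`.  `χ s = Real.smoothTransition (s + 2)`; `deriv χ` is continuous and vanishes off `[-2,-1]` (locally constant on the open sets `s < -2`, `s > -1`; at the end points by continuity of `deriv χ`), bounded on the compact `[-2,-1]`.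
* **S4-X-B4** `xi_solve`: check the hypotheses of `xi_hormander` for `K, q, b` above (`xi_griff_twist`, `xi_levi_comp_S` with `f s = 2 s + e^s`, `qf_smul`, `qf_add`, `hol_contDiffOn_real`) and translate the conclusion.
* **S4-X-B5** `xi_approx_CE`: `a' = (χ ∘ s) a - v`, `C₁ = 2 + 2 C₀² e⁷`.  Holomorphic: `dzb_sub`, `dzb_mul`, `dzb_of_differentiableAt`, `differentiableOn_complex_of_dzb`.  `a - a' = (1 - χ∘s) a + v`; `xi_qf_add_le`, `qf_smul_vec`; `1 - χ∘s = 0` for `‖w‖ ≥ e^{-m}`; `χ∘s = 0` for `‖w‖ ≤ e^{-2m}` and `‖w‖^{-2/m} ≤ e⁴` otherwise.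
* **S4-X-C1** `xi_c1_*`, `xi_approx`: transport along the linear isometry `c1 : ℂ ≃ CE Unit` (`LinearIsometryEquiv.measurePreserving`; both volumes are `measureSpaceOfInnerProductSpace`), `MeasurePreserving.integrableOn_comp_preimage`, `MeasurePreserving.setIntegral_preimage_emb`.
* **S4-X-C2** `xi_tail`: `tendsto_setIntegral_of_antitone`, the intersection of the sets is empty.
-/

set_option autoImplicit false
set_option linter.unusedSectionVars false
open scoped ContDiff ComplexOrder ComplexConjugate Topology Matrix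
open MeasureTheory Filter

namespace Claimed.Agent.R316.S4

open Claimed.Agent.R316

/-- the point `z` of `ℂ` as a point of `CE Unit`. -/
noncomputable def c1 (z : ℂ) : CE Unit := WithLp.toLp 2 fun _ => z

/-- curvature `- ∂_{\bar z} ∂_z H + ∂_{\bar z} H H⁻¹ ∂_z H` of a Hermitian metric on the trivial bundle over a plane domain. -/
noncomputable def curv1 {d : ℕ} (H : ℂ → Matrix (Fin d) (Fin d) ℂ) (z : ℂ) : Matrix (Fin d) (Fin d) ℂ :=
  griffM (fun w : CE Unit => H (w ())) (c1 z) (fun _ => 1)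

/-- the harmonic function `log ‖w‖ / m`. -/
noncomputable def xiS (m : ℝ) (w : CE Unit) : ℝ := Real.log ‖w‖ / m

variable {d : ℕ}

/-! ### S4-X-B1 -/

theorem xi_norm_unit (w : CE Unit) : ‖w‖ = ‖w ()‖ := by
  rw [EuclideanSpace.norm_eq, Fintype.sum_unique, Real.sqrt_sq (norm_nonneg _)]

theorem xi_coord_ne {w : CE Unit} (hw : w ≠ 0) : w () ≠ 0 := by
  rw [← norm_ne_zero_iff, ← xi_norm_unit]
  exact norm_ne_zero_iff.2 hw

theorem xi_contDiffAt_S (m : ℝ) {w : CE Unit} (hw : w ≠ 0) : ContDiffAt ℝ ∞ (xiS m) w := by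
  unfold xiS
  exact ((contDiffAt_norm ℂ hw).log (norm_ne_zero_iff.2 hw)).div_const m

theorem xi_S_eq (m : ℝ) :
    xiS m = fun w : CE Unit => (1 / m : ℝ) * Real.log ‖(fun y : CE Unit => y ()) w‖ := by
  funext w
  simp only [xiS, xi_norm_unit w]
  ring

theorem xi_levi_S (m : ℝ) {w : CE Unit} (hw : w ≠ 0) : levi (xiS m) w = 0 := by
  have hF : ∀ᶠ y in 𝓝 w, DifferentiableAt ℂ (fun y : CE Unit => y ()) y :=
    Filter.Eventually.of_forall fun y => differentiableAt_coord_complex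
  have h0 := xi_coord_ne hw
  have hc : ContDiffAt ℝ 2 (fun y : CE Unit => Real.log ‖(fun y : CE Unit => y ()) y‖) w := by
    have : (fun y : CE Unit => Real.log ‖(fun y : CE Unit => y ()) y‖)
        = fun y : CE Unit => Real.log ‖y‖ := by
      funext y
      rw [xi_norm_unit y]
    rw [this]
    exact (contDiffAt_norm ℂ hw).log (norm_ne_zero_iff.2 hw)
  rw [xi_S_eq, levi_const_mul _ hc, levi_log_norm_hol _ hF h0, smul_zero]

theorem xi_grad10_S (m : ℝ) {w : CE Unit} (hw : w ≠ 0) :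
    grad10 (xiS m) w () = ((1 / (2 * m) : ℝ) : ℂ) * (conj (w ()) / ((‖w‖ ^ 2 : ℝ) : ℂ)) := by
  have h0 := xi_coord_ne hw
  have hn : ‖w ()‖ ^ 2 ≠ 0 := pow_ne_zero 2 (norm_ne_zero_iff.2 h0)
  have e : xiS m = fun y : CE Unit =>
      (1 / (2 * m) : ℝ) * Real.log (‖(fun y : CE Unit => y ()) y‖ ^ 2) := by
    funext y
    simp only [xiS, xi_norm_unit y, Real.log_pow]
    push_cast
    by_cases hm : m = 0
    · simp [hm]
    · field_simp
  have hd2 : DifferentiableAt ℝ (fun y : CE Unit => ‖(fun y : CE Unit => y ()) y‖ ^ 2) w :=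
    ((differentiableAt_coord (k := ())).norm_sq ℂ)
  have hd : DifferentiableAt ℝ
      (fun y : CE Unit => Real.log (‖(fun y : CE Unit => y ()) y‖ ^ 2)) w := hd2.log hn
  rw [e, grad10_const_mul _ hd]
  simp only [Pi.smul_apply]
  rw [grad10_apply, dz_log_real _ hd2 hn, ← grad10_apply,
    grad10_normSq_hol _ differentiableAt_coord_complex, dz_coord, xi_norm_unit w]
  simp

theorem xi_normSq_grad10_S {m : ℝ} (hm : m ≠ 0) {w : CE Unit} (hw : w ≠ 0) :
    conj (grad10 (xiS m) w ()) * grad10 (xiS m) w () = ((1 / (4 * m ^ 2 * ‖w‖ ^ 2) : ℝ) : ℂ) := by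
  have h0 := xi_coord_ne hw
  have hc : conj (w ()) ≠ 0 := (map_ne_zero _).2 h0
  have e : (((‖w‖ ^ 2 : ℝ)) : ℂ) = conj (w ()) * w () := by
    rw [xi_norm_unit w, Complex.conj_mul']
    push_cast
    rfl
  have hmc : (m : ℂ) ≠ 0 := Complex.ofReal_ne_zero.2 hm
  rw [xi_grad10_S m hw]
  have e2 : ((1 / (4 * m ^ 2 * ‖w‖ ^ 2) : ℝ) : ℂ) = 1 / (4 * (m : ℂ) ^ 2 * ((‖w‖ ^ 2 : ℝ) : ℂ)) := by
    push_cast
    rfl
  rw [e2, e]
  simp only [map_mul, map_div₀, Complex.conj_conj, Complex.conj_ofReal]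
  push_cast
  field_simp
  ring

theorem xi_normSq_dzb_comp_S {m : ℝ} (hm : m ≠ 0) {f : ℝ → ℝ} (hf : ContDiff ℝ ∞ f) {w : CE Unit}
    (hw : w ≠ 0) :
    ‖dzb () (fun y => ((f (xiS m y) : ℝ) : ℂ)) w‖ ^ 2
      = (deriv f (xiS m w)) ^ 2 / (4 * m ^ 2 * ‖w‖ ^ 2) := by
  have hs : DifferentiableAt ℝ (xiS m) w := (xi_contDiffAt_S m hw).differentiableAt (by simp)
  have hfd : DifferentiableAt ℝ f (xiS m w) := hf.contDiffAt.differentiableAt (by simp)
  rw [dzb_comp_real f (xiS m) hfd hs, dzb_ofReal_eq_grad10, norm_mul, mul_pow,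
    Complex.norm_real, Real.norm_eq_abs, sq_abs, RCLike.norm_conj]
  have h := xi_normSq_grad10_S hm hw
  rw [Complex.conj_mul'] at h
  have h' : ‖grad10 (xiS m) w ()‖ ^ 2 = 1 / (4 * m ^ 2 * ‖w‖ ^ 2) := by
    exact_mod_cast h
  rw [h']
  ring

theorem xi_levi_comp_S {m : ℝ} (hm : m ≠ 0) {f : ℝ → ℝ} (hf : ContDiff ℝ ∞ f) {w : CE Unit}
    (hw : w ≠ 0) :
    levi (fun y => f (xiS m y)) w () ()
      = ((deriv (deriv f) (xiS m w) / (4 * m ^ 2 * ‖w‖ ^ 2) : ℝ) : ℂ) := by
  have hs : ContDiffAt ℝ 2 (xiS m) w := (xi_contDiffAt_S m hw).of_le lv_two_le_infty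
  have hf2 : ContDiffAt ℝ 2 f (xiS m w) := hf.contDiffAt.of_le lv_two_le_infty
  rw [levi_comp_real f hf2 hs, xi_levi_S m hw, xi_normSq_grad10_S hm hw]
  simp only [Matrix.zero_apply, mul_zero, zero_add]
  push_cast
  ring

theorem xi_exp_S {m : ℝ} (hm : m ≠ 0) {w : CE Unit} (hw : w ≠ 0) :
    Real.exp (-(2 * xiS m w)) = ‖w‖ ^ (-(2 / m)) := by
  rw [Real.rpow_def_of_pos (norm_pos_iff.2 hw)]
  congr 1
  unfold xiS
  ring

theorem xi_S_le_iff {m : ℝ} (hm : 0 < m) {w : CE Unit} (hw : w ≠ 0) (t : ℝ) :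
    xiS m w ≤ t ↔ ‖w‖ ≤ Real.exp (t * m) := by
  unfold xiS
  rw [div_le_iff₀ hm, Real.log_le_iff_le_exp (norm_pos_iff.2 hw)]

/-! ### S4-X-B2 -/

theorem xi_twist_alg (H Hz Hb Hzb : Matrix (Fin d) (Fin d) ℂ) (e ez eb ezb : ℂ) (he : e ≠ 0)
    (hdet : H.det ≠ 0) :
    - ((ezb • H + ez • Hb) + (eb • Hz + e • Hzb)) + (eb • H + e • Hb) * (e • H)⁻¹ * (ez • H + e • Hz)
      = (- ezb + eb * ez / e) • H + e • (- Hzb + Hb * H⁻¹ * Hz) := by
  have hu : IsUnit H.det := isUnit_iff_ne_zero.2 hdet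
  have hinv : (e • H)⁻¹ = e⁻¹ • H⁻¹ := by
    have := Matrix.inv_smul' H (Units.mk0 e he) hu
    simpa [Units.smul_def] using this
  rw [hinv]
  simp only [Matrix.add_mul, Matrix.mul_add, Matrix.smul_mul, Matrix.mul_smul, smul_smul,
    Matrix.mul_nonsing_inv H hu, Matrix.one_mul, Matrix.nonsing_inv_mul_cancel_right H _ hu]
  generalize Hb * H⁻¹ * Hz = X
  ext j k
  simp only [Matrix.add_apply, Matrix.smul_apply, Matrix.neg_apply, smul_eq_mul]
  field_simp
  ring

theorem xi_griffM_unit (K : CE Unit → Matrix (Fin d) (Fin d) ℂ) (z : CE Unit) :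
    griffM K z (fun _ => 1)
      = - dzbM () (dzM () K) z + dzbM () K z * (K z)⁻¹ * dzM () K z := by
  simp [griffM]

theorem xi_griff_twist {H : CE Unit → Matrix (Fin d) (Fin d) ℂ} {φ : CE Unit → ℝ} {z : CE Unit}
    (hH : ∀ j k, ContDiffAt ℝ ∞ (fun w => H w j k) z) (hdet : (H z).det ≠ 0)
    (hφ : ContDiffAt ℝ ∞ φ z) :
    griffM (fun w => ((Real.exp (-φ w) : ℝ) : ℂ) • H w) z (fun _ => 1)
      = ((Real.exp (-φ z) : ℝ) : ℂ) • (griffM H z (fun _ => 1) + levi φ z () () • H z) := by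
  set ψ : CE Unit → ℝ := fun w => - φ w with hψdef
  set e : CE Unit → ℂ := fun w => ((Real.exp (ψ w) : ℝ) : ℂ) with hedef
  have hH2 : ∀ j k, ContDiffAt ℝ 2 (fun w => H w j k) z := fun j k =>
    (hH j k).of_le lv_two_le_infty
  have hψ : ContDiffAt ℝ 2 ψ z := hφ.neg.of_le lv_two_le_infty
  have he2 : ContDiffAt ℝ 2 e z := contDiffAt_ofReal hψ.exp
  have he1 : DifferentiableAt ℝ e z := he2.differentiableAt (by norm_num)
  have hH1 : ∀ j k, DifferentiableAt ℝ (fun w => H w j k) z := fun j k =>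
    (hH2 j k).differentiableAt (by norm_num)
  have hψ1 : DifferentiableAt ℝ ψ z := lv_differentiableAt hψ
  have hev : ∀ᶠ w in 𝓝 z, dzM () (fun w => e w • H w) w = dz () e w • H w + e w • dzM () H w := by
    filter_upwards [lv_eventually_differentiableAt he2,
      eventually_all.2 fun j => eventually_all.2 fun k =>
        lv_eventually_differentiableAt (hH2 j k)] with w h1 h2
    exact dzM_smul h1 h2
  have hdze : DifferentiableAt ℝ (dz () e) z := lv_differentiableAt_dz he2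
  have hdzH : ∀ j k, DifferentiableAt ℝ (fun w => dzM () H w j k) z := fun j k =>
    lv_differentiableAt_dz (hH2 j k)
  have h1 : dzbM () (dzM () (fun w => e w • H w)) z
      = (dzb () (dz () e) z • H z + dz () e z • dzbM () H z)
        + (dzb () e z • dzM () H z + e z • dzbM () (dzM () H) z) := by
    rw [dzbM_congr hev, dzbM_add (A := fun w => dz () e w • H w) (A₂ := fun w => e w • dzM () H w)
      (fun j k => by
        simp only [Matrix.smul_apply, smul_eq_mul]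
        exact hdze.mul (hH1 j k))
      (fun j k => by
        simp only [Matrix.smul_apply, smul_eq_mul]
        exact he1.mul (hdzH j k)),
      dzbM_smul hdze hH1, dzbM_smul he1 hdzH]
  have hez : ∀ᶠ w in 𝓝 z, dz () e w = e w * grad10 ψ w () := by
    filter_upwards [lv_eventually_differentiableAt_real hψ] with w hw
    exact dz_exp_real ψ hw
  have hezb : dzb () (dz () e) z
      = dzb () e z * grad10 ψ z () + e z * levi ψ z () () := by
    rw [dzb_congr hez, dzb_mul he1 (lv_differentiableAt_grad10 hψ), levi_eq_dzb_grad10]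
  have heb : dzb () e z = e z * conj (grad10 ψ z ()) := by
    rw [hedef, dzb_exp_real ψ hψ1, dzb_ofReal_eq_grad10]
  have he0 : e z ≠ 0 := Complex.ofReal_ne_zero.2 (Real.exp_pos _).ne'
  have hlevi : levi ψ z () () = - levi φ z () () := by
    rw [hψdef, levi_neg]
    rfl
  rw [xi_griffM_unit, xi_griffM_unit, h1, dzbM_smul he1 hH1, dzM_smul he1 hH1,
    xi_twist_alg _ _ _ _ _ _ _ _ he0 hdet, hezb, heb, hez.self_of_nhds, hlevi]
  change _ = e z • _
  generalize grad10 ψ z () = g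
  generalize levi φ z () () = l
  have hc : -(e z * conj g * g + e z * -l) + e z * conj g * (e z * g) / e z = e z * l := by
    field_simp
    ring
  rw [hc, mul_smul, ← smul_add, add_comm]

/-! ### S4-X-B3 -/

/-- the properties of the cutoff profile. -/
structure XiCut (χ : ℝ → ℝ) (C₀ : ℝ) : Prop where
  smooth : ContDiff ℝ ∞ χ
  nonneg : ∀ s, 0 ≤ χ s
  le_one : ∀ s, χ s ≤ 1
  zero : ∀ s, s ≤ -2 → χ s = 0
  one : ∀ s, -1 ≤ s → χ s = 1
  deriv_zero : ∀ s, s ≤ -2 ∨ -1 ≤ s → deriv χ s = 0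
  deriv_le : ∀ s, |deriv χ s| ≤ C₀

theorem xi_cutoff : ∃ (χ : ℝ → ℝ) (C₀ : ℝ), XiCut χ C₀ := by
  have hsm : ContDiff ℝ ∞ (fun s : ℝ => Real.smoothTransition (s + 2)) :=
    Real.smoothTransition.contDiff.comp (contDiff_id.add contDiff_const)
  have h0 : ∀ s : ℝ, s ≤ -2 → Real.smoothTransition (s + 2) = 0 := fun s hs =>
    Real.smoothTransition.zero_of_nonpos (by linarith)
  have h1 : ∀ s : ℝ, -1 ≤ s → Real.smoothTransition (s + 2) = 1 := fun s hs =>
    Real.smoothTransition.one_of_one_le (by linarith)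
  have hd0 : ∀ s : ℝ, s ≤ -2 ∨ -1 ≤ s → deriv (fun s : ℝ => Real.smoothTransition (s + 2)) s = 0 := by
    rintro s (hs | hs)
    · apply IsLocalMin.deriv_eq_zero
      refine Filter.Eventually.of_forall fun t => ?_
      show Real.smoothTransition (s + 2) ≤ Real.smoothTransition (t + 2)
      rw [h0 s hs]
      exact Real.smoothTransition.nonneg _
    · apply IsLocalMax.deriv_eq_zero
      refine Filter.Eventually.of_forall fun t => ?_
      show Real.smoothTransition (t + 2) ≤ Real.smoothTransition (s + 2)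
      rw [h1 s hs]
      exact Real.smoothTransition.le_one _
  have hcont : Continuous (deriv (fun s : ℝ => Real.smoothTransition (s + 2))) :=
    hsm.continuous_deriv (by simp)
  obtain ⟨C, hC⟩ := (isCompact_Icc (a := (-2 : ℝ)) (b := -1)).exists_bound_of_continuousOn hcont.continuousOn
  refine ⟨fun s => Real.smoothTransition (s + 2), C, hsm, fun s => Real.smoothTransition.nonneg _,
    fun s => Real.smoothTransition.le_one _, h0, h1, hd0, ?_⟩
  intro s
  by_cases hs : s ∈ Set.Icc (-2 : ℝ) (-1)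
  · exact hC s hs
  · have hC0 : 0 ≤ C := (norm_nonneg _).trans (hC (-2) ⟨le_refl _, by norm_num⟩)
    have : s ≤ -2 ∨ -1 ≤ s := by
      rw [Set.mem_Icc, not_and_or] at hs
      rcases hs with h | h
      · left; linarith
      · right; linarith
    rw [hd0 s this, abs_zero]
    exact hC0

/-! ### S4-X-B4, B5 -/

theorem xi_isOpen_pb (r : ℝ) : IsOpen (Metric.ball (0 : CE Unit) r \ {0}) :=
  Metric.isOpen_ball.sdiff isClosed_singleton

theorem xi_contDiffOn_comp_S (m : ℝ) {f : ℝ → ℝ} (hf : ContDiff ℝ ∞ f) (r : ℝ) :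
    ContDiffOn ℝ ∞ (fun w => f (xiS m w)) (Metric.ball (0 : CE Unit) r \ {0}) := fun w hw =>
  (hf.contDiffAt.comp w (xi_contDiffAt_S m hw.2)).contDiffWithinAt

theorem xi_continuousOn_S (m r : ℝ) :
    ContinuousOn (xiS m) (Metric.ball (0 : CE Unit) r \ {0}) := fun w hw =>
  (xi_contDiffAt_S m hw.2).continuousAt.continuousWithinAt

/-- the weight profile `2 t + e^t`. -/
noncomputable def xiW (t : ℝ) : ℝ := 2 * t + Real.exp t

theorem xi_contDiff_W : ContDiff ℝ ∞ xiW :=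
  (contDiff_const.mul contDiff_id).add Real.contDiff_exp

theorem xi_deriv_W : deriv xiW = fun t => 2 + Real.exp t := by
  funext t
  have h : HasDerivAt xiW (2 * 1 + Real.exp t) t :=
    ((hasDerivAt_id t).const_mul (2 : ℝ)).add (Real.hasDerivAt_exp t)
  rw [h.deriv, mul_one]

theorem xi_deriv_deriv_W (t : ℝ) : deriv (deriv xiW) t = Real.exp t := by
  rw [xi_deriv_W]
  have h := (Real.hasDerivAt_exp t).const_add (2 : ℝ)
  exact h.deriv

/-- the bounded factor `χ'(s)² e^{-3 s - e^s}`. -/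
noncomputable def xiG (χ : ℝ → ℝ) (t : ℝ) : ℝ := (deriv χ t) ^ 2 * Real.exp (-(3 * t + Real.exp t))

theorem xi_G_nonneg (χ : ℝ → ℝ) (t : ℝ) : 0 ≤ xiG χ t :=
  mul_nonneg (sq_nonneg _) (Real.exp_pos _).le

theorem xi_G_zero {χ : ℝ → ℝ} {C₀ : ℝ} (hχ : XiCut χ C₀) {t : ℝ} (ht : t ≤ -2 ∨ -1 ≤ t) :
    xiG χ t = 0 := by
  unfold xiG
  rw [hχ.deriv_zero t ht]
  simp

theorem xi_G_le {χ : ℝ → ℝ} {C₀ : ℝ} (hχ : XiCut χ C₀) (t : ℝ) :
    xiG χ t ≤ C₀ ^ 2 * Real.exp 6 := by
  by_cases ht : t ≤ -2 ∨ -1 ≤ t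
  · rw [xi_G_zero hχ ht]
    positivity
  · push Not at ht
    unfold xiG
    have h1 : (deriv χ t) ^ 2 ≤ C₀ ^ 2 := by
      rw [← sq_abs]
      exact pow_le_pow_left₀ (abs_nonneg _) (hχ.deriv_le t) 2
    have h2 : Real.exp (-(3 * t + Real.exp t)) ≤ Real.exp 6 := by
      apply Real.exp_le_exp.2
      have := (Real.exp_pos t).le
      linarith [ht.1]
    exact mul_le_mul h1 h2 (Real.exp_pos _).le (sq_nonneg _)

theorem xi_continuous_G {χ : ℝ → ℝ} {C₀ : ℝ} (hχ : XiCut χ C₀) : Continuous (xiG χ) := by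
  unfold xiG
  have h1 : Continuous (deriv χ) := hχ.smooth.continuous_deriv (by simp)
  fun_prop

/-- the correction term. -/
theorem xi_solve {χ : ℝ → ℝ} {C₀ : ℝ} (hχ : XiCut χ C₀) {r : ℝ} (hr : 0 < r) (hr1 : r ≤ 1)
    {H : CE Unit → Matrix (Fin d) (Fin d) ℂ}
    (hs : ∀ j k, ContDiffOn ℝ ∞ (fun z => H z j k) (Metric.ball 0 r \ {0}))
    (hpd : ∀ z ∈ Metric.ball (0 : CE Unit) r \ {0}, (H z).PosDef)
    (hcurv : ∀ z ∈ Metric.ball (0 : CE Unit) r \ {0}, (griffM H z fun _ => 1).PosSemidef)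
    {a : Fin d → CE Unit → ℂ} (ha : ∀ j, DifferentiableOn ℂ (a j) (Metric.ball 0 r \ {0}))
    (hint : IntegrableOn (fun z => qf (H z) (fun j => a j z)) (Metric.ball 0 r \ {0}))
    {m : ℝ} (hm : 1 ≤ m) :
    ∃ v : Fin d → CE Unit → ℂ, (∀ j, ContDiffOn ℝ ∞ (v j) (Metric.ball 0 r \ {0})) ∧
      (∀ z ∈ Metric.ball (0 : CE Unit) r \ {0}, ∀ j,
        dzb () (v j) z = a j z * dzb () (fun y => ((χ (xiS m y) : ℝ) : ℂ)) z) ∧
      IntegrableOn (fun z => qf (H z) (fun j => v j z) * ‖z‖ ^ (-(2 / m))) (Metric.ball 0 r \ {0}) ∧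
      ∫ z in Metric.ball (0 : CE Unit) r \ {0}, qf (H z) (fun j => v j z) * ‖z‖ ^ (-(2 / m))
        ≤ C₀ ^ 2 * Real.exp 7 *
          ∫ z in (Metric.ball (0 : CE Unit) r \ {0}) ∩ Metric.closedBall 0 (Real.exp (-m)),
            qf (H z) (fun j => a j z) := by
  have hm0 : 0 < m := lt_of_lt_of_le one_pos hm
  have hmne : m ≠ 0 := hm0.ne'
  set Ω : Set (CE Unit) := Metric.ball (0 : CE Unit) r \ {0} with hΩdef
  have hΩ : IsOpen Ω := xi_isOpen_pb r
  have hΩm : MeasurableSet Ω := hΩ.measurableSet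
  set φ : CE Unit → ℝ := fun w => xiW (xiS m w) with hφdef
  set E : CE Unit → ℝ := fun w => Real.exp (-φ w) with hEdef
  set K : CE Unit → Matrix (Fin d) (Fin d) ℂ := fun w => ((E w : ℝ) : ℂ) • H w with hKdef
  set q : CE Unit → ℝ := fun w => Real.exp (xiS m w) / (4 * m ^ 2 * ‖w‖ ^ 2) with hqdef
  set c : CE Unit → ℂ := fun w => dzb () (fun y => ((χ (xiS m y) : ℝ) : ℂ)) w with hcdef
  set Q : CE Unit → ℝ := fun z => qf (H z) (fun j => a j z) with hQdef
  have hne : ∀ z ∈ Ω, z ≠ 0 := fun z hz => hz.2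
  have hD : ∀ z ∈ Ω, 0 < 4 * m ^ 2 * ‖z‖ ^ 2 := fun z hz => by
    have := norm_pos_iff.2 (hne z hz)
    positivity
  have hE0 : ∀ z, 0 < E z := fun z => Real.exp_pos _
  have hsc : ContinuousOn (xiS m) Ω := xi_continuousOn_S m r
  have hφs : ContDiffOn ℝ ∞ φ Ω := xi_contDiffOn_comp_S m xi_contDiff_W r
  have hqfK : ∀ z (v : Fin d → ℂ), qf (K z) v = E z * qf (H z) v := fun z v => qf_smul _ _ _
  -- hypotheses of `xi_hormander`
  have hKs : ∀ j k, ContDiffOn ℝ ∞ (fun z => K z j k) Ω := by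
    intro j k
    have h1 : ContDiffOn ℝ ∞ (fun z => ((E z : ℝ) : ℂ)) Ω :=
      Complex.ofRealCLM.contDiff.comp_contDiffOn hφs.neg.exp
    simp only [hKdef, Matrix.smul_apply, smul_eq_mul]
    exact h1.mul (hs j k)
  have hKpd : ∀ z ∈ Ω, (K z).PosDef := fun z hz =>
    (hpd z hz).smul (Complex.zero_lt_real.2 (hE0 z))
  have hqc : ContinuousOn q Ω := by
    refine ContinuousOn.div (Real.continuous_exp.comp_continuousOn hsc) (by fun_prop) ?_
    exact fun z hz => (hD z hz).ne'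
  have hq0 : ∀ z ∈ Ω, 0 < q z := fun z hz => div_pos (Real.exp_pos _) (hD z hz)
  have hq : ∀ z ∈ Ω, ∀ v : Fin d → ℂ, q z * qf (K z) v ≤ qf (griffM K z fun _ => 1) v := by
    intro z hz v
    have hlevi : levi φ z () () = ((q z : ℝ) : ℂ) := by
      rw [hφdef, xi_levi_comp_S hmne xi_contDiff_W (hne z hz), xi_deriv_deriv_W]
    have hgr : griffM K z (fun _ => 1)
        = ((E z : ℝ) : ℂ) • (griffM H z (fun _ => 1) + ((q z : ℝ) : ℂ) • H z) := by
      rw [← hlevi]
      exact xi_griff_twist (fun j k => (hs j k).contDiffAt (hΩ.mem_nhds hz))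
        (hpd z hz).det_pos.ne' (hφs.contDiffAt (hΩ.mem_nhds hz))
    rw [hgr, hqfK, qf_smul, qf_add, qf_smul]
    have h1 := mul_nonneg (hE0 z).le (qf_nonneg (hcurv z hz) v)
    nlinarith [h1]
  have hcs : ContDiffOn ℝ ∞ c Ω :=
    contDiffOn_dzb hΩ (Complex.ofRealCLM.contDiff.comp_contDiffOn
      (xi_contDiffOn_comp_S m hχ.smooth r))
  have hb : ∀ j, ContDiffOn ℝ ∞ (fun z => a j z * c z) Ω := fun j =>
    (hol_contDiffOn_real hΩ (ha j)).mul hcs
  have hBeq : ∀ z ∈ Ω, qf (K z) (fun j => a j z * c z) / q z = xiG χ (xiS m z) * Q z := by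
    intro z hz
    have e1 : (fun j => a j z * c z) = c z • (fun j => a j z) := by
      funext j
      simp [mul_comm]
    have e2 : ‖c z‖ ^ 2 = (deriv χ (xiS m z)) ^ 2 / (4 * m ^ 2 * ‖z‖ ^ 2) :=
      xi_normSq_dzb_comp_S hmne hχ.smooth (hne z hz)
    have e3 : Real.exp (-(3 * xiS m z + Real.exp (xiS m z))) = E z / Real.exp (xiS m z) := by
      rw [hEdef, ← Real.exp_sub]
      congr 1
      simp only [hφdef, xiW]
      ring
    have hzn := (norm_pos_iff.2 (hne z hz)).ne'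
    have hexp := (Real.exp_pos (xiS m z)).ne'
    rw [e1, qf_smul_vec, hqfK, e2, xiG, e3]
    simp only [hqdef, hQdef]
    field_simp
  have hGm : AEStronglyMeasurable (fun z => xiG χ (xiS m z)) (volume.restrict Ω) :=
    ((xi_continuous_G hχ).comp_continuousOn hsc).aestronglyMeasurable hΩm
  have hGQ : IntegrableOn (fun z => xiG χ (xiS m z) * Q z) Ω :=
    Integrable.bdd_mul (c := C₀ ^ 2 * Real.exp 6) hint hGm
      (Filter.Eventually.of_forall fun z => by
        rw [Real.norm_eq_abs, abs_of_nonneg (xi_G_nonneg _ _)]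
        exact xi_G_le hχ _)
  have hB : IntegrableOn (fun z => qf (K z) (fun j => a j z * c z) / q z) Ω :=
    (integrableOn_congr_fun hBeq hΩm).2 hGQ
  obtain ⟨v, hv1, hv2, hv3, hv4⟩ := xi_hormander hΩ hKs hKpd hqc hq0 hq hb hB
  have hQ0 : ∀ z ∈ Ω, 0 ≤ Q z := fun z hz => qf_nonneg (hpd z hz).posSemidef _
  -- translation of the conclusion
  have hveq : ∀ z ∈ Ω, qf (H z) (fun j => v j z) * ‖z‖ ^ (-(2 / m))
      = Real.exp (Real.exp (xiS m z)) * qf (K z) (fun j => v j z) := by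
    intro z hz
    rw [← xi_exp_S hmne (hne z hz), hqfK, ← mul_assoc, hEdef, ← Real.exp_add, mul_comm]
    congr 2
    simp only [hφdef, xiW]
    ring
  have hS0 : ∀ z ∈ Ω, xiS m z ≤ 0 := by
    intro z hz
    rw [xi_S_le_iff hm0 (hne z hz), zero_mul, Real.exp_zero]
    have : ‖z‖ < r := by simpa using hz.1
    linarith
  have hee : ∀ z ∈ Ω, Real.exp (Real.exp (xiS m z)) ≤ Real.exp 1 := fun z hz =>
    Real.exp_le_exp.2 (Real.exp_le_one_iff.2 (hS0 z hz))
  have hem : AEStronglyMeasurable (fun z => Real.exp (Real.exp (xiS m z))) (volume.restrict Ω) :=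
    (Real.continuous_exp.comp_continuousOn
      (Real.continuous_exp.comp_continuousOn hsc)).aestronglyMeasurable hΩm
  have hvi : IntegrableOn (fun z => Real.exp (Real.exp (xiS m z)) * qf (K z) (fun j => v j z)) Ω :=
    Integrable.bdd_mul (c := Real.exp 1) hv3 hem
      ((ae_restrict_iff' hΩm).2 (Filter.Eventually.of_forall fun z hz => by
        rw [Real.norm_eq_abs, abs_of_nonneg (Real.exp_pos _).le]
        exact hee z hz))
  refine ⟨v, hv1, hv2, (integrableOn_congr_fun hveq hΩm).2 hvi, ?_⟩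
  have hB0 : MeasurableSet (Metric.closedBall (0 : CE Unit) (Real.exp (-m))) :=
    Metric.isClosed_closedBall.measurableSet
  have step1 : ∫ z in Ω, qf (H z) (fun j => v j z) * ‖z‖ ^ (-(2 / m))
      ≤ Real.exp 1 * ∫ z in Ω, qf (K z) (fun j => v j z) := by
    rw [setIntegral_congr_fun hΩm hveq, ← integral_const_mul]
    refine setIntegral_mono_on hvi (hv3.const_mul _) hΩm fun z hz => ?_
    exact mul_le_mul_of_nonneg_right (hee z hz) (qf_nonneg (hKpd z hz).posSemidef _)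
  have step2 : ∫ z in Ω, qf (K z) (fun j => a j z * c z) / q z
      ≤ C₀ ^ 2 * Real.exp 6 * ∫ z in Ω ∩ Metric.closedBall 0 (Real.exp (-m)), Q z := by
    rw [setIntegral_congr_fun hΩm hBeq, ← integral_const_mul, ← setIntegral_indicator hB0]
    refine setIntegral_mono_on hGQ ((hint.const_mul _).indicator hB0) hΩm fun z hz => ?_
    by_cases hzB : z ∈ Metric.closedBall (0 : CE Unit) (Real.exp (-m))
    · rw [Set.indicator_of_mem hzB]
      exact mul_le_mul_of_nonneg_right (xi_G_le hχ _) (hQ0 z hz)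
    · rw [Set.indicator_of_notMem hzB]
      have h1 : -1 ≤ xiS m z := by
        by_contra hcon
        push Not at hcon
        apply hzB
        have := (xi_S_le_iff hm0 (hne z hz) (-1)).1 hcon.le
        rw [Metric.mem_closedBall, dist_zero_right]
        simpa using this
      rw [xi_G_zero hχ (Or.inr h1), zero_mul]
  calc ∫ z in Ω, qf (H z) (fun j => v j z) * ‖z‖ ^ (-(2 / m))
      ≤ Real.exp 1 * ∫ z in Ω, qf (K z) (fun j => v j z) := step1
    _ ≤ Real.exp 1 * (C₀ ^ 2 * Real.exp 6 * ∫ z in Ω ∩ Metric.closedBall 0 (Real.exp (-m)), Q z) :=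
        mul_le_mul_of_nonneg_left (hv4.trans step2) (Real.exp_pos _).le
    _ = C₀ ^ 2 * Real.exp 7 * ∫ z in Ω ∩ Metric.closedBall 0 (Real.exp (-m)), Q z := by
        have : Real.exp 7 = Real.exp 1 * Real.exp 6 := by
          rw [← Real.exp_add]
          norm_num
        rw [this]
        ring

/-- **H4** on `CE Unit`. -/
theorem xi_approx_CE : ∃ C₁ : ℝ, 0 < C₁ ∧ ∀ {d : ℕ} {r : ℝ}, 0 < r → r ≤ 1 →
    ∀ {H : CE Unit → Matrix (Fin d) (Fin d) ℂ},
    (∀ j k, ContDiffOn ℝ ∞ (fun z => H z j k) (Metric.ball 0 r \ {0})) →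
    (∀ z ∈ Metric.ball (0 : CE Unit) r \ {0}, (H z).PosDef) →
    (∀ z ∈ Metric.ball (0 : CE Unit) r \ {0}, (griffM H z fun _ => 1).PosSemidef) →
    ∀ {a : Fin d → CE Unit → ℂ}, (∀ j, DifferentiableOn ℂ (a j) (Metric.ball 0 r \ {0})) →
    IntegrableOn (fun z => qf (H z) (fun j => a j z)) (Metric.ball 0 r \ {0}) →
    ∀ {m : ℝ}, 1 ≤ m →
    ∃ a' : Fin d → CE Unit → ℂ, (∀ j, DifferentiableOn ℂ (a' j) (Metric.ball 0 r \ {0})) ∧
      IntegrableOn (fun z => qf (H z) (fun j => a' j z) * ‖z‖ ^ (-(2 / m)))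
        (Metric.ball 0 r \ {0}) ∧
      IntegrableOn (fun z => qf (H z) (fun j => a j z - a' j z)) (Metric.ball 0 r \ {0}) ∧
      ∫ z in Metric.ball (0 : CE Unit) r \ {0}, qf (H z) (fun j => a j z - a' j z)
        ≤ C₁ * ∫ z in (Metric.ball (0 : CE Unit) r \ {0}) ∩ Metric.closedBall 0 (Real.exp (-m)),
            qf (H z) (fun j => a j z) := by
  obtain ⟨χ, C₀, hχ⟩ := xi_cutoff
  refine ⟨2 + 2 * (C₀ ^ 2 * Real.exp 7), by positivity, ?_⟩
  intro d r hr hr1 H hs hpd hcurv a ha hint m hm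
  obtain ⟨v, hv1, hv2, hv3, hv4⟩ := xi_solve hχ hr hr1 hs hpd hcurv ha hint hm
  have hm0 : 0 < m := lt_of_lt_of_le one_pos hm
  have hmne : m ≠ 0 := hm0.ne'
  set Ω : Set (CE Unit) := Metric.ball (0 : CE Unit) r \ {0} with hΩdef
  have hΩ : IsOpen Ω := xi_isOpen_pb r
  have hΩm : MeasurableSet Ω := hΩ.measurableSet
  set Q : CE Unit → ℝ := fun z => qf (H z) (fun j => a j z) with hQdef
  set ρ : CE Unit → ℝ := fun z => ‖z‖ ^ (-(2 / m)) with hρdef
  set V : CE Unit → ℝ := fun z => qf (H z) (fun j => v j z) * ρ z with hVdef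
  set X : CE Unit → ℂ := fun z => ((χ (xiS m z) : ℝ) : ℂ) with hXdef
  have hne : ∀ z ∈ Ω, z ≠ 0 := fun z hz => hz.2
  have hXs : ContDiffOn ℝ ∞ X Ω :=
    Complex.ofRealCLM.contDiff.comp_contDiffOn (xi_contDiffOn_comp_S m hχ.smooth r)
  have has : ∀ j, ContDiffOn ℝ ∞ (a j) Ω := fun j => hol_contDiffOn_real hΩ (ha j)
  have ha's : ∀ j, ContDiffOn ℝ ∞ (fun z => X z * a j z - v j z) Ω := fun j =>
    (hXs.mul (has j)).sub (hv1 j)
  have hρc : ContinuousOn ρ Ω :=
    continuous_norm.continuousOn.rpow_const fun z hz => Or.inl (norm_ne_zero_iff.2 (hne z hz))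
  have hρ0 : ∀ z, 0 ≤ ρ z := fun z => Real.rpow_nonneg (norm_nonneg z) _
  have hρe : ∀ z ∈ Ω, ρ z = Real.exp (-(2 * xiS m z)) := fun z hz =>
    (xi_exp_S hmne (hne z hz)).symm
  have hS0 : ∀ z ∈ Ω, xiS m z ≤ 0 := by
    intro z hz
    rw [xi_S_le_iff hm0 (hne z hz), zero_mul, Real.exp_zero]
    have : ‖z‖ < r := by simpa using hz.1
    linarith
  have hρ1 : ∀ z ∈ Ω, 1 ≤ ρ z := fun z hz => by
    rw [hρe z hz]
    exact Real.one_le_exp (by linarith [hS0 z hz])
  have hQ0 : ∀ z ∈ Ω, 0 ≤ Q z := fun z hz => qf_nonneg (hpd z hz).posSemidef _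
  have hv0 : ∀ z ∈ Ω, 0 ≤ qf (H z) (fun j => v j z) := fun z hz =>
    qf_nonneg (hpd z hz).posSemidef _
  have hB0 : MeasurableSet (Metric.closedBall (0 : CE Unit) (Real.exp (-m))) :=
    Metric.isClosed_closedBall.measurableSet
  refine ⟨fun j z => X z * a j z - v j z, ?_, ?_, ?_, ?_⟩
  · -- holomorphic
    intro j
    refine differentiableOn_complex_of_dzb hΩ ((ha's j).differentiableOn (by simp)) ?_
    intro z hz u
    obtain rfl : u = () := rfl
    have hn := hΩ.mem_nhds hz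
    have d1 : DifferentiableAt ℝ X z := (hXs.contDiffAt hn).differentiableAt (by simp)
    have d2 : DifferentiableAt ℝ (a j) z := ((has j).contDiffAt hn).differentiableAt (by simp)
    have d3 : DifferentiableAt ℝ (v j) z := ((hv1 j).contDiffAt hn).differentiableAt (by simp)
    have d4 : DifferentiableAt ℝ (fun w => X w * a j w) z := d1.mul d2
    change dzb () (fun w => (fun w => X w * a j w) w - v j w) z = 0
    rw [dzb_sub d4 d3, dzb_mul d1 d2, hv2 z hz j,
      dzb_of_differentiableAt ((ha j).differentiableAt hn)]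
    ring
  · -- extra integrability
    have hdom : IntegrableOn (fun z => 2 * (Real.exp 4 * Q z) + 2 * V z) Ω :=
      ((hint.const_mul _).const_mul 2).add (hv3.const_mul 2)
    refine Integrable.mono' hdom
      (((contDiffOn_qf hs ha's).continuousOn.mul hρc).aestronglyMeasurable hΩm) ?_
    refine (ae_restrict_iff' hΩm).2 (Eventually.of_forall fun z hz => ?_)
    have hP := (hpd z hz).posSemidef
    rw [Real.norm_of_nonneg (mul_nonneg (qf_nonneg hP _) (hρ0 z))]
    have e1 : (fun j => X z * a j z - v j z) = X z • (fun j => a j z) + -(fun j => v j z) := by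
      funext j
      simp [sub_eq_add_neg]
    have h1 := xi_qf_add_le hP (X z • (fun j => a j z)) (-(fun j => v j z))
    rw [qf_smul_vec, qf_neg_vec] at h1
    have hX : ‖X z‖ ^ 2 * ρ z ≤ Real.exp 4 := by
      by_cases h2 : xiS m z ≤ -2
      · simp only [hXdef, hχ.zero _ h2]
        simp [(Real.exp_pos 4).le]
      · push Not at h2
        have h3 : ‖X z‖ ^ 2 ≤ 1 := by
          simp only [hXdef, Complex.norm_real, Real.norm_eq_abs, sq_abs]
          exact pow_le_one₀ (hχ.nonneg _) (hχ.le_one _)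
        have h4 : ρ z ≤ Real.exp 4 := by
          rw [hρe z hz]
          exact Real.exp_le_exp.2 (by linarith)
        calc ‖X z‖ ^ 2 * ρ z ≤ 1 * Real.exp 4 := mul_le_mul h3 h4 (hρ0 z) zero_le_one
          _ = Real.exp 4 := one_mul _
    rw [e1]
    have h5 := mul_le_mul_of_nonneg_right h1 (hρ0 z)
    have h6 := mul_le_mul_of_nonneg_right hX (hQ0 z hz)
    simp only [hVdef]
    nlinarith [h5, h6]
  all_goals
    have hpt : ∀ z ∈ Ω, qf (H z) (fun j => a j z - (X z * a j z - v j z))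
        ≤ 2 * (Metric.closedBall (0 : CE Unit) (Real.exp (-m))).indicator Q z + 2 * V z := by
      intro z hz
      have hP := (hpd z hz).posSemidef
      have e1 : (fun j => a j z - (X z * a j z - v j z))
          = (1 - X z) • (fun j => a j z) + (fun j => v j z) := by
        funext j
        simp only [Pi.add_apply, Pi.smul_apply, smul_eq_mul]
        ring
      have h1 := xi_qf_add_le hP ((1 - X z) • (fun j => a j z)) (fun j => v j z)
      rw [qf_smul_vec] at h1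
      have h2 : qf (H z) (fun j => v j z) ≤ V z := by
        simp only [hVdef]
        exact le_mul_of_one_le_right (hv0 z hz) (hρ1 z hz)
      have h3 : ‖1 - X z‖ ^ 2 * Q z
          ≤ (Metric.closedBall (0 : CE Unit) (Real.exp (-m))).indicator Q z := by
        by_cases hzB : z ∈ Metric.closedBall (0 : CE Unit) (Real.exp (-m))
        · rw [Set.indicator_of_mem hzB]
          have h4 : ‖1 - X z‖ ^ 2 ≤ 1 := by
            have : 1 - X z = ((1 - χ (xiS m z) : ℝ) : ℂ) := by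
              simp only [hXdef]
              push_cast
              ring
            rw [this, Complex.norm_real, Real.norm_eq_abs, sq_abs]
            exact pow_le_one₀ (by linarith [hχ.le_one (xiS m z)]) (by linarith [hχ.nonneg (xiS m z)])
          calc ‖1 - X z‖ ^ 2 * Q z ≤ 1 * Q z := mul_le_mul_of_nonneg_right h4 (hQ0 z hz)
            _ = Q z := one_mul _
        · rw [Set.indicator_of_notMem hzB]
          have h4 : -1 ≤ xiS m z := by
            by_contra hcon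
            push Not at hcon
            apply hzB
            have := (xi_S_le_iff hm0 (hne z hz) (-1)).1 hcon.le
            rw [Metric.mem_closedBall, dist_zero_right]
            simpa using this
          simp only [hXdef, hχ.one _ h4]
          simp
      rw [e1]
      linarith
    have hdom : IntegrableOn (fun z =>
        2 * (Metric.closedBall (0 : CE Unit) (Real.exp (-m))).indicator Q z + 2 * V z) Ω :=
      ((hint.indicator hB0).const_mul 2).add (hv3.const_mul 2)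
    have hI : IntegrableOn (fun z => qf (H z) (fun j => a j z - (X z * a j z - v j z))) Ω := by
      refine Integrable.mono' hdom
        ((contDiffOn_qf hs fun j => (has j).sub (ha's j)).continuousOn.aestronglyMeasurable hΩm) ?_
      refine (ae_restrict_iff' hΩm).2 (Eventually.of_forall fun z hz => ?_)
      rw [Real.norm_of_nonneg (qf_nonneg (hpd z hz).posSemidef _)]
      exact hpt z hz
  · exact hI
  · calc ∫ z in Ω, qf (H z) (fun j => a j z - (X z * a j z - v j z))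
        ≤ ∫ z in Ω, (2 * (Metric.closedBall (0 : CE Unit) (Real.exp (-m))).indicator Q z
            + 2 * V z) := setIntegral_mono_on hI hdom hΩm hpt
      _ = 2 * (∫ z in Ω ∩ Metric.closedBall 0 (Real.exp (-m)), Q z) + 2 * ∫ z in Ω, V z := by
          rw [integral_add ((hint.indicator hB0).const_mul 2) (hv3.const_mul 2),
            integral_const_mul, integral_const_mul, setIntegral_indicator hB0]
      _ ≤ 2 * (∫ z in Ω ∩ Metric.closedBall 0 (Real.exp (-m)), Q z)
            + 2 * (C₀ ^ 2 * Real.exp 7 * ∫ z in Ω ∩ Metric.closedBall 0 (Real.exp (-m)), Q z) := by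
          linarith [hv4]
      _ = (2 + 2 * (C₀ ^ 2 * Real.exp 7))
            * ∫ z in Ω ∩ Metric.closedBall 0 (Real.exp (-m)), Q z := by ring

/-! ### S4-X-C1: transport to `ℂ` -/

theorem xi_c1_apply (z : ℂ) : c1 z () = z := rfl

theorem xi_c1_eta (w : CE Unit) : c1 (w ()) = w := by
  ext i
  cases i
  rfl

theorem xi_c1_norm (z : ℂ) : ‖c1 z‖ = ‖z‖ := by
  rw [EuclideanSpace.norm_eq]
  simp [c1]

/-- `c1` as a real linear isometry equivalence. -/
noncomputable def xi_c1L : ℂ ≃ₗᵢ[ℝ] CE Unit where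
  toFun := c1
  invFun := fun w => w ()
  map_add' := fun x y => by
    ext i
    cases i
    rfl
  map_smul' := fun t x => by
    ext i
    cases i
    rfl
  left_inv := fun z => rfl
  right_inv := fun w => xi_c1_eta w
  norm_map' := fun z => xi_c1_norm z

/-- `c1` as a complex continuous linear map. -/
noncomputable def xi_c1C : ℂ →L[ℂ] CE Unit :=
  LinearMap.mkContinuous
    { toFun := c1
      map_add' := fun x y => by
        ext i
        cases i
        rfl
      map_smul' := fun t x => by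
        ext i
        cases i
        rfl } 1 (fun z => by
      show ‖c1 z‖ ≤ 1 * ‖z‖
      rw [xi_c1_norm, one_mul])

theorem xi_c1_measurePreserving : MeasurePreserving c1 volume volume := by
  exact xi_c1L.measurePreserving

theorem xi_c1_measurableEmbedding : MeasurableEmbedding c1 := by
  exact xi_c1L.toHomeomorph.measurableEmbedding

theorem xi_c1_preimage (r : ℝ) : c1 ⁻¹' (Metric.ball (0 : CE Unit) r \ {0}) = xiPd r := by
  ext z
  simp only [Set.mem_preimage, Set.mem_sdiff, mem_ball_zero_iff, Set.mem_singleton_iff, xiPd, xi_c1_norm]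
  have : c1 z = 0 ↔ z = 0 := by
    rw [← norm_eq_zero, xi_c1_norm, norm_eq_zero]
  rw [this]

theorem xi_c1_preimage' (r ρ : ℝ) :
    c1 ⁻¹' ((Metric.ball (0 : CE Unit) r \ {0}) ∩ Metric.closedBall 0 ρ) = xiPd r ∩ Metric.closedBall 0 ρ := by
  rw [Set.preimage_inter, xi_c1_preimage]
  congr 1
  ext z
  simp [xi_c1_norm]

theorem xi_c1_mem {r : ℝ} {w : CE Unit} (hw : w ∈ Metric.ball (0 : CE Unit) r \ {0}) : w () ∈ xiPd r := by
  rw [← xi_c1_preimage, Set.mem_preimage, xi_c1_eta]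
  exact hw

theorem xi_c1_mem' {r : ℝ} {z : ℂ} (hz : z ∈ xiPd r) : c1 z ∈ Metric.ball (0 : CE Unit) r \ {0} := by
  rw [← xi_c1_preimage] at hz
  exact hz

/-- **H4** on `ℂ`. -/
theorem xi_approx : ∃ C₁ : ℝ, 0 < C₁ ∧ ∀ {d : ℕ} {r : ℝ}, 0 < r → r ≤ 1 →
    ∀ {H : ℂ → Matrix (Fin d) (Fin d) ℂ},
    (∀ j k, ContDiffOn ℝ ∞ (fun z => H z j k) (xiPd r)) →
    (∀ z ∈ xiPd r, (H z).PosDef) → (∀ z ∈ xiPd r, (curv1 H z).PosSemidef) →
    ∀ {a : ℂ → Fin d → ℂ}, DifferentiableOn ℂ a (xiPd r) →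
    IntegrableOn (fun z => qf (H z) (a z)) (xiPd r) →
    ∀ {m : ℝ}, 1 ≤ m →
    ∃ a' : ℂ → Fin d → ℂ, DifferentiableOn ℂ a' (xiPd r) ∧ XiInt H r (2 / m) a' ∧
      IntegrableOn (fun z => qf (H z) (a z - a' z)) (xiPd r) ∧
      ∫ z in xiPd r, qf (H z) (a z - a' z)
        ≤ C₁ * ∫ z in xiPd r ∩ Metric.closedBall 0 (Real.exp (-m)), qf (H z) (a z) := by
  obtain ⟨C₁, hC₁, key⟩ := xi_approx_CE
  refine ⟨C₁, hC₁, ?_⟩
  intro d r hr hr1 H hs hpd hcurv a ha hint m hm
  have hproj : ContDiff ℝ ∞ (fun w : CE Unit => w ()) := xi_c1L.symm.contDiff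
  have hprojC : Differentiable ℂ (fun w : CE Unit => w ()) :=
    (EuclideanSpace.proj (𝕜 := ℂ) ()).differentiable
  have hmaps : Set.MapsTo (fun w : CE Unit => w ()) (Metric.ball (0 : CE Unit) r \ {0}) (xiPd r) :=
    fun w hw => xi_c1_mem hw
  have hMP := xi_c1_measurePreserving
  have hME := xi_c1_measurableEmbedding
  obtain ⟨a', ha', hi1, hi2, hle⟩ := key hr hr1 (H := fun w => H (w ()))
    (fun j k => (hs j k).comp hproj.contDiffOn hmaps)
    (fun w hw => hpd _ (xi_c1_mem hw))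
    (fun w hw => by
      have := hcurv _ (xi_c1_mem hw)
      unfold curv1 at this
      rwa [xi_c1_eta] at this)
    (a := fun j w => a (w ()) j)
    (fun j => ((differentiableOn_pi.1 ha j).comp hprojC.differentiableOn hmaps))
    (by
      rw [← hMP.integrableOn_comp_preimage hME, xi_c1_preimage]
      exact hint)
    hm
  refine ⟨fun z j => a' j (c1 z), ?_, ?_, ?_, ?_⟩
  · rw [differentiableOn_pi]
    intro j
    exact (ha' j).comp xi_c1C.differentiable.differentiableOn (fun z hz => xi_c1_mem' hz)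
  · unfold XiInt
    rw [← hMP.integrableOn_comp_preimage hME, xi_c1_preimage] at hi1
    refine hi1.congr_fun (fun z _ => ?_) (xiPd_measurableSet r)
    simp only [Function.comp, xi_c1_norm, xi_c1_apply]
  · rw [← hMP.integrableOn_comp_preimage hME, xi_c1_preimage] at hi2
    refine hi2.congr_fun (fun z _ => ?_) (xiPd_measurableSet r)
    simp only [Function.comp, xi_c1_apply]
    rfl
  · rw [← hMP.setIntegral_preimage_emb hME, ← hMP.setIntegral_preimage_emb hME, xi_c1_preimage,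
      xi_c1_preimage'] at hle
    exact hle

/-! ### S4-X-C2 -/

theorem xi_tail {r : ℝ} {f : ℂ → ℝ} (hf : IntegrableOn f (xiPd r)) :
    Tendsto (fun n : ℕ => ∫ z in xiPd r ∩ Metric.closedBall 0 (Real.exp (-((n : ℝ) + 1))), f z) atTop
      (𝓝 0) := by
  have hm : ∀ n : ℕ, MeasurableSet (xiPd r ∩ Metric.closedBall 0 (Real.exp (-((n : ℝ) + 1)))) := by
    intro n
    exact (measurableSet_ball.diff (measurableSet_singleton 0)).inter measurableSet_closedBall
  have hanti : Antitone fun n : ℕ => xiPd r ∩ Metric.closedBall (0 : ℂ) (Real.exp (-((n : ℝ) + 1))) := by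
    intro a b hab
    apply Set.inter_subset_inter_right
    apply Metric.closedBall_subset_closedBall
    apply Real.exp_le_exp.2
    have : (a : ℝ) ≤ b := by exact_mod_cast hab
    linarith
  have h := tendsto_setIntegral_of_antitone (f := f) (μ := volume) hm hanti
    ⟨0, hf.mono_set Set.inter_subset_left⟩
  have hempty : ⋂ n : ℕ, xiPd r ∩ Metric.closedBall (0 : ℂ) (Real.exp (-((n : ℝ) + 1))) = ∅ := by
    rw [Set.eq_empty_iff_forall_notMem]
    intro z hz
    rw [Set.mem_iInter] at hz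
    have hz0 : z ≠ 0 := fun h0 => (hz 0).1.2 (by simp [h0])
    have hpos : 0 < ‖z‖ := norm_pos_iff.2 hz0
    have hlim : Tendsto (fun n : ℕ => Real.exp (-((n : ℝ) + 1))) atTop (𝓝 0) := by
      apply Real.tendsto_exp_atBot.comp
      apply tendsto_neg_atTop_atBot.comp
      exact tendsto_atTop_add_const_right _ _ tendsto_natCast_atTop_atTop
    have hle : ∀ n : ℕ, ‖z‖ ≤ Real.exp (-((n : ℝ) + 1)) := fun n => by
      have := (hz n).2
      simpa using this
    have := ge_of_tendsto' hlim hle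
    linarith
  rw [hempty] at h
  simpa using h

end Claimed.Agent.R316.S4
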