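import Claimed.Agent.R316.S7.H1.Griff
import Claimed.Agent.R316.B6E.Main

/-!
# Row 316, Section 4, BP-S4-X (sub-captain helper199): Hörmander's `L²` theorem in dimension one for a MATRIX weight (H1, H2, H3 of `S4/Extra.lean`)

FRAMEWORK-FREE: Mathlib + Wirtinger calculus `CW/*` (`dz`, `dzb`, `dzM`, `dzbM`, `qf`; all sorry-free) + test functions `B6E/Wirt.lean` (`IsTest`, `integral_dz_mul`, `integral_dzb_mul`, `IsTest.mul_contDiffOn`, `IsTest.dz`, `IsTest.conj`, …) + `B6E.hilbert_riesz_range` + `B6E.weak_dbar_regular`.  No paper.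
Base `CE Unit` (`= ℂ`), `∂ = dz ()`, `∂̄ = dzb ()`.  `K : CE Unit → Matrix (Fin d) (Fin d) ℂ` smooth positive definite on the open set `Ω` (ANY open set: no completeness, no boundary condition; in dimension one every `(0,1)`-form is closed).
Vector functions are COMPONENT FIRST: `α : Fin d → CE Unit → ℂ`.   `griffM K z (fun _ => 1) = - ∂̄∂K + ∂̄K K⁻¹ ∂K` (sums over `Unit`: `Fintype.sum_unique`/`Finset.univ_unique, Finset.sum_singleton`; `one_mul`, `star_one`, `one_smul`).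
RULES FOR PROVERS: replace the `sorry` of YOUR theorems IN PLACE, statements verbatim, auxiliary lemmas directly above with prefix `xi_`; several owners per file: touch only your theorems.  Defects of statements: msg helper199 at once.

## Leaves and routes
* **S4-X-A1** `xi_scalar_ibp`.  `k g` and `∂̄k · g`, `k · ∂̄g` are test functions (`IsTest.mul_contDiffOn`, `contDiffOn_dzb`, `IsTest.dzb`).  `∫ ∂̄F ∂(kg) = - ∫ F ∂̄∂(kg)` (`integral_dzb_mul`), `∂̄∂(kg) = ∂∂̄(kg)` (`dz_dzb_comm`, `kg` is globally smooth), `∂̄(kg) = ∂̄k g + k ∂̄g` ON `Ω` and both sides vanish off `tsupport g`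
  (so the functions agree everywhere, or use `dz_congr` at points of `Ω` and `F = 0` off `Ω`), `∂(u + v) = ∂u + ∂v`, `∫ F ∂(k ∂̄g) = - ∫ ∂F (k ∂̄g)` (`integral_dz_mul`).
* **S4-X-A2** `xi_bk_pointwise` (pure calculus at one point `z ∈ Ω`).  `∂(∑_k K_{jk} α_k) = ∑_k (∂K_{jk} α_k + K_{jk} ∂α_k) = (K_z α + K α_z)_j` (`dz_sum`, `dz_mul`).  With `u = K_z α`, `w = α_z`:  `qf K⁻¹ (u + K w) = qf K⁻¹ u + qf K w + 2 Re (wᴴ u)` (`qf_add_vec`, `K⁻¹ K = 1`, `qf_inv_mulVec`-type algebra, `K⁻¹` Hermitian),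
  `qf K⁻¹ (K_z α) = αᴴ K_z̄ K⁻¹ K_z α` (`(K_z)ᴴ = K_z̄`: `conjTranspose_dzM_of_isHermitian`), so `LHS = Re [ αᴴ K_{z z̄} α + wᴴ K w + 2 Re wᴴ K_z α ]`.  RHS: `∂̄(conj α_j) = conj (∂α_j)` (`dzb_conj`), `∂(K_{jk} α_k)` as above, `∂(∂̄K_{jk} α_k) = ∂∂̄K_{jk} α_k + ∂̄K_{jk} ∂α_k`, `∂∂̄ = ∂̄∂` (`dz_dzb_comm`), and
  `Re ∑ conj α_j ∂̄K_{jk} ∂α_k = Re ∑ conj(∂α_j) ∂K_{jk} α_k` (conjugate + swap `j k`, `conj (∂̄K_{jk}) = ∂K_{kj}`).
* **S4-X-A3** `xi_bk`, `xi_bk'`.  `xi_bk`: all integrands are continuous with compact support inside `Ω` (zero off `⋃ tsupport α_j`): integrable (`B6E.integrable_of_continuousOn_of_compact`).  `∫ RHS of xi_bk_pointwise = Re ∑_{jk} ∫ ∂(conj α_j) K_{jk} ∂̄α_k` (`xi_scalar_ibp` with `F = conj α_j`, `g = α_k`, `k = K_{jk}`) `= ∫ qf K (∂̄α) ≥ 0` (`dz_conj`, `qf_eq_sum`, `qf_nonneg`).  Off `Ω` both sides of the pointwise identity are `0`.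
  `xi_bk'`: `α_j = ∑_k (K⁻¹)_{jk} β_k` is a test vector (`contDiffOn_matInv_of_posDef`), `∑_k K_{jk} α_k = β_j` EVERYWHERE (on `Ω`: `K K⁻¹ = 1`; off `Ω` both vanish); `q · qf K⁻¹ β = q · qf K α ≤ qf (griffM K) α` (`qf_inv_mulVec`).
* **S4-X-A4** `xi_dual`.  `β = conj Φ`: `∂β_j = conj (∂̄Φ_j)` (`dz_conj`), `qf (K⁻¹)ᵀ (∂̄Φ) = qf K⁻¹ (∂β)` (`qf_transpose`).  Pointwise on `Ω`: `|∑ b_j Φ_j|² = |βᴴ b|² = |(K⁻¹β)ᴴ K b|² ≤ qf K⁻¹ β · qf K b` (`qf_cauchy_schwarz`, `qf_inv_mulVec`), so `|∑ b_j Φ_j| ≤ √(q qf K⁻¹ β) √(qf K b / q)`;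
  Cauchy-Schwarz for integrals over `Ω` (`integral_mul_le_Lp_mul_Lq_of_nonneg` with `p = q = 2`, or `(∫ fg)² ≤ ∫ f² ∫ g²` from the discriminant of `∫ (f + t g)² ≥ 0`), then `xi_bk'`.
* **S4-X-A5** `xi_sqrt`.  `M z = CFC.sqrt (P z)` (`open scoped MatrixOrder Matrix.Norms.L2Operator`; `CFC.sqrt_mul_sqrt_self`, `CFC.sqrt_nonneg`, `Matrix.nonneg_iff_posSemidef`); continuity: `ContinuousOn.cfc_nnreal…`/`continuousOn_cfcₙ_nnreal` (`Mathlib/Analysis/CStarAlgebra/ContinuousFunctionalCalculus/Continuity.lean`) locally with a compact spectrum bound,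
  or BY HAND: `M` is locally bounded (`∑ |M_{jk}|² = tr M² = tr P`), every cluster value `M'` of `M` at `z₀` is positive semidefinite with `M'² = P z₀`, and the positive square root is unique (`CFC.sqrt_unique`/`CFC.sqrt_eq_iff`).
* **S4-X-A6** `xi_riesz`.  `P z = ((K z)⁻¹)ᵀ` (positive definite, continuous), `M` from `xi_sqrt`.  `𝓛 = Lp (CE (Fin d)) 2 (volume.restrict Ω)`, `D` = the submodule of test vectors, `A Φ = [z ↦ M z *ᵥ ∂̄Φ z]` (continuous with compact support in `Ω`), `ℓ Φ = ∫ ∑ b_j Φ_j`; `‖A Φ‖² = ∫ qf P (∂̄Φ)` (`Mᴴ M = P`);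
  `B6E.hilbert_riesz_range` ⟹ `ũ`, `‖ũ‖² ≤ C`, `ℓ Φ = ⟪ũ, A Φ⟫ = ∫_Ω ∑_j (∑_i conj ũ_i M_{ij}) ∂̄Φ_j`.  `v_j = - ∑_i conj (ũ_i) M_{ij}`.  `qf K v = ‖ũ‖²` pointwise (`M Kᵀ M = 1` because `M² = (Kᵀ)⁻¹`).  `L²` on compact sets: `M` is bounded there.  `WeakDbar`: `Φ = w e_j`.  Model: the plan of `B4.exists_weak_solutionF` (`B4/FrameInt.lean`).
* `xi_hormander`: glue (helper199).
-/

set_option autoImplicit false
set_option linter.unusedSectionVars false
open scoped ContDiff ComplexOrder ComplexConjugate Topology Matrix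
open MeasureTheory

namespace Claimed.Agent.R316.S4

open Claimed.Agent.R316
open Claimed.Agent.R316.B6E (IsTest WeakDbar)

variable {d : ℕ} {Ω : Set (CE Unit)} {K : CE Unit → Matrix (Fin d) (Fin d) ℂ} {q : CE Unit → ℝ}

/-- **S4-X-A1**: the scalar identity behind Bochner-Kodaira in dimension one. -/
theorem xi_scalar_ibp (hΩ : IsOpen Ω) {F g k : CE Unit → ℂ} (hF : IsTest Ω F) (hg : IsTest Ω g)
    (hk : ContDiffOn ℝ ∞ k Ω) :
    (∫ z, dzb () F z * dz () (fun w => k w * g w) z)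
        + ∫ z, F z * dz () (fun w => dzb () k w * g w) z
      = ∫ z, dz () F z * (k z * dzb () g z) := by
  have hgk : IsTest Ω (fun w => k w * g w) := by
    have := hg.mul_contDiffOn hΩ hk
    simpa only [mul_comm] using this
  have hu : IsTest Ω (fun w => dzb () k w * g w) := by
    have := hg.mul_contDiffOn hΩ (contDiffOn_dzb (j := ()) hΩ hk)
    simpa only [mul_comm] using this
  have hv : IsTest Ω (fun w => k w * dzb () g w) := by
    have := (hg.dzb (j := ())).mul_contDiffOn hΩ hk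
    simpa only [mul_comm] using this
  have e1 : dzb () (fun w => k w * g w) = fun w => dzb () k w * g w + k w * dzb () g w := by
    funext z
    have h1 := B6E.dzb_mul_of_test (j := ()) hΩ hg hk z
    have e : (fun w => k w * g w) = fun y => g y * k y := by funext y; ring
    rw [e, h1]; ring
  have s1 := B6E.integral_dzb_mul (j := ()) hΩ hF (a := dz () (fun w => k w * g w))
    (hgk.dz (j := ())).smooth.contDiffOn
  have e2 : ∀ z, dzb () (dz () (fun w => k w * g w)) z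
      = dz () (fun w => dzb () k w * g w) z + dz () (fun w => k w * dzb () g w) z := by
    intro z
    rw [← dz_dzb_comm (hgk.smooth.contDiffAt.of_le (WithTop.coe_le_coe.2 le_top)), e1]
    exact dz_add (hu.differentiable z) (hv.differentiable z)
  have s2 := B6E.integral_dz_mul (j := ()) hΩ hF (a := fun w => k w * dzb () g w) hv.smooth.contDiffOn
  rw [s1, s2]
  simp only [e2, mul_add]
  rw [integral_add (hF.mul (hu.dz (j := ()))).integrable (hF.mul (hv.dz (j := ()))).integrable]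
  ring

theorem xi_star_swap (M : Matrix (Fin d) (Fin d) ℂ) (a b : Fin d → ℂ) :
    star a ⬝ᵥ (Mᴴ *ᵥ b) = star (star b ⬝ᵥ (M *ᵥ a)) := by
  rw [Matrix.star_dotProduct, Matrix.star_mulVec, Matrix.conjTranspose_conjTranspose,
    ← Matrix.dotProduct_mulVec]

theorem xi_alg {K₀ Kz Kzb Kzzb : Matrix (Fin d) (Fin d) ℂ} (hK : K₀.PosDef) (hH : Kzᴴ = Kzb)
    (a w : Fin d → ℂ) :
    qf K₀⁻¹ (Kz *ᵥ a + K₀ *ᵥ w) - qf (-Kzzb + Kzb * K₀⁻¹ * Kz) a
      = (star w ⬝ᵥ (Kz *ᵥ a) + star w ⬝ᵥ (K₀ *ᵥ w) + star a ⬝ᵥ (Kzzb *ᵥ a)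
          + star a ⬝ᵥ (Kzb *ᵥ w)).re := by
  have hu : IsUnit K₀.det := isUnit_iff_ne_zero.2 hK.det_pos.ne'
  have e1 : qf K₀⁻¹ (Kz *ᵥ a) = qf (Kzb * K₀⁻¹ * Kz) a := by rw [← hH, qf_conj]
  have e2 : qf K₀⁻¹ (K₀ *ᵥ w) = qf K₀ w := by
    have h := qf_inv_mulVec hK (K₀ *ᵥ w)
    rw [Matrix.mulVec_mulVec, Matrix.nonsing_inv_mul K₀ hu, Matrix.one_mulVec] at h
    exact h.symm
  have e3 : K₀⁻¹ *ᵥ (K₀ *ᵥ w) = w := by
    rw [Matrix.mulVec_mulVec, Matrix.nonsing_inv_mul K₀ hu, Matrix.one_mulVec]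
  have e4 : star (Kz *ᵥ a) ⬝ᵥ w = star a ⬝ᵥ (Kzb *ᵥ w) := by
    rw [Matrix.star_mulVec, hH, ← Matrix.dotProduct_mulVec]
  have e5 : (star w ⬝ᵥ (Kz *ᵥ a)).re = (star a ⬝ᵥ (Kzb *ᵥ w)).re := by
    rw [← hH, xi_star_swap]
    exact (Complex.conj_re _).symm
  rw [qf_add_vec _ _ hK.inv.isHermitian, e1, e2, e3, e4, qf_add, qf_neg, qf_def K₀, qf_def Kzzb]
  simp only [Complex.add_re]
  rw [e5]
  ring

/-- **S4-X-A2**: `|K⁻¹∂(Kα)|²_K - αᴴ Θ_K α` as a sum of scalar expressions linear in `K`. -/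
theorem xi_bk_pointwise (hΩ : IsOpen Ω) (hs : ∀ j k, ContDiffOn ℝ ∞ (fun z => K z j k) Ω)
    (hpd : ∀ z ∈ Ω, (K z).PosDef) {α : Fin d → CE Unit → ℂ} (hα : ∀ j, IsTest Ω (α j))
    {z : CE Unit} (hz : z ∈ Ω) :
    qf (K z)⁻¹ (fun j => dz () (fun w => ∑ k, K w j k * α k w) z)
        - qf (griffM K z fun _ => 1) (fun j => α j z)
      = (∑ j, ∑ k, (dzb () (fun w => conj (α j w)) z * dz () (fun w => K w j k * α k w) z
          + conj (α j z) * dz () (fun w => dzb () (fun y => K y j k) w * α k w) z)).re := by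
  have hc : ∀ j k, ContDiffAt ℝ ∞ (fun w => K w j k) z := fun j k => (hs j k).contDiffAt (hΩ.mem_nhds hz)
  have hd : ∀ j k, DifferentiableAt ℝ (fun w => K w j k) z := fun j k => (hc j k).differentiableAt (by simp)
  have hαd : ∀ k, DifferentiableAt ℝ (α k) z := fun k => (hα k).differentiable z
  have hherm : ∀ᶠ w in 𝓝 z, (K w).IsHermitian := by
    filter_upwards [hΩ.mem_nhds hz] with w hw using (hpd w hw).isHermitian
  have hH : (dzM () K z)ᴴ = dzbM () K z := conjTranspose_dzM_of_isHermitian hherm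
  have v1 : (fun j => dz () (fun w => ∑ k, K w j k * α k w) z)
      = dzM () K z *ᵥ (fun k => α k z) + K z *ᵥ (fun k => dz () (α k) z) := by
    funext j
    exact dz_mulVec (v := fun w k => α k w) hd hαd j
  have g1 : griffM K z (fun _ => 1) = - dzbM () (dzM () K) z + dzbM () K z * (K z)⁻¹ * dzM () K z := by
    simp [griffM]
  rw [v1, g1, xi_alg (hpd z hz) hH]
  congr 1
  have t1 : ∀ j, dzb () (fun w => conj (α j w)) z = conj (dz () (α j) z) := fun j => dzb_conj
  have t2 : ∀ j k, dz () (fun w => K w j k * α k w) z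
      = dzM () K z j k * α k z + K z j k * dz () (α k) z := fun j k => by
    rw [dz_mul (hd j k) (hαd k), dzM_apply]
  have hdb : ∀ j k, DifferentiableAt ℝ (dzb () (fun y => K y j k)) z := fun j k =>
    (contDiffAt_dzb (m := 1) (hc j k) (WithTop.coe_le_coe.2 le_top)).differentiableAt one_ne_zero
  have t3 : ∀ j k, dz () (fun w => dzb () (fun y => K y j k) w * α k w) z
      = dzbM () (dzM () K) z j k * α k z + dzbM () K z j k * dz () (α k) z := fun j k => by
    rw [dz_mul (hdb j k) (hαd k), dz_dzb_comm ((hc j k).of_le (WithTop.coe_le_coe.2 le_top)), dzbM_apply,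
      dzbM_apply]
    rfl
  simp only [t1, t2, t3]
  simp only [dotProduct, Matrix.mulVec, Pi.star_apply, RCLike.star_def, Finset.mul_sum,
    ← Finset.sum_add_distrib]
  refine Finset.sum_congr rfl fun j _ => Finset.sum_congr rfl fun k _ => ?_
  ring

theorem xi_isTest_mul (hΩ : IsOpen Ω) {g k : CE Unit → ℂ} (hg : IsTest Ω g)
    (hk : ContDiffOn ℝ ∞ k Ω) : IsTest Ω (fun w => k w * g w) := by
  have := hg.mul_contDiffOn hΩ hk
  simpa only [mul_comm] using this

theorem xi_integrable_re {f : CE Unit → ℂ} (hf : Integrable f) :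
    Integrable (fun z => (f z).re) :=
  Complex.reCLM.integrable_comp hf

theorem xi_integrable_qf (hΩ : IsOpen Ω) {A : CE Unit → Matrix (Fin d) (Fin d) ℂ}
    (hA : ∀ j k, ContinuousOn (fun z => A z j k) Ω) {v : Fin d → CE Unit → ℂ}
    (hv : ∀ j, IsTest Ω (v j)) : Integrable (fun z => qf (A z) (fun j => v j z)) := by
  simp only [qf_eq_sum]
  refine xi_integrable_re ?_
  refine integrable_finsetSum _ fun j _ => integrable_finsetSum _ fun k _ => ?_
  refine B6E.integrable_of_continuousOn_of_compact hΩ (hv k).compact (hv k).supp ?_ ?_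
  · exact (((hv j).conj.continuous.continuousOn).mul (hA j k)).mul (hv k).continuous.continuousOn
  · intro z hz
    rw [image_eq_zero_of_notMem_tsupport hz, mul_zero]

theorem xi_qf_zero (A : Matrix (Fin d) (Fin d) ℂ) {v : Fin d → ℂ} (hv : ∀ j, v j = 0) :
    qf A v = 0 := by
  have : v = 0 := funext hv
  rw [this, qf_zero_vec]

theorem xi_bk_aux (hΩ : IsOpen Ω) (hs : ∀ j k, ContDiffOn ℝ ∞ (fun z => K z j k) Ω)
    (hpd : ∀ z ∈ Ω, (K z).PosDef) {α : Fin d → CE Unit → ℂ} (hα : ∀ j, IsTest Ω (α j)) :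
    Integrable (fun z => qf (griffM K z fun _ => 1) (fun j => α j z)) ∧
    ∫ z, qf (griffM K z fun _ => 1) (fun j => α j z)
      ≤ ∫ z, qf (K z)⁻¹ (fun j => dz () (fun w => ∑ k, K w j k * α k w) z) := by
  have hKα : ∀ j k, IsTest Ω (fun w => K w j k * α k w) := fun j k =>
    xi_isTest_mul hΩ (hα k) (hs j k)
  have hKbα : ∀ j k, IsTest Ω (fun w => dzb () (fun y => K y j k) w * α k w) := fun j k =>
    xi_isTest_mul hΩ (hα k) (contDiffOn_dzb hΩ (hs j k))
  have hsum : ∀ j, IsTest Ω (fun w => ∑ k, K w j k * α k w) := fun j =>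
    IsTest.sum _ fun k _ => hKα j k
  have hinv : ∀ j k, ContinuousOn (fun z => (K z)⁻¹ j k) Ω := fun j k =>
    (contDiffOn_matInv_of_posDef hs hpd j k).continuousOn
  have hL : Integrable (fun z => qf (K z)⁻¹ (fun j => dz () (fun w => ∑ k, K w j k * α k w) z)) :=
    xi_integrable_qf hΩ hinv (v := fun j => dz () (fun w => ∑ k, K w j k * α k w))
      fun j => (hsum j).dz
  have hT1 : ∀ j k, Integrable (fun z => dzb () (fun w => conj (α j w)) z
      * dz () (fun w => K w j k * α k w) z) := fun j k =>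
    (((hα j).conj.dzb (j := ())).mul ((hKα j k).dz (j := ()))).integrable
  have hT2 : ∀ j k, Integrable (fun z => conj (α j z)
      * dz () (fun w => dzb () (fun y => K y j k) w * α k w) z) := fun j k =>
    ((hα j).conj.mul ((hKbα j k).dz (j := ()))).integrable
  have hU : ∀ j k, Integrable (fun z => dz () (fun w => conj (α j w)) z
      * (K z j k * dzb () (α k) z)) := fun j k =>
    (((hα j).conj.dz (j := ())).mul (xi_isTest_mul hΩ ((hα k).dzb (j := ())) (hs j k))).integrable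
  have hT : ∀ j k, Integrable (fun z => dzb () (fun w => conj (α j w)) z
      * dz () (fun w => K w j k * α k w) z
      + conj (α j z) * dz () (fun w => dzb () (fun y => K y j k) w * α k w) z) := fun j k =>
    (hT1 j k).add (hT2 j k)
  have hTs : Integrable (fun z => ∑ j, ∑ k, (dzb () (fun w => conj (α j w)) z
      * dz () (fun w => K w j k * α k w) z
      + conj (α j z) * dz () (fun w => dzb () (fun y => K y j k) w * α k w) z)) :=
    integrable_finsetSum _ fun j _ => integrable_finsetSum _ fun k _ => hT j k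
  have hUs : Integrable (fun z => ∑ j, ∑ k, dz () (fun w => conj (α j w)) z
      * (K z j k * dzb () (α k) z)) :=
    integrable_finsetSum _ fun j _ => integrable_finsetSum _ fun k _ => hU j k
  have hpt : ∀ z, qf (griffM K z fun _ => 1) (fun j => α j z)
      = qf (K z)⁻¹ (fun j => dz () (fun w => ∑ k, K w j k * α k w) z)
        - (∑ j, ∑ k, (dzb () (fun w => conj (α j w)) z * dz () (fun w => K w j k * α k w) z
          + conj (α j z) * dz () (fun w => dzb () (fun y => K y j k) w * α k w) z)).re := by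
    intro z
    by_cases hz : z ∈ Ω
    · rw [← xi_bk_pointwise hΩ hs hpd hα hz]
      ring
    · rw [xi_qf_zero _ fun j => (hα j).eq_zero_of_notMem hz,
        xi_qf_zero _ fun j => ((hsum j).dz (j := ())).eq_zero_of_notMem hz]
      have : (∑ j, ∑ k, (dzb () (fun w => conj (α j w)) z * dz () (fun w => K w j k * α k w) z
          + conj (α j z) * dz () (fun w => dzb () (fun y => K y j k) w * α k w) z)) = 0 := by
        refine Finset.sum_eq_zero fun j _ => Finset.sum_eq_zero fun k _ => ?_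
        rw [((hα j).conj.dzb (j := ())).eq_zero_of_notMem hz, (hα j).eq_zero_of_notMem hz]
        simp
      rw [this]
      simp
  have hint : ∫ z, ∑ j, ∑ k, (dzb () (fun w => conj (α j w)) z
      * dz () (fun w => K w j k * α k w) z
      + conj (α j z) * dz () (fun w => dzb () (fun y => K y j k) w * α k w) z)
      = ∫ z, ∑ j, ∑ k, dz () (fun w => conj (α j w)) z * (K z j k * dzb () (α k) z) := by
    rw [integral_finsetSum _ fun j _ => integrable_finsetSum _ fun k _ => hT j k,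
      integral_finsetSum _ fun j _ => integrable_finsetSum _ fun k _ => hU j k]
    refine Finset.sum_congr rfl fun j _ => ?_
    rw [integral_finsetSum _ fun k _ => hT j k,
      integral_finsetSum _ fun k _ => hU j k]
    refine Finset.sum_congr rfl fun k _ => ?_
    rw [integral_add (hT1 j k) (hT2 j k)]
    exact xi_scalar_ibp hΩ (hα j).conj (hα k) (hs j k)
  have hre : ∫ z, (∑ j, ∑ k, (dzb () (fun w => conj (α j w)) z
      * dz () (fun w => K w j k * α k w) z
      + conj (α j z) * dz () (fun w => dzb () (fun y => K y j k) w * α k w) z)).re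
      = ∫ z, qf (K z) (fun k => dzb () (α k) z) := by
    have a1 := Complex.reCLM.integral_comp_comm hTs
    have a2 := Complex.reCLM.integral_comp_comm hUs
    simp only [Complex.reCLM_apply] at a1 a2
    rw [a1, hint, ← a2]
    refine integral_congr_ae (Filter.Eventually.of_forall fun z => ?_)
    simp only [qf_eq_sum, dz_conj, mul_assoc]
  have hnn : 0 ≤ ∫ z, qf (K z) (fun k => dzb () (α k) z) := by
    refine integral_nonneg fun z => ?_
    by_cases hz : z ∈ Ω
    · exact qf_nonneg (hpd z hz).posSemidef _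
    · exact (xi_qf_zero _ fun j => ((hα j).dzb (j := ())).eq_zero_of_notMem hz).ge
  simp only [hpt]
  refine ⟨hL.sub (xi_integrable_re hTs), ?_⟩
  rw [integral_sub hL (xi_integrable_re hTs), hre]
  linarith

/-- **S4-X-A3**: Bochner-Kodaira inequality for test vectors. -/
theorem xi_bk (hΩ : IsOpen Ω) (hs : ∀ j k, ContDiffOn ℝ ∞ (fun z => K z j k) Ω)
    (hpd : ∀ z ∈ Ω, (K z).PosDef) {α : Fin d → CE Unit → ℂ} (hα : ∀ j, IsTest Ω (α j)) :
    ∫ z, qf (griffM K z fun _ => 1) (fun j => α j z)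
      ≤ ∫ z, qf (K z)⁻¹ (fun j => dz () (fun w => ∑ k, K w j k * α k w) z) := by
  exact (xi_bk_aux hΩ hs hpd hα).2

theorem xi_integrable_mul_qf (hΩ : IsOpen Ω) (hqc : ContinuousOn q Ω)
    {A : CE Unit → Matrix (Fin d) (Fin d) ℂ}
    (hA : ∀ j k, ContinuousOn (fun z => A z j k) Ω) {v : Fin d → CE Unit → ℂ}
    (hv : ∀ j, IsTest Ω (v j)) : Integrable (fun z => q z * qf (A z) (fun j => v j z)) := by
  have h := xi_integrable_qf hΩ (A := fun z => ((q z : ℝ) : ℂ) • A z) (v := v) (fun j k => by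
    simp only [Matrix.smul_apply, smul_eq_mul]
    exact (Complex.continuous_ofReal.comp_continuousOn hqc).mul (hA j k)) hv
  simpa only [qf_smul] using h

/-- **S4-X-A3**: the same for `β = K α`, with a lower bound `Θ_K ≥ q K`. -/
theorem xi_bk' (hΩ : IsOpen Ω) (hs : ∀ j k, ContDiffOn ℝ ∞ (fun z => K z j k) Ω)
    (hpd : ∀ z ∈ Ω, (K z).PosDef) (hqc : ContinuousOn q Ω)
    (hq : ∀ z ∈ Ω, ∀ v : Fin d → ℂ, q z * qf (K z) v ≤ qf (griffM K z fun _ => 1) v)
    {β : Fin d → CE Unit → ℂ} (hβ : ∀ j, IsTest Ω (β j)) :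
    ∫ z, q z * qf (K z)⁻¹ (fun j => β j z) ≤ ∫ z, qf (K z)⁻¹ (fun j => dz () (β j) z) := by
  have hinv : ∀ j k, ContDiffOn ℝ ∞ (fun z => (K z)⁻¹ j k) Ω := fun j k =>
    contDiffOn_matInv_of_posDef hs hpd j k
  have hα : ∀ j, IsTest Ω (fun z => ∑ k, (K z)⁻¹ j k * β k z) := fun j =>
    IsTest.sum _ fun k _ => xi_isTest_mul hΩ (hβ k) (hinv j k)
  have hKα : ∀ j, (fun w => ∑ k, K w j k * ∑ l, (K w)⁻¹ k l * β l w) = β j := by
    intro j
    funext w
    by_cases hw : w ∈ Ω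
    · have hu : IsUnit (K w).det := isUnit_iff_ne_zero.2 (hpd w hw).det_pos.ne'
      have : (K w *ᵥ ((K w)⁻¹ *ᵥ fun l => β l w)) j = β j w := by
        rw [Matrix.mulVec_mulVec, Matrix.mul_nonsing_inv _ hu, Matrix.one_mulVec]
      exact this
    · rw [(hβ j).eq_zero_of_notMem hw]
      refine Finset.sum_eq_zero fun k _ => ?_
      rw [(hα k).eq_zero_of_notMem hw, mul_zero]
  obtain ⟨h1, h2⟩ := xi_bk_aux hΩ hs hpd hα
  simp only [hKα] at h2
  refine le_trans (integral_mono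
    (xi_integrable_mul_qf hΩ hqc (fun j k => (hinv j k).continuousOn) hβ) h1 fun z => ?_) h2
  by_cases hz : z ∈ Ω
  · have e := qf_inv_mulVec (hpd z hz) (fun j => β j z)
    have := hq z hz ((K z)⁻¹ *ᵥ fun j => β j z)
    rw [e] at this
    exact this
  · show q z * qf (K z)⁻¹ (fun j => β j z) ≤ _
    rw [xi_qf_zero _ fun j => (hβ j).eq_zero_of_notMem hz,
      xi_qf_zero _ fun j => (hα j).eq_zero_of_notMem hz, mul_zero]

/-- the dual estimate (equivalent to: `∂̄v = b` has a solution with `∫_Ω |v|²_K ≤ C`). -/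
def XiDual (Ω : Set (CE Unit)) (K : CE Unit → Matrix (Fin d) (Fin d) ℂ) (b : Fin d → CE Unit → ℂ)
    (C : ℝ) : Prop :=
  ∀ Φ : Fin d → CE Unit → ℂ, (∀ j, IsTest Ω (Φ j)) →
    ‖∫ z, ∑ j, b j z * Φ j z‖ ^ 2 ≤ C * ∫ z, qf ((K z)⁻¹)ᵀ (fun j => dzb () (Φ j) z)

theorem xi_cs_real {X F G : ℝ} (h : ∀ t : ℝ, 0 ≤ F * (t * t) + (-(2 * X)) * t + G) :
    X ^ 2 ≤ F * G := by
  have := discrim_le_zero h
  unfold discrim at this
  nlinarith

theorem xi_amgm {x f g : ℝ} (hf : 0 ≤ f) (hg : 0 ≤ g) (h : x ^ 2 ≤ f * g) (t : ℝ) :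
    0 ≤ f * (t * t) + (-(2 * x)) * t + g := by
  have h1 : (2 * x * t) ^ 2 ≤ (f * (t * t) + g) ^ 2 := by
    nlinarith [sq_nonneg (f * (t * t) - g), mul_le_mul_of_nonneg_left h (sq_nonneg t)]
  have h2 : 0 ≤ f * (t * t) + g := add_nonneg (mul_nonneg hf (mul_self_nonneg t)) hg
  have := abs_le_of_sq_le_sq h1 h2
  linarith [le_abs_self (2 * x * t)]

/-- Cauchy-Schwarz for integrals, in the form `‖h‖² ≤ f g ⟹ (∫ ‖h‖)² ≤ ∫ f ∫ g`. -/
theorem xi_cs_integral {X : Type} [MeasurableSpace X] {μ : Measure X} {f g x : X → ℝ}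
    (hf : Integrable f μ) (hg : Integrable g μ) (hx : Integrable x μ)
    (h : ∀ᵐ z ∂μ, 0 ≤ f z ∧ 0 ≤ g z ∧ x z ^ 2 ≤ f z * g z) :
    (∫ z, x z ∂μ) ^ 2 ≤ (∫ z, f z ∂μ) * ∫ z, g z ∂μ := by
  refine xi_cs_real fun t => ?_
  have h0 : 0 ≤ ∫ z, (f z * (t * t) + (-(2 * x z)) * t + g z) ∂μ := by
    refine integral_nonneg_of_ae ?_
    filter_upwards [h] with z hz
    exact xi_amgm hz.1 hz.2.1 hz.2.2 t
  have i1 : Integrable (fun z => f z * (t * t)) μ := hf.mul_const _
  have i2 : Integrable (fun z => (-(2 * x z)) * t) μ := ((hx.const_mul 2).neg).mul_const t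
  have i3 : Integrable (fun z => f z * (t * t) + (-(2 * x z)) * t) μ := i1.add i2
  rw [integral_add i3 hg, integral_add i1 i2, integral_mul_const, integral_mul_const,
    integral_neg, integral_const_mul] at h0
  exact h0

/-- **S4-X-A4**. -/
theorem xi_dual (hΩ : IsOpen Ω) (hs : ∀ j k, ContDiffOn ℝ ∞ (fun z => K z j k) Ω)
    (hpd : ∀ z ∈ Ω, (K z).PosDef) (hqc : ContinuousOn q Ω) (hq0 : ∀ z ∈ Ω, 0 < q z)
    (hq : ∀ z ∈ Ω, ∀ v : Fin d → ℂ, q z * qf (K z) v ≤ qf (griffM K z fun _ => 1) v)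
    {b : Fin d → CE Unit → ℂ} (hb : ∀ j, ContinuousOn (b j) Ω)
    (hB : IntegrableOn (fun z => qf (K z) (fun j => b j z) / q z) Ω) :
    XiDual Ω K b (∫ z in Ω, qf (K z) (fun j => b j z) / q z) := by
  intro Φ hΦ
  have hβ : ∀ j, IsTest Ω (fun z => conj (Φ j z)) := fun j => (hΦ j).conj
  have hinv : ∀ j k, ContinuousOn (fun z => (K z)⁻¹ j k) Ω := fun j k =>
    (contDiffOn_matInv_of_posDef hs hpd j k).continuousOn
  have hbk := xi_bk' hΩ hs hpd hqc hq hβ
  have e1 : ∀ z, qf ((K z)⁻¹)ᵀ (fun j => dzb () (Φ j) z)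
      = qf (K z)⁻¹ (fun j => dz () (fun w => conj (Φ j w)) z) := by
    intro z
    rw [qf_transpose]
    congr 1
    funext j
    rw [dz_conj]
    rfl
  simp only [e1]
  have hfi : Integrable (fun z => q z * qf (K z)⁻¹ (fun j => conj (Φ j z))) :=
    xi_integrable_mul_qf hΩ hqc hinv hβ
  have hhi : Integrable (fun z => ∑ j, b j z * Φ j z) :=
    integrable_finsetSum _ fun j _ => B6E.integrable_of_continuousOn_of_compact hΩ (hΦ j).compact
      (hΦ j).supp ((hb j).mul (hΦ j).continuous.continuousOn)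
      (fun z hz => by rw [image_eq_zero_of_notMem_tsupport hz, mul_zero])
  have hpt : ∀ z ∈ Ω, ‖∑ j, b j z * Φ j z‖ ^ 2
      ≤ (q z * qf (K z)⁻¹ (fun j => conj (Φ j z))) * (qf (K z) (fun j => b j z) / q z) := by
    intro z hz
    have hu : IsUnit (K z).det := isUnit_iff_ne_zero.2 (hpd z hz).det_pos.ne'
    have h1 := qf_cauchy_schwarz (hpd z hz).inv.posSemidef (fun j => conj (Φ j z))
      (K z *ᵥ fun j => b j z)
    have e2 : qf (K z)⁻¹ (K z *ᵥ fun j => b j z) = qf (K z) (fun j => b j z) := by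
      have h := qf_inv_mulVec (hpd z hz) (K z *ᵥ fun j => b j z)
      rw [Matrix.mulVec_mulVec, Matrix.nonsing_inv_mul _ hu, Matrix.one_mulVec] at h
      exact h.symm
    rw [Matrix.mulVec_mulVec, Matrix.nonsing_inv_mul _ hu, Matrix.one_mulVec, e2] at h1
    have e3 : star (fun j => conj (Φ j z)) ⬝ᵥ (fun j => b j z) = ∑ j, b j z * Φ j z := by
      simp only [dotProduct, Pi.star_apply, RCLike.star_def, Complex.conj_conj]
      exact Finset.sum_congr rfl fun j _ => mul_comm _ _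
    rw [e3] at h1
    have hq' := (hq0 z hz).ne'
    calc _ ≤ _ := h1
      _ = _ := by field_simp
  have key := xi_cs_integral (μ := volume.restrict Ω) hfi.integrableOn hB hhi.norm.integrableOn
    ((ae_restrict_iff' hΩ.measurableSet).2 (Filter.Eventually.of_forall fun z hz =>
      ⟨mul_nonneg (hq0 z hz).le (qf_nonneg (hpd z hz).inv.posSemidef _),
        div_nonneg (qf_nonneg (hpd z hz).posSemidef _) (hq0 z hz).le, hpt z hz⟩))
  have r1 : ∫ z in Ω, ‖∑ j, b j z * Φ j z‖ = ∫ z, ‖∑ j, b j z * Φ j z‖ := by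
    refine setIntegral_eq_integral_of_forall_compl_eq_zero fun z hz => ?_
    rw [Finset.sum_eq_zero fun j _ => by rw [(hΦ j).eq_zero_of_notMem hz, mul_zero], norm_zero]
  have r2 : ∫ z in Ω, q z * qf (K z)⁻¹ (fun j => conj (Φ j z))
      = ∫ z, q z * qf (K z)⁻¹ (fun j => conj (Φ j z)) := by
    refine setIntegral_eq_integral_of_forall_compl_eq_zero fun z hz => ?_
    rw [xi_qf_zero _ fun j => (hβ j).eq_zero_of_notMem hz, mul_zero]
  rw [r1, r2] at key
  have hC : 0 ≤ ∫ z in Ω, qf (K z) (fun j => b j z) / q z :=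
    setIntegral_nonneg hΩ.measurableSet fun z hz =>
      div_nonneg (qf_nonneg (hpd z hz).posSemidef _) (hq0 z hz).le
  calc ‖∫ z, ∑ j, b j z * Φ j z‖ ^ 2 ≤ (∫ z, ‖∑ j, b j z * Φ j z‖) ^ 2 :=
        pow_le_pow_left₀ (norm_nonneg _) (norm_integral_le_integral_norm _) 2
    _ ≤ _ := key
    _ = (∫ z in Ω, qf (K z) (fun j => b j z) / q z)
          * ∫ z, q z * qf (K z)⁻¹ (fun j => conj (Φ j z)) := mul_comm _ _
    _ ≤ _ := mul_le_mul_of_nonneg_left hbk hC

section xi_sqrt_sec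
open scoped MatrixOrder Matrix.Norms.L2Operator

theorem xi_sqrt_aux :
    ContinuousOn (CFC.sqrt : Matrix (Fin d) (Fin d) ℂ → Matrix (Fin d) (Fin d) ℂ)
      {a : Matrix (Fin d) (Fin d) ℂ | 0 ≤ a} :=
  CFC.continuousOn_sqrt

end xi_sqrt_sec

/-- **S4-X-A5**: a continuous Hermitian square root. -/
theorem xi_sqrt {X : Type} [MetricSpace X] {Ω : Set X} {P : X → Matrix (Fin d) (Fin d) ℂ}
    (hc : ∀ j k, ContinuousOn (fun z => P z j k) Ω) (hpd : ∀ z ∈ Ω, (P z).PosDef) :
    ∃ M : X → Matrix (Fin d) (Fin d) ℂ, (∀ j k, ContinuousOn (fun z => M z j k) Ω) ∧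
      ∀ z ∈ Ω, (M z).IsHermitian ∧ M z * M z = P z := by
  open scoped MatrixOrder Matrix.Norms.L2Operator in
  refine ⟨fun z => CFC.sqrt (P z), ?_, ?_⟩
  · intro j k
    have h1 : ContinuousOn P Ω := by
      refine continuousOn_pi.2 fun j => continuousOn_pi.2 fun k => hc j k
    have h2 : ContinuousOn (fun z => CFC.sqrt (P z)) Ω :=
      xi_sqrt_aux.comp h1 fun z hz => Matrix.nonneg_iff_posSemidef.2 (hpd z hz).posSemidef
    exact (continuous_apply_apply j k).comp_continuousOn h2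
  · intro z hz
    have h0 : 0 ≤ P z := Matrix.nonneg_iff_posSemidef.2 (hpd z hz).posSemidef
    exact ⟨(Matrix.nonneg_iff_posSemidef.1 (CFC.sqrt_nonneg (P z))).isHermitian,
      CFC.sqrt_mul_sqrt_self (P z) h0⟩

/-- the module of test vectors. -/
def xi_testVec (d : ℕ) (Ω : Set (CE Unit)) : Submodule ℂ (Fin d → CE Unit → ℂ) where
  carrier := {Φ | ∀ j, IsTest Ω (Φ j)}
  add_mem' := fun h1 h2 j => (h1 j).add (h2 j)
  zero_mem' := fun _ => IsTest.zero
  smul_mem' := fun c _ h j => (h j).const_mul c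

theorem xi_memLp_of_compact (hΩ : IsOpen Ω) {S : Set (CE Unit)} (hS : IsCompact S) (hSΩ : S ⊆ Ω)
    {G : CE Unit → ℂ} (hG : ContinuousOn G Ω) (h0 : ∀ z, z ∉ S → G z = 0) :
    MemLp G 2 (volume.restrict Ω) := by
  rw [memLp_two_iff_integrable_sq_norm (hG.aestronglyMeasurable hΩ.measurableSet)]
  exact (B6E.integrable_of_continuousOn_of_compact hΩ hS hSΩ (hG.norm.pow 2)
    (fun z hz => by simp [h0 z hz])).integrableOn

theorem xi_integrable_conj_mul {X : Type} [MeasurableSpace X] {μ : Measure X} (U : Lp ℂ 2 μ)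
    {f : X → ℂ} (hf : MemLp f 2 μ) : Integrable (fun z => conj (U z) * f z) μ := by
  have := L2.integrable_inner (𝕜 := ℂ) U (hf.toLp f)
  refine this.congr ?_
  filter_upwards [hf.coeFn_toLp] with z hz
  rw [hz, RCLike.inner_apply']

theorem xi_sqrt_alg {K₀ M : Matrix (Fin d) (Fin d) ℂ} (hK : K₀.PosDef) (hM : M.IsHermitian)
    (hMM : M * M = (K₀⁻¹)ᵀ) (u : Fin d → ℂ) :
    qf K₀ (fun j => - ∑ i, conj (u i) * M i j) = ∑ i, ‖u i‖ ^ 2 := by
  have hu : IsUnit K₀.det := isUnit_iff_ne_zero.2 hK.det_pos.ne'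
  have h1 : M * (M * K₀ᵀ) = 1 := by
    rw [← Matrix.mul_assoc, hMM, ← Matrix.transpose_mul, Matrix.mul_nonsing_inv _ hu,
      Matrix.transpose_one]
  have h2 : M * K₀ᵀ * M = 1 := mul_eq_one_comm.1 h1
  have h3 : (Mᵀ)ᴴ * K₀ * Mᵀ = 1 := by
    have e : (Mᵀ)ᴴ = Mᵀ := by
      conv_rhs => rw [← hM.eq]
      ext i j
      simp
    rw [e]
    have := congrArg Matrix.transpose h2
    rw [Matrix.transpose_mul, Matrix.transpose_mul, Matrix.transpose_transpose,
      Matrix.transpose_one] at this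
    rw [Matrix.mul_assoc]
    exact this
  have e : (fun j => - ∑ i, conj (u i) * M i j) = - (Mᵀ *ᵥ star u) := by
    funext j
    simp [Matrix.mulVec, dotProduct, mul_comm]
  rw [e, qf_neg_vec, ← qf_conj, h3, qf_one]
  simp

theorem xi_sqrt_alg' {P M : Matrix (Fin d) (Fin d) ℂ} (hM : M.IsHermitian) (hMM : M * M = P)
    (x : Fin d → ℂ) : ∑ i, ‖∑ j, M i j * x j‖ ^ 2 = qf P x := by
  have : qf (Mᴴ * 1 * M) x = qf 1 (M *ᵥ x) := qf_conj M 1 x
  rw [hM.eq, Matrix.mul_one, hMM, qf_one] at this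
  exact this.symm

/-- **S4-X-A6**: Riesz step. -/
theorem xi_riesz (hΩ : IsOpen Ω) (hc : ∀ j k, ContinuousOn (fun z => K z j k) Ω)
    (hpd : ∀ z ∈ Ω, (K z).PosDef) {b : Fin d → CE Unit → ℂ} (hb : ∀ j, ContinuousOn (b j) Ω)
    {C : ℝ} (hC : 0 ≤ C) (hD : XiDual Ω K b C) :
    ∃ v : Fin d → CE Unit → ℂ,
      (∀ j, ∀ S ⊆ Ω, IsCompact S → MemLp (v j) 2 (volume.restrict S)) ∧
      IntegrableOn (fun z => qf (K z) (fun j => v j z)) Ω ∧
      ∫ z in Ω, qf (K z) (fun j => v j z) ≤ C ∧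
      ∀ j, WeakDbar Ω (v j) (fun _ => b j) := by
  classical
  have hPc : ∀ j k, ContinuousOn (fun z => ((K z)⁻¹)ᵀ j k) Ω := fun j k => by
    have := contDiffOn_matInv_of_posDef (N := 0) (fun a b => contDiffOn_zero.2 (hc a b)) hpd k j
    exact contDiffOn_zero.1 this
  obtain ⟨M, hMc, hM⟩ := xi_sqrt hPc (fun z hz => (hpd z hz).inv.transpose)
  set μ : Measure (CE Unit) := volume.restrict Ω with hμ
  have hterm : ∀ (i j : Fin d) {D : CE Unit → ℂ}, IsTest Ω D →
      MemLp (fun z => M z i j * D z) 2 μ := fun i j D hD =>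
    xi_memLp_of_compact hΩ hD.compact hD.supp ((hMc i j).mul hD.continuous.continuousOn)
      (fun z hz => by rw [image_eq_zero_of_notMem_tsupport hz, mul_zero])
  have hmem : ∀ (Φ : xi_testVec d Ω) (i : Fin d),
      MemLp (fun z => ∑ j, M z i j * dzb () (Φ.1 j) z) 2 μ := fun Φ i =>
    memLp_finsetSum _ fun j _ => hterm i j (Φ.2 j).dzb
  have hbI : ∀ (Φ : xi_testVec d Ω) (j : Fin d), Integrable (fun z => b j z * Φ.1 j z) :=
    fun Φ j => B6E.integrable_of_continuousOn_of_compact hΩ (Φ.2 j).compact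
      (Φ.2 j).supp ((hb j).mul (Φ.2 j).continuous.continuousOn)
      (fun z hz => by rw [image_eq_zero_of_notMem_tsupport hz, mul_zero])
  let A : xi_testVec d Ω →ₗ[ℂ] PiLp 2 (fun _ : Fin d => Lp ℂ 2 μ) :=
    { toFun := fun Φ => WithLp.toLp 2 (fun i => (hmem Φ i).toLp _)
      map_add' := by
        intro Φ Ψ
        ext1 i
        show (hmem (Φ + Ψ) i).toLp _ = (hmem Φ i).toLp _ + (hmem Ψ i).toLp _
        rw [← MemLp.toLp_add, MemLp.toLp_eq_toLp_iff]
        refine Filter.Eventually.of_forall fun z => ?_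
        have : ∀ j, dzb () ((Φ + Ψ : xi_testVec d Ω).1 j) z
            = dzb () (Φ.1 j) z + dzb () (Ψ.1 j) z := fun j =>
          dzb_add ((Φ.2 j).differentiable z) ((Ψ.2 j).differentiable z)
        simp only [this, mul_add, Finset.sum_add_distrib, Pi.add_apply]
      map_smul' := by
        intro c Φ
        ext1 i
        show (hmem (c • Φ) i).toLp _ = c • (hmem Φ i).toLp _
        rw [← MemLp.toLp_const_smul, MemLp.toLp_eq_toLp_iff]
        refine Filter.Eventually.of_forall fun z => ?_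
        have : ∀ j, dzb () ((c • Φ : xi_testVec d Ω).1 j) z = c * dzb () (Φ.1 j) z := fun j =>
          dzb_const_mul c ((Φ.2 j).differentiable z)
        simp only [this, Finset.mul_sum, Pi.smul_apply, smul_eq_mul]
        refine Finset.sum_congr rfl fun j _ => ?_
        ring }
  let ℓ : xi_testVec d Ω →ₗ[ℂ] ℂ :=
    { toFun := fun Φ => ∫ z, ∑ j, b j z * Φ.1 j z
      map_add' := by
        intro Φ Ψ
        rw [← integral_add (integrable_finsetSum _ fun j _ => hbI Φ j)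
          (integrable_finsetSum _ fun j _ => hbI Ψ j)]
        refine integral_congr_ae (Filter.Eventually.of_forall fun z => ?_)
        simp only [← Finset.sum_add_distrib]
        refine Finset.sum_congr rfl fun j _ => ?_
        show b j z * (Φ.1 j z + Ψ.1 j z) = _
        ring
      map_smul' := by
        intro c Φ
        rw [RingHom.id_apply, smul_eq_mul, ← integral_const_mul]
        refine integral_congr_ae (Filter.Eventually.of_forall fun z => ?_)
        simp only [Finset.mul_sum]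
        refine Finset.sum_congr rfl fun j _ => ?_
        show b j z * (c * Φ.1 j z) = _
        ring }
  have hAn : ∀ Φ : xi_testVec d Ω,
      ‖A Φ‖ ^ 2 = ∫ z, qf ((K z)⁻¹)ᵀ (fun j => dzb () (Φ.1 j) z) := by
    intro Φ
    rw [PiLp.norm_sq_eq_of_L2]
    have e0 : ∀ i, ‖(A Φ) i‖ ^ 2 = ∫ z, ‖∑ j, M z i j * dzb () (Φ.1 j) z‖ ^ 2 ∂μ := fun i =>
      B4.l2_norm_sq_toLp (hmem Φ i)
    simp only [e0]
    rw [← integral_finsetSum _ fun i _ =>
      (memLp_two_iff_integrable_sq_norm (hmem Φ i).aestronglyMeasurable).1 (hmem Φ i)]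
    have e : ∫ z in Ω, qf ((K z)⁻¹)ᵀ (fun j => dzb () (Φ.1 j) z)
        = ∫ z, qf ((K z)⁻¹)ᵀ (fun j => dzb () (Φ.1 j) z) :=
      setIntegral_eq_integral_of_forall_compl_eq_zero
        (fun z hz => xi_qf_zero _ fun j => ((Φ.2 j).dzb (j := ())).eq_zero_of_notMem hz)
    rw [← e]
    refine setIntegral_congr_fun hΩ.measurableSet fun z hz => ?_
    exact xi_sqrt_alg' (hM z hz).1 (hM z hz).2 _
  obtain ⟨U, hU, hUℓ⟩ := B6E.hilbert_riesz_range A ℓ C hC (fun Φ => by
    rw [hAn]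
    exact hD Φ.1 Φ.2)
  have hUm : ∀ i, AEStronglyMeasurable (U i : CE Unit → ℂ) μ := fun i =>
    (Lp.memLp (U i)).aestronglyMeasurable
  have hMm : ∀ i j, AEStronglyMeasurable (fun z => M z i j) μ := fun i j =>
    (hMc i j).aestronglyMeasurable hΩ.measurableSet
  have hU2 : ∀ i, Integrable (fun z => ‖U i z‖ ^ 2) μ := fun i =>
    (memLp_two_iff_integrable_sq_norm (hUm i)).1 (Lp.memLp (U i))
  have hqf : ∀ z ∈ Ω, qf (K z) (fun j => - ∑ i, conj (U i z) * M z i j) = ∑ i, ‖U i z‖ ^ 2 :=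
    fun z hz => xi_sqrt_alg (hpd z hz) (hM z hz).1 (hM z hz).2 (fun i => U i z)
  have hqfae : (fun z => qf (K z) (fun j => - ∑ i, conj (U i z) * M z i j))
      =ᵐ[μ] fun z => ∑ i, ‖U i z‖ ^ 2 :=
    (ae_restrict_iff' hΩ.measurableSet).2 (Filter.Eventually.of_forall hqf)
  refine ⟨fun j z => - ∑ i, conj (U i z) * M z i j, ?_, ?_, ?_, ?_⟩
  · intro j S hS hSc
    refine MemLp.neg (memLp_finsetSum _ fun i _ => ?_)
    obtain ⟨B, hB⟩ := hSc.exists_bound_of_continuousOn ((hMc i j).mono hS)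
    have hUK : MemLp (U i : CE Unit → ℂ) 2 (volume.restrict S) :=
      (Lp.memLp (U i)).mono_measure (Measure.restrict_mono hS le_rfl)
    refine hUK.of_le_mul (c := B)
      (((Complex.continuous_conj.comp_aestronglyMeasurable (hUm i)).mul (hMm i j)).mono_measure
        (Measure.restrict_mono hS le_rfl)) ?_
    refine (ae_restrict_iff' hSc.measurableSet).2 (Filter.Eventually.of_forall fun z hz => ?_)
    rw [norm_mul, RCLike.norm_conj, mul_comm]
    exact mul_le_mul_of_nonneg_right (hB z hz) (norm_nonneg _)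
  · exact (integrable_congr hqfae).2 (integrable_finsetSum _ fun i _ => hU2 i)
  · rw [integral_congr_ae hqfae, integral_finsetSum _ fun i _ => hU2 i]
    have : ∑ i, ∫ z, ‖U i z‖ ^ 2 ∂μ = ‖U‖ ^ 2 := by
      rw [PiLp.norm_sq_eq_of_L2]
      exact Finset.sum_congr rfl fun i _ => (B4.l2_norm_sq (U i)).symm
    rw [this]
    exact hU
  · intro j w hw _
    have hΦ : ∀ k, IsTest Ω ((fun k => if k = j then w else fun _ => 0 : Fin d → CE Unit → ℂ) k) := by
      intro k
      by_cases hk : k = j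
      · simp only [hk, if_true]; exact hw
      · simp only [hk, if_false]; exact IsTest.zero
    have h1 := hUℓ ⟨_, hΦ⟩
    have e1 : ℓ ⟨_, hΦ⟩ = ∫ z, b j z * w z := by
      show ∫ z, ∑ k, b k z * (if k = j then w else fun _ => 0) z = _
      refine integral_congr_ae (Filter.Eventually.of_forall fun z => ?_)
      show ∑ k, b k z * (if k = j then w else fun _ => 0) z = b j z * w z
      rw [Finset.sum_eq_single j]
      · simp
      · intro k _ hk
        simp [hk]
      · intro h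
        exact absurd (Finset.mem_univ j) h
    have e2 : inner ℂ U (A ⟨_, hΦ⟩)
        = - ∫ z, (- ∑ i, conj (U i z) * M z i j) * dzb () w z := by
      have e : ∫ z in Ω, (- ∑ i, conj (U i z) * M z i j) * dzb () w z
          = ∫ z, (- ∑ i, conj (U i z) * M z i j) * dzb () w z :=
        setIntegral_eq_integral_of_forall_compl_eq_zero
          (fun z hz => by rw [(hw.dzb (j := ())).eq_zero_of_notMem hz, mul_zero])
      rw [PiLp.inner_apply, ← e, ← integral_neg]
      have e3 : ∀ i, inner ℂ (U i) ((A ⟨_, hΦ⟩) i)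
          = ∫ z, conj (U i z) * (M z i j * dzb () w z) ∂μ := by
        intro i
        have := B4.l2_inner_toLp (U i) (hmem ⟨_, hΦ⟩ i)
        refine this.trans (integral_congr_ae (Filter.Eventually.of_forall fun z => ?_))
        have : ∑ k, M z i k * dzb () ((if k = j then w else fun _ => 0) : CE Unit → ℂ) z
            = M z i j * dzb () w z := by
          rw [Finset.sum_eq_single j]
          · simp
          · intro k _ hk
            simp only [hk, if_false]
            rw [dzb_const, mul_zero]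
          · intro h
            exact absurd (Finset.mem_univ j) h
        show conj (U i z) * ∑ k, M z i k
          * dzb () ((if k = j then w else fun _ => 0) : CE Unit → ℂ) z = _
        rw [this]
      simp only [e3]
      rw [← integral_finsetSum _ fun i _ => xi_integrable_conj_mul (U i) (hterm i j hw.dzb)]
      refine integral_congr_ae (Filter.Eventually.of_forall fun z => ?_)
      simp only [neg_mul, neg_neg, Finset.sum_mul, mul_assoc]
    rw [← e1, h1, e2, neg_neg]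

/-- **Hörmander's theorem in dimension one, matrix weight.** -/
theorem xi_hormander (hΩ : IsOpen Ω) (hs : ∀ j k, ContDiffOn ℝ ∞ (fun z => K z j k) Ω)
    (hpd : ∀ z ∈ Ω, (K z).PosDef) (hqc : ContinuousOn q Ω) (hq0 : ∀ z ∈ Ω, 0 < q z)
    (hq : ∀ z ∈ Ω, ∀ v : Fin d → ℂ, q z * qf (K z) v ≤ qf (griffM K z fun _ => 1) v)
    {b : Fin d → CE Unit → ℂ} (hb : ∀ j, ContDiffOn ℝ ∞ (b j) Ω)
    (hB : IntegrableOn (fun z => qf (K z) (fun j => b j z) / q z) Ω) :
    ∃ v : Fin d → CE Unit → ℂ, (∀ j, ContDiffOn ℝ ∞ (v j) Ω) ∧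
      (∀ z ∈ Ω, ∀ j, dzb () (v j) z = b j z) ∧
      IntegrableOn (fun z => qf (K z) (fun j => v j z)) Ω ∧
      ∫ z in Ω, qf (K z) (fun j => v j z) ≤ ∫ z in Ω, qf (K z) (fun j => b j z) / q z := by
  have hD := xi_dual hΩ hs hpd hqc hq0 hq (fun j => (hb j).continuousOn) hB
  have hC : 0 ≤ ∫ z in Ω, qf (K z) (fun j => b j z) / q z :=
    setIntegral_nonneg hΩ.measurableSet fun z hz =>
      div_nonneg (qf_nonneg (hpd z hz).posSemidef _) (hq0 z hz).le
  obtain ⟨v, hvl, hvi, hvC, hvw⟩ := xi_riesz hΩ (fun j k => (hs j k).continuousOn) hpd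
    (fun j => (hb j).continuousOn) hC hD
  have hreg := fun j => B6E.weak_dbar_regular hΩ (hvl j) (g := fun _ => b j) (fun _ => hb j) (hvw j)
  choose v' h1 h2 h3 using hreg
  have hae : (fun z => qf (K z) (fun j => v' j z)) =ᵐ[volume.restrict Ω]
      fun z => qf (K z) (fun j => v j z) := by
    have : ∀ᵐ z ∂(volume.restrict Ω), ∀ j, v' j z = v j z := ae_all_iff.2 h2
    filter_upwards [this] with z hz
    simp only [hz]
  refine ⟨v', h1, fun z hz j => h3 j z hz (), ?_, ?_⟩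
  · exact (integrable_congr hae).2 hvi
  · rw [integral_congr_ae hae]
    exact hvC

end Claimed.Agent.R316.S4
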